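import Vale.Agent.P159.H363.Brd
import Vale.Agent.P159.H889.Vst
import Vale.Agent.P159.H43.YcanT
import Vale.Agent.P159.H552.In5d

/-!
P159 / H363: `W₁` (first harmonic of `log Z` in the constant) as a functional of cell fields: the
instance of `H889.Dif` (density `u_x = ut`), charge one, covariance, `∑_x u_x = W₁`.
-/

namespace Vale.Agent.P159.H363

open Finset Matrix MeasureTheory
open Vale.Agent.P159.TM.H104 (EM Ex Cv Lg li nh Gr)
open Vale.Agent.P159.T1.H897 (Hol)
open Vale.Agent.P159.H37 (qf bf Zn Zq ZM wM gau cellP)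
open Vale.Agent.P159.TM.Spec (V)
open Vale.Agent.P159.TM.SpecC (Tor wT)
open Vale.Agent.P159.H864 (TI tra cl up MC CT)
open Vale.Agent.P159.H896 (WM Ph om ph continuous_ph)
open Vale.Agent.P159.H145 (LM L0 cs OscZ mt)
open Vale.Agent.P159.H43 (dL dW Wq hasDerivAt_Wq dW_sum_dir sum_uq uq_sym omT ch2 Phq)
open Vale.Agent.P159.H552 (uq lft idc ut ut_ch ut_cont ut_le nc)
open Vale.Agent.P159.H889 (Dif dn)

noncomputable section

section general

variable {V' : Type} [Fintype V'] {w : (V' → ℤ) → ℝ} {M : Matrix V' V' ℝ}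

lemma dL_smul_dir (c : ℝ) (F g : V' → ℝ) : dL w M F (c • g) = c * dL w M F g := by
  unfold dL
  have h1 : li (M.mulVec (c • g)) = fun h => c * li (M.mulVec g) h := by
    funext h
    rw [Matrix.mulVec_smul]
    simp only [li, Pi.smul_apply, smul_eq_mul, Finset.mul_sum, mul_assoc]
  have h2 : bf M F (c • g) = c * bf M F g := by
    rw [H37.bf_eq, H37.bf_eq, mulVec_smul, dotProduct_smul, smul_eq_mul]
  rw [h1, TM.H104.Ex_cmul, h2]
  ring

lemma dW_smul_dir (c : ℝ) (q : ℤ) (F g : V' → ℝ) : dW w M q F (c • g) = c * dW w M q F g := by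
  unfold dW
  rw [← intervalIntegral.integral_const_mul]
  refine intervalIntegral.integral_congr fun r _ => ?_
  show (dL w M (cs F r) (c • g) : ℂ) * ph q r = c * ((dL w M (cs F r) g : ℂ) * ph q r)
  rw [dL_smul_dir]
  push_cast
  ring

lemma continuous_Wq (hM : M.transpose = M) (hE : EM (wM w M)) (q : ℤ) :
    Continuous (Wq w M q) := by
  unfold Wq
  have h1 : Continuous (Function.uncurry fun (F : V' → ℝ) (c : ℝ) =>
      (LM w M (cs F c) : ℂ) * ph q c) := by
    have h2 : Continuous fun p : (V' → ℝ) × ℝ => cs p.1 p.2 := by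
      unfold cs
      fun_prop
    exact (Complex.continuous_ofReal.comp ((H43.continuous_LM hM hE).comp h2)).mul
      ((continuous_ph q).comp continuous_snd)
  exact intervalIntegral.continuous_parametric_intervalIntegral_of_continuous' h1 0 1

variable {Λ : Type} [Fintype Λ] [DecidableEq Λ] {cl : V' → Λ}

omit [Fintype V'] in
lemma lft_eq_sum (G : Λ → ℝ) : lft cl G = ∑ x, G x • idc cl x := by
  funext v
  rw [Finset.sum_apply]
  simp only [Pi.smul_apply, smul_eq_mul, idc, lft, mul_ite, mul_one, mul_zero]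
  rw [Finset.sum_ite_eq]
  simp

/-- derivative of `W₁` on cell fields -/
lemma hasDerivAt_W1 (hM : M.transpose = M) (hE : EM (wM w M)) (F G : Λ → ℝ) :
    HasDerivAt (fun r : ℝ => Wq w M 1 (lft cl (F + r • G)))
      (2 * Real.pi * Complex.I * ∑ x, (G x : ℂ) * uq w M cl x F) 0 := by
  have h1 := hasDerivAt_Wq hM hE 1 (lft cl F) (lft cl G) 0
  rw [zero_smul, add_zero] at h1
  refine h1.congr_deriv ?_
  rw [lft_eq_sum G, dW_sum_dir hM hE]
  simp only [dW_smul_dir]
  rw [Finset.mul_sum]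
  refine Finset.sum_congr rfl fun x _ => ?_
  unfold uq
  have h0 : (2 * Real.pi * Complex.I : ℂ) ≠ 0 := by simp [Real.pi_ne_zero, Complex.I_ne_zero]
  field_simp

end general

/-! ### the torus with cells of side `l` -/

variable {N l : ℕ} [NeZero N] [NeZero (N / l)] {b T : ℝ}

/-- `W₁` of a cell field -/
def W1c (N l : ℕ) [NeZero N] [NeZero (N / l)] (b T : ℝ) (F : V (N / l) → ℝ) : ℂ :=
  Wq (wT b N) (mt N T) 1 (lf N l F)

/-- cell density of `W₁` -/
abbrev utc (N l : ℕ) [NeZero N] [NeZero (N / l)] (b T : ℝ) (x : V (N / l))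
    (F : V (N / l) → ℝ) : ℂ :=
  ut N b T (cl : V N → V (N / l)) x F

theorem sum_utc (hb : 0 ≤ b) (hT : 0 < T) (F : V (N / l) → ℝ) :
    ∑ x, utc N l b T x F = W1c N l b T F := by
  have h := sum_uq (cl := (cl : V N → V (N / l))) (H896.wm_t (N := N) hb hT) F
  exact h

/-- **the instance of `Dif`** -/
theorem dif_W1c (hb : 0 ≤ b) (hT : 0 < T) : Dif (W1c N l b T) (utc N l b T) := by
  classical
  have hE := H145.em_mt (N := N) hb hT
  have hbx : ∀ x F, ‖utc N l b T x F‖ ≤ ∑ y, |(2 * Real.pi)⁻¹ * (T * nc (cl : V N → V (N / l)) y)| := by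
    intro x F
    have h1 := ut_le (N := N) (cl := (cl : V N → V (N / l))) hb hT x F
    refine h1.trans ((le_abs_self _).trans ?_)
    exact Finset.single_le_sum
      (f := fun y => |(2 * Real.pi)⁻¹ * (T * nc (cl : V N → V (N / l)) y)|)
      (fun _ _ => abs_nonneg _) (Finset.mem_univ x)
  refine ⟨?_, fun x => ?_, ⟨∑ x : V (N / l), ∑ y, |(2 * Real.pi)⁻¹ * (T * nc (cl : V N → V (N / l)) y)|,
    fun F => ?_⟩, ⟨_, hbx⟩, fun F G => ?_⟩
  · exact ((continuous_Wq H145.mt_symm hE 1).comp continuous_lf).measurable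
  · exact (ut_cont hb hT x).measurable
  · rw [← sum_utc hb hT]
    exact (norm_sum_le _ _).trans (Finset.sum_le_sum fun x _ => hbx x F)
  · exact hasDerivAt_W1 H145.mt_symm hE F G

theorem ch_W1c (hb : 0 ≤ b) (hT : 0 < T) : Ch (W1c N l b T) := by
  intro F c
  rw [← sum_utc hb hT, ← sum_utc hb hT, Finset.mul_sum]
  exact Finset.sum_congr rfl fun x _ => ut_ch hb hT x F c

/-- **translation covariance of the densities** -/
theorem cov_utc (hl : l ∣ N) (hb : 0 ≤ b) (hT : 0 < T) : Cov (utc N l b T) := by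
  intro a x F
  have hCT : CT l (mt N T) := H864.CT.one.smul T
  have h := uq_sym (cl := (cl : V N → V (N / l))) (H896.wm_t (N := N) hb hT)
    (tra (up a : V N)) (tra a) (fun v => H864.cl_tra hl _ v) (fun h => H864.tinv_wT b (up a : V N) h)
    (fun u v => hCT.tr a u v) x F
  rw [H864.tra_apply] at h
  unfold utc ut
  rw [h]
  congr 1

end

end Vale.Agent.P159.H363
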