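import Vale.Agent.P159.H363.Kap
import Vale.Agent.P159.H963.NeuC
import Vale.Agent.P159.H896.FlowT

/-!
P159 / H363: the neutral Hessian on cell fields (height units), its symbol, and the exact form of the
neutral partition function on lifted cell fields.
-/

namespace Vale.Agent.P159.H363

open Finset Matrix MeasureTheory
open Vale.Agent.P159.TM.H104 (EM Ex Cv K3 Lg li nh Gr)
open Vale.Agent.P159.H37 (qf bf qf_eq Un Zn ZM wM gau Gm Cm cellP qf_smul qf_zero_vec Ev PK)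
open Vale.Agent.P159.TM.Spec (V)
open Vale.Agent.P159.TM.SpecC (Tor wT)
open Vale.Agent.P159.TM.H764 (EE cN sN dt)
open Vale.Agent.P159.H864 (TI TInv tra sym Inv CT CInv MC cl up cobV Gc)
open Vale.Agent.P159.H963 (Pn Gnc GnC nMC nM ntr An Neu PinC Cn gw_wT mf_MC)
open Vale.Agent.P159.H462 (Dom)

noncomputable section

variable {N l : ℕ} [NeZero N] [NeZero (N / l)] {b t τ : ℝ}

/-- lift of a cell field -/
def lf (N l : ℕ) [NeZero N] [NeZero (N / l)] (F : V (N / l) → ℝ) : V N → ℝ := fun v => F (cl v)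

lemma lf_eq (hl : l ∣ N) (F : V (N / l) → ℝ) : lf N l F = (l : ℝ) • ((cobV N l)ᵀ *ᵥ F) := by
  have hlp : (0 : ℝ) < l := by exact_mod_cast H864.l_pos hl
  funext v
  rw [Pi.smul_apply, H864.cobV_tr_mulVec, smul_eq_mul]
  unfold lf
  field_simp

lemma lf_add (F G : V (N / l) → ℝ) : lf N l (F + G) = lf N l F + lf N l G := rfl

lemma lf_smul (c : ℝ) (F : V (N / l) → ℝ) : lf N l (c • F) = c • lf N l F := rfl

lemma lf_cs (F : V (N / l) → ℝ) (c : ℝ) :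
    lf N l (fun x => F x + c) = fun v => lf N l F v + c := rfl

lemma measurable_lf : Measurable (lf N l) := by
  refine measurable_pi_iff.2 fun v => ?_
  exact measurable_pi_apply (cl v)

/-- the neutral Hessian on cell fields -/
def acl (N l : ℕ) [NeZero N] [NeZero (N / l)] (b t τ : ℝ) : Matrix (V (N / l)) (V (N / l)) ℝ :=
  ((l : ℝ) ^ 2 * τ) • Pn - ((l : ℝ) ^ 2 * τ ^ 2) • Gnc N l b t τ

theorem ti_acl (hb : 0 ≤ b) (hl : l ∣ N) (hτ : 0 < τ) (h : τ ≤ t) : TI (acl N l b t τ) :=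
  (H963.ti_Pn.smul _).sub ((H963.ti_Gnc hb hl hτ h).smul _)

theorem sym_acl (k : V (N / l)) : sym (acl N l b t τ) k
    = ((l : ℝ) ^ 2 * τ) * (if k = 0 then 0 else 1) - ((l : ℝ) ^ 2 * τ ^ 2) * sym (Gnc N l b t τ) k := by
  unfold acl
  rw [H864.sym_sub, H864.sym_smul, H864.sym_smul, H963.sym_Pn]

theorem sym_acl_zero (hl : l ∣ N) (hb : 0 ≤ b) (hτ : 0 < τ) (h : τ ≤ t) :
    sym (acl N l b t τ) 0 = 0 := by
  rw [sym_acl, H963.sym_Gnc_zero hl hb hτ h, if_pos rfl]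
  ring

/-- the symbol in terms of the neutral cell self energy -/
theorem sym_acl_eq (hb : 0 < b) (hl : l ∣ N) (hτ : 0 < τ) (h : τ ≤ t) {k : V (N / l)}
    (hk : k ≠ 0) : sym (acl N l b t τ) k
      = (l : ℝ) ^ 2 * (τ * PinC N l b t τ k / (τ + PinC N l b t τ k)) := by
  have h1 := H963.sym_Gnc_pos hb hl hτ h hk
  rw [sym_acl, if_neg hk]
  unfold PinC
  field_simp
  ring

theorem sym_acl_nonneg (hb : 0 ≤ b) (hl : l ∣ N) (hτ : 0 < τ) (h : τ ≤ t) (k : V (N / l)) :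
    0 ≤ sym (acl N l b t τ) k := by
  by_cases hk : k = 0
  · rw [hk, sym_acl_zero hl hb hτ h]
  · rw [sym_acl, if_neg hk, mul_one]
    have h1 := H963.sym_Gnc_le hb hl hτ h k
    have h2 : (l : ℝ) ^ 2 * τ ^ 2 * sym (Gnc N l b t τ) k ≤ (l : ℝ) ^ 2 * τ ^ 2 * τ⁻¹ :=
      mul_le_mul_of_nonneg_left h1 (by positivity)
    have h3 : (l : ℝ) ^ 2 * τ ^ 2 * τ⁻¹ = (l : ℝ) ^ 2 * τ := by field_simp
    linarith

theorem sym_acl_le (hb : 0 ≤ b) (hl : l ∣ N) (hτ : 0 < τ) (h : τ ≤ t) (k : V (N / l)) :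
    sym (acl N l b t τ) k ≤ τ * (l : ℝ) ^ 2 := by
  have h0 := H963.sym_Gnc_nonneg hb hl hτ h k
  rw [sym_acl]
  have h1 : 0 ≤ (l : ℝ) ^ 2 * τ ^ 2 * sym (Gnc N l b t τ) k := by positivity
  have h2 : (l : ℝ) ^ 2 * τ * (if k = 0 then 0 else 1) ≤ (l : ℝ) ^ 2 * τ * 1 := by
    refine mul_le_mul_of_nonneg_left ?_ (by positivity)
    split_ifs <;> norm_num
  linarith

/-- the Hessian is `An` on lifted fields -/
theorem qf_An_lf (hl : l ∣ N) (hτ : 0 < τ) (h : τ ≤ t) (F : V (N / l) → ℝ) :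
    qf (An (wT b N) (MC N l t τ) τ 0) (lf N l F) = qf (acl N l b t τ) F := by
  have hlp : (0 : ℝ) < l := by exact_mod_cast H864.l_pos hl
  rw [H963.qf_An (mf_MC hl hτ h).symm]
  set G : V (N / l) → ℝ := (Pn : Matrix (V (N / l)) (V (N / l)) ℝ) *ᵥ F with hG
  have hGn : Neu G := H963.neu_Pn F
  -- the source
  have hlfG : lf N l F = lf N l G + fun _ => (∑ y, F y) / Fintype.card (V (N / l)) := by
    funext v
    rw [Pi.add_apply]
    unfold lf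
    rw [hG, H963.Pn_mulVec]
    ring
  have hneu : Neu (lf N l G) := by
    rw [lf_eq hl]
    exact (H963.neu_cobV_tr hl hGn).smul _
  have hrow : ∀ x, ∑ y, MC N l t τ x y = τ := (mf_MC hl hτ h).row
  have hntr0 : ntr (MC N l t τ) τ *ᵥ (fun _ => (∑ y, F y) / Fintype.card (V (N / l))) = 0 := by
    have h1 : (fun _ : V N => (∑ y, F y) / (Fintype.card (V (N / l)) : ℝ))
        = ((∑ y, F y) / (Fintype.card (V (N / l)) : ℝ)) • fun _ => (1 : ℝ) := by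
      funext v
      simp
    rw [h1, mulVec_smul]
    have h2 : ntr (MC N l t τ) τ *ᵥ (fun _ => (1 : ℝ)) = 0 := by
      funext v
      have := H963.ntr_row hrow v
      simpa [mulVec, dotProduct] using this
    rw [h2, smul_zero]
  have hsrc : ntr (MC N l t τ) τ *ᵥ lf N l F = (τ * l) • ((cobV N l)ᵀ *ᵥ G) := by
    rw [hlfG, mulVec_add, hntr0, add_zero, H963.ntr_of_neu _ _ hneu, lf_eq hl, mulVec_smul,
      H864.MC_mulVec_tr hl, smul_smul]
    congr 1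
    ring
  have hq1 : qf (ntr (MC N l t τ) τ) (lf N l F) = (l : ℝ) ^ 2 * τ * ∑ c, G c ^ 2 := by
    have h1 : qf (ntr (MC N l t τ) τ) (lf N l F) = lf N l F ⬝ᵥ ntr (MC N l t τ) τ *ᵥ lf N l F :=
      qf_eq _ _
    have h3 : (fun _ : V N => (∑ y, F y) / (Fintype.card (V (N / l)) : ℝ))
        ⬝ᵥ ((τ * l) • ((cobV N l)ᵀ *ᵥ G)) = 0 := by
      have h4 : ∑ x, ((cobV N l)ᵀ *ᵥ G) x = 0 := H963.neu_cobV_tr hl hGn
      simp only [dotProduct, Pi.smul_apply, smul_eq_mul]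
      rw [← Finset.mul_sum, ← Finset.mul_sum, h4]
      ring
    rw [h1, hsrc, hlfG, add_dotProduct, h3, add_zero, lf_eq hl, smul_dotProduct, dotProduct_smul,
      smul_eq_mul, smul_eq_mul, ← H864.sq_cobV_tr hl G]
    simp only [dotProduct, sq]
    ring
  have hPnq : qf (Pn : Matrix (V (N / l)) (V (N / l)) ℝ) F = ∑ c, G c ^ 2 := by
    have h1 : qf (Pn : Matrix (V (N / l)) (V (N / l)) ℝ) F = F ⬝ᵥ Pn *ᵥ (Pn *ᵥ F) := by
      rw [qf_eq, mulVec_mulVec, H963.Pn_mul_Pn]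
    rw [h1, dotProduct_mulVec, ← mulVec_transpose, H963.Pn_transpose, ← hG]
    exact Finset.sum_congr rfl fun c _ => (pow_two (G c)).symm
  have hq2 : qf (Gm (nMC N l b t τ 0)) (ntr (MC N l t τ) τ *ᵥ lf N l F)
      = (l : ℝ) ^ 2 * τ ^ 2 * qf (Gnc N l b t τ) F := by
    rw [hsrc, qf_smul, ← H963.qf_Gnc_neu hl b t τ hGn]
    have h1 : qf (Gnc N l b t τ) G = qf (Gnc N l b t τ) F := by
      unfold Gnc GnC
      rw [H864.qf_Gc, H864.qf_Gc, H963.qf_Cn, H963.qf_Cn, H963.Pn_cobV_tr hl, H963.Pn_cobV_tr hl,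
        H963.Pn_of_neu hGn]
    rw [h1]
    ring
  unfold acl
  rw [H864.qf_sub_mat, H864.qf_smul_mat, H864.qf_smul_mat, hPnq, hq1]
  congr 1

/-- remainder: `Rs` of the neutral model at the source of a cell field -/
def Rcl (N l : ℕ) [NeZero N] [NeZero (N / l)] (b t τ : ℝ) (F : V (N / l) → ℝ) : ℝ :=
  H37.Rs (nMC N l b t τ 0) (ntr (MC N l t τ) τ *ᵥ lf N l F)

theorem Un_lf (hb : 0 ≤ b) (hl : l ∣ N) (hτ : 0 < τ) (h : τ ≤ t) (F : V (N / l) → ℝ) :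
    Un (wT b N) (MC N l t τ) (lf N l F) = qf (acl N l b t τ) F / 2 - Rcl N l b t τ F := by
  rw [(gw_wT hb).Un_eq (mf_MC hl hτ h) 0, qf_An_lf hl hτ h]
  rfl

theorem Rcl_nonneg (hb : 0 ≤ b) (hl : l ∣ N) (hτ : 0 < τ) (h : τ ≤ t) (F : V (N / l) → ℝ) :
    0 ≤ Rcl N l b t τ F :=
  H789.Rs_nonneg ((gw_wT hb).em_nM (mf_MC hl hτ h) 0) ((gw_wT hb).ev_nM _ _ 0)
    ((gw_wT hb).pk_nM (mf_MC hl hτ h) 0) _

/-- the neutral partition function on lifted cell fields -/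
theorem Zn_lf (hb : 0 ≤ b) (hl : l ∣ N) (hτ : 0 < τ) (h : τ ≤ t) (F : V (N / l) → ℝ) :
    Zn (wT b N) (MC N l t τ) (lf N l F)
      = Zn (wT b N) (MC N l t τ) 0 * (Real.exp (-(qf (acl N l b t τ) F / 2))
        * Real.exp (Rcl N l b t τ F)) := by
  have h0 := (gw_wT hb).Zn_pos (mf_MC hl hτ h) (0 : V N → ℝ)
  have h1 := (gw_wT hb).Zn_pos (mf_MC hl hτ h) (lf N l F)
  have h2 := Un_lf hb hl hτ h F
  unfold Un at h2
  have h3 : Real.log (Zn (wT b N) (MC N l t τ) (lf N l F) / Zn (wT b N) (MC N l t τ) 0)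
      = -(qf (acl N l b t τ) F / 2) + Rcl N l b t τ F := by linarith
  rw [← Real.exp_add, ← h3, Real.exp_log (div_pos h1 h0)]
  field_simp

theorem qf_acl_nonneg (hb : 0 ≤ b) (hl : l ∣ N) (hτ : 0 < τ) (h : τ ≤ t) (F : V (N / l) → ℝ) :
    0 ≤ qf (acl N l b t τ) F := by
  rw [← qf_An_lf hl hτ h]
  exact (gw_wT hb).qf_An_nonneg (mf_MC hl hτ h) 0 _

end

end Vale.Agent.P159.H363
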