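import Vale.Agent.P159.H363.Typ

/-!
P159 / H363: VB8 / V8': change of the translation invariant form at the same mass.
`δ_k = α₁(k)/α₂(k) - 1`, `∑ δ_k² ≤ η²`.
-/

namespace Vale.Agent.P159.H363

open MeasureTheory Finset Matrix
open Vale.Agent.P159.TM.H764 (EE cN dt)
open Vale.Agent.P159.TM.Spec (V)
open Vale.Agent.P159.H37 (qf gau)
open Vale.Agent.P159.H864 (TI sym fc mlt)
open Vale.Agent.P159.H552 (hs_le)
open scoped Real

noncomputable section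

variable {N : ℕ} [NeZero N] {A₁ A₂ : Matrix (V N) (V N) ℝ}

/-- forms with exactly the constants in the kernel -/
structure Nf (A : Matrix (V N) (V N) ℝ) : Prop where
  ti : TI A
  pos : ∀ k, k ≠ 0 → 0 < sym A k
  zero : sym A 0 = 0

lemma Nf.nn {A : Matrix (V N) (V N) ℝ} (h : Nf A) (k : V N) : 0 ≤ sym A k := by
  by_cases hk : k = 0
  · rw [hk, h.zero]
  · exact (h.pos k hk).le

lemma Nf.of_dom {A : Matrix (V N) (V N) ℝ} {ν c : ℝ} (h : H462.Dom A ν c) : Nf A :=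
  ⟨h.ti, fun _ hk => h.sym_pos hk, h.zero⟩

/-- relative difference of the symbols -/
def rel (A₁ A₂ : Matrix (V N) (V N) ℝ) (k : V N) : ℝ :=
  if k = 0 then 0 else sym A₁ k / sym A₂ k - 1

lemma rel_neg (A₁ A₂ : Matrix (V N) (V N) ℝ) (k : V N) : rel A₁ A₂ (-k) = rel A₁ A₂ k := by
  unfold rel
  simp only [neg_eq_zero, H864.sym_neg_arg]

lemma rel_mul (h₁ : Nf A₁) (h₂ : Nf A₂) (k : V N) :
    sym A₁ k - sym A₂ k = rel A₁ A₂ k * sym A₂ k := by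
  unfold rel
  by_cases hk : k = 0
  · rw [if_pos hk, hk, h₁.zero, h₂.zero]
    ring
  · rw [if_neg hk]
    have := h₂.pos k hk
    field_simp

/-- sum of the squares of the entries of a translation invariant matrix -/
lemma sum_sq_entries {H : Matrix (V N) (V N) ℝ} (hH : TI H) :
    ∑ x, ∑ y, H x y ^ 2 = ∑ k, sym H k ^ 2 := by
  have h1 : ∑ x, ∑ y, H x y ^ 2 = (H * H).trace := by
    unfold Matrix.trace
    refine Finset.sum_congr rfl fun x _ => ?_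
    rw [Matrix.diag_apply, Matrix.mul_apply]
    refine Finset.sum_congr rfl fun y _ => ?_
    rw [hH.sy y x, sq]
  rw [h1, (hH.mul hH).trace_eq]
  refine Finset.sum_congr rfl fun k _ => ?_
  rw [H864.sym_mul hH hH, sq]

/-- sum of the squares of one row -/
lemma sum_sq_row {H : Matrix (V N) (V N) ℝ} (hH : TI H) (x : V N) :
    ∑ y, H x y ^ 2 = ((N : ℝ) ^ 2)⁻¹ * ∑ k, sym H k ^ 2 := by
  have h1 : ∑ y, H x y ^ 2 = (H * H) x x := by
    rw [Matrix.mul_apply]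
    refine Finset.sum_congr rfl fun y _ => ?_
    rw [hH.sy y x, sq]
  rw [h1, (hH.mul hH).diag_eq]
  congr 1
  refine Finset.sum_congr rfl fun k _ => ?_
  rw [H864.sym_mul hH hH, sq]

/-- **(T3)** change of the typical law -/
theorem typ_change (h₁ : Nf A₁) (h₂ : Nf A₂) {η κ B : ℝ} (hη : 0 < η) (hη2 : η ≤ 1 / 2)
    (hκ : 1 ≤ κ) (hHS : ∑ k, rel A₁ A₂ k ^ 2 ≤ η ^ 2) {f : (V N → ℝ) → ℝ} (hf : Measurable f)
    (hf0 : ∀ F, 0 ≤ f F) (hfB : ∀ F, f F ≤ B) :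
    ∫ g, f (pin A₂ *ᵥ g) ∂(gau (V N))
      ≤ κ * ∫ g, f (pin A₁ *ᵥ g) ∂(gau (V N)) + 2 * B * κ ^ (-(1 / (2 * η))) := by
  classical
  set H : Matrix (V N) (V N) ℝ := mlt (rel A₁ A₂) with hH
  have tH : TI H := H864.ti_mlt _
  have sH : ∀ k, sym H k = rel A₁ A₂ k := H864.sym_mlt _ (rel_neg A₁ A₂)
  refine hs_le (B₁ := pin A₁) (B₂ := pin A₂) (H := H) tH.transpose ?_ hη hη2 hκ ?_ hf hf0 hfB
  · rw [pin_mul h₂.ti h₂.nn]
    have t1 : TI (pin A₁ * (1 + H) * (pin A₁)ᵀ) := by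
      rw [(ti_pin A₁).transpose]
      exact ((ti_pin A₁).mul (TI.one.add tH)).mul (ti_pin A₁)
    refine H864.sym_inj (H864.ti_fc _ _) t1 fun k => ?_
    rw [H864.sym_fc, (ti_pin A₁).transpose, H864.sym_mul ((ti_pin A₁).mul (TI.one.add tH))
      (ti_pin A₁), H864.sym_mul (ti_pin A₁) (TI.one.add tH), H864.sym_add, H864.sym_one, sH,
      sym_pin]
    have e1 : √(sym A₁ k)⁻¹ * (1 + rel A₁ A₂ k) * √(sym A₁ k)⁻¹
        = (sym A₁ k)⁻¹ * (1 + rel A₁ A₂ k) := by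
      have := Real.mul_self_sqrt (inv_nonneg.2 (h₁.nn k))
      calc _ = (√(sym A₁ k)⁻¹ * √(sym A₁ k)⁻¹) * (1 + rel A₁ A₂ k) := by ring
        _ = _ := by rw [this]
    rw [e1]
    by_cases hk : k = 0
    · rw [hk, h₁.zero, h₂.zero]
      simp
    · unfold rel
      rw [if_neg hk]
      have h3 := h₁.pos k hk
      have h4 := h₂.pos k hk
      field_simp
      ring
  · rw [sum_sq_entries tH]
    simp only [sH]
    exact hHS

/-- row sums of the difference of two forms -/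
lemma row_diff (h₁ : Nf A₁) (h₂ : Nf A₂) {ν η : ℝ} (hν : 0 < ν) (hη : 0 ≤ η)
    (hle : ∀ k, sym A₂ k ≤ ν) (hHS : ∑ k, rel A₁ A₂ k ^ 2 ≤ η ^ 2) (x : V N) :
    ∑ w, |(ν⁻¹ • (A₁ - A₂)) x w| ≤ η := by
  have tD : TI (ν⁻¹ • (A₁ - A₂)) := (h₁.ti.sub h₂.ti).smul _
  have hN := H864.N_pos (N := N)
  have h3 : (∑ w, |(ν⁻¹ • (A₁ - A₂)) x w|) ^ 2 ≤ η ^ 2 := by
    have h4 := Finset.sum_mul_sq_le_sq_mul_sq Finset.univ (fun _ : V N => (1 : ℝ))
      fun w => |(ν⁻¹ • (A₁ - A₂)) x w|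
    simp only [one_mul, one_pow, sq_abs] at h4
    rw [sum_sq_row tD x] at h4
    have h5 : ∑ _w : V N, (1 : ℝ) = (N : ℝ) ^ 2 := by
      rw [Finset.sum_const, Finset.card_univ, nsmul_eq_mul, mul_one, TM.H764.card_V]
    rw [h5, ← mul_assoc, mul_inv_cancel₀ hN.ne', one_mul] at h4
    refine h4.trans (le_trans (Finset.sum_le_sum fun k _ => ?_) hHS)
    rw [H864.sym_smul, H864.sym_sub, rel_mul h₁ h₂ k]
    have h6 : (ν⁻¹ * (rel A₁ A₂ k * sym A₂ k)) ^ 2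
        = rel A₁ A₂ k ^ 2 * (sym A₂ k / ν) ^ 2 := by ring
    rw [h6]
    have h7 : (sym A₂ k / ν) ^ 2 ≤ 1 := by
      have h8 : 0 ≤ sym A₂ k / ν := div_nonneg (h₂.nn k) hν.le
      have h9 : sym A₂ k / ν ≤ 1 := by rw [div_le_one hν]; exact hle k
      nlinarith
    nlinarith [sq_nonneg (rel A₁ A₂ k)]
  exact le_of_sq_le_sq h3 hη

/-- variance of the change of the linear posterior mean under the typical law -/
lemma var_diff (h₁ : Nf A₁) (h₂ : Nf A₂) {ν η : ℝ} (hν : 0 < ν)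
    (hle : ∀ k, sym A₂ k ≤ ν) (hHS : ∑ k, rel A₁ A₂ k ^ 2 ≤ η ^ 2) (w : V N) :
    ∑ y, ((ν⁻¹ • (A₁ - A₂)) * pin A₂) w y ^ 2 ≤ η ^ 2 / ((N : ℝ) ^ 2 * ν) := by
  have tD : TI (ν⁻¹ • (A₁ - A₂)) := (h₁.ti.sub h₂.ti).smul _
  have hN := H864.N_pos (N := N)
  rw [sum_sq_row (tD.mul (ti_pin A₂)) w]
  have h3 : ∀ k, sym ((ν⁻¹ • (A₁ - A₂)) * pin A₂) k ^ 2 ≤ rel A₁ A₂ k ^ 2 * ν⁻¹ := by
    intro k
    rw [H864.sym_mul tD (ti_pin A₂), sym_pin, H864.sym_smul, H864.sym_sub, rel_mul h₁ h₂ k,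
      mul_pow, Real.sq_sqrt (inv_nonneg.2 (h₂.nn k))]
    have h6 : (ν⁻¹ * (rel A₁ A₂ k * sym A₂ k)) ^ 2 * (sym A₂ k)⁻¹
        = rel A₁ A₂ k ^ 2 * ν⁻¹ * (sym A₂ k * (sym A₂ k * (sym A₂ k)⁻¹) / ν) := by
      ring
    rw [h6]
    have h8 : sym A₂ k * (sym A₂ k * (sym A₂ k)⁻¹) / ν ≤ 1 := by
      rw [div_le_one hν]
      by_cases h0 : sym A₂ k = 0
      · rw [h0]
        simp [hν.le]
      · rw [mul_inv_cancel₀ h0, mul_one]
        exact hle k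
    have h9 : 0 ≤ rel A₁ A₂ k ^ 2 * ν⁻¹ := by positivity
    nlinarith
  calc ((N : ℝ) ^ 2)⁻¹ * ∑ k, sym ((ν⁻¹ • (A₁ - A₂)) * pin A₂) k ^ 2
      ≤ ((N : ℝ) ^ 2)⁻¹ * ∑ k, rel A₁ A₂ k ^ 2 * ν⁻¹ :=
        mul_le_mul_of_nonneg_left (Finset.sum_le_sum fun k _ => h3 k) (by positivity)
    _ = ((N : ℝ) ^ 2)⁻¹ * ((∑ k, rel A₁ A₂ k ^ 2) * ν⁻¹) := by rw [Finset.sum_mul]
    _ ≤ ((N : ℝ) ^ 2)⁻¹ * (η ^ 2 * ν⁻¹) := by
        refine mul_le_mul_of_nonneg_left ?_ (by positivity)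
        exact mul_le_mul_of_nonneg_right hHS (by positivity)
    _ = η ^ 2 / ((N : ℝ) ^ 2 * ν) := by
        field_simp

lemma norm_ee_sub_le (s t : ℝ) : ‖ee s - ee t‖ ≤ 2 * π * |s - t| := by
  have h1 : ee s - ee t = ee t * (ee (s - t) - 1) := by
    rw [mul_sub, mul_one, ← ee_add]
    congr 2
    ring
  rw [h1, norm_mul, norm_ee, one_mul]
  unfold ee
  have h2 := Real.norm_exp_I_mul_ofReal_sub_one_le (x := 2 * π * (s - t))
  rw [mul_comm Complex.I] at h2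
  refine h2.trans (le_of_eq ?_)
  rw [Real.norm_eq_abs, abs_mul, abs_of_pos (by positivity : (0 : ℝ) < 2 * π)]

lemma memLp_lin {I : Type*} [Fintype I] (u : I → ℝ) :
    MemLp (fun g : I → ℝ => ((u ⬝ᵥ g : ℝ) : ℂ)) 2 (gau I) := by
  have hmeas : AEStronglyMeasurable (fun g : I → ℝ => ((u ⬝ᵥ g : ℝ) : ℂ)) (gau I) :=
    (Complex.measurable_ofReal.comp (measurable_dot u)).aestronglyMeasurable
  rw [memLp_two_iff_integrable_sq_norm hmeas]
  refine (integrable_dot_sq u).congr (Filter.Eventually.of_forall fun g => ?_)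
  simp only
  rw [Complex.norm_real, Real.norm_eq_abs, sq_abs]

/-- second moment of a Gaussian linear form -/
lemma n2_lin {I : Type*} [Fintype I] (u : I → ℝ) :
    n2 (gau I) (fun g => ((u ⬝ᵥ g : ℝ) : ℂ)) = √(∑ i, u i ^ 2) := by
  have h := n2_sq (memLp_lin u)
  have h2 : ∫ g, ‖((u ⬝ᵥ g : ℝ) : ℂ)‖ ^ 2 ∂(gau I) = ∑ i, u i ^ 2 := by
    rw [← integral_dot_sq u]
    refine integral_congr_ae (Filter.Eventually.of_forall fun g => ?_)
    simp only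
    rw [Complex.norm_real, Real.norm_eq_abs, sq_abs]
  rw [h2] at h
  rw [← h, Real.sqrt_sq (n2_nonneg _)]

lemma n2_mono {α : Type*} [MeasurableSpace α] {μ : Measure α} {u v : α → ℂ} (hv : MemLp v 2 μ)
    (h : ∀ a, ‖u a‖ ≤ ‖v a‖) : n2 μ u ≤ n2 μ v := by
  unfold n2
  exact ENNReal.toReal_mono hv.eLpNorm_ne_top (eLpNorm_mono h)

/-- (M) change of the main function, second moment under the typical law -/
theorem mainf_change (h₁ : Nf A₁) (h₂ : Nf A₂) {ν η s : ℝ} (hν : 0 < ν) (hη : 0 ≤ η)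
    (hle : ∀ k, sym A₂ k ≤ ν) (hHS : ∑ k, rel A₁ A₂ k ^ 2 ≤ η ^ 2) (x : V N)
    (hs : ∑ w, |(1 - ν⁻¹ • A₂) x w| ≤ s) :
    n2 (gau (V N)) (fun g => mainf (1 - ν⁻¹ • A₁) x (pin A₂ *ᵥ g)
        - mainf (1 - ν⁻¹ • A₂) x (pin A₂ *ᵥ g))
      ≤ η + s * (2 * π * (η / √((N : ℝ) ^ 2 * ν))) := by
  classical
  set S₁ : Matrix (V N) (V N) ℝ := 1 - ν⁻¹ • A₁ with hS₁
  set S₂ : Matrix (V N) (V N) ℝ := 1 - ν⁻¹ • A₂ with hS₂
  set D : Matrix (V N) (V N) ℝ := ν⁻¹ • (A₁ - A₂) with hD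
  have hSD : S₁ - S₂ = -D := by
    rw [hS₁, hS₂, hD, smul_sub]
    abel
  have hSD' : ∀ a b, S₁ a b - S₂ a b = -D a b := fun a b => by
    have := congrFun (congrFun hSD a) b
    simpa using this
  have hN := H864.N_pos (N := N)
  have hmeasw : ∀ (S : Matrix (V N) (V N) ℝ) (w : V N),
      Measurable fun g : V N → ℝ => ee ((S *ᵥ (pin A₂ *ᵥ g)) w) := fun S w =>
    measurable_ee.comp ((measurable_pi_apply w).comp ((measurable_mulVec S).comp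
      (measurable_mulVec _)))
  have hmem : ∀ (S : Matrix (V N) (V N) ℝ) (w : V N),
      MemLp (fun g : V N → ℝ => ee ((S *ᵥ (pin A₂ *ᵥ g)) w)) 2 (gau (V N)) := fun S w =>
    MemLp.of_bound (hmeasw S w).aestronglyMeasurable 1
      (Filter.Eventually.of_forall fun g => (norm_ee _).le)
  have hm1 : ∀ w, MemLp (fun g : V N → ℝ => ((S₁ x w - S₂ x w : ℝ) : ℂ)
      * ee ((S₁ *ᵥ (pin A₂ *ᵥ g)) w)) 2 (gau (V N)) := fun w => (hmem S₁ w).const_mul _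
  have hm2 : ∀ w, MemLp (fun g : V N → ℝ => ((S₂ x w : ℝ) : ℂ)
      * (ee ((S₁ *ᵥ (pin A₂ *ᵥ g)) w) - ee ((S₂ *ᵥ (pin A₂ *ᵥ g)) w))) 2 (gau (V N)) := fun w =>
    ((hmem S₁ w).sub (hmem S₂ w)).const_mul _
  have he : ∀ g : V N → ℝ, mainf S₁ x (pin A₂ *ᵥ g) - mainf S₂ x (pin A₂ *ᵥ g)
      = (∑ w, ((S₁ x w - S₂ x w : ℝ) : ℂ) * ee ((S₁ *ᵥ (pin A₂ *ᵥ g)) w))
        + ∑ w, ((S₂ x w : ℝ) : ℂ) * (ee ((S₁ *ᵥ (pin A₂ *ᵥ g)) w)
          - ee ((S₂ *ᵥ (pin A₂ *ᵥ g)) w)) := by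
    intro g
    unfold mainf
    rw [← Finset.sum_sub_distrib, ← Finset.sum_add_distrib]
    refine Finset.sum_congr rfl fun w _ => ?_
    push_cast
    ring
  rw [n2_congr he]
  refine (n2_add_le (memLp_sum _ fun w _ => hm1 w) (memLp_sum _ fun w _ => hm2 w)).trans ?_
  refine add_le_add ?_ ?_
  · -- first part: row sum
    refine (n2_sum_le _ fun w _ => hm1 w).trans ?_
    refine le_trans (Finset.sum_le_sum fun w _ => ?_) (row_diff h₁ h₂ hν hη hle hHS x)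
    rw [n2_const_mul]
    have h5 : ‖((S₁ x w - S₂ x w : ℝ) : ℂ)‖ = |D x w| := by
      rw [Complex.norm_real, Real.norm_eq_abs, hSD', abs_neg]
    rw [h5]
    have h6 : n2 (gau (V N)) (fun g : V N → ℝ => ee ((S₁ *ᵥ (pin A₂ *ᵥ g)) w)) ≤ 1 :=
      n2_le_const (hmeasw S₁ w).aestronglyMeasurable zero_le_one fun g => (norm_ee _).le
    calc |D x w| * n2 (gau (V N)) (fun g : V N → ℝ => ee ((S₁ *ᵥ (pin A₂ *ᵥ g)) w))
        ≤ |D x w| * 1 := mul_le_mul_of_nonneg_left h6 (abs_nonneg _)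
      _ = |D x w| := mul_one _
  · refine (n2_sum_le _ fun w _ => hm2 w).trans ?_
    have h7 : ∀ w, n2 (gau (V N)) (fun g : V N → ℝ => ((S₂ x w : ℝ) : ℂ)
        * (ee ((S₁ *ᵥ (pin A₂ *ᵥ g)) w) - ee ((S₂ *ᵥ (pin A₂ *ᵥ g)) w)))
        ≤ |S₂ x w| * (2 * π * (η / √((N : ℝ) ^ 2 * ν))) := by
      intro w
      rw [n2_const_mul, Complex.norm_real, Real.norm_eq_abs]
      refine mul_le_mul_of_nonneg_left ?_ (abs_nonneg _)
      have h8 : n2 (gau (V N)) (fun g : V N → ℝ => ee ((S₁ *ᵥ (pin A₂ *ᵥ g)) w)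
          - ee ((S₂ *ᵥ (pin A₂ *ᵥ g)) w))
          ≤ n2 (gau (V N)) (fun g : V N → ℝ => ((2 * π : ℝ) : ℂ) * (((D * pin A₂) w ⬝ᵥ g : ℝ) : ℂ)) := by
        refine n2_mono ((memLp_lin _).const_mul _) fun g => ?_
        rw [norm_mul, Complex.norm_real, Complex.norm_real, Real.norm_eq_abs, Real.norm_eq_abs,
          abs_of_pos (by positivity : (0 : ℝ) < 2 * π)]
        refine (norm_ee_sub_le _ _).trans (le_of_eq ?_)
        congr 1
        have h9 : (S₁ *ᵥ (pin A₂ *ᵥ g)) w - (S₂ *ᵥ (pin A₂ *ᵥ g)) w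
            = -((D * pin A₂) w ⬝ᵥ g) := by
          have h10 : S₁ *ᵥ (pin A₂ *ᵥ g) - S₂ *ᵥ (pin A₂ *ᵥ g) = -((D * pin A₂) *ᵥ g) := by
            rw [← sub_mulVec, hSD, neg_mulVec, mulVec_mulVec]
          exact congrFun h10 w
        rw [h9, abs_neg]
      refine h8.trans ?_
      rw [n2_const_mul, Complex.norm_real, Real.norm_eq_abs,
        abs_of_pos (by positivity : (0 : ℝ) < 2 * π), n2_lin]
      refine mul_le_mul_of_nonneg_left ?_ (by positivity)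
      have h11 := var_diff h₁ h₂ hν hle hHS w
      refine (Real.sqrt_le_sqrt h11).trans (le_of_eq ?_)
      rw [Real.sqrt_div (sq_nonneg η), Real.sqrt_sq hη]
    refine (Finset.sum_le_sum fun w _ => h7 w).trans ?_
    rw [← Finset.sum_mul]
    exact mul_le_mul_of_nonneg_right hs (by positivity)

end

end Vale.Agent.P159.H363
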