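import Vale.Agent.P159.H363.Tilt

/-!
P159 / H363: completing the square, measure form and vector valued form.
-/

namespace Vale.Agent.P159.H363

open MeasureTheory ProbabilityTheory Finset Matrix
open Vale.Agent.P159.H37 (gau gau_shift qf bf)

variable {I J Λ : Type*} [Fintype I] [Fintype J] [Fintype Λ] {Q : Matrix Λ Λ ℝ} {σ : ℝ}

lemma measurable_qf_line (Q : Matrix Λ Λ ℝ) (f : Λ → ℝ) (σ : ℝ) :
    Measurable fun g : Λ → ℝ => Real.exp (-(qf Q (f + σ • g) / 2)) := by
  unfold qf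
  fun_prop

lemma integrable_qf_line (hQ : ∀ u, 0 ≤ qf Q u) (f : Λ → ℝ) (σ : ℝ) :
    Integrable (fun g : Λ → ℝ => Real.exp (-(qf Q (f + σ • g) / 2))) (gau Λ) := by
  refine Integrable.of_bound (C := 1) (measurable_qf_line Q f σ).aestronglyMeasurable
    (Filter.Eventually.of_forall fun g => ?_)
  rw [Real.norm_eq_abs, abs_of_pos (Real.exp_pos _), Real.exp_le_one_iff]
  have := hQ (f + σ • g)
  linarith

lemma cT_pos (hQ : ∀ u, 0 ≤ qf Q u) : 0 < cT Q σ := by
  unfold cT
  have h1 := integrable_qf_line hQ 0 σ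
  simp only [zero_add] at h1
  rw [integral_pos_iff_support_of_nonneg (fun g => (Real.exp_pos _).le) h1]
  have : Function.support (fun g : Λ → ℝ => Real.exp (-(qf Q (σ • g) / 2))) = Set.univ := by
    ext g
    simp [(Real.exp_pos _).ne']
  rw [this]
  simp

/-- the constant of `tilt` at `f` -/
noncomputable def cTf (Q : Matrix Λ Λ ℝ) (σ : ℝ) (ah : Matrix Λ Λ ℝ) (f : Λ → ℝ) : ℝ :=
  cT Q σ * Real.exp (-(qf (Q * ah) f / 2))

lemma cTf_pos (hQ : ∀ u, 0 ≤ qf Q u) (ah : Matrix Λ Λ ℝ) (f : Λ → ℝ) : 0 < cTf Q σ ah f :=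
  mul_pos (cT_pos hQ) (Real.exp_pos _)

variable [DecidableEq Λ]

/-- measure form -/
theorem tilt_measure (hQs : Qᵀ = Q) (hQ : ∀ u, 0 ≤ qf Q u) (hσ : σ ≠ 0)
    {A : Matrix Λ I ℝ} (hA : A * Aᵀ * (1 + σ ^ 2 • Q) = σ ^ 2 • 1)
    {ah : Matrix Λ Λ ℝ} (hah : ah * (1 + σ ^ 2 • Q) = 1) (f : Λ → ℝ) :
    ((gau Λ).withDensity fun g => ENNReal.ofReal (Real.exp (-(qf Q (f + σ • g) / 2)))).map
        (fun g => f + σ • g)
      = ENNReal.ofReal (cTf Q σ ah f) • (gau I).map (fun g => ah *ᵥ f + A *ᵥ g) := by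
  have hm1 : Measurable fun g : Λ → ℝ => f + σ • g := by fun_prop
  have hm2 : Measurable fun g : I → ℝ => ah *ᵥ f + A *ᵥ g := by
    apply Continuous.measurable
    exact continuous_const.add (Continuous.matrix_mulVec continuous_const continuous_id)
  have hfin : IsFiniteMeasure ((gau Λ).withDensity fun g =>
      ENNReal.ofReal (Real.exp (-(qf Q (f + σ • g) / 2)))) := by
    apply isFiniteMeasure_withDensity_ofReal
    exact (integrable_qf_line hQ f σ).2
  refine Measure.ext fun s hs => ?_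
  have h1 := tilt hQs hQ hσ hA hah (G := s.indicator fun _ => (1 : ℝ))
    (measurable_const.indicator hs) f
  have hp := cTf_pos (σ := σ) hQ ah f
  rw [Measure.map_apply hm1 hs, Measure.smul_apply, Measure.map_apply hm2 hs, smul_eq_mul,
    withDensity_apply _ (hm1 hs)]
  -- left integral
  have e1 : ∀ g : Λ → ℝ, s.indicator (fun _ => (1 : ℝ)) (f + σ • g)
      * Real.exp (-(qf Q (f + σ • g) / 2))
      = ((fun g : Λ → ℝ => f + σ • g) ⁻¹' s).indicator
        (fun g => Real.exp (-(qf Q (f + σ • g) / 2))) g := by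
    intro g
    by_cases hg : f + σ • g ∈ s
    · rw [Set.indicator_of_mem hg, Set.indicator_of_mem (by exact hg), one_mul]
    · rw [Set.indicator_of_notMem hg, Set.indicator_of_notMem (by exact hg), zero_mul]
  have e2 : ∀ g : I → ℝ, s.indicator (fun _ => (1 : ℝ)) (ah *ᵥ f + A *ᵥ g)
      = ((fun g : I → ℝ => ah *ᵥ f + A *ᵥ g) ⁻¹' s).indicator (fun _ => 1) g := by
    intro g
    by_cases hg : ah *ᵥ f + A *ᵥ g ∈ s
    · rw [Set.indicator_of_mem hg, Set.indicator_of_mem (by exact hg)]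
    · rw [Set.indicator_of_notMem hg, Set.indicator_of_notMem (by exact hg)]
  simp only [e1, e2] at h1
  rw [integral_indicator (hm1 hs), integral_indicator (hm2 hs)] at h1
  rw [← ofReal_integral_eq_lintegral_ofReal (integrable_qf_line hQ f σ).integrableOn
    (Filter.Eventually.of_forall fun g => (Real.exp_pos _).le), h1]
  rw [setIntegral_const, smul_eq_mul, mul_one]
  change ENNReal.ofReal (cTf Q σ ah f * _) = _
  rw [ENNReal.ofReal_mul hp.le, measureReal_def, ENNReal.ofReal_toReal (measure_ne_top _ _)]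

/-- vector valued form -/
theorem tiltE {E : Type*} [NormedAddCommGroup E] [NormedSpace ℝ E]
    (hQs : Qᵀ = Q) (hQ : ∀ u, 0 ≤ qf Q u) (hσ : σ ≠ 0)
    {A : Matrix Λ I ℝ} (hA : A * Aᵀ * (1 + σ ^ 2 • Q) = σ ^ 2 • 1)
    {ah : Matrix Λ Λ ℝ} (hah : ah * (1 + σ ^ 2 • Q) = 1) (f : Λ → ℝ)
    {G : (Λ → ℝ) → E} (hG : StronglyMeasurable G) :
    ∫ g, Real.exp (-(qf Q (f + σ • g) / 2)) • G (f + σ • g) ∂(gau Λ)
      = cTf Q σ ah f • ∫ g, G (ah *ᵥ f + A *ᵥ g) ∂(gau I) := by
  have hm1 : Measurable fun g : Λ → ℝ => f + σ • g := by fun_prop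
  have hm2 : Measurable fun g : I → ℝ => ah *ᵥ f + A *ᵥ g := by
    apply Continuous.measurable
    exact continuous_const.add (Continuous.matrix_mulVec continuous_const continuous_id)
  have h := congrArg (fun μ : Measure (Λ → ℝ) => ∫ F, G F ∂μ)
    (tilt_measure hQs hQ hσ hA hah f)
  rw [integral_map hm1.aemeasurable hG.aestronglyMeasurable, integral_smul_measure,
    integral_map hm2.aemeasurable hG.aestronglyMeasurable,
    ENNReal.toReal_ofReal (cTf_pos hQ ah f).le,
    integral_withDensity_eq_integral_toReal_smul ((measurable_qf_line Q f σ).ennreal_ofReal)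
      (Filter.Eventually.of_forall fun x => ENNReal.ofReal_lt_top)] at h
  rw [← h]
  refine integral_congr_ae (Filter.Eventually.of_forall fun g => ?_)
  simp only
  rw [ENNReal.toReal_ofReal (Real.exp_pos _).le]

/-- integrability form -/
theorem tilt_integrable_iff {E : Type*} [NormedAddCommGroup E] [NormedSpace ℝ E]
    (hQs : Qᵀ = Q) (hQ : ∀ u, 0 ≤ qf Q u) (hσ : σ ≠ 0)
    {A : Matrix Λ I ℝ} (hA : A * Aᵀ * (1 + σ ^ 2 • Q) = σ ^ 2 • 1)
    {ah : Matrix Λ Λ ℝ} (hah : ah * (1 + σ ^ 2 • Q) = 1) (f : Λ → ℝ)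
    {G : (Λ → ℝ) → E} (hG : StronglyMeasurable G) :
    Integrable (fun g => Real.exp (-(qf Q (f + σ • g) / 2)) • G (f + σ • g)) (gau Λ)
      ↔ Integrable (fun g => G (ah *ᵥ f + A *ᵥ g)) (gau I) := by
  have hm1 : Measurable fun g : Λ → ℝ => f + σ • g := by fun_prop
  have hm2 : Measurable fun g : I → ℝ => ah *ᵥ f + A *ᵥ g := by
    apply Continuous.measurable
    exact continuous_const.add (Continuous.matrix_mulVec continuous_const continuous_id)
  have h := tilt_measure hQs hQ hσ hA hah f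
  have h1 : Integrable G (((gau Λ).withDensity fun g =>
      ENNReal.ofReal (Real.exp (-(qf Q (f + σ • g) / 2)))).map (fun g => f + σ • g))
      ↔ Integrable (fun g => Real.exp (-(qf Q (f + σ • g) / 2)) • G (f + σ • g)) (gau Λ) := by
    rw [integrable_map_measure hG.aestronglyMeasurable hm1.aemeasurable,
      integrable_withDensity_iff_integrable_smul' ((measurable_qf_line Q f σ).ennreal_ofReal)
        (Filter.Eventually.of_forall fun x => ENNReal.ofReal_lt_top)]
    refine integrable_congr (Filter.Eventually.of_forall fun g => ?_)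
    simp only [Function.comp]
    rw [ENNReal.toReal_ofReal (Real.exp_pos _).le]
  have hc : ENNReal.ofReal (cTf Q σ ah f) ≠ 0 := by
    rw [ne_eq, ENNReal.ofReal_eq_zero, not_le]
    exact cTf_pos hQ ah f
  have h2 : Integrable G (ENNReal.ofReal (cTf Q σ ah f) • (gau I).map
      (fun g => ah *ᵥ f + A *ᵥ g)) ↔ Integrable (fun g => G (ah *ᵥ f + A *ᵥ g)) (gau I) := by
    rw [integrable_smul_measure hc ENNReal.ofReal_ne_top,
      integrable_map_measure hG.aestronglyMeasurable hm2.aemeasurable]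
    rfl
  rw [← h1, h, h2]

end Vale.Agent.P159.H363
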