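import Vale.Agent.P159.H363.Acl
import Vale.Agent.P159.H363.TiltE

/-!
P159 / H363: BRIDGE. One channel step of the charge functionals on cell fields in Gaussian form:
`Φ'_q(lift f) = ∫ W Φ_q(lift F) / ∫ W`, `F = ahat f + gm g`, `W = exp R ≥ 1`.
-/

namespace Vale.Agent.P159.H363

open Finset Matrix MeasureTheory
open Vale.Agent.P159.TM.H104 (EM Ex Cv K3 Lg li nh Gr)
open Vale.Agent.P159.H37 (qf bf qf_eq Un Zn Zq ZM wM gau Gm Cm cellP qf_smul qf_zero_vec Ev PK)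
open Vale.Agent.P159.TM.Spec (V)
open Vale.Agent.P159.TM.SpecC (Tor wT)
open Vale.Agent.P159.TM.H764 (EE cN sN dt)
open Vale.Agent.P159.H864 (TI TInv tra sym Inv CT CInv MC cl up cobV Gc fc)
open Vale.Agent.P159.H963 (Pn Gnc GnC nMC nM ntr An Neu PinC Cn gw_wT mf_MC)
open Vale.Agent.P159.H462 (Dom ahat Gam ti_ahat sym_ahat)
open Vale.Agent.P159.H896 (Chn Ph om E0 WM)

noncomputable section

section sy

variable {n : ℕ} [NeZero n] {A : Matrix (V n) (V n) ℝ}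

lemma ahat_mul0 (hA : TI A) (h0 : ∀ k, 0 ≤ sym A k) {s : ℝ} (hs : 0 ≤ s) :
    ahat s A * (1 + s • A) = 1 := by
  have t1 : TI (1 + s • A) := TI.one.add (hA.smul s)
  refine H864.sym_inj ((ti_ahat s A).mul t1) TI.one fun k => ?_
  rw [H864.sym_mul (ti_ahat s A) t1, sym_ahat, H864.sym_add, H864.sym_one, H864.sym_smul]
  have h1 := h0 k
  have h2 : 1 + s * sym A k ≠ 0 := by positivity
  exact inv_mul_cancel₀ h2

lemma gm_mul0 (hA : TI A) (h0 : ∀ k, 0 ≤ sym A k) {s : ℝ} (hs : 0 ≤ s) :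
    gm s A * (gm s A)ᵀ * (1 + s • A) = s • 1 := by
  have t1 : TI (1 + s • A) := TI.one.add (hA.smul s)
  have t2 : TI (gm s A * gm s A) := (ti_gm s A).mul (ti_gm s A)
  rw [(ti_gm s A).transpose]
  refine H864.sym_inj (t2.mul t1) (TI.one.smul s) fun k => ?_
  rw [H864.sym_mul t2 t1, H864.sym_mul (ti_gm s A) (ti_gm s A), H864.sym_add, H864.sym_one,
    H864.sym_smul, H864.sym_smul, H864.sym_one]
  unfold gm
  rw [H864.sym_fc]
  have h1 := h0 k
  have h2 : 1 + s * sym A k ≠ 0 := by positivity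
  rw [Real.mul_self_sqrt (by positivity), mul_assoc, inv_mul_cancel₀ h2]

end sy

section cont

variable {V' : Type} [Fintype V'] {w : (V' → ℤ) → ℝ} {M : Matrix V' V' ℝ}

lemma continuous_Zq (hw : WM w M) (q : ℤ) : Continuous (Zq w M q) := by
  unfold Zq
  have h1 : Continuous (Function.uncurry fun (F : V' → ℝ) (c : ℝ) =>
      (ZM w M (fun x => F x + c) : ℂ) * Complex.exp (-(2 * Real.pi * q * c) * Complex.I)) := by
    have h2 : Continuous fun p : (V' → ℝ) × ℝ => fun x => p.1 x + p.2 := by fun_prop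
    refine (Complex.continuous_ofReal.comp ((H896.continuous_ZM hw).comp h2)).mul ?_
    show Continuous fun p : (V' → ℝ) × ℝ => Complex.exp (-(2 * Real.pi * q * p.2) * Complex.I)
    fun_prop
  exact intervalIntegral.continuous_parametric_intervalIntegral_of_continuous' h1 0 1

lemma continuous_Zn (hw : WM w M) : Continuous (Zn w M) := by
  unfold Zn
  have h1 : Continuous (Function.uncurry fun (F : V' → ℝ) (c : ℝ) =>
      ZM w M (fun x => F x + c)) := by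
    have h2 : Continuous fun p : (V' → ℝ) × ℝ => fun x => p.1 x + p.2 := by fun_prop
    exact (H896.continuous_ZM hw).comp h2
  exact intervalIntegral.continuous_parametric_intervalIntegral_of_continuous' h1 0 1

lemma continuous_Ph (hw : WM w M) (q : ℤ) : Continuous (Ph w M q) := by
  unfold Ph
  refine (continuous_Zq hw q).div (Complex.continuous_ofReal.comp (continuous_Zn hw)) fun F => ?_
  exact_mod_cast (H896.Zn_pos hw F).ne'

end cont

variable {N l : ℕ} [NeZero N] [NeZero (N / l)] {b t τ τ' : ℝ}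

/-- noise per cell, height units -/
def sn (l : ℕ) (τ τ' : ℝ) : ℝ := (τ'⁻¹ - τ⁻¹) / (l : ℝ) ^ 2

lemma sn_pos (hl : l ∣ N) (hτ' : 0 < τ') (h1 : τ' < τ) : 0 < sn l τ τ' := by
  have hlp : (0 : ℝ) < l := by exact_mod_cast H864.l_pos hl
  have h2 : τ⁻¹ < τ'⁻¹ := inv_strictAnti₀ hτ' h1
  unfold sn
  have : 0 < τ'⁻¹ - τ⁻¹ := by linarith
  positivity

theorem wm_MC (hb : 0 ≤ b) (hl : l ∣ N) (hτ : 0 < τ) (h : τ ≤ t) : WM (wT b N) (MC N l t τ) :=
  H896.wm_wT hb hτ (H864.MC_tr N l t τ) (H864.qf_MC_ge hl h)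

/-- the cell channel between two cell masses -/
theorem chn_MC (hl : l ∣ N) (hτ' : 0 < τ') (h1 : τ' ≤ τ) (h : τ ≤ t) :
    Chn (MC N l t τ) (MC N l t τ') (√(τ'⁻¹ - τ⁻¹) • (cobV N l)ᵀ)
      ((√(τ'⁻¹ - τ⁻¹) * τ / (1 + (τ'⁻¹ - τ⁻¹) * τ)) • cobV N l) := by
  have hτ : 0 < τ := lt_of_lt_of_le hτ' h1
  have hσ : 0 ≤ τ'⁻¹ - τ⁻¹ := sub_nonneg.2 (inv_anti₀ hτ' h1)
  have hn : ∀ u : V N → ℝ, 0 ≤ qf (MC N l t τ) u := fun u =>
    le_trans (mul_nonneg hτ.le (Finset.sum_nonneg fun _ _ => sq_nonneg _)) (H864.qf_MC_ge hl h u)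
  have h2 := H896.chn_row (H864.MC_tr N l t τ) hn (H864.cobV_mul_tr hl) (H864.MC_mul_tr hl t τ)
    hτ.le hσ
  have h3 : MC N l t τ - ((τ'⁻¹ - τ⁻¹) * τ ^ 2 / (1 + (τ'⁻¹ - τ⁻¹) * τ)) •
      ((cobV N l)ᵀ * cobV N l) = MC N l t τ' := by
    rw [← H864.cellP_eq hl]
    have h4 : (τ'⁻¹ - τ⁻¹) * τ ^ 2 / (1 + (τ'⁻¹ - τ⁻¹) * τ) = τ - τ' := by
      have h5 : 1 + (τ'⁻¹ - τ⁻¹) * τ = τ / τ' := by field_simp; ring
      rw [h5]
      field_simp
    rw [h4, sub_eq_iff_eq_add]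
    exact (H864.MC_add N l t τ τ').symm
  rw [h3] at h2
  exact h2

lemma lf_noise (hl : l ∣ N) (f g : V (N / l) → ℝ) :
    lf N l f + (√(τ'⁻¹ - τ⁻¹) • (cobV N l)ᵀ) *ᵥ g = lf N l (f + √(sn l τ τ') • g) := by
  have hlp : (0 : ℝ) < l := by exact_mod_cast H864.l_pos hl
  rw [lf_add, lf_smul, lf_eq hl g, smul_mulVec, smul_smul]
  congr 2
  unfold sn
  rw [Real.sqrt_div' _ (sq_nonneg _), Real.sqrt_sq hlp.le]
  field_simp

/-- weight of the cell field -/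
def Wcl (N l : ℕ) [NeZero N] [NeZero (N / l)] (b t τ : ℝ) (F : V (N / l) → ℝ) : ℝ :=
  Real.exp (Rcl N l b t τ F)

lemma one_le_Wcl (hb : 0 ≤ b) (hl : l ∣ N) (hτ : 0 < τ) (h : τ ≤ t) (F : V (N / l) → ℝ) :
    1 ≤ Wcl N l b t τ F := Real.one_le_exp (Rcl_nonneg hb hl hτ h F)

lemma continuous_lf : Continuous (lf N l) := by
  refine continuous_pi fun v => ?_
  exact continuous_apply (cl v)

lemma continuous_Rcl (hb : 0 ≤ b) (hl : l ∣ N) (hτ : 0 < τ) (h : τ ≤ t) :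
    Continuous (Rcl N l b t τ) := by
  unfold Rcl
  refine (H114.continuous_Rs ((gw_wT hb).em_nM (mf_MC hl hτ h) 0)).comp ?_
  exact Continuous.matrix_mulVec continuous_const continuous_lf

lemma continuous_Wcl (hb : 0 ≤ b) (hl : l ∣ N) (hτ : 0 < τ) (h : τ ≤ t) :
    Continuous (Wcl N l b t τ) := Real.continuous_exp.comp (continuous_Rcl hb hl hτ h)

/-- tilting identity for functions of the cell field -/
theorem tilt_MC {E : Type*} [NormedAddCommGroup E] [NormedSpace ℝ E] (hb : 0 ≤ b) (hl : l ∣ N)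
    (hτ' : 0 < τ') (h1 : τ' < τ) (h : τ ≤ t) (f : V (N / l) → ℝ) {G : (V (N / l) → ℝ) → E}
    (hG : StronglyMeasurable G) :
    ∫ g, (Zn (wT b N) (MC N l t τ) (lf N l f + (√(τ'⁻¹ - τ⁻¹) • (cobV N l)ᵀ) *ᵥ g)) •
        G (f + √(sn l τ τ') • g) ∂(gau (V (N / l)))
      = (Zn (wT b N) (MC N l t τ) 0 * cTf (acl N l b t τ) (√(sn l τ τ'))
          (ahat (sn l τ τ') (acl N l b t τ)) f) •
        ∫ g, Wcl N l b t τ (ahat (sn l τ τ') (acl N l b t τ) *ᵥ f
            + gm (sn l τ τ') (acl N l b t τ) *ᵥ g) •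
          G (ahat (sn l τ τ') (acl N l b t τ) *ᵥ f + gm (sn l τ τ') (acl N l b t τ) *ᵥ g)
          ∂(gau (V (N / l))) := by
  have hτ : 0 < τ := hτ'.trans h1
  set A := acl N l b t τ with hA
  set s := sn l τ τ' with hs
  have hs0 : 0 < s := sn_pos hl hτ' h1
  have htA : TI A := ti_acl hb hl hτ h
  have hsq : √s ^ 2 = s := Real.sq_sqrt hs0.le
  have hW := (continuous_Wcl (b := b) (t := t) hb hl hτ h).measurable
  have key := tiltE (Q := A) (σ := √s) (A := gm s A) (ah := ahat s A) (f := f)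
    (G := fun F => Wcl N l b t τ F • G F) htA.transpose
    (qf_acl_nonneg hb hl hτ h) (Real.sqrt_pos.2 hs0).ne'
    (by rw [hsq]; exact gm_mul0 htA (sym_acl_nonneg hb hl hτ h) hs0.le)
    (by rw [hsq]; exact ahat_mul0 htA (sym_acl_nonneg hb hl hτ h) hs0.le)
    (hW.stronglyMeasurable.smul hG)
  rw [mul_smul, ← key, ← integral_smul]
  refine integral_congr_ae (Filter.Eventually.of_forall fun g => ?_)
  simp only
  rw [lf_noise hl, Zn_lf hb hl hτ h, ← hA, ← hs, smul_smul, smul_smul]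
  congr 1
  unfold Wcl
  ring

/-- **BRIDGE** -/
theorem bridge (hb : 0 ≤ b) (hl : l ∣ N) (hτ' : 0 < τ') (h1 : τ' < τ) (h : τ ≤ t) (q : ℤ)
    (f : V (N / l) → ℝ) :
    Ph (wT b N) (MC N l t τ') q (lf N l f)
      = (∫ g, (Wcl N l b t τ (ahat (sn l τ τ') (acl N l b t τ) *ᵥ f
            + gm (sn l τ τ') (acl N l b t τ) *ᵥ g) : ℂ)
          * Ph (wT b N) (MC N l t τ) q (lf N l (ahat (sn l τ τ') (acl N l b t τ) *ᵥ f
            + gm (sn l τ τ') (acl N l b t τ) *ᵥ g)) ∂(gau (V (N / l))))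
        / ((∫ g, Wcl N l b t τ (ahat (sn l τ τ') (acl N l b t τ) *ᵥ f
            + gm (sn l τ τ') (acl N l b t τ) *ᵥ g) ∂(gau (V (N / l))) : ℝ) : ℂ) := by
  have hτ : 0 < τ := hτ'.trans h1
  have hwm := wm_MC (b := b) (N := N) hb hl hτ' (h1.le.trans h)
  have hwmτ := wm_MC (b := b) (N := N) hb hl hτ h
  rw [H896.Ph_tower (chn_MC hl hτ' h1.le h) hwm q (lf N l f)]
  unfold E0
  set c : ℝ := Zn (wT b N) (MC N l t τ) 0 * cTf (acl N l b t τ) (√(sn l τ τ'))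
          (ahat (sn l τ τ') (acl N l b t τ)) f with hc
  have hc0 : 0 < c := mul_pos ((gw_wT hb).Zn_pos (mf_MC hl hτ h) 0)
    (cTf_pos (qf_acl_nonneg hb hl hτ h) _ _)
  have hmP : Measurable fun F : V (N / l) → ℝ => Ph (wT b N) (MC N l t τ) q (lf N l F) :=
    ((continuous_Ph hwmτ q).comp continuous_lf).measurable
  have hnum := tilt_MC hb hl hτ' h1 h f hmP.stronglyMeasurable
  have hden := tilt_MC hb hl hτ' h1 h f (G := fun _ => (1 : ℂ))
    (stronglyMeasurable_const)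
  rw [← hc] at hnum hden
  have e1 : ∫ g, Ph (wT b N) (MC N l t τ) q (lf N l f + (√(τ'⁻¹ - τ⁻¹) • (cobV N l)ᵀ) *ᵥ g)
      * (Zn (wT b N) (MC N l t τ) (lf N l f + (√(τ'⁻¹ - τ⁻¹) • (cobV N l)ᵀ) *ᵥ g) : ℂ)
        ∂(gau (V (N / l)))
      = (c : ℂ) * ∫ g, (Wcl N l b t τ (ahat (sn l τ τ') (acl N l b t τ) *ᵥ f
            + gm (sn l τ τ') (acl N l b t τ) *ᵥ g) : ℂ)
          * Ph (wT b N) (MC N l t τ) q (lf N l (ahat (sn l τ τ') (acl N l b t τ) *ᵥ f
            + gm (sn l τ τ') (acl N l b t τ) *ᵥ g)) ∂(gau (V (N / l))) := by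
    rw [← Complex.real_smul]
    simp only [← Complex.real_smul]
    rw [← hnum]
    refine integral_congr_ae (Filter.Eventually.of_forall fun g => ?_)
    simp only
    rw [lf_noise hl, Complex.real_smul, mul_comm]
  have e2 : ∫ g, (Zn (wT b N) (MC N l t τ)
      (lf N l f + (√(τ'⁻¹ - τ⁻¹) • (cobV N l)ᵀ) *ᵥ g) : ℂ) ∂(gau (V (N / l)))
      = (c : ℂ) * ((∫ g, Wcl N l b t τ (ahat (sn l τ τ') (acl N l b t τ) *ᵥ f
            + gm (sn l τ τ') (acl N l b t τ) *ᵥ g) ∂(gau (V (N / l))) : ℝ) : ℂ) := by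
    simp only [Complex.real_smul, mul_one] at hden
    rw [hden, integral_complex_ofReal]
  rw [e1, e2, mul_div_mul_left]
  exact_mod_cast hc0.ne'

/-- the weight is integrable -/
theorem integrable_Wcl (hb : 0 ≤ b) (hl : l ∣ N) (hτ' : 0 < τ') (h1 : τ' < τ) (h : τ ≤ t)
    (f : V (N / l) → ℝ) :
    Integrable (fun g => Wcl N l b t τ (ahat (sn l τ τ') (acl N l b t τ) *ᵥ f
      + gm (sn l τ τ') (acl N l b t τ) *ᵥ g)) (gau (V (N / l))) := by
  have hτ : 0 < τ := hτ'.trans h1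
  set A := acl N l b t τ with hA
  set s := sn l τ τ' with hs
  have hs0 : 0 < s := sn_pos hl hτ' h1
  have htA : TI A := ti_acl hb hl hτ h
  have hsq : √s ^ 2 = s := Real.sq_sqrt hs0.le
  have hW := (continuous_Wcl (b := b) (t := t) hb hl hτ h).measurable
  have key := tilt_integrable_iff (Q := A) (σ := √s) (A := gm s A) (ah := ahat s A) (f := f)
    (G := Wcl N l b t τ) htA.transpose
    (qf_acl_nonneg hb hl hτ h) (Real.sqrt_pos.2 hs0).ne'
    (by rw [hsq]; exact gm_mul0 htA (sym_acl_nonneg hb hl hτ h) hs0.le)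
    (by rw [hsq]; exact ahat_mul0 htA (sym_acl_nonneg hb hl hτ h) hs0.le)
    hW.stronglyMeasurable
  rw [← key]
  have hwm := wm_MC (b := b) (N := N) hb hl hτ' (h1.le.trans h)
  have h2 := H896.chn_Zn_int (chn_MC hl hτ' h1.le h) hwm (lf N l f)
  have hZ0 := (gw_wT hb).Zn_pos (mf_MC hl hτ h) (0 : V N → ℝ)
  have h3 := h2.const_mul (Zn (wT b N) (MC N l t τ) 0)⁻¹
  refine h3.congr (Filter.Eventually.of_forall fun g => ?_)
  simp only
  rw [lf_noise hl, Zn_lf hb hl hτ h, ← hA, ← hs, smul_eq_mul]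
  unfold Wcl
  field_simp

end

end Vale.Agent.P159.H363
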