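import Vale.Agent.P159.H363.Kap

/-!
P159 / H363: the scalar corollary: `Par` with explicit parameters
`r₀ = 2D`, `L = M/(K m)`, `gain = e^400 (K m/M)^{π/a}`, `ρ = 722 ((1+c)/c) K² m / M`.
-/

namespace Vale.Agent.P159.H363

open Finset Matrix
open Vale.Agent.P159.TM.H859 (dirE)
open Vale.Agent.P159.TM.Spec (V)
open Vale.Agent.P159.H462 (Dom)
open scoped Real

noncomputable section

/-- the gain -/
def grP (a M K m : ℝ) : ℝ := Real.exp (400 - π / a * Real.log (M / (K * m)))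

/-- the contraction constant -/
def rhoP (c M K m : ℝ) : ℝ := 722 * ((1 + c) / c) * K ^ 2 * m / M

lemma ps_mass {M K m D ν s L : ℝ} (hM : 2 ≤ M) (hν : 0 < ν) (hsM : s * ν = M ^ 2 - 1)
    (hm : 30 ≤ m) (hK : 1 ≤ K) (hD : 5 ≤ D) (hDK : D ^ 2 * ν ≤ 4 * K ^ 2)
    (hLdef : L = M / (K * m)) (hL2 : 1 ≤ L) (hs : 0 < s) :
    s⁻¹ * (2 * (L * (2 * D)) + 1) ^ 2 ≤ 288 / m ^ 2 := by
  have h1 : 2 * (L * (2 * D)) + 1 ≤ 6 * (L * D) := by
    have : 1 ≤ L * D := by nlinarith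
    nlinarith
  have hLD : 0 ≤ L * D := by positivity
  have h0 : 0 ≤ 2 * (L * (2 * D)) + 1 := by nlinarith
  have h2 : (2 * (L * (2 * D)) + 1) ^ 2 ≤ (6 * (L * D)) ^ 2 := pow_le_pow_left₀ h0 h1 2
  have h3 : (6 * (L * D)) ^ 2 = 36 * (M ^ 2 / (K * m) ^ 2) * D ^ 2 := by
    rw [hLdef]; ring
  rw [inv_mul_le_iff₀ hs]
  refine h2.trans ?_
  rw [h3]
  have hD2 : D ^ 2 ≤ 4 * K ^ 2 / ν := by rw [le_div_iff₀ hν]; exact hDK
  have h4 : 36 * (M ^ 2 / (K * m) ^ 2) * D ^ 2 ≤ 36 * (M ^ 2 / (K * m) ^ 2) * (4 * K ^ 2 / ν) :=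
    mul_le_mul_of_nonneg_left hD2 (by positivity)
  refine h4.trans ?_
  have hs' : s = (M ^ 2 - 1) / ν := by rw [← hsM]; field_simp
  rw [hs']
  have hKpos : 0 < K := by linarith
  have hmpos : 0 < m := by linarith
  have e1 : 36 * (M ^ 2 / (K * m) ^ 2) * (4 * K ^ 2 / ν) = 144 * M ^ 2 / (m ^ 2 * ν) := by
    field_simp
    ring
  rw [e1]
  have e2 : (M ^ 2 - 1) / ν * (288 / m ^ 2) = 288 * (M ^ 2 - 1) / (m ^ 2 * ν) := by
    field_simp
  rw [e2]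
  refine div_le_div_of_nonneg_right ?_ (by positivity)
  nlinarith

lemma ps_x {a m ℓ x : ℝ} (ha1 : 1 ≤ a) (ha2 : a ≤ 2) (hm : 30 ≤ m) (hx : x = a * (2 * π / ℓ))
    (hL200 : 200 ≤ ℓ) (hℓm : ℓ ≤ m) :
    0 < x ∧ x ≤ 4 * 3.15 / 200 ∧ 1 / m ≤ x ∧ 1 / x ≤ m / (2 * π) ∧ 1 / x = ℓ / (2 * π * a) := by
  have hpi := Real.pi_pos
  have hpi3 := Real.pi_gt_three
  have hpi4 := Real.pi_lt_d2
  have hℓ0 : 0 < ℓ := by linarith
  have hm0 : 0 < m := by linarith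
  have ha0 : 0 < a := by linarith
  have hx0 : 0 < x := by rw [hx]; positivity
  have e4 : 1 / x = ℓ / (2 * π * a) := by
    rw [hx]
    field_simp
  have hx' : x = 2 * a * π / ℓ := by rw [hx]; ring
  refine ⟨hx0, ?_, ?_, ?_, e4⟩
  · rw [hx', div_le_div_iff₀ hℓ0 (by norm_num)]
    have h1 : a * π ≤ 2 * 3.15 := mul_le_mul ha2 hpi4.le hpi.le (by norm_num)
    nlinarith
  · rw [hx', div_le_div_iff₀ hm0 hℓ0]
    have h1 : 1 * 3 ≤ a * π := mul_le_mul ha1 hpi3.le (by norm_num) ha0.le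
    nlinarith
  · rw [e4, div_le_div_iff₀ (by positivity) (by positivity)]
    have h1 : ℓ * (2 * π) ≤ m * (2 * π) := mul_le_mul_of_nonneg_right hℓm (by positivity)
    have h2 : m * (2 * π) * 1 ≤ m * (2 * π) * a := mul_le_mul_of_nonneg_left ha1 (by positivity)
    linarith

lemma ps_ux {m D x u : ℝ} (hm : 30 ≤ m) (hD : 5 ≤ D) (hDm : m ≤ 2 * D) (hx0 : 0 < x)
    (h1x2 : 1 / x ≤ m / (2 * π)) (hu : u = 68 / (2 * D) + 288 / (x * m ^ 2)) :
    u / x ≤ 18.2 := by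
  have hpi := Real.pi_pos
  have hpi5 := Real.pi_gt_d2
  have hx0' : 0 ≤ 1 / x := by positivity
  have hm0 : 0 < m := by linarith
  have hD0 : 0 < D := by linarith
  have e1 : u / x = 68 / (2 * D) * (1 / x) + 288 / m ^ 2 * (1 / x) ^ 2 := by
    rw [hu]
    have : x ≠ 0 := hx0.ne'
    field_simp
  rw [e1]
  have hb1 : 68 / (2 * D) * (1 / x) ≤ 10.83 := by
    have h4 : 68 / (2 * D) ≤ 68 / m := div_le_div_of_nonneg_left (by norm_num) hm0 hDm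
    calc 68 / (2 * D) * (1 / x) ≤ 68 / m * (m / (2 * π)) :=
          mul_le_mul h4 h1x2 hx0' (by positivity)
      _ = 68 / (2 * π) := by
          field_simp
      _ ≤ 10.83 := by
          rw [div_le_iff₀ (by positivity)]
          nlinarith
  have hb2 : 288 / m ^ 2 * (1 / x) ^ 2 ≤ 7.37 := by
    calc 288 / m ^ 2 * (1 / x) ^ 2 ≤ 288 / m ^ 2 * (m / (2 * π)) ^ 2 :=
          mul_le_mul_of_nonneg_left (pow_le_pow_left₀ hx0' h1x2 2) (by positivity)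
      _ = 72 / π ^ 2 := by
          field_simp
          norm_num
      _ ≤ 7.37 := by
          rw [div_le_iff₀ (by positivity)]
          nlinarith
  linarith

lemma ps_fin {a ℓ x u cb cc : ℝ} (ha0 : 0 < a) (hx0 : 0 < x) (hcbu : cb = x * (1 + u))
    (hu0 : 0 ≤ u) (hux : u / x ≤ 18.2) (e4 : 1 / x = ℓ / (2 * π * a)) (hcc0 : 0 < cc)
    (hcle : cc ≤ cb) (hcb1 : cb ≤ 1) :
    -(2 * π ^ 2 * ((1 - cb) / cc)) ≤ 400 - π / a * ℓ := by
  have hpi := Real.pi_pos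
  have hpi4 := Real.pi_lt_d2
  have hcb0 : 0 < cb := lt_of_lt_of_le hcc0 hcle
  have hinv : (1 - u) / x ≤ 1 / cb := by
    rw [hcbu, div_le_div_iff₀ hx0 (by positivity)]
    nlinarith [mul_nonneg hx0.le (sq_nonneg u)]
  have hcc' : (1 - cb) / cb ≤ (1 - cb) / cc :=
    div_le_div_of_nonneg_left (by linarith) hcc0 hcle
  have e2 : (1 - cb) / cb = 1 / cb - 1 := by
    field_simp
  have e3 : (1 - u) / x = 1 / x - u / x := by ring
  have h9 : ℓ / (2 * π * a) - 18.2 - 1 ≤ (1 - cb) / cc := by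
    rw [← e4]
    linarith
  have h10 : 2 * π ^ 2 * (ℓ / (2 * π * a) - 18.2 - 1) ≤ 2 * π ^ 2 * ((1 - cb) / cc) :=
    mul_le_mul_of_nonneg_left h9 (by positivity)
  have e5 : 2 * π ^ 2 * (ℓ / (2 * π * a) - 18.2 - 1) = π / a * ℓ - 38.4 * π ^ 2 := by
    field_simp
    ring
  have h12 : π ^ 2 ≤ 3.15 ^ 2 := pow_le_pow_left₀ hpi.le hpi4.le 2
  linarith

lemma par_scalar {a M K m D ν s : ℝ} (ha1 : 1 ≤ a) (ha2 : a ≤ 2) (hM : 2 ≤ M)
    (hν : 0 < ν) (hsM : s * ν = M ^ 2 - 1) (hm : 30 ≤ m) (hmM : Real.log M ≤ m) (hK : 1 ≤ K)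
    (hD : 5 ≤ D) (hDK : D ^ 2 * ν ≤ 4 * K ^ 2) (hDm : m ≤ 2 * D)
    (hL : Real.exp 200 ≤ M / (K * m)) :
    ∃ r : ℝ, 0 < r ∧ r ≤ 1 ∧ 1 / m ≤ r ^ 2 ∧
      Real.exp (-(2 * π ^ 2 * ((1 - r ^ 2) / (a * ((1 + 68 / (2 * D)) * (2 * π / Real.log
        (M / (K * m)))) + s⁻¹ * (2 * (M / (K * m) * (2 * D)) + 1) ^ 2)))) ≤ grP a M K m := by
  set L : ℝ := M / (K * m) with hLdef
  set ℓ : ℝ := Real.log L with hℓ
  have hpi := Real.pi_pos
  have hpi3 := Real.pi_gt_three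
  have hpi4 := Real.pi_lt_d2
  have hKm : 1 ≤ K * m := by nlinarith
  have hL200 : 200 ≤ ℓ := by
    rw [hℓ, Real.le_log_iff_exp_le (lt_of_lt_of_le (Real.exp_pos _) hL)]
    exact hL
  have hL0 : 0 < L := lt_of_lt_of_le (Real.exp_pos _) hL
  have hLM : L ≤ M := by
    rw [hLdef]
    exact div_le_self (by linarith) hKm
  have hℓm : ℓ ≤ m := (Real.log_le_log hL0 hLM).trans hmM
  have hs : 0 < s := by
    by_contra hc
    have : s * ν ≤ 0 := mul_nonpos_of_nonpos_of_nonneg (not_lt.mp hc) hν.le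
    nlinarith
  have hL2 : 1 ≤ L := by
    have : (1 : ℝ) ≤ Real.exp 200 := Real.one_le_exp (by norm_num)
    linarith
  have hmass := ps_mass hM hν hsM hm hK hD hDK hLdef hL2 hs
  set x : ℝ := a * (2 * π / ℓ) with hx
  have hℓ0 : 0 < ℓ := by linarith
  obtain ⟨hx0, hxle, hxm, h1x2, e4⟩ := ps_x ha1 ha2 hm hx hL200 hℓm
  set cb : ℝ := x * (1 + 68 / (2 * D)) + 288 / m ^ 2 with hcb
  set cc : ℝ := a * ((1 + 68 / (2 * D)) * (2 * π / ℓ)) + s⁻¹ * (2 * (L * (2 * D)) + 1) ^ 2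
    with hcc
  have hcle : cc ≤ cb := by
    rw [hcc, hcb, hx]
    have : a * ((1 + 68 / (2 * D)) * (2 * π / ℓ)) = a * (2 * π / ℓ) * (1 + 68 / (2 * D)) := by ring
    rw [this]
    linarith
  have hcc0 : 0 < cc := by
    rw [hcc]
    have : 0 < a * ((1 + 68 / (2 * D)) * (2 * π / ℓ)) := by positivity
    have : 0 ≤ s⁻¹ * (2 * (L * (2 * D)) + 1) ^ 2 := by positivity
    linarith
  have hcb0 : 0 < cb := lt_of_lt_of_le hcc0 hcle
  -- cb ≤ 1
  have hcb1 : cb ≤ 1 := by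
    have h1 : 68 / (2 * D) ≤ 6.8 := by
      rw [div_le_iff₀ (by linarith)]
      linarith
    have h2 : 288 / m ^ 2 ≤ 0.32 := by
      rw [div_le_iff₀ (by positivity)]
      nlinarith
    rw [hcb]
    have h3 : x * (1 + 68 / (2 * D)) ≤ 4 * 3.15 / 200 * (1 + 6.8) :=
      mul_le_mul hxle (by linarith) (by positivity) (by norm_num)
    linarith
  refine ⟨√cb, Real.sqrt_pos.2 hcb0, ?_, ?_, ?_⟩
  · rw [Real.sqrt_le_one]
    exact hcb1
  · rw [Real.sq_sqrt hcb0.le, hcb]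
    have h1 : 1 / m ≤ x := hxm
    have h2 : x ≤ x * (1 + 68 / (2 * D)) := by
      have : 0 ≤ x * (68 / (2 * D)) := by positivity
      linarith
    have h3 : 0 ≤ 288 / m ^ 2 := by positivity
    linarith
  · rw [Real.sq_sqrt hcb0.le]
    unfold grP
    refine Real.exp_le_exp.2 ?_
    -- 1/cb lower bound
    set u : ℝ := 68 / (2 * D) + 288 / (x * m ^ 2) with hu
    have hcbu : cb = x * (1 + u) := by
      rw [hcb, hu]
      have : x * m ^ 2 ≠ 0 := by positivity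
      field_simp
      ring
    have hu0 : 0 ≤ u := by positivity
    have hux : u / x ≤ 18.2 := ps_ux hm hD hDm hx0 h1x2 hu
    exact ps_fin (by linarith) hx0 hcbu hu0 hux e4 hcc0 hcle hcb1

/-- **scalar corollary** -/
theorem par_torus {N : ℕ} [NeZero N] {A : Matrix (V N) (V N) ℝ} {ν c s a M K m : ℝ} {D : ℕ}
    (hdom : Dom A ν c) (hoff : ∀ x y, x ≠ y → A x y ≤ 0)
    (ha : ∀ u, (A *ᵥ u) ⬝ᵥ u ≤ a * dirE u) (ha1 : 1 ≤ a) (ha2 : a ≤ 2) (hM : 2 ≤ M)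
    (hsM : s * ν = M ^ 2 - 1) (hm : 30 ≤ m) (hmM : Real.log M ≤ m) (hK : 1 ≤ K)
    (hD : 5 ≤ D) (hDK : (D : ℝ) ^ 2 * ν ≤ 4 * K ^ 2) (hDm : m ≤ 2 * D)
    (hL : Real.exp 200 ≤ M / (K * m)) (hN : 2 * (M / (K * m) * (2 * D) + 1) ≤ N) :
    ∃ r : ℝ, Par N A ν c s a D (2 * D) (M / (K * m)) r (grP a M K m) (rhoP c M K m) := by
  have hν := hdom.hν
  have hc := hdom.hc
  have hD' : (5 : ℝ) ≤ D := by exact_mod_cast hD
  obtain ⟨r, hr0, hr1, hrm, hr⟩ := par_scalar ha1 ha2 hM hν hsM hm hmM hK hD' hDK hDm hL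
  have hsν : M ^ 2 / 2 ≤ s * ν := by
    rw [hsM]; nlinarith
  have hM0 : 0 < M := by linarith
  refine ⟨r, hdom, hoff, ?_, by linarith, ha, by omega, by linarith, ?_, ?_, hN, hr0, hr1, hr, ?_,
    ?_⟩
  · rw [hsM]; nlinarith
  · have : √2 ≤ 2 := by
      rw [Real.sqrt_le_left (by norm_num)]
      norm_num
    nlinarith
  · refine le_trans ?_ hL
    have := Real.add_one_le_exp (200 : ℝ)
    linarith
  · unfold rhoP
    positivity
  · have h1 : (D : ℝ) ^ 4 * ν ^ 2 ≤ 16 * K ^ 4 := by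
      have h2 : ((D : ℝ) ^ 2 * ν) ^ 2 ≤ (4 * K ^ 2) ^ 2 := pow_le_pow_left₀ (by positivity) hDK 2
      nlinarith
    have hK4 : (1 : ℝ) ≤ K ^ 4 := one_le_pow₀ hK
    have hlog : 1 + Real.log (s * ν) ≤ 3 * m := by
      have h2 : Real.log (s * ν) ≤ Real.log (M ^ 2) := by
        refine Real.log_le_log (by nlinarith) ?_
        rw [hsM]; linarith
      rw [Real.log_pow] at h2
      push_cast at h2
      linarith
    have hlog0 : 0 ≤ 1 + Real.log (s * ν) := by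
      have : 0 ≤ Real.log (s * ν) := Real.log_nonneg (by rw [hsM]; nlinarith)
      linarith
    have hstep : 5100 * ((1 + c) / c) ^ 2 * (1 + (D : ℝ) ^ 4 * ν ^ 2) * (1 + Real.log (s * ν))
        / (s * ν) ≤ 5100 * ((1 + c) / c) ^ 2 * (17 * K ^ 4) * (3 * m) / (M ^ 2 / 2) := by
      refine div_le_div₀ (by positivity) ?_ (by positivity) hsν
      refine mul_le_mul ?_ hlog hlog0 (by positivity)
      exact mul_le_mul_of_nonneg_left (by linarith) (by positivity)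
    refine hstep.trans ?_
    unfold rhoP
    have e1 : (722 * ((1 + c) / c) * K ^ 2 * m / M * r) ^ 2
        = 722 ^ 2 * ((1 + c) / c) ^ 2 * K ^ 4 * m ^ 2 / M ^ 2 * r ^ 2 := by ring
    rw [e1]
    have h3 : 722 ^ 2 * ((1 + c) / c) ^ 2 * K ^ 4 * m ^ 2 / M ^ 2 * (1 / m)
        ≤ 722 ^ 2 * ((1 + c) / c) ^ 2 * K ^ 4 * m ^ 2 / M ^ 2 * r ^ 2 :=
      mul_le_mul_of_nonneg_left hrm (by positivity)
    refine le_trans ?_ h3
    have e2 : 722 ^ 2 * ((1 + c) / c) ^ 2 * K ^ 4 * m ^ 2 / M ^ 2 * (1 / m)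
        = (722 ^ 2 * m / M ^ 2) * (((1 + c) / c) ^ 2 * K ^ 4) := by
      field_simp
    have e3 : 5100 * ((1 + c) / c) ^ 2 * (17 * K ^ 4) * (3 * m) / (M ^ 2 / 2)
        = (520200 * m / M ^ 2) * (((1 + c) / c) ^ 2 * K ^ 4) := by
      field_simp
      ring
    rw [e2, e3]
    refine mul_le_mul_of_nonneg_right ?_ (by positivity)
    refine div_le_div_of_nonneg_right ?_ (by positivity)
    nlinarith

end

end Vale.Agent.P159.H363
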