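import Vale.Agent.P159.TM.H859.LogC
import Vale.Agent.P159.H37.Spec0

/-!
P159 / H363: (IN2) on the cell torus: the energy of the logarithmic cut-off in the form
`<A u, u> + |u|² / σ`.
-/

namespace Vale.Agent.P159.H363

open Finset Matrix
open Vale.Agent.P159.TM.H859 (dirE tn nz rep logCut rep_injective logCut_energy logCut_nonneg
  logCut_le_one logCut_eq_zero logCut_eq_one abs_fst_le_nz abs_snd_le_nz)
open scoped Real

variable {n : ℕ} [NeZero n]

/-- number of points of the torus at distance at most `s` -/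
lemma card_ball (x0 : ZMod n × ZMod n) {s : ℝ} (hs : 0 ≤ s) :
    ((Finset.univ.filter fun x : ZMod n × ZMod n => tn (x - x0) ≤ s).card : ℝ)
      ≤ (2 * s + 1) ^ 2 := by
  classical
  set m : ℕ := ⌊s⌋₊ with hm
  have hms : (m : ℝ) ≤ s := Nat.floor_le hs
  have h1 : (Finset.univ.filter fun x : ZMod n × ZMod n => tn (x - x0) ≤ s).card
      ≤ ((Finset.Icc (-(m : ℤ)) m) ×ˢ (Finset.Icc (-(m : ℤ)) m)).card := by
    refine Finset.card_le_card_of_injOn (fun x => rep (x - x0)) ?_ ?_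
    · intro x hx
      have hx' : tn (x - x0) ≤ s := by simpa using hx
      have a1 := (abs_fst_le_nz (rep (x - x0))).trans hx'
      have a2 := (abs_snd_le_nz (rep (x - x0))).trans hx'
      have key : ∀ a : ℤ, |(a : ℝ)| ≤ s → -(m : ℤ) ≤ a ∧ a ≤ m := by
        intro a ha
        have h2 : (a.natAbs : ℝ) ≤ s := by
          have : (a.natAbs : ℝ) = |(a : ℝ)| := Nat.cast_natAbs a |>.trans (by push_cast; rfl)
          rw [this]
          exact ha
        have h3 : a.natAbs ≤ m := Nat.le_floor h2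
        omega
      simp only [Finset.coe_product, Finset.coe_Icc, Set.mem_prod, Set.mem_Icc]
      exact ⟨key _ a1, key _ a2⟩
    · intro x _ y _ hxy
      have := rep_injective (N := n) hxy
      simpa using this
  have h2 : ((Finset.Icc (-(m : ℤ)) m) ×ˢ (Finset.Icc (-(m : ℤ)) m)).card = (2 * m + 1) ^ 2 := by
    rw [Finset.card_product, Int.card_Icc]
    have : ((m : ℤ) + 1 - -(m : ℤ)).toNat = 2 * m + 1 := by omega
    rw [this]
    ring
  rw [h2] at h1
  have h3 : ((Finset.univ.filter fun x : ZMod n × ZMod n => tn (x - x0) ≤ s).card : ℝ)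
      ≤ ((2 * m + 1 : ℕ) ^ 2 : ℕ) := by exact_mod_cast h1
  refine h3.trans ?_
  push_cast
  have h4 : (0 : ℝ) ≤ 2 * (m : ℝ) + 1 := by positivity
  exact pow_le_pow_left₀ h4 (by linarith) 2

/-- sum of squares of the cut-off -/
lemma logCut_sq (x0 : ZMod n × ZMod n) {r L : ℝ} (hr : 0 < r) (hL : 1 < L) :
    ∑ x, logCut x0 r L x ^ 2 ≤ (2 * (L * r) + 1) ^ 2 := by
  classical
  have h1 : ∑ x, logCut x0 r L x ^ 2
      ≤ ∑ x ∈ Finset.univ.filter (fun x : ZMod n × ZMod n => tn (x - x0) ≤ L * r), (1 : ℝ) := by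
    rw [← Finset.sum_filter_add_sum_filter_not Finset.univ
      (fun x : ZMod n × ZMod n => tn (x - x0) ≤ L * r)]
    have h2 : ∑ x ∈ Finset.univ.filter (fun x : ZMod n × ZMod n => ¬ tn (x - x0) ≤ L * r),
        logCut x0 r L x ^ 2 = 0 := by
      refine Finset.sum_eq_zero fun x hx => ?_
      rw [Finset.mem_filter] at hx
      rw [logCut_eq_zero hr hL (not_le.mp hx.2).le]
      norm_num
    rw [h2, add_zero]
    refine Finset.sum_le_sum fun x _ => ?_
    have a0 := logCut_nonneg x0 r L x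
    have a1 := logCut_le_one x0 r L x
    nlinarith
  refine h1.trans ?_
  rw [Finset.sum_const, nsmul_eq_mul, mul_one]
  exact card_ball x0 (by positivity)

/-- (IN2) energy of the cut-off for `Γ⁻¹ = A + 1/σ` -/
theorem cap_tor {AN Γi : Matrix (ZMod n × ZMod n) (ZMod n × ZMod n) ℝ} {a s : ℝ} (hs : 0 ≤ s)
    (ha : ∀ u, (AN *ᵥ u) ⬝ᵥ u ≤ a * dirE u) (ha0 : 0 ≤ a) (hΓ : Γi = AN + s • 1)
    (x0 : ZMod n × ZMod n) {r L : ℝ} (hr : 10 ≤ r) (hL : 2 ≤ L) (hN : 2 * (L * r + 1) ≤ n) :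
    (Γi *ᵥ logCut x0 r L) ⬝ᵥ logCut x0 r L
      ≤ a * ((1 + 68 / r) * (2 * π / Real.log L)) + s * (2 * (L * r) + 1) ^ 2 := by
  have h1 : (Γi *ᵥ logCut x0 r L) ⬝ᵥ logCut x0 r L
      = (AN *ᵥ logCut x0 r L) ⬝ᵥ logCut x0 r L + s * ∑ x, logCut x0 r L x ^ 2 := by
    rw [hΓ, add_mulVec, add_dotProduct, smul_mulVec, one_mulVec, smul_dotProduct, smul_eq_mul]
    congr 2
    simp only [dotProduct, sq]
  rw [h1]
  refine add_le_add ((ha _).trans ?_) ?_
  · exact mul_le_mul_of_nonneg_left (logCut_energy x0 hr hL hN) ha0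
  · exact mul_le_mul_of_nonneg_left (logCut_sq x0 (by linarith) (by linarith)) hs

end Vale.Agent.P159.H363
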