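import Vale.Agent.P159.H363.Cap
import Vale.Agent.P159.H363.CapTor
import Vale.Agent.P159.H462.In3b

/-!
P159 / H363: `Win` and `Geo` on the cell torus, from 462's `Dom A ν c`.
-/

namespace Vale.Agent.P159.H363

open Finset Matrix
open Vale.Agent.P159.TM.H859 (dirE tn nz rep logCut logCut_eq_one)
open Vale.Agent.P159.TM.H764 (EE cN dt)
open Vale.Agent.P159.TM.Spec (V)
open Vale.Agent.P159.H37 (qf gau)
open Vale.Agent.P159.H864 (TI sym fc mlt)
open Vale.Agent.P159.H462 (Dom ahat Gam Spr Cpr mem_box ti_ahat ti_Gam ti_Spr ti_Cpr sym_ahat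
  sym_Gam sym_Spr sym_Cpr ahat_mul Gam_mul Spr_eq in3_rows)
open scoped Real

noncomputable section

variable {N : ℕ} [NeZero N] {A : Matrix (V N) (V N) ℝ}

/-- square root of `Γ` -/
def gm (s : ℝ) (A : Matrix (V N) (V N) ℝ) : Matrix (V N) (V N) ℝ :=
  fc (fun x => √(s * (1 + s * x)⁻¹)) A

/-- square root of `C'` -/
def cgm (s : ℝ) (A : Matrix (V N) (V N) ℝ) : Matrix (V N) (V N) ℝ :=
  fc (fun x => √((1 + s * x) / x)) A

lemma ti_gm (s : ℝ) (A : Matrix (V N) (V N) ℝ) : TI (gm s A) := H864.ti_fc _ _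
lemma ti_cgm (s : ℝ) (A : Matrix (V N) (V N) ℝ) : TI (cgm s A) := H864.ti_fc _ _

lemma gm_mul {ν c s : ℝ} (h : Dom A ν c) (hs : 0 < s) : gm s A * (gm s A)ᵀ = Gam s A := by
  rw [(ti_gm s A).transpose]
  refine H864.sym_inj ((ti_gm s A).mul (ti_gm s A)) (ti_Gam _ _) fun k => ?_
  rw [H864.sym_mul (ti_gm s A) (ti_gm s A), sym_Gam]
  unfold gm
  rw [H864.sym_fc]
  have h0 := h.nn k
  exact Real.mul_self_sqrt (by positivity)

lemma cgm_mul {ν c s : ℝ} (h : Dom A ν c) (hs : 0 < s) : cgm s A * (cgm s A)ᵀ = Cpr s A := by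
  rw [(ti_cgm s A).transpose]
  refine H864.sym_inj ((ti_cgm s A).mul (ti_cgm s A)) (ti_Cpr _ _) fun k => ?_
  rw [H864.sym_mul (ti_cgm s A) (ti_cgm s A), sym_Cpr]
  unfold cgm
  rw [H864.sym_fc]
  have h0 := h.nn k
  exact Real.mul_self_sqrt (by positivity)

/-- row sums of a translation invariant matrix -/
lemma row_sum (hA : TI A) (x : V N) : ∑ y, A x y = sym A 0 := by
  rw [H864.sym_def, ← Equiv.sum_comp (Equiv.addRight x)]
  refine Finset.sum_congr rfl fun z _ => ?_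
  have h1 := hA.tr x 0 z
  rw [zero_add] at h1
  rw [Equiv.coe_addRight, h1, H864.dt_zero_left, TM.H764.cN_zero, mul_one]

/-- maximum principle: `(1 + sA)⁻¹` is entrywise nonnegative -/
lemma ahat_nonneg {ν c s : ℝ} (h : Dom A ν c) (hs : 0 < s) (hoff : ∀ x y, x ≠ y → A x y ≤ 0)
    (x y : V N) : 0 ≤ ahat s A x y := by
  classical
  set B : Matrix (V N) (V N) ℝ := 1 + s • A with hB
  have hBA : B * ahat s A = 1 := mul_eq_one_comm.mp (ahat_mul h hs)
  set u : V N → ℝ := fun z => ahat s A z y with hu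
  obtain ⟨x0, _, hx0⟩ := Finset.exists_min_image (Finset.univ : Finset (V N)) u
    ⟨x, Finset.mem_univ x⟩
  have h1 : ∑ z, B x0 z * u z = if x0 = y then 1 else 0 := by
    have := congrFun (congrFun hBA x0) y
    rw [Matrix.mul_apply, Matrix.one_apply] at this
    exact this
  have hrow : ∑ z, B x0 z = 1 := by
    have e : ∀ z, B x0 z = (1 : Matrix (V N) (V N) ℝ) x0 z + s * A x0 z := fun z => by
      rw [hB, Matrix.add_apply, Matrix.smul_apply, smul_eq_mul]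
    simp only [e]
    rw [Finset.sum_add_distrib, ← Finset.mul_sum, row_sum h.ti, h.zero]
    simp [Matrix.one_apply]
  have h2 : ∑ z, B x0 z * u z ≤ u x0 := by
    have h3 : ∑ z, B x0 z * u z = ∑ z, B x0 z * (u z - u x0) + u x0 := by
      simp only [mul_sub, Finset.sum_sub_distrib, ← Finset.sum_mul]
      rw [hrow]
      ring
    rw [h3]
    have h4 : ∑ z, B x0 z * (u z - u x0) ≤ 0 := by
      refine Finset.sum_nonpos fun z _ => ?_
      by_cases hz : x0 = z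
      · rw [← hz]; simp
      · have hb : B x0 z ≤ 0 := by
          rw [hB, Matrix.add_apply, Matrix.smul_apply, smul_eq_mul, Matrix.one_apply_ne hz,
            zero_add]
          exact mul_nonpos_of_nonneg_of_nonpos hs.le (hoff _ _ hz)
        exact mul_nonpos_of_nonpos_of_nonneg hb (by linarith [hx0 z (Finset.mem_univ z)])
    linarith
  have h5 : 0 ≤ u x0 := by
    refine le_trans ?_ h2
    rw [h1]
    split_ifs <;> norm_num
  exact h5.trans (hx0 x (Finset.mem_univ x))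

lemma ahat_row {s : ℝ} (A : Matrix (V N) (V N) ℝ) (h0 : sym A 0 = 0) (x : V N) :
    ∑ y, ahat s A x y = 1 := by
  rw [row_sum (ti_ahat s A), sym_ahat, h0]
  simp

/-- the variance increase of the cell heights -/
def vv (s ν : ℝ) (A : Matrix (V N) (V N) ℝ) : ℝ :=
  ((1 - ν⁻¹ • A) * Gam s A * (1 - ν⁻¹ • A)) 0 0

lemma ti_S {ν c : ℝ} (h : Dom A ν c) : TI (1 - ν⁻¹ • A) := TI.one.sub (h.ti.smul _)

/-- **`Win` on the cell torus** -/
theorem win_torus {ν c s : ℝ} (h : Dom A ν c) (hs : 0 < s)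
    (hoff : ∀ x y, x ≠ y → A x y ≤ 0) {γr ρ : ℝ} :
    Win (ahat s A) (1 - ν⁻¹ • A) (cgm s A) (gm s A) (vv s ν A) γr ρ (2 / (s * ν)) := by
  classical
  have hν := h.hν
  refine ⟨ahat_nonneg h hs hoff, ahat_row A h.zero, (ti_ahat s A).comm (ti_S h), ?_, ?_⟩
  · intro w
    have h1 : ∑ i, (((1 - ν⁻¹ • A) * gm s A) w i) ^ 2
        = ((((1 - ν⁻¹ • A) * gm s A) * ((1 - ν⁻¹ • A) * gm s A)ᵀ :
          Matrix (V N) (V N) ℝ)) w w := by
      rw [Matrix.mul_apply]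
      refine Finset.sum_congr rfl fun i _ => ?_
      rw [Matrix.transpose_apply, sq]
    have h2 : ((1 - ν⁻¹ • A) * gm s A) * ((1 - ν⁻¹ • A) * gm s A)ᵀ
        = (1 - ν⁻¹ • A) * Gam s A * (1 - ν⁻¹ • A) := by
      rw [transpose_mul, (ti_S h).transpose, Matrix.mul_assoc, ← Matrix.mul_assoc (gm s A),
        gm_mul h hs, ← Matrix.mul_assoc]
    rw [h1, h2]
    exact ((((ti_S h).mul (ti_Gam s A)).mul (ti_S h)).diag w)
  · intro x
    have e1 : ∀ w, ahat s A x w - ((1 - ν⁻¹ • A) * ahat s A) x w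
        = (s * ν)⁻¹ * ((1 : Matrix (V N) (V N) ℝ) x w - ahat s A x w) := by
      intro w
      have hBA : (1 + s • A) * ahat s A = 1 := mul_eq_one_comm.mp (ahat_mul h hs)
      have h1 := congrFun (congrFun hBA x) w
      rw [Matrix.add_mul, Matrix.one_mul, Matrix.add_apply, smul_mul_assoc, Matrix.smul_apply,
        smul_eq_mul] at h1
      rw [Matrix.sub_mul, Matrix.one_mul, Matrix.sub_apply, smul_mul_assoc, Matrix.smul_apply,
        smul_eq_mul, ← h1]
      field_simp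
      ring
    simp only [e1]
    have h3 : ∀ w, |(s * ν)⁻¹ * ((1 : Matrix (V N) (V N) ℝ) x w - ahat s A x w)|
        ≤ (s * ν)⁻¹ * ((1 : Matrix (V N) (V N) ℝ) x w + ahat s A x w) := by
      intro w
      rw [abs_mul, abs_of_pos (by positivity : 0 < (s * ν)⁻¹)]
      refine mul_le_mul_of_nonneg_left ?_ (by positivity)
      refine (abs_sub _ _).trans (le_of_eq ?_)
      have a1 : 0 ≤ (1 : Matrix (V N) (V N) ℝ) x w := by
        rw [Matrix.one_apply]
        split_ifs <;> norm_num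
      rw [abs_of_nonneg a1, abs_of_nonneg (ahat_nonneg h hs hoff x w)]
    refine (Finset.sum_le_sum fun w _ => h3 w).trans (le_of_eq ?_)
    rw [← Finset.mul_sum, Finset.sum_add_distrib, ahat_row A h.zero x]
    have : ∑ w, (1 : Matrix (V N) (V N) ℝ) x w = 1 := by
      simp [Matrix.one_apply]
    rw [this]
    field_simp
    norm_num

/-- the box is contained in a Euclidean ball -/
lemma tn_le_of_box {w x : V N} {D : ℕ} (hx : x ∈ H462.box w D) : tn (x - w) ≤ √2 * D := by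
  obtain ⟨h1, h2⟩ := mem_box.1 hx
  unfold tn rep nz
  have e1 : (((x - w).1.valMinAbs : ℤ) : ℝ) ^ 2 ≤ (D : ℝ) ^ 2 := by
    have h4 : (((x - w).1.valMinAbs.natAbs : ℕ) : ℝ) ≤ D := by exact_mod_cast h1
    have h5 : (((x - w).1.valMinAbs.natAbs : ℕ) : ℝ) ^ 2 = (((x - w).1.valMinAbs : ℤ) : ℝ) ^ 2 := by
      rw [Nat.cast_natAbs]
      push_cast
      exact sq_abs _
    rw [← h5]
    exact pow_le_pow_left₀ (Nat.cast_nonneg _) h4 2
  have e2 : (((x - w).2.valMinAbs : ℤ) : ℝ) ^ 2 ≤ (D : ℝ) ^ 2 := by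
    have h4 : (((x - w).2.valMinAbs.natAbs : ℕ) : ℝ) ≤ D := by exact_mod_cast h2
    have h5 : (((x - w).2.valMinAbs.natAbs : ℕ) : ℝ) ^ 2 = (((x - w).2.valMinAbs : ℤ) : ℝ) ^ 2 := by
      rw [Nat.cast_natAbs]
      push_cast
      exact sq_abs _
    rw [← h5]
    exact pow_le_pow_left₀ (Nat.cast_nonneg _) h4 2
  rw [Real.sqrt_le_left (by positivity), mul_pow, Real.sq_sqrt (by norm_num)]
  linarith

/-- **`Geo` on the cell torus** -/
theorem geo_torus {ν c s : ℝ} (h : Dom A ν c) (hs : 1 ≤ s * ν) {a : ℝ} (ha0 : 0 ≤ a)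
    (ha : ∀ u, (A *ᵥ u) ⬝ᵥ u ≤ a * dirE u) {D : ℕ} (hD : 1 ≤ D) {r₀ L : ℝ} (hr₀ : 10 ≤ r₀)
    (hDr : √2 * D ≤ r₀) (hL : 2 ≤ L) (hN : 2 * (L * r₀ + 1) ≤ N) {r γr ρ : ℝ} (hr0 : 0 < r)
    (hr1 : r ≤ 1)
    (hγ : Real.exp (-(2 * π ^ 2 * ((1 - r ^ 2) / (a * ((1 + 68 / r₀) * (2 * π / Real.log L))
      + s⁻¹ * (2 * (L * r₀) + 1) ^ 2)))) ≤ γr)
    (hρ : 5100 * ((1 + c) / c) ^ 2 * (1 + (D : ℝ) ^ 4 * ν ^ 2) * (1 + Real.log (s * ν)) / (s * ν)
      ≤ (ρ * r) ^ 2) (x : V N) :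
    Geo (ahat s A) (1 - ν⁻¹ • A) (cgm s A) (gm s A) γr ρ x (H462.box x D) := by
  have hν := h.hν
  have hs0 : 0 < s := by
    by_contra hc
    have : s * ν ≤ 0 := mul_nonpos_of_nonpos_of_nonneg (not_lt.mp hc) hν.le
    linarith
  have hxB : x ∈ H462.box x D := by
    rw [mem_box]
    simp
  refine geo_of (Γi := A + s⁻¹ • 1) (q := logCut x r₀ L) ?_ ⟨x, hxB⟩ ?_ ?_ hr0.le hr1 hγ ?_
  · rw [gm_mul h hs0]
    exact Gam_mul h hs0
  · intro y hy
    exact logCut_eq_one ((tn_le_of_box hy).trans hDr)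
  · exact cap_tor (inv_nonneg.2 hs0.le) ha ha0 rfl x hr₀ hL hN
  · intro l hl
    have h1 := in3_rows h hs hD x (cgm_mul h hs0) (ℓ := l)
      (fun y hy => by
        by_contra hc
        exact hy (hl y hc))
    have e1 : ∀ j, (l ᵥ* (ahat s A * cgm s A) - (∑ y, l y)
        • ((1 - ν⁻¹ • A) * ahat s A * cgm s A) x) j
        = ∑ y, l y * ((ahat s A * cgm s A) y j - (Spr s ν A * cgm s A) x j) := by
      intro j
      rw [Spr_eq h]
      simp only [Pi.sub_apply, Pi.smul_apply, smul_eq_mul, vecMul, dotProduct, mul_sub,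
        Finset.sum_sub_distrib, Finset.sum_mul]
    simp only [e1]
    refine h1.trans ?_
    have e2 : ∑ i, (l ᵥ* gm s A) i ^ 2 = qf (Gam s A) l := by
      rw [vecMul_sq, gm_mul h hs0, H37.qf_eq]
    rw [e2]
    exact mul_le_mul_of_nonneg_right hρ (H462.gam_psd h hs0 l)

end

end Vale.Agent.P159.H363
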