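import Vale.Agent.P159.H363.Mxl
import Vale.Agent.P159.H733.Vt2
import Vale.Agent.P159.H462.In3Sum

/-!
P159 / H363: sums of increments `∑ a_ζ (F_{x+ζ} - F_x)` of a cell field in `L²`, any law below the
typical law: the white noise part costs only the `ℓ²` norm of the coefficients.
-/

set_option linter.unusedSectionVars false

namespace Vale.Agent.P159.H363

open Finset Matrix MeasureTheory ProbabilityTheory
open Vale.Agent.P159.TM.H764 (EE)
open Vale.Agent.P159.TM.Spec (V)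
open Vale.Agent.P159.H37 (gau qf bf)
open Vale.Agent.P159.H864 (TI sym fc mlt)
open Vale.Agent.P159.H462 (Dom low EE_gap)
open Vale.Agent.P159.H963 (Pn ti_Pn sym_Pn)
open Vale.Agent.P159.H733.Torg (ip ip_zero ip_inj)
open Vale.Agent.P159.H733.Vt (zb mem_zb zero_mem_zb card_zb sum_box ip_mem_box)
open scoped Real

noncomputable section

variable {N : ℕ} [NeZero N]

/-! ### the massless Green function -/

lemma ee_le8 (k : V N) : EE k ≤ 8 := by
  unfold EE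
  have h1 : -1 ≤ TM.H764.cN k.1 := Real.neg_one_le_cos _
  have h2 : -1 ≤ TM.H764.cN k.2 := Real.neg_one_le_cos _
  linarith

/-- square root of the neutral Green function -/
def Cz (N : ℕ) [NeZero N] : Matrix (V N) (V N) ℝ :=
  mlt fun k => if k = 0 then 0 else √((EE k)⁻¹)

lemma ti_Cz : TI (Cz N) := H864.ti_mlt _

lemma sym_Cz (k : V N) : sym (Cz N) k = if k = 0 then 0 else √((EE k)⁻¹) := by
  unfold Cz
  rw [H864.sym_mlt]
  intro k
  by_cases hk : k = 0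
  · rw [if_pos hk, if_pos (by rw [hk, neg_zero])]
  · rw [if_neg hk, if_neg fun h => hk (neg_eq_zero.1 h), H864.EE_neg]

lemma ti_CCz : TI (Cz N * (Cz N)ᵀ) := by
  rw [ti_Cz.transpose]
  exact ti_Cz.mul ti_Cz

lemma sym_CCz (k : V N) : sym (Cz N * (Cz N)ᵀ) k = if k = 0 then 0 else (EE k)⁻¹ := by
  rw [ti_Cz.transpose, H864.sym_mul ti_Cz ti_Cz, sym_Cz]
  by_cases hk : k = 0
  · rw [if_pos hk, if_pos hk, mul_zero]
  · rw [if_neg hk, if_neg hk]
    exact Real.mul_self_sqrt (inv_nonneg.2 (H462.EE_nonneg k))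

/-- the site variance of the massless field -/
lemma row_Cz (v : V N) : ∑ i, Cz N v i ^ 2 ≤ 50 * (1 + Real.log (1 + (N : ℝ) ^ 2)) := by
  have hN := H864.N_pos (N := N)
  have e1 : ∑ i, Cz N v i ^ 2 = (Cz N * (Cz N)ᵀ) v v := by
    rw [Matrix.mul_apply]
    exact Finset.sum_congr rfl fun i _ => by rw [transpose_apply, pow_two]
  rw [e1, ti_CCz.diag_eq]
  have h1 : ∑ k, sym (Cz N * (Cz N)ᵀ) k ≤ 2 * ∑ k ∈ low N 9, (EE k + 16 / (N : ℝ) ^ 2)⁻¹ := by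
    have e2 : ∑ k, sym (Cz N * (Cz N)ᵀ) k = ∑ k ∈ low N 9, (EE k)⁻¹ := by
      unfold low
      rw [Finset.sum_filter]
      refine Finset.sum_congr rfl fun k _ => ?_
      rw [sym_CCz]
      by_cases hk : k = 0
      · rw [if_pos hk, if_neg fun h => h.1 hk]
      · rw [if_neg hk, if_pos ⟨hk, by linarith [ee_le8 k]⟩]
    rw [e2, Finset.mul_sum]
    refine Finset.sum_le_sum fun k hk => ?_
    have hk0 : k ≠ 0 := (Finset.mem_filter.1 hk).2.1
    have h2 := EE_gap hk0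
    have h3 : 0 < 16 / (N : ℝ) ^ 2 := by positivity
    have h4 : 0 < EE k := h3.trans_le h2
    rw [← div_eq_mul_inv, inv_eq_one_div, div_le_div_iff₀ h4 (by positivity)]
    linarith
  have h2 := H462.sum_log (N := N) (ν := 9) (m := 16 / (N : ℝ) ^ 2) (by norm_num) (by positivity)
  have h3 : Real.log (1 + 9 / (16 / (N : ℝ) ^ 2)) ≤ Real.log (1 + (N : ℝ) ^ 2) := by
    refine Real.log_le_log (by positivity) ?_
    have : 9 / (16 / (N : ℝ) ^ 2) = 9 / 16 * (N : ℝ) ^ 2 := by field_simp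
    rw [this]
    nlinarith
  have h4 : ((N : ℝ) ^ 2)⁻¹ * ∑ k, sym (Cz N * (Cz N)ᵀ) k
      ≤ ((N : ℝ) ^ 2)⁻¹ * (2 * (25 * (N : ℝ) ^ 2 * (1 + Real.log (1 + (N : ℝ) ^ 2)))) := by
    refine mul_le_mul_of_nonneg_left (h1.trans ?_) (by positivity)
    refine mul_le_mul_of_nonneg_left (h2.trans ?_) (by norm_num)
    exact mul_le_mul_of_nonneg_left (by linarith) (by positivity)
  refine h4.trans (le_of_eq ?_)
  have e3 : ((N : ℝ) ^ 2)⁻¹ * (2 * (25 * (N : ℝ) ^ 2 * (1 + Real.log (1 + (N : ℝ) ^ 2))))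
      = (((N : ℝ) ^ 2)⁻¹ * (N : ℝ) ^ 2) * (50 * (1 + Real.log (1 + (N : ℝ) ^ 2))) := by ring
  rw [e3, inv_mul_cancel₀ hN.ne', one_mul]

/-! ### increments -/

/-- coefficients of `∑ a_ζ (F_{x+ζ} - F_x)` -/
def incv (D : ℕ) (a : ℤ × ℤ → ℝ) (x : V N) : V N → ℝ := fun v =>
  ∑ ζ ∈ zb D, a ζ * ((if v = x + ip N ζ then 1 else 0) - if v = x then 1 else 0)

lemma incv_dot (D : ℕ) (a : ℤ × ℤ → ℝ) (x : V N) (F : V N → ℝ) :
    incv D a x ⬝ᵥ F = ∑ ζ ∈ zb D, a ζ * (F (x + ip N ζ) - F x) := by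
  unfold incv dotProduct
  simp only [Finset.sum_mul]
  rw [Finset.sum_comm]
  refine Finset.sum_congr rfl fun ζ _ => ?_
  have e : ∀ v, a ζ * ((if v = x + ip N ζ then (1 : ℝ) else 0) - if v = x then 1 else 0) * F v
      = a ζ * ((if v = x + ip N ζ then F v else 0) - if v = x then F v else 0) := by
    intro v
    split_ifs <;> ring
  simp only [e]
  rw [← Finset.mul_sum, Finset.sum_sub_distrib, Finset.sum_ite_eq', Finset.sum_ite_eq',
    if_pos (Finset.mem_univ _), if_pos (Finset.mem_univ _)]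

lemma incv_vecMul {I : Type*} [Fintype I] (D : ℕ) (a : ℤ × ℤ → ℝ) (x : V N)
    (C : Matrix (V N) I ℝ) (i : I) :
    (incv D a x ᵥ* C) i = ∑ ζ ∈ zb D, a ζ * (C (x + ip N ζ) i - C x i) :=
  incv_dot D a x fun v => C v i

/-- the `ℓ²` norm of the coefficients -/
lemma incv_sq {D : ℕ} (hD : 2 * D < N) (a : ℤ × ℤ → ℝ) (x : V N) :
    ∑ v, incv D a x v ^ 2 ≤ 2 * (∑ ζ ∈ zb D, a ζ ^ 2) + 2 * (∑ ζ ∈ zb D, a ζ) ^ 2 := by
  set p : V N → ℝ := fun v => ∑ ζ ∈ zb D, if v = x + ip N ζ then a ζ else 0 with hp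
  set q : V N → ℝ := fun v => if v = x then ∑ ζ ∈ zb D, a ζ else 0 with hq
  have e1 : ∀ v, incv D a x v = p v - q v := by
    intro v
    simp only [hp, hq, incv]
    have e : (if v = x then ∑ ζ ∈ zb D, a ζ else 0) = ∑ ζ ∈ zb D, if v = x then a ζ else 0 := by
      by_cases hv : v = x
      · simp [hv]
      · simp [hv]
    rw [e, ← Finset.sum_sub_distrib]
    refine Finset.sum_congr rfl fun ζ _ => ?_
    split_ifs <;> ring
  have h1 : ∑ v, p v ^ 2 = ∑ ζ ∈ zb D, a ζ ^ 2 := by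
    rw [← Finset.sum_add_sum_compl (H462.box x D), sum_box hD x]
    have e2 : ∑ v ∈ (H462.box x D)ᶜ, p v ^ 2 = 0 := by
      refine Finset.sum_eq_zero fun v hv => ?_
      have : p v = 0 := Finset.sum_eq_zero fun ζ hζ => by
        rw [if_neg]
        intro h
        rw [h] at hv
        exact Finset.mem_compl.1 hv (ip_mem_box hζ x)
      rw [this]
      norm_num
    rw [e2, add_zero]
    refine Finset.sum_congr rfl fun ζ hζ => ?_
    have : p (x + ip N ζ) = a ζ := by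
      simp only [hp]
      rw [Finset.sum_eq_single ζ]
      · rw [if_pos rfl]
      · intro ζ' hζ' hne
        rw [if_neg]
        intro h
        have h1 := mem_zb.1 hζ
        have h2 := mem_zb.1 hζ'
        exact hne (ip_inj hD h1.1 h1.2 h2.1 h2.2 (add_left_cancel h)).symm
      · intro h
        exact absurd hζ h
    rw [this]
  have h2 : ∑ v, q v ^ 2 = (∑ ζ ∈ zb D, a ζ) ^ 2 := by
    simp only [hq, ite_pow]
    simp
  have h3 : ∀ v, incv D a x v ^ 2 ≤ 2 * p v ^ 2 + 2 * q v ^ 2 := by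
    intro v
    rw [e1]
    nlinarith [sq_nonneg (p v + q v)]
  refine (Finset.sum_le_sum fun v _ => h3 v).trans (le_of_eq ?_)
  rw [Finset.sum_add_distrib, ← Finset.mul_sum, ← Finset.mul_sum, h1, h2]

/-- the massless part -/
lemma incv_Cz (D : ℕ) (a : ℤ × ℤ → ℝ) (x : V N) :
    ∑ i, (incv D a x ᵥ* Cz N) i ^ 2
      ≤ (∑ ζ ∈ zb D, |a ζ|) ^ 2 * (200 * (1 + Real.log (1 + (N : ℝ) ^ 2))) := by
  set S := ∑ ζ ∈ zb D, |a ζ| with hS
  have hS0 : 0 ≤ S := Finset.sum_nonneg fun _ _ => abs_nonneg _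
  have h1 : ∀ i, (incv D a x ᵥ* Cz N) i ^ 2
      ≤ S * ∑ ζ ∈ zb D, |a ζ| * (Cz N (x + ip N ζ) i - Cz N x i) ^ 2 := by
    intro i
    rw [incv_vecMul]
    have h := Finset.sum_mul_sq_le_sq_mul_sq (zb D) (fun ζ => √|a ζ|)
      (fun ζ => √|a ζ| * |Cz N (x + ip N ζ) i - Cz N x i|)
    have e1 : ∀ ζ, √|a ζ| * (√|a ζ| * |Cz N (x + ip N ζ) i - Cz N x i|)
        = |a ζ * (Cz N (x + ip N ζ) i - Cz N x i)| := by
      intro ζ
      rw [← mul_assoc, Real.mul_self_sqrt (abs_nonneg _), abs_mul]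
    have e2 : ∀ ζ, √|a ζ| ^ 2 = |a ζ| := fun ζ => Real.sq_sqrt (abs_nonneg _)
    have e3 : ∀ ζ, (√|a ζ| * |Cz N (x + ip N ζ) i - Cz N x i|) ^ 2
        = |a ζ| * (Cz N (x + ip N ζ) i - Cz N x i) ^ 2 := by
      intro ζ
      rw [mul_pow, e2, sq_abs]
    simp only [e1, e2, e3] at h
    refine le_trans ?_ h
    rw [← sq_abs (∑ ζ ∈ zb D, a ζ * (Cz N (x + ip N ζ) i - Cz N x i))]
    exact pow_le_pow_left₀ (abs_nonneg _) (Finset.abs_sum_le_sum_abs _ _) 2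
  have h2 : ∀ ζ, ∑ i, (Cz N (x + ip N ζ) i - Cz N x i) ^ 2
      ≤ 200 * (1 + Real.log (1 + (N : ℝ) ^ 2)) := by
    intro ζ
    have h3 : ∀ i, (Cz N (x + ip N ζ) i - Cz N x i) ^ 2
        ≤ 2 * Cz N (x + ip N ζ) i ^ 2 + 2 * Cz N x i ^ 2 := fun i => by
      nlinarith [sq_nonneg (Cz N (x + ip N ζ) i + Cz N x i)]
    refine (Finset.sum_le_sum fun i _ => h3 i).trans ?_
    rw [Finset.sum_add_distrib, ← Finset.mul_sum, ← Finset.mul_sum]
    have := row_Cz (N := N) (x + ip N ζ)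
    have := row_Cz (N := N) x
    linarith
  calc ∑ i, (incv D a x ᵥ* Cz N) i ^ 2
      ≤ ∑ i, S * ∑ ζ ∈ zb D, |a ζ| * (Cz N (x + ip N ζ) i - Cz N x i) ^ 2 :=
        Finset.sum_le_sum fun i _ => h1 i
    _ = S * ∑ ζ ∈ zb D, |a ζ| * ∑ i, (Cz N (x + ip N ζ) i - Cz N x i) ^ 2 := by
        rw [← Finset.mul_sum, Finset.sum_comm]
        simp only [Finset.mul_sum]
    _ ≤ S * ∑ ζ ∈ zb D, |a ζ| * (200 * (1 + Real.log (1 + (N : ℝ) ^ 2))) := by
        refine mul_le_mul_of_nonneg_left (Finset.sum_le_sum fun ζ _ => ?_) hS0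
        exact mul_le_mul_of_nonneg_left (h2 ζ) (abs_nonneg _)
    _ = S ^ 2 * (200 * (1 + Real.log (1 + (N : ℝ) ^ 2))) := by
        rw [← Finset.sum_mul, ← hS]
        ring

/-! ### laws below the typical law -/

/-- `B Bᵀ ≤ A⁻¹` on the neutral modes -/
def Below (A : Matrix (V N) (V N) ℝ) {I : Type*} [Fintype I] (B : Matrix (V N) I ℝ) : Prop :=
  ∀ α : V N → ℝ, ∑ i, (α ᵥ* B) i ^ 2 ≤ qf (pin A * (pin A)ᵀ) α

lemma below_pin (A : Matrix (V N) (V N) ℝ) : Below A (pin A) := fun α => by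
  rw [vecMul_sq, H37.qf_eq]

lemma qf_pin_le {A : Matrix (V N) (V N) ℝ} {ν c : ℝ} (h : Dom A ν c) (α : V N → ℝ) :
    qf (pin A * (pin A)ᵀ) α
      ≤ ν⁻¹ * ∑ v, α v ^ 2 + c⁻¹ * ∑ i, (α ᵥ* Cz N) i ^ 2 := by
  have hν := h.hν
  have hc := h.hc
  have tC := ti_CCz (N := N)
  have h1 := (H864.qf_le_iff (A := pin A * (pin A)ᵀ)
    (B := ν⁻¹ • (1 : Matrix (V N) (V N) ℝ) + c⁻¹ • (Cz N * (Cz N)ᵀ))
    (by rw [pin_mul h.ti h.nn]; exact H864.ti_fc _ _)
    ((TI.one.smul _).add (tC.smul _))).2 (fun k => by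
      rw [pin_mul h.ti h.nn, H864.sym_fc, H864.sym_add, H864.sym_smul, H864.sym_smul,
        H864.sym_one, sym_CCz, mul_one]
      by_cases hk : k = 0
      · rw [if_pos hk, hk, h.zero, _root_.inv_zero, mul_zero, add_zero]
        positivity
      · rw [if_neg hk]
        have hE : 0 < EE k := lt_of_lt_of_le (by
          have := H864.N_pos (N := N)
          positivity) (EE_gap hk)
        have h2 := h.ge k
        have h3 : 0 < ν * (c * EE k) / (ν + c * EE k) := by positivity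
        refine (inv_anti₀ h3 h2).trans (le_of_eq ?_)
        field_simp
        ring) α
  refine h1.trans (le_of_eq ?_)
  rw [H37.qf_eq, add_mulVec, dotProduct_add, smul_mulVec, smul_mulVec, dotProduct_smul,
    dotProduct_smul, one_mulVec, ← vecMul_sq, smul_eq_mul, smul_eq_mul]
  congr 2
  exact Finset.sum_congr rfl fun i _ => (pow_two _).symm

/-- **DEVL** -/
theorem dev_var {A : Matrix (V N) (V N) ℝ} {ν c : ℝ} (h : Dom A ν c) {I : Type*} [Fintype I]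
    {B : Matrix (V N) I ℝ} (hB : Below A B) {D : ℕ} (hD : 2 * D < N) (a : ℤ × ℤ → ℝ) (x : V N) :
    ∑ i, (incv D a x ᵥ* B) i ^ 2
      ≤ 2 / ν * ((∑ ζ ∈ zb D, a ζ ^ 2) + (∑ ζ ∈ zb D, a ζ) ^ 2)
        + 200 / c * (1 + Real.log (1 + (N : ℝ) ^ 2)) * (∑ ζ ∈ zb D, |a ζ|) ^ 2 := by
  have hν := h.hν
  have hc := h.hc
  refine (hB _).trans ((qf_pin_le h _).trans ?_)
  have h1 := mul_le_mul_of_nonneg_left (incv_sq hD a x) (inv_pos.2 hν).le
  have h2 := mul_le_mul_of_nonneg_left (incv_Cz D a x) (inv_pos.2 hc).le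
  refine (add_le_add h1 h2).trans (le_of_eq ?_)
  field_simp

/-- the same, norm of the increment functional -/
theorem n2_incv {A : Matrix (V N) (V N) ℝ} {ν c : ℝ} (h : Dom A ν c) {I : Type*} [Fintype I]
    {B : Matrix (V N) I ℝ} (hB : Below A B) {D : ℕ} (hD : 2 * D < N) (a : ℤ × ℤ → ℝ) (x : V N)
    {σ : ℝ} (hσ0 : 0 ≤ σ)
    (hσ : 2 / ν * ((∑ ζ ∈ zb D, a ζ ^ 2) + (∑ ζ ∈ zb D, a ζ) ^ 2)
        + 200 / c * (1 + Real.log (1 + (N : ℝ) ^ 2)) * (∑ ζ ∈ zb D, |a ζ|) ^ 2 ≤ σ ^ 2) :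
    n2 (gau I) (fun g => ((∑ ζ ∈ zb D, a ζ * ((B *ᵥ g) (x + ip N ζ) - (B *ᵥ g) x) : ℝ) : ℂ))
      ≤ σ := by
  have e : ∀ g : I → ℝ, ((∑ ζ ∈ zb D, a ζ * ((B *ᵥ g) (x + ip N ζ) - (B *ᵥ g) x) : ℝ) : ℂ)
      = (((incv D a x ᵥ* B) ⬝ᵥ g : ℝ) : ℂ) := by
    intro g
    rw [← incv_dot, dotProduct_mulVec]
  rw [n2_congr e, n2_lin]
  refine Real.sqrt_le_iff.2 ⟨hσ0, ?_⟩
  exact (dev_var h hB hD a x).trans hσ

end

end Vale.Agent.P159.H363
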