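import Vale.Agent.P159.H363.Cpn9
import Vale.Agent.P159.H816.Tyin

/-!
P159 / H363, CVPN part 10: **CVPN in the order of constants**.
-/

set_option linter.unusedSectionVars false

namespace Vale.Agent.P159.H363

open Filter Topology
open Vale.Agent.P159.TM.H764 (EE)
open Vale.Agent.P159.TM.Spec (V)
open Vale.Agent.P159.TM.SpecC (wT)
open Vale.Agent.P159.H864 (TI sym yt)
open Vale.Agent.P159.H462 (Dom)
open Vale.Agent.P159.H145 (mt)
open Vale.Agent.P159.H896 (om)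
open Vale.Agent.P159.H767 (Ref A3)
open Vale.Agent.P159.H972 (tn lg Good GP FL)
open Vale.Agent.P159.H358 (Ls exp_Ls LvR Lvl NrOne NrTwo)
open Vale.Agent.P159.H801 (Ev PS)
open Vale.Agent.P159.H816 (TyC)
open scoped Real

noncomputable section

lemma Ref.mono {N M l : ℕ} [NeZero N] [NeZero M] [NeZero (N / l)] [NeZero (M / l)]
    {hd : N / l ∣ M / l} {b τ c κ C1 η c' κ' : ℝ} (R : Ref N M l hd b τ c κ C1 η) (h0 : 0 < c')
    (h1 : c' ≤ c) (h2 : 0 < κ') (h3 : κ' ≤ κ) : Ref N M l hd b τ c' κ' C1 η :=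
  ⟨two_mono R.two h0 h1 h2 h3, dom_mono R.dom h0 h1, R.hs, R.hs', R.ha, R.sy, R.sup⟩

section lvl

variable {P : H972.Par} {b c1 C C2 L0 A' A0 : ℝ} {n m r1 r2 s : ℕ} {e T Y a : ℝ}

/-- the stiffness of `Good` against the one of the flow -/
lemma CpL.a0 (H : CpL P b c1 n m r1 r2 s e T Y a) (K : CpK P c1 C C2 L0 A' e) {a0 τ : ℝ}
    (G : GP P b a0 n e τ) : |a0 - a| ≤ 72 * e ^ (9 / 10 : ℝ) := by
  have he := H.lv.lv.e0
  have hF := (G.flat r1 H.lv.T1).1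
  rw [K.pf] at hF
  have hF2 := H.fl
  rw [K.pf] at hF2
  have h3 : 3 ≤ r1 - n := by
    have h1 := H.lv.T1.1
    have h2 : (3 : ℝ) ≤ P.kE e := by
      have h4 : P.th * Real.logb 2 (1 / e) ≤ P.kE e := Nat.le_ceil _
      have h5 : Real.log (1 / e) ≤ Real.logb 2 (1 / e) := by
        unfold Real.logb
        rw [le_div_iff₀ (Real.log_pos one_lt_two)]
        have := K.log0
        have h6 : Real.log 2 ≤ 1 := by linarith [Real.log_two_lt_d9]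
        nlinarith
      have h7 := mul_le_mul_of_nonneg_left h5 P.th0.le
      have h8 := K.E.f2
      have h9 := K.C0
      have h10 := K.CC
      linarith
    have h3 : 3 ≤ P.kE e := by exact_mod_cast h2
    omega
  have h40 : 40 ≤ tn n * (((2 ^ r1 : ℕ) : ℝ)) ^ 2 := by
    obtain ⟨j, hj⟩ := Nat.exists_eq_add_of_le H.nr.le
    rw [hj, H972.tn_mul]
    calc (40 : ℝ) ≤ 4 ^ 3 := by norm_num
      _ ≤ 4 ^ j := pow_le_pow_right₀ (by norm_num) (by omega)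
  have h2r : 2 ≤ 2 ^ r1 := by
    calc 2 = 2 ^ 1 := by norm_num
      _ ≤ 2 ^ r1 := Nat.pow_le_pow_right (by norm_num) (by omega)
  have h1 := FL.det (N := 2 ^ r1) h40 h2r hF hF2
  linarith

/-- the window `D0` -/
lemma D0_ex {A0 L : ℝ} (hA0 : 1 ≤ A0) (hL : 1 ≤ L) {n s : ℕ} (hsn : s ≤ n) :
    ∃ D0 : ℕ, A0 * L * 2 ^ n ≤ D0 * 2 ^ s ∧ (D0 : ℝ) * 2 ^ s ≤ 2 * A0 * L * 2 ^ n ∧
      (D0 : ℝ) ≤ A0 * L / ((2 : ℝ) ^ s / 2 ^ n) + 1 := by
  have h0 : 0 < A0 * L / ((2 : ℝ) ^ s / 2 ^ n) := by positivity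
  have h1 := Nat.le_ceil (A0 * L / ((2 : ℝ) ^ s / 2 ^ n))
  have h2 := (Nat.ceil_lt_add_one h0.le).le
  have hs : (0 : ℝ) < 2 ^ s := by positivity
  have hn : (0 : ℝ) < 2 ^ n := by positivity
  have hsn' : (2 : ℝ) ^ s ≤ 2 ^ n := pow_le_pow_right₀ one_le_two hsn
  have e1 : A0 * L / ((2 : ℝ) ^ s / 2 ^ n) * 2 ^ s = A0 * L * 2 ^ n := by
    field_simp
  refine ⟨⌈A0 * L / ((2 : ℝ) ^ s / 2 ^ n)⌉₊, ?_, ?_, h2⟩
  · rw [← e1]
    exact mul_le_mul_of_nonneg_right h1 hs.le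
  · have h3 := mul_le_mul_of_nonneg_right h2 hs.le
    rw [add_mul, e1, one_mul] at h3
    have h4 : (2 : ℝ) ^ s ≤ A0 * L * 2 ^ n := by
      have h5 : 1 ≤ A0 * L := by nlinarith
      calc (2 : ℝ) ^ s ≤ 1 * 2 ^ n := by rw [one_mul]; exact hsn'
        _ ≤ A0 * L * 2 ^ n := mul_le_mul_of_nonneg_right h5 hn.le
    linarith

/-- the scalar data -/
theorem CpL.cps (H : CpL P b c1 n m r1 r2 s e T Y a) (K : CpK P c1 C C2 L0 A' e) (hY : 0 ≤ Y)
    {a' : ℝ} (ha : |a' - π / 2| ≤ P.th / (32 * P.thp)) (ha1 : 1 ≤ a') (ha2 : a' ≤ 2) {D0 : ℕ}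
    (hD0 : (D0 : ℝ) ≤ A0 * Ls n s / ((2 : ℝ) ^ s / 2 ^ n) + 1) :
    CpS C C2 L0 A0 n m r1 r2 s D0 T Y a' (P.th / 2 * Real.log (1 / e)) (e ^ (22 / 25 : ℝ))
      (e ^ (P.x1 / 2)) := by
  have he := H.lv.lv.e0
  have hl := K.log0
  have hnr := H.nr
  have hrm := H.rm
  have hth := P.th0
  have hthp := P.thp0
  have h22 : e ^ (22 / 25 : ℝ) ≤ 1 / 16 := by
    have := K.E.f5
    have : 0 ≤ e ^ (9 / 10 : ℝ) := Real.rpow_nonneg he.le _
    have : 0 ≤ e ^ 2 := sq_nonneg _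
    linarith
  exact
    { T1 := H.lv.lv.t1
      T2 := H.lv.lv.t2
      sn := H.lv.lv.sn
      nr := hnr
      rm := hrm
      mr := H.mr
      L0 := K.E.f1.trans H.logL
      l8 := by
        have := H.lv.lv.lam
        have := K.E.e16
        linarith
      r2L := by
        have h1 := H.v_le
        have h2 := K.E.n4
        have h3 : e ^ (-(1 : ℝ)) ≤ Real.exp (Ls n s) := by
          rw [← exp_log_e he, one_mul]
          exact Real.exp_le_exp.2 H.logL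
        have h4 : n ≤ r2 := (Nat.le_add_right _ _).trans H.lv.T2.1
        rw [two_div h4]
        exact h1.trans (h2.trans h3)
      X := by
        have h1 := H358.TT_pow_ge H.lv.T1 he
        rw [le_div_iff₀ (by positivity)]
        refine le_trans (mul_le_mul_of_nonneg_right ?_ (by positivity)) h1
        rw [← exp_log_e he]
        refine Real.exp_le_exp.2 ((H.gn K (D := C2) (by linarith [K.C0, K.CC]) le_rfl).trans ?_)
        have : 0 ≤ P.th * Real.log (1 / e) := by positivity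
        linarith
      x := by
        have h1 := slope_num ha1 ha
        have h2 := win_log he (show n ≤ m by omega) H.w2 K.E.f3 (by linarith)
        have h3 : 0 ≤ P.th / (32 * P.thp) := by positivity
        have h4 : 0 ≤ ((m : ℝ) - n) * Real.log 4 := by
          have h5 : (n : ℝ) ≤ m := by exact_mod_cast (show n ≤ m by omega)
          exact mul_nonneg (by linarith) (Real.log_nonneg (by norm_num))
        refine (mul_le_mul h1 h2 h4 h3).trans (le_of_eq ?_)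
        field_simp
        ring
      G := by
        have h1 := H.gn K (D := C) (by linarith [K.C0]) K.CC
        have h2 := H.logL
        have h3 : P.th * Real.log (1 / e) ≤ 1 * Real.log (1 / e) :=
          mul_le_mul_of_nonneg_right (K.th1.trans K.thp1) (by linarith)
        linarith
      D0 := hD0
      a1 := ha1
      a2 := ha2
      η0 := Real.rpow_nonneg he.le _
      η1 := by linarith
      ρ0 := Real.rpow_nonneg he.le _
      Y1 := (H.v2 K).trans (Real.rpow_le_one he.le (by linarith [K.E.e16]) (by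
        have := P.x10
        positivity))
      Y0 := hY }

end lvl

/-- the constants in the order of `Ev` -/
lemma ev_cpK {b1 b2 : ℝ} (Q : ℕ) {C C2 L0 A' : ℝ} (hC : 1 ≤ C) (hC2 : C ≤ C2) (hL : 1 ≤ L0)
    (hA : 0 ≤ A') :
    Ev b1 b2 (9 / 10) Q fun P c1 => ∀ e, 0 < e → e ≤ P.es → CpK P c1 C C2 L0 A' e := by
  have hC20 : 0 < C2 := by linarith
  refine Ev.of ⟨0, fun W _ => ⟨1, one_pos, fun ys _ _ => ⟨0, fun X0 _ => ⟨1 / 100, by norm_num,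
    fun x1 hx1 hx1' => ⟨min (x1 / 40) (1 / (100 * (Q + 3))), by positivity,
    fun thp hthp hthp' => ⟨thp / 1000, by positivity, fun th hth hth' => ⟨1, fun C0 _ =>
    ⟨min (th / 100) (th / (8 * C2)), by positivity, fun c1 hc1 hc1' => ?_⟩⟩⟩⟩⟩⟩⟩⟩
  have hQ3 : (0 : ℝ) < (Q : ℝ) + 3 := by positivity
  have k1 : thp ≤ x1 / 40 := hthp'.trans (min_le_left _ _)
  have k2 : ((Q : ℝ) + 3) * thp ≤ 1 / 100 := by
    have := hthp'.trans (min_le_right _ _)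
    rw [le_div_iff₀ (by positivity)] at this
    linarith
  have k3 : c1 ≤ th / 100 := hc1'.trans (min_le_left _ _)
  have k4 : 2 * c1 * C2 ≤ th / 4 := by
    have := hc1'.trans (min_le_right _ _)
    rw [le_div_iff₀ (by positivity)] at this
    linarith
  have hq0 : ((Q + ⌈x1 / thp⌉₊ + 2 : ℕ) : ℝ) * thp ≤ x1 + (Q + 3) * thp := by
    push_cast
    have h2 : (⌈x1 / thp⌉₊ : ℝ) ≤ x1 / thp + 1 := (Nat.ceil_lt_add_one (by positivity)).le
    have h3 : (⌈x1 / thp⌉₊ : ℝ) * thp ≤ x1 + thp := by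
      calc (⌈x1 / thp⌉₊ : ℝ) * thp ≤ (x1 / thp + 1) * thp := by gcongr
        _ = x1 + thp := by field_simp
    linarith
  have hex : 2 * (th + 4 * ((Q + ⌈x1 / thp⌉₊ + 2 : ℕ) : ℝ) * thp) + x1 / 2 < 1 / 2 := by
    have e1 : 4 * ((Q + ⌈x1 / thp⌉₊ + 2 : ℕ) : ℝ) * thp =
      4 * (((Q + ⌈x1 / thp⌉₊ + 2 : ℕ) : ℝ) * thp) := by ring
    rw [e1]
    linarith
  obtain ⟨E, hE, h⟩ := mem_nhdsGT_iff_exists_Ioc_subset.1
    (cpE_ev (c1 := c1) C2 L0 A' (2 ^ (1 + 4 * (Q + ⌈x1 / thp⌉₊ + 2))) hth hthp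
      (show 9 * thp + th < x1 / 2 by linarith) (show th + 18 * c1 < thp / 400 by linarith) hex)
  have hE' : (0 : ℝ) < E := hE
  refine ⟨E, hE', fun P hP e he hee => ?_⟩
  have hK := h ⟨he, hee.trans hP.ees⟩
  refine ⟨hC, hC2, hL, hA, by rw [hP.eth]; exact k4, hc1, hP.epf, by rw [hP.eth, hP.ethp]; linarith,
    by rw [hP.ethp]; linarith, by rw [hP.ex1]; linarith, ?_⟩
  rw [hP.eth, hP.ethp, hP.ex1, hP.eq0]
  exact hK

/-- **CVPN** -/
theorem cvpn_ev {b1 b2 b : ℝ} (hb1 : 0 < b1) (hb : b1 ≤ b) (hb2 : b ≤ b2) {B : ℝ} (hB : 0 ≤ B)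
    (Q : ℕ) :
    Ev b1 b2 (9 / 10) Q fun P c1 => ∀ (n m r1 r2 s : ℕ) (e T Y a : ℝ),
      CpL P b c1 n m r1 r2 s e T Y a →
      4 ^ m / 4 ^ r2 * om (wT b (2 ^ r2)) (mt (2 ^ r2) (4 * tn m)) 1 ≤
        e ^ (-P.th) * H316.omh (2 ^ r1) (2 ^ s) b T (4 * tn m) +
        (2 : ℝ) ^ (-(((m : ℝ) - n) / 20)) * Y + ((2 : ℝ) ^ s / 2 ^ n) ^ B := by
  have hb0 : 0 < b := hb1.trans_le hb
  have hb20 : 0 < b2 := hb0.trans_le hb2
  obtain ⟨cm0, Cm, hcm0, hCm, hR⟩ := H767.ref_ev hb1 hb20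
  obtain ⟨cm, hcm⟩ : ∃ cm : ℝ, cm = min cm0 1 := ⟨_, rfl⟩
  obtain ⟨c, hc⟩ : ∃ c : ℝ, c = min (1 / (2 * b2)) 1 := ⟨_, rfl⟩
  have hcm1 : 0 < cm := by rw [hcm]; positivity
  have hc1 : 0 < c := by rw [hc]; positivity
  have hcm2 : cm ≤ 1 := by rw [hcm]; exact min_le_right _ _
  have hc2 : c ≤ 1 := by rw [hc]; exact min_le_right _ _
  obtain ⟨A0, hA0, hN⟩ := H358.nr_ev (b2 := b2) (β := B + 1 + 26) hb1 hb hb20 hc1 (by positivity)
  obtain ⟨C, C2, L0, A', hC, hC2, hL0, hA', HL⟩ := cvpn_lvl (B := B + 1) (A0 := A0)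
    (by positivity) hc1 hc2 hcm1 hcm2 hCm.le (by linarith)
  refine ((((hR (22 / 25) (by norm_num) (by norm_num) (9 / 10) Q).and
    (H816.ev_tyC (b := b) (b2 := b2) hb1 hb (by norm_num : (0 : ℝ) < 9 / 10) Q)).and
    (hN A0 le_rfl (9 / 10) (by norm_num) Q)).and (ev_cpK (b1 := b1) (b2 := b2) Q hC hC2 hL0
      hA')).mono ?_
  rintro P c1 hAdm ⟨⟨⟨⟨_, _, _, hR⟩, hT⟩, hN⟩, hK⟩
  intro n m r1 r2 s e T Y a H
  have he := H.lv.lv.e0
  have hes := H.lv.lv.ees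
  have K := hK e he hes
  have hL1 := H.one K
  have hnr := H.nr
  have hrm := H.rm
  have hmr := H.mr
  have hsn := H.lv.lv.sn
  have hsr1 : s ≤ r1 := by omega
  have hsr2 : s ≤ r2 := by omega
  have i1 : NeZero (2 ^ r1 / 2 ^ s) := H889.nz_pow hsr1
  have i2 : NeZero (2 ^ r2 / 2 ^ s) := H889.nz_pow hsr2
  have h1 : 2 ^ r1 / 2 ^ s ∣ 2 ^ r2 / 2 ^ s := H889.pow_div_dvd hsr1 (by omega)
  have h2 : 2 ^ r2 / 2 ^ s ∣ 2 ^ r2 / 2 ^ s := dvd_rfl
  have hT0 : 0 < T := (H972.tn_pos n).trans_le H.lv.lv.t1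
  have hY : 0 ≤ Y := (H864.yt_nonneg hb0.le (by
    have := H972.tn_pos n
    positivity)).trans H.lv.y1
  obtain ⟨τ0, a0, ht1, ht2, hGP⟩ := H.lv.lv.G
  have gp := hGP e le_rfl hes
  have ha0 := H.a0 K gp
  -- the references
  have hns : ((n - s : ℕ) : ℝ) ≤ e ^ (-(2 * c1)) := H.lv.lv.nR
  obtain ⟨R1, R2⟩ := hR b n s r1 r2 e T Y he hes H.lv.lv.G H.lv.T1 H.lv.T2 H.lv.lv.t1 H.lv.lv.t2
    hsn hns H.lv.y1 H.lv.y2 H.lv.Y2 h1 h2
  have hlam : (0 : ℝ) < (2 : ℝ) ^ s / 2 ^ n := by positivity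
  have hk : cm * ((2 : ℝ) ^ s / 2 ^ n) ≤ cm0 * ((2 : ℝ) ^ s / 2 ^ n) :=
    mul_le_mul_of_nonneg_right (by rw [hcm]; exact min_le_left _ _) hlam.le
  have R1' := Ref.mono R1 hc1 (by rw [hc]; exact min_le_left _ _) (by positivity) hk
  have R2' := Ref.mono R2 hc1 (by rw [hc]; exact min_le_left _ _) (by positivity) hk
  -- the slope
  have p9 : 0 < e ^ (9 / 10 : ℝ) := Real.rpow_pos_of_pos he _
  have p22 : 0 < e ^ (22 / 25 : ℝ) := Real.rpow_pos_of_pos he _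
  have f4 := K.E.f4
  have f5 := K.E.f5
  have e16 := K.E.e16
  obtain ⟨v1, v2⟩ := nu_num (n := n) (s := s) H.lv.lv.t1 H.lv.lv.t2
  have hlame := H.lv.lv.lam
  have hν : T * ((2 ^ s : ℕ) : ℝ) ^ 2 ≤ 4 * e ^ 2 := by
    refine v2.trans ?_
    have := pow_le_pow_left₀ hlam.le hlame 2
    linarith
  have hν0 : 0 < T * ((2 ^ s : ℕ) : ℝ) ^ 2 := by positivity
  obtain ⟨a', ha'⟩ : ∃ a' : ℝ, a' = a0 + 3 * e ^ (9 / 10 : ℝ) + 20 * (T * ((2 ^ s : ℕ) : ℝ) ^ 2) +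
      e ^ (22 / 25 : ℝ) := ⟨_, rfl⟩
  have hap := H.ap
  have hd : |a' - π / 2| ≤ (75 * e ^ (9 / 10 : ℝ) + 80 * e ^ 2 + e ^ (22 / 25 : ℝ)) +
      P.th / (64 * P.thp) := by
    rw [abs_le] at ha0 hap ⊢
    constructor <;> linarith
  have hth := P.th0
  have hthp := P.thp0
  have hr64 : P.th / (64 * P.thp) ≤ 1 / 64 := by
    rw [div_le_div_iff₀ (by positivity) (by norm_num)]
    linarith [K.th1]
  have hpi := Real.pi_gt_d2
  have hpi2 := Real.pi_lt_d2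
  have ha32 : |a' - π / 2| ≤ P.th / (32 * P.thp) := by
    have e1 : P.th / (32 * P.thp) = P.th / (64 * P.thp) + P.th / (64 * P.thp) := by
      field_simp
      norm_num
    rw [e1]
    linarith
  have hsq := sq_nonneg e
  have ha'2 : a' ≤ 2 := by
    have := (abs_le.1 hd).2
    linarith
  have ha01 : 1 ≤ a0 := by
    have h5 := (abs_le.1 ha0).1
    have h6 := (abs_le.1 hap).1
    linarith
  have ha02 : a0 ≤ 2 := by
    have h5 := (abs_le.1 ha0).2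
    have h6 := (abs_le.1 hap).2
    linarith
  have ha'1 : 1 ≤ a' := by
    rw [ha']
    linarith
  have hsym : ∀ r, P.TT n e r → s ≤ r → ∀ [NeZero (2 ^ r / 2 ^ s)], ∀ k,
      sym (acl (2 ^ r) (2 ^ s) b T T) k ≤ (a' - e ^ (22 / 25 : ℝ)) * EE k := by
    intro r hr hsr _ k
    have hF := (gp.flat r hr).2
    rw [K.pf] at hF
    have h5 := H375.sym_acl_topT hb0 (pow_dvd_pow 2 hsr) hT0 H.lv.lv.t2 ha01 ha02 (by linarith)
      (by nlinarith) hF k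
    refine h5.trans (le_of_eq ?_)
    rw [ha']
    ring
  -- the window
  obtain ⟨D0, d1, d2, d3⟩ := D0_ex hA0 hL1 hsn
  obtain ⟨N1, -, N2, -⟩ := hN n s e T Y r1 r2 H.lv D0 d1 d2
  have hnR : ((n : ℝ) - s) ≤ e ^ (-(2 * c1)) := by
    rw [← Nat.cast_sub hsn]
    exact hns
  have t1 := hT n e τ0 a0 he hes gp r1 H.lv.T1 s H.lv.sE H.lv.lv.ns hnR T H.lv.lv.t1 H.lv.lv.t2
  have t2 := hT n e τ0 a0 he hes gp r2 H.lv.T2 s H.lv.sE H.lv.lv.ns hnR T H.lv.lv.t1 H.lv.lv.t2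
  have M : CpM b c cm Cm (B + 1) n r1 r2 s D0 h1 h2 e T Y a' (e ^ (P.x1 / 2)) (e ^ (P.x1 / 2)) :=
    ⟨R1', R2', hsym r1 H.lv.T1 hsr1, hsym r2 H.lv.T2 hsr2, t1, t2, N1, N2, H.lv.y1, H.lv.y2⟩
  have S := H.cps (A0 := A0) K hY ha32 ha'1 ha'2 d3
  have key := HL n m r1 r2 s D0 h1 h2 b e T Y a' _ _ _ _ hb0 S M (H.cve K hY)
  refine key.trans ?_
  have ht1' : 0 < 4 * tn m := by
    have := H972.tn_pos m
    positivity
  have htT : 4 * tn m ≤ T := by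
    have h3 := four_tn_lt (n := n) (m := m) (by omega)
    have := H.lv.lv.t1
    linarith
  have o0 : 0 ≤ H316.omh (2 ^ r1) (2 ^ s) b T (4 * tn m) :=
    (omh_nonneg (t := T) hb0.le (pow_dvd_pow 2 hsr1) ht1' htT).trans
      (omh_le hb0.le (pow_dvd_pow 2 hsr1) ht1' hT0 htT)
  have g1 := mul_le_mul_of_nonneg_right (H.g_le K) o0
  have g2 : 5 * Real.exp (-((B + 1) * Ls n s)) ≤ ((2 : ℝ) ^ s / 2 ^ n) ^ B := by
    have e1 : (2 : ℝ) ^ s / 2 ^ n = Real.exp (-Ls n s) := by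
      rw [Real.exp_neg, exp_Ls, ← two_div hsn, inv_div]
    have e2 : ((2 : ℝ) ^ s / 2 ^ n) ^ B = Real.exp (-(B * Ls n s)) := by
      rw [e1, ← Real.exp_mul]
      congr 1
      ring
    have e3 : Real.exp (-((B + 1) * Ls n s)) =
        ((2 : ℝ) ^ s / 2 ^ n) * Real.exp (-(B * Ls n s)) := by
      rw [e1, ← Real.exp_add]
      congr 1
      ring
    rw [e2, e3]
    have h5 : 5 * ((2 : ℝ) ^ s / 2 ^ n) ≤ 1 := by linarith
    calc 5 * ((2 : ℝ) ^ s / 2 ^ n * Real.exp (-(B * Ls n s)))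
        = 5 * ((2 : ℝ) ^ s / 2 ^ n) * Real.exp (-(B * Ls n s)) := by ring
      _ ≤ 1 * Real.exp (-(B * Ls n s)) := mul_le_mul_of_nonneg_right h5 (Real.exp_pos _).le
      _ = _ := one_mul _
  linarith

end

end Vale.Agent.P159.H363
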