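import Vale.Agent.P159.H37.Gau

/-!
P159 / H363: linear images of the standard Gaussian measure with the same covariance have the same
law; characteristic function.
-/

namespace Vale.Agent.P159.H363

open MeasureTheory ProbabilityTheory Finset Matrix
open Vale.Agent.P159.H37 (gau)

variable {I J Λ : Type*} [Fintype I] [Fintype J] [Fintype Λ]

/-- characteristic function of the standard Gaussian measure -/
lemma gau_char (a : I → ℝ) :
    ∫ g, Complex.exp (((∑ i, a i * g i : ℝ) : ℂ) * Complex.I) ∂(gau I)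
      = Complex.exp (-(((∑ i, a i ^ 2) / 2 : ℝ) : ℂ)) := by
  unfold gau
  have hexp : ∀ g : I → ℝ, Complex.exp (((∑ i, a i * g i : ℝ) : ℂ) * Complex.I)
      = ∏ i, Complex.exp ((a i : ℂ) * (g i : ℂ) * Complex.I) := by
    intro g
    rw [← Complex.exp_sum]
    congr 1
    push_cast
    rw [Finset.sum_mul]
  simp only [hexp]
  rw [integral_fintype_prod_eq_prod (𝕜 := ℂ)
    (fun (i : I) (x : ℝ) => Complex.exp ((a i : ℂ) * (x : ℂ) * Complex.I))
    (μ := fun _ => gaussianReal 0 1)]
  have h1 : ∀ i, ∫ x : ℝ, Complex.exp ((a i : ℂ) * (x : ℂ) * Complex.I) ∂(gaussianReal 0 1)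
      = Complex.exp (-((a i ^ 2 / 2 : ℝ) : ℂ)) := by
    intro i
    have := charFun_gaussianReal (μ := 0) (v := 1) (a i)
    rw [charFun_apply_real] at this
    rw [this]
    congr 1
    push_cast
    ring
  simp only [h1]
  rw [← Complex.exp_sum]
  congr 1
  push_cast
  rw [Finset.sum_neg_distrib, Finset.sum_div]

lemma measurable_mulVec (A : Matrix Λ I ℝ) : Measurable fun g : I → ℝ => A *ᵥ g := by
  apply Continuous.measurable
  exact Continuous.matrix_mulVec continuous_const continuous_id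

instance (A : Matrix Λ I ℝ) : IsProbabilityMeasure ((gau I).map fun g => A *ᵥ g) :=
  Measure.isProbabilityMeasure_map (measurable_mulVec A).aemeasurable

lemma dual_mulVec [DecidableEq Λ] (A : Matrix Λ I ℝ) (L : StrongDual ℝ (Λ → ℝ)) (g : I → ℝ) :
    L (A *ᵥ g) = ∑ i, ((fun x => L (Pi.single x 1)) ᵥ* A) i * g i := by
  have h1 : ∀ v : Λ → ℝ, L v = (fun x => L (Pi.single x 1)) ⬝ᵥ v := by
    intro v
    conv_lhs => rw [← Finset.univ_sum_single v]
    rw [map_sum, dotProduct]
    refine Finset.sum_congr rfl fun x _ => ?_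
    have : Pi.single x (v x) = v x • (Pi.single x (1 : ℝ) : Λ → ℝ) := by
      rw [← Pi.single_smul]
      simp
    rw [this, map_smul, smul_eq_mul, mul_comm]
  rw [h1, dotProduct_mulVec]
  rfl

lemma vecMul_sq (A : Matrix Λ I ℝ) (φ : Λ → ℝ) :
    ∑ i, (φ ᵥ* A) i ^ 2 = φ ⬝ᵥ ((A * Aᵀ) *ᵥ φ) := by
  rw [← mulVec_mulVec, dotProduct_mulVec, mulVec_transpose]
  simp only [dotProduct, sq]

/-- equal covariances give equal laws -/
theorem law_eq (A : Matrix Λ I ℝ) (B : Matrix Λ J ℝ) (h : A * Aᵀ = B * Bᵀ) :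
    (gau I).map (fun g => A *ᵥ g) = (gau J).map fun g => B *ᵥ g := by
  classical
  apply Measure.ext_of_charFunDual
  funext L
  rw [charFunDual_apply, charFunDual_apply,
    integral_map (measurable_mulVec A).aemeasurable (by fun_prop),
    integral_map (measurable_mulVec B).aemeasurable (by fun_prop)]
  simp only [dual_mulVec]
  rw [gau_char, gau_char, vecMul_sq, vecMul_sq, h]

/-- equal covariances give equal integrals -/
theorem law_integral_eq {E : Type*} [NormedAddCommGroup E] [NormedSpace ℝ E]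
    (A : Matrix Λ I ℝ) (B : Matrix Λ J ℝ) (h : A * Aᵀ = B * Bᵀ)
    (f : (Λ → ℝ) → E) (hf : StronglyMeasurable f) :
    ∫ g, f (A *ᵥ g) ∂(gau I) = ∫ g, f (B *ᵥ g) ∂(gau J) := by
  rw [← integral_map (measurable_mulVec A).aemeasurable hf.aestronglyMeasurable,
    ← integral_map (measurable_mulVec B).aemeasurable hf.aestronglyMeasurable, law_eq A B h]

/-- the same with a shift -/
theorem law_integral_eq_add {E : Type*} [NormedAddCommGroup E] [NormedSpace ℝ E]
    (A : Matrix Λ I ℝ) (B : Matrix Λ J ℝ) (h : A * Aᵀ = B * Bᵀ) (x : Λ → ℝ)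
    (f : (Λ → ℝ) → E) (hf : StronglyMeasurable f) :
    ∫ g, f (x + A *ᵥ g) ∂(gau I) = ∫ g, f (x + B *ᵥ g) ∂(gau J) :=
  law_integral_eq A B h (fun y => f (x + y)) (hf.comp_measurable (by fun_prop))

end Vale.Agent.P159.H363
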