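import Vale.Agent.P159.H363.Dev

/-!
P159 / H363: the ONE-WINDOW THEOREM (V6) for the charged sector.

Level `s` field `F = ahat f + ζ`, `f = C' a`, `ζ = A g` (`a`, `g` standard Gaussian vectors).
`φ_x = z (main_x + δ_x + err_x)`, `main_x(F) = ∑_w S(x,w) e^{2πi (S F)_w}`,
`φ'_x(f) = ∑_y ahat(x,y) (P φ_y (f) + z r_y(f))`. Then `φ'_x = z (γ + κ) main'_x + small`.
-/

namespace Vale.Agent.P159.H363

open MeasureTheory ProbabilityTheory Finset Matrix
open Vale.Agent.P159.H37 (gau gau_sum gau_shift integrable_exp_norm)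
open scoped Real

variable {I J Λ : Type*} [Fintype I] [Fintype J] [Fintype Λ]

/-- the main function `∑_w S(x,w) e^{2πi (S F)_w}` -/
noncomputable def mainf (S : Matrix Λ Λ ℝ) (x : Λ) (F : Λ → ℝ) : ℂ :=
  ∑ w, (S x w : ℂ) * ee ((S *ᵥ F) w)

lemma measurable_mainf (S : Matrix Λ Λ ℝ) (x : Λ) : Measurable (mainf S x) := by
  unfold mainf
  refine Finset.measurable_fun_sum _ fun w _ => ?_
  refine Measurable.const_mul (measurable_ee.comp ?_) _
  exact (measurable_pi_apply w).comp (measurable_mulVec S)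

lemma norm_mainf_le (S : Matrix Λ Λ ℝ) (x : Λ) (F : Λ → ℝ) :
    ‖mainf S x F‖ ≤ ∑ w, |S x w| := by
  unfold mainf
  refine (norm_sum_le _ _).trans (Finset.sum_le_sum fun w _ => ?_)
  rw [norm_mul, norm_ee, mul_one, Complex.norm_real, Real.norm_eq_abs]

/-- the Gaussian operator on a pure phase -/
lemma gau_ee (v : I → ℝ) :
    ∫ g, ee (v ⬝ᵥ g) ∂(gau I) = ((Real.exp (-(2 * π ^ 2 * ∑ i, v i ^ 2)) : ℝ) : ℂ) := by
  have h := gau_char (I := I) fun i => 2 * π * v i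
  have e : ∀ g : I → ℝ, ee (v ⬝ᵥ g)
      = Complex.exp (((∑ i, (2 * π * v i) * g i : ℝ) : ℂ) * Complex.I) := by
    intro g
    unfold ee
    congr 3
    rw [dotProduct, Finset.mul_sum]
    refine Finset.sum_congr rfl fun i _ => ?_
    ring
  simp only [e]
  rw [h, ← Complex.ofReal_neg, ← Complex.ofReal_exp]
  congr 2
  rw [Finset.mul_sum, ← Finset.sum_neg_distrib, Finset.sum_div, ← Finset.sum_neg_distrib]
  refine Finset.sum_congr rfl fun i _ => ?_
  ring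

lemma mulVec_dot (M : Matrix Λ I ℝ) (g : I → ℝ) (w : Λ) : (M *ᵥ g) w = M w ⬝ᵥ g := rfl

/-- (V2): the main function is transported exactly -/
lemma Pg_mainf (F0 : Matrix Λ J ℝ) (A : Matrix Λ I ℝ) (S : Matrix Λ Λ ℝ) {v : ℝ}
    (hv : ∀ w, ∑ i, ((S * A) w i) ^ 2 = v) (x : Λ) (a : J → ℝ) :
    Pg F0 A (mainf S x) a = ((Real.exp (-(2 * π ^ 2 * v)) : ℝ) : ℂ)
      * ∑ w, (S x w : ℂ) * ee (((S * F0) *ᵥ a) w) := by
  unfold Pg mainf
  rw [integral_finsetSum]
  · rw [Finset.mul_sum]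
    refine Finset.sum_congr rfl fun w _ => ?_
    rw [integral_const_mul]
    have e : ∀ g : I → ℝ, ee ((S *ᵥ (F0 *ᵥ a + A *ᵥ g)) w)
        = ee (((S * F0) *ᵥ a) w) * ee ((S * A) w ⬝ᵥ g) := by
      intro g
      rw [← ee_add, mulVec_add, mulVec_mulVec, mulVec_mulVec, ← mulVec_dot]
      rfl
    simp only [e]
    rw [integral_const_mul, gau_ee, hv w]
    ring
  · intro w _
    refine Integrable.const_mul ?_ _
    refine Integrable.of_bound (C := 1) ?_ (Filter.Eventually.of_forall fun g => (norm_ee _).le)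
    apply Measurable.aestronglyMeasurable
    refine measurable_ee.comp ((measurable_pi_apply w).comp ((measurable_mulVec S).comp ?_))
    exact measurable_const.add (measurable_mulVec A)

section Pg

variable {F0 : Matrix Λ J ℝ} {A : Matrix Λ I ℝ} {ψ : (Λ → ℝ) → ℂ} {C : ℝ}

lemma measurable_Pg (hψ : Measurable ψ) : Measurable fun a => Pg F0 A ψ a := by
  unfold Pg
  apply StronglyMeasurable.measurable
  apply StronglyMeasurable.integral_prod_right'
    (f := fun q : (J → ℝ) × (I → ℝ) => ψ (F0 *ᵥ q.1 + A *ᵥ q.2))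
  apply Measurable.stronglyMeasurable
  exact hψ.comp (((measurable_mulVec F0).comp measurable_fst).add
    ((measurable_mulVec A).comp measurable_snd))

lemma norm_Pg_le (hC : ∀ F, ‖ψ F‖ ≤ C) (a : J → ℝ) : ‖Pg F0 A ψ a‖ ≤ C := by
  unfold Pg
  have := norm_integral_le_of_norm_le_const (μ := gau I) (f := fun g => ψ (F0 *ᵥ a + A *ᵥ g))
    (C := C) (Filter.Eventually.of_forall fun g => hC _)
  simpa using this

lemma integrable_Pg (hψ : Measurable ψ) (hC : ∀ F, ‖ψ F‖ ≤ C) (a : J → ℝ) :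
    Integrable (fun g => ψ (F0 *ᵥ a + A *ᵥ g)) (gau I) :=
  Integrable.of_bound (C := C)
    (hψ.comp (measurable_const.add (measurable_mulVec A))).aestronglyMeasurable
    (Filter.Eventually.of_forall fun g => hC _)

lemma measurable_mass (hψ : Measurable ψ) :
    Measurable fun a : J → ℝ => ∫ g, ‖ψ (F0 *ᵥ a + A *ᵥ g)‖ ^ 2 ∂(gau I) := by
  apply StronglyMeasurable.measurable
  apply StronglyMeasurable.integral_prod_right'
    (f := fun q : (J → ℝ) × (I → ℝ) => ‖ψ (F0 *ᵥ q.1 + A *ᵥ q.2)‖ ^ 2)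
  apply Measurable.stronglyMeasurable
  exact ((hψ.comp (((measurable_mulVec F0).comp measurable_fst).add
    ((measurable_mulVec A).comp measurable_snd))).norm.pow_const 2)

lemma mass_bound (hC : ∀ F, ‖ψ F‖ ≤ C) (a : J → ℝ) :
    ‖∫ g, ‖ψ (F0 *ᵥ a + A *ᵥ g)‖ ^ 2 ∂(gau I)‖ ≤ C ^ 2 := by
  have := norm_integral_le_of_norm_le_const (μ := gau I)
    (f := fun g => ‖ψ (F0 *ᵥ a + A *ᵥ g)‖ ^ 2) (C := C ^ 2)
    (Filter.Eventually.of_forall fun g => by
      rw [norm_pow, norm_norm]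
      exact pow_le_pow_left₀ (norm_nonneg _) (hC _) 2)
  simpa using this

/-- `P` is an `L²` contraction -/
lemma Pg_contr (hψ : Measurable ψ) (hC : ∀ F, ‖ψ F‖ ≤ C) :
    ∫ a, ‖Pg F0 A ψ a‖ ^ 2 ∂(gau J)
      ≤ ∫ a, ∫ g, ‖ψ (F0 *ᵥ a + A *ᵥ g)‖ ^ 2 ∂(gau I) ∂(gau J) := by
  refine integral_mono_of_nonneg (Filter.Eventually.of_forall fun a => by positivity) ?_
    (Filter.Eventually.of_forall fun a => ?_)
  · exact Integrable.of_bound (C := C ^ 2) (measurable_mass hψ).aestronglyMeasurable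
      (Filter.Eventually.of_forall fun a => mass_bound hC a)
  · exact norm_integral_sq_le (memLp_bdd
      (hψ.comp (measurable_const.add (measurable_mulVec A))).aestronglyMeasurable fun g => hC _)

end Pg

/-- hypotheses of one window -/
structure Win (ah S : Matrix Λ Λ ℝ) (C' : Matrix Λ J ℝ) (A : Matrix Λ I ℝ) [DecidableEq I]
    (v γr ρ εS : ℝ) : Prop where
  ah0 : ∀ x y, 0 ≤ ah x y
  ah1 : ∀ x, ∑ y, ah x y = 1
  comm : ah * S = S * ah
  /-- `(S Γ S)(w,w) = v` -/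
  var : ∀ w, ∑ i, ((S * A) w i) ^ 2 = v
  /-- `ahat - S'` has small row sums -/
  rows : ∀ x, ∑ w, |ah x w - (S * ah) x w| ≤ εS

/-- local geometry at the site `x`: gain mode `e` (value `τ` on `B`), reduced mode `r`, and the
comparison of `ahat f - (S' f)_x` with the reduced noise -/
structure Geo (ah S : Matrix Λ Λ ℝ) (C' : Matrix Λ J ℝ) (A : Matrix Λ I ℝ) [DecidableEq I]
    (γr ρ : ℝ) (x : Λ) (B : Finset Λ) : Prop where
  ex : ∃ (e : I → ℝ) (τ r : ℝ) (T : Matrix I J ℝ), e ⬝ᵥ e = 1 ∧ (∀ y ∈ B, (A *ᵥ e) y = τ) ∧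
    Real.exp (-(2 * π ^ 2 * τ ^ 2 * (1 - r ^ 2))) ≤ γr ∧
    (∀ a : J → ℝ, ∀ y ∈ B, ((ah * C') *ᵥ a) y - ((S * ah * C') *ᵥ a) x
      = ((A * sc e r) *ᵥ (T *ᵥ a)) y) ∧
    ∀ u : I → ℝ, ∑ j, (u ᵥ* T) j ^ 2 ≤ ρ ^ 2 * ∑ i, u i ^ 2

variable [DecidableEq I] {ah S : Matrix Λ Λ ℝ} {C' : Matrix Λ J ℝ} {A : Matrix Λ I ℝ}
  {v γr ρ εS : ℝ}

/-- **(V6) ONE-WINDOW THEOREM** -/
theorem one_window (hW : Win ah S C' A v γr ρ εS) (hρ0 : 0 ≤ ρ) (hεS0 : 0 ≤ εS)
    (phi : Λ → (Λ → ℝ) → ℂ) (phi' : Λ → (Λ → ℝ) → ℂ) (z : ℂ)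
    (dl er : Λ → (Λ → ℝ) → ℂ) (rr : Λ → (J → ℝ) → ℂ) (B : Λ → Finset Λ)
    (hphi : ∀ x F, phi x F = z * (mainf S x F + dl x F + er x F))
    (hflow : ∀ x a, phi' x (C' *ᵥ a)
      = ∑ y, (ah x y : ℂ) * (Pg (ah * C') A (phi y) a + z * rr y a))
    (hgeo : ∀ x, Geo ah S C' A γr ρ x (B x))
    {K : ℝ} (hdm : ∀ x, Measurable (dl x)) (hdK : ∀ x F, ‖dl x F‖ ≤ K)
    (hem : ∀ x, Measurable (er x)) (heK : ∀ x F, ‖er x F‖ ≤ K)
    (hrm : ∀ x, Measurable (rr x)) (hrK : ∀ x a, ‖rr x a‖ ≤ K)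
    (hch : ∀ x, Ch (dl x)) (hloc : ∀ x, Loc (B x) (dl x))
    {d η₁ η₂ : ℝ} (hd0 : 0 ≤ d) (hη₁ : 0 ≤ η₁) (hη₂ : 0 ≤ η₂)
    (hd : ∀ x, ∫ a, ∫ g, ‖dl x ((ah * C') *ᵥ a + A *ᵥ g)‖ ^ 2 ∂(gau I) ∂(gau J) ≤ d ^ 2)
    (he1 : ∀ x, ∫ a, ∫ g, ‖er x ((ah * C') *ᵥ a + A *ᵥ g)‖ ^ 2 ∂(gau I) ∂(gau J) ≤ η₁ ^ 2)
    (he2 : ∀ x, ∫ a, ‖rr x a‖ ^ 2 ∂(gau J) ≤ η₂ ^ 2)
    (κ : ℂ) (hκ : ∀ x, kap (ah * C') A ((S * ah * C') x) (dl x) = κ) :
    (Nonempty Λ → ‖κ‖ ≤ γr * d) ∧
    ∀ x, n2 (gau J) (fun a => phi' x (C' *ᵥ a)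
        - z * ((Real.exp (-(2 * π ^ 2 * v)) : ℝ) + κ) * mainf (S * ah) x (C' *ᵥ a))
      ≤ ‖z‖ * (γr * (π * ρ + εS) * d + η₁ + η₂) := by
  classical
  set F0 : Matrix Λ J ℝ := ah * C' with hF0
  set γ : ℝ := Real.exp (-(2 * π ^ 2 * v)) with hγ
  -- kappa bound
  have hκx : ∀ x : Λ, ‖κ‖ ≤ γr * d := by
    intro x
    obtain ⟨e, τ, r, T, h1, h2, h3, h4, h5⟩ := (hgeo x).ex
    have hk := kap_le (c := (S * ah * C') x) (hch x) (hloc x) (hdm x) (hdK x) h1 h2 h4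
    rw [hκ x] at hk
    have hγr : 0 ≤ γr := (Real.exp_pos _).le.trans h3
    have h6 : ‖κ‖ ^ 2 ≤ (γr * d) ^ 2 := by
      refine hk.trans ?_
      rw [mul_pow]
      exact mul_le_mul (pow_le_pow_left₀ (Real.exp_pos _).le h3 2) (hd x)
        (integral_nonneg fun a => integral_nonneg fun g => by positivity) (by positivity)
    exact le_of_sq_le_sq h6 (by positivity)
  refine ⟨fun ⟨x⟩ => hκx x, fun x => ?_⟩
  -- the row of phases
  set ph : Λ → (J → ℝ) → ℂ := fun y a => ee (((S * ah * C') *ᵥ a) y) with hph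
  have hphm : ∀ y, Measurable (ph y) := fun y =>
    measurable_ee.comp ((measurable_pi_apply y).comp (measurable_mulVec _))
  have hph1 : ∀ y a, ‖ph y a‖ = 1 := fun y a => norm_ee _
  -- decomposition of P phi
  have hK0 : 0 ≤ K := (norm_nonneg _).trans (hdK x 0)
  have hPphi : ∀ y a, Pg F0 A (phi y) a
      = z * ((γ : ℂ) * ∑ w, (S y w : ℂ) * ph w a + Pg F0 A (dl y) a + Pg F0 A (er y) a) := by
    intro y a
    have e1 : Pg F0 A (phi y) a = z * (Pg F0 A (mainf S y) a + Pg F0 A (dl y) a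
        + Pg F0 A (er y) a) := by
      unfold Pg
      simp only [hphi]
      rw [integral_const_mul]
      congr 1
      have i1 := integrable_Pg (F0 := F0) (A := A) (measurable_mainf S y)
        (norm_mainf_le S y) a
      have i2 := integrable_Pg (F0 := F0) (A := A) (hdm y) (hdK y) a
      have i3 := integrable_Pg (F0 := F0) (A := A) (hem y) (heK y) a
      have ha := integral_add (i1.add i2) i3
      simp only [Pi.add_apply] at ha
      rw [ha, integral_add i1 i2]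
    rw [e1, Pg_mainf F0 A S hW.var y a]
    have e2 : ∀ w, ((S * F0) *ᵥ a) w = ((S * ah * C') *ᵥ a) w := by
      intro w
      rw [hF0, Matrix.mul_assoc]
    simp only [e2, hph, hγ]
  -- the decomposition of the difference
  have hdiff : ∀ a, phi' x (C' *ᵥ a) - z * ((γ : ℂ) + κ) * mainf (S * ah) x (C' *ᵥ a)
      = z * (κ * ∑ w, ((ah x w - (S * ah) x w : ℝ) : ℂ) * ph w a
        + ∑ y, (ah x y : ℂ) * ((Pg F0 A (dl y) a - κ * ph y a)
          + (Pg F0 A (er y) a + rr y a))) := by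
    intro a
    rw [hflow x a]
    simp only [hPphi]
    have hm : mainf (S * ah) x (C' *ᵥ a) = ∑ w, ((S * ah) x w : ℂ) * ph w a := by
      unfold mainf
      simp only [mulVec_mulVec, hph]
    have hsum : ∑ y, (ah x y : ℂ) * ((γ : ℂ) * ∑ w, (S y w : ℂ) * ph w a)
        = (γ : ℂ) * ∑ w, ((S * ah) x w : ℂ) * ph w a := by
      rw [← hW.comm]
      simp only [Matrix.mul_apply, Complex.ofReal_sum, Complex.ofReal_mul, Finset.mul_sum,
        Finset.sum_mul]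
      rw [Finset.sum_comm]
      refine Finset.sum_congr rfl fun w _ => Finset.sum_congr rfl fun y _ => ?_
      ring
    rw [hm]
    have e3 : ∑ y, (ah x y : ℂ) * (z * ((γ : ℂ) * ∑ w, (S y w : ℂ) * ph w a + Pg F0 A (dl y) a
          + Pg F0 A (er y) a) + z * rr y a)
        = z * (∑ y, (ah x y : ℂ) * ((γ : ℂ) * ∑ w, (S y w : ℂ) * ph w a)
          + ∑ y, (ah x y : ℂ) * (Pg F0 A (dl y) a + Pg F0 A (er y) a + rr y a)) := by
      rw [← Finset.sum_add_distrib, Finset.mul_sum]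
      refine Finset.sum_congr rfl fun y _ => ?_
      ring
    rw [e3, hsum]
    have e4 : ∑ y, (ah x y : ℂ) * ((Pg F0 A (dl y) a - κ * ph y a)
          + (Pg F0 A (er y) a + rr y a))
        = ∑ y, (ah x y : ℂ) * (Pg F0 A (dl y) a + Pg F0 A (er y) a + rr y a)
          - κ * ∑ y, (ah x y : ℂ) * ph y a := by
      rw [Finset.mul_sum, ← Finset.sum_sub_distrib]
      refine Finset.sum_congr rfl fun y _ => ?_
      ring
    have e5 : ∑ w, ((ah x w - (S * ah) x w : ℝ) : ℂ) * ph w a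
        = ∑ w, (ah x w : ℂ) * ph w a - ∑ w, ((S * ah) x w : ℂ) * ph w a := by
      rw [← Finset.sum_sub_distrib]
      refine Finset.sum_congr rfl fun w _ => ?_
      push_cast
      ring
    rw [e4, e5]
    ring
  rw [n2_congr hdiff, n2_const_mul]
  refine mul_le_mul_of_nonneg_left ?_ (norm_nonneg _)
  -- measurability
  have mA : MemLp (fun a => κ * ∑ w, ((ah x w - (S * ah) x w : ℝ) : ℂ) * ph w a) 2 (gau J) := by
    refine memLp_bdd (C := ‖κ‖ * ∑ w, |ah x w - (S * ah) x w|) ?_ fun a => ?_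
    · exact (Measurable.const_mul (Finset.measurable_fun_sum _ fun w _ =>
        (hphm w).const_mul _) _).aestronglyMeasurable
    · rw [norm_mul]
      refine mul_le_mul_of_nonneg_left ?_ (norm_nonneg _)
      refine (norm_sum_le _ _).trans (Finset.sum_le_sum fun w _ => ?_)
      rw [norm_mul, hph1, mul_one, Complex.norm_real, Real.norm_eq_abs]
  have mB1 : ∀ y, MemLp (fun a => Pg F0 A (dl y) a - κ * ph y a) 2 (gau J) := fun y =>
    (memLp_bdd (measurable_Pg (hdm y)).aestronglyMeasurable (norm_Pg_le (hdK y))).sub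
      ((memLp_bdd (hphm y).aestronglyMeasurable (fun a => (hph1 y a).le)).const_mul κ)
  have mB2 : ∀ y, MemLp (fun a => Pg F0 A (er y) a) 2 (gau J) := fun y =>
    memLp_bdd (measurable_Pg (hem y)).aestronglyMeasurable (norm_Pg_le (heK y))
  have mB3 : ∀ y, MemLp (fun a => rr y a) 2 (gau J) := fun y =>
    memLp_bdd (hrm y).aestronglyMeasurable (hrK y)
  -- bounds
  have hγr : 0 ≤ γr := by
    obtain ⟨e, τ, r, T, h1, h2, h3, h4, h5⟩ := (hgeo x).ex
    exact (Real.exp_pos _).le.trans h3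
  have bA : n2 (gau J) (fun a => κ * ∑ w, ((ah x w - (S * ah) x w : ℝ) : ℂ) * ph w a)
      ≤ γr * d * εS := by
    rw [n2_const_mul]
    refine mul_le_mul (hκx x) ?_ (n2_nonneg _) (by positivity)
    refine n2_le_const ?_ hεS0 fun a => ?_
    · exact (Finset.measurable_fun_sum _ fun w _ => (hphm w).const_mul _).aestronglyMeasurable
    · refine (norm_sum_le _ _).trans ((Finset.sum_le_sum fun w _ => ?_).trans (hW.rows x))
      rw [norm_mul, hph1, mul_one, Complex.norm_real, Real.norm_eq_abs]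
  have bB1 : ∀ y, n2 (gau J) (fun a => Pg F0 A (dl y) a - κ * ph y a) ≤ γr * (π * ρ) * d := by
    intro y
    rw [n2_le (mB1 y) (by positivity)]
    obtain ⟨e, τ, r, T, h1, h2, h3, h4, h5⟩ := (hgeo y).ex
    have hk := Vale.Agent.P159.H363.dev (c := (S * ah * C') y) (hch y) (hloc y) (hdm y) (hdK y)
      h1 h2 h4 h5
    rw [hκ y] at hk
    refine (le_of_eq ?_).trans (hk.trans ?_)
    · rfl
    · have h6 : Real.exp (-(2 * π ^ 2 * τ ^ 2 * (1 - r ^ 2))) ^ 2 ≤ γr ^ 2 :=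
        pow_le_pow_left₀ (Real.exp_pos _).le h3 2
      have h7 : (π ^ 2 / 8) * ρ ^ 2
          * ∫ a, ∫ g, ‖dl y (F0 *ᵥ a + A *ᵥ g)‖ ^ 2 ∂(gau I) ∂(gau J)
          ≤ (π * ρ) ^ 2 * d ^ 2 := by
        refine (mul_le_mul_of_nonneg_left (hd y) (by positivity)).trans ?_
        refine mul_le_mul_of_nonneg_right ?_ (sq_nonneg _)
        rw [mul_pow]
        refine mul_le_mul_of_nonneg_right ?_ (sq_nonneg _)
        have := sq_nonneg π
        linarith
      calc _ ≤ γr ^ 2 * ((π * ρ) ^ 2 * d ^ 2) :=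
            mul_le_mul h6 h7 (mul_nonneg (by positivity)
              (integral_nonneg fun a => integral_nonneg fun g => by positivity)) (by positivity)
        _ = _ := by ring
  have bB2 : ∀ y, n2 (gau J) (fun a => Pg F0 A (er y) a) ≤ η₁ := by
    intro y
    rw [n2_le (mB2 y) hη₁]
    exact (Pg_contr (hem y) (heK y)).trans (he1 y)
  have bB3 : ∀ y, n2 (gau J) (fun a => rr y a) ≤ η₂ := by
    intro y
    rw [n2_le (mB3 y) hη₂]
    exact he2 y
  have mB : ∀ y, MemLp (fun a => (Pg F0 A (dl y) a - κ * ph y a)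
      + (Pg F0 A (er y) a + rr y a)) 2 (gau J) := fun y => (mB1 y).add ((mB2 y).add (mB3 y))
  have bB : ∀ y, n2 (gau J) (fun a => (Pg F0 A (dl y) a - κ * ph y a)
      + (Pg F0 A (er y) a + rr y a)) ≤ γr * (π * ρ) * d + (η₁ + η₂) := by
    intro y
    refine (n2_add_le (mB1 y) ((mB2 y).add (mB3 y))).trans (add_le_add (bB1 y) ?_)
    exact (n2_add_le (mB2 y) (mB3 y)).trans (add_le_add (bB2 y) (bB3 y))
  have bS : n2 (gau J) (fun a => ∑ y, (ah x y : ℂ) * ((Pg F0 A (dl y) a - κ * ph y a)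
      + (Pg F0 A (er y) a + rr y a))) ≤ γr * (π * ρ) * d + (η₁ + η₂) := by
    refine (n2_comb_le Finset.univ (fun y _ => mB y) (fun y => (ah x y : ℂ))
      (fun y _ => bB y)).trans (le_of_eq ?_)
    have : ∑ y, ‖(ah x y : ℂ)‖ = 1 := by
      rw [← hW.ah1 x]
      refine Finset.sum_congr rfl fun y _ => ?_
      rw [Complex.norm_real, Real.norm_eq_abs, abs_of_nonneg (hW.ah0 x y)]
    rw [this, one_mul]
  have mS : MemLp (fun a => ∑ y, (ah x y : ℂ) * ((Pg F0 A (dl y) a - κ * ph y a)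
      + (Pg F0 A (er y) a + rr y a))) 2 (gau J) :=
    memLp_sum Finset.univ fun y _ => (mB y).const_mul _
  refine (n2_add_le mA mS).trans ((add_le_add bA bS).trans (le_of_eq ?_))
  ring

end Vale.Agent.P159.H363
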