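import Vale.Agent.P159.H363.Pob
import Vale.Agent.P159.H114.Joint

/-!
P159 / H363: POINCARE + BESSEL, second part: Bessel inequality, rotation, assembly.
-/

namespace Vale.Agent.P159.H363

open MeasureTheory ProbabilityTheory Finset Matrix
open Vale.Agent.P159.H37 (gau gau_sum gau_shift integrable_exp_norm)
open scoped Real

variable {I J : Type*} [Fintype I] [Fintype J]

/-- product of bounded and affine -/
lemma integrable_dot (v : I → ℝ) : Integrable (fun g : I → ℝ => v ⬝ᵥ g) (gau I) := by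
  refine (integrable_exp_norm (∑ i, |v i|)).mono' (measurable_dot v).aestronglyMeasurable
    (Filter.Eventually.of_forall fun g => ?_)
  rw [Real.norm_eq_abs]
  refine (abs_dot_le v g (fun i => Finset.single_le_sum (f := fun i => |v i|)
    (fun i _ => abs_nonneg _) (Finset.mem_univ i))).trans ?_
  have := Real.add_one_le_exp ((∑ i, |v i|) * ∑ i, |g i|)
  linarith

lemma integrable_dot_sq (v : I → ℝ) : Integrable (fun g : I → ℝ => (v ⬝ᵥ g) ^ 2) (gau I) := by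
  refine (integrable_exp_norm (2 * ∑ i, |v i|)).mono' ((measurable_dot v).pow_const 2).aestronglyMeasurable
    (Filter.Eventually.of_forall fun g => ?_)
  rw [Real.norm_eq_abs, abs_pow]
  have h1 := abs_dot_le v g (fun i => Finset.single_le_sum (f := fun i => |v i|)
    (fun i _ => abs_nonneg _) (Finset.mem_univ i))
  have h2 := Real.add_one_le_exp ((∑ i, |v i|) * ∑ i, |g i|)
  have h3 : |v ⬝ᵥ g| ≤ Real.exp ((∑ i, |v i|) * ∑ i, |g i|) := by linarith
  calc |v ⬝ᵥ g| ^ 2 ≤ Real.exp ((∑ i, |v i|) * ∑ i, |g i|) ^ 2 :=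
        pow_le_pow_left₀ (abs_nonneg _) h3 2
    _ = _ := by
        rw [← Real.exp_nat_mul]
        congr 1
        push_cast
        ring

lemma integral_dot_sq (v : I → ℝ) : ∫ g, (v ⬝ᵥ g) ^ 2 ∂(gau I) = ∑ i, v i ^ 2 := by
  have := Vale.Agent.P159.H114.gau_cov v v
  simp only [sq]
  exact this

section bessel

variable {Ψ : (I → ℝ) → ℝ} {C : ℝ}

lemma measurable_shift (hΨ : Measurable Ψ) (y : I → ℝ) : Measurable fun g => Ψ (g + y) :=
  hΨ.comp (measurable_id.add_const y)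

lemma integrable_dot_mul (hΨ : Measurable Ψ) (hC : ∀ g, |Ψ g| ≤ C) (y w : I → ℝ) :
    Integrable (fun g => (w ⬝ᵥ g) * Ψ (g + y)) (gau I) :=
  (integrable_dot w).mul_bdd (c := C) (measurable_shift hΨ y).aestronglyMeasurable
    (Filter.Eventually.of_forall fun g => by rw [Real.norm_eq_abs]; exact hC _)

lemma integrable_sq (hΨ : Measurable Ψ) (hC : ∀ g, |Ψ g| ≤ C) (y : I → ℝ) :
    Integrable (fun g => Ψ (g + y) ^ 2) (gau I) := by
  refine Integrable.of_bound (C := C ^ 2) ((measurable_shift hΨ y).pow_const 2).aestronglyMeasurable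
    (Filter.Eventually.of_forall fun g => ?_)
  rw [Real.norm_eq_abs, abs_pow]
  exact pow_le_pow_left₀ (abs_nonneg _) (hC _) 2

/-- gradient of the smoothing -/
noncomputable def gr (Ψ : (I → ℝ) → ℝ) (y : I → ℝ) : I → ℝ := fun i => ∫ g, g i * Ψ (g + y) ∂(gau I)

lemma Ds_gr (hΨ : Measurable Ψ) (hC : ∀ g, |Ψ g| ≤ C) (y w : I → ℝ) :
    Ds Ψ y w = w ⬝ᵥ gr Ψ y := by
  classical
  unfold Ds gr
  simp only [dotProduct]
  have h : ∀ i, Integrable (fun g : I → ℝ => g i * Ψ (g + y)) (gau I) := by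
    intro i
    have := integrable_dot_mul hΨ hC y (Pi.single i 1)
    simpa [dotProduct, Pi.single_apply] using this
  simp only [Finset.sum_mul, mul_assoc]
  rw [integral_finsetSum _ fun i _ => (h i).const_mul (w i)]
  refine Finset.sum_congr rfl fun i _ => ?_
  rw [integral_const_mul]

/-- Bessel -/
lemma bessel (hΨ : Measurable Ψ) (hC : ∀ g, |Ψ g| ≤ C) (y : I → ℝ) :
    ∑ i, gr Ψ y i ^ 2 ≤ ∫ g, Ψ (g + y) ^ 2 ∂(gau I) := by
  set D := gr Ψ y with hD
  have h0 : 0 ≤ ∫ g, (Ψ (g + y) - D ⬝ᵥ g) ^ 2 ∂(gau I) := integral_nonneg fun g => sq_nonneg _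
  have e : ∀ g : I → ℝ, (Ψ (g + y) - D ⬝ᵥ g) ^ 2
      = Ψ (g + y) ^ 2 - 2 * ((D ⬝ᵥ g) * Ψ (g + y)) + (D ⬝ᵥ g) ^ 2 := fun g => by ring
  simp only [e] at h0
  have hi1 := integrable_sq hΨ hC y
  have hi2 := (integrable_dot_mul hΨ hC y D).const_mul 2
  have ha := integral_add (hi1.sub hi2) (integrable_dot_sq D)
  simp only [Pi.sub_apply] at ha
  rw [ha, integral_sub hi1 hi2, integral_const_mul, integral_dot_sq] at h0
  have h1 : ∫ g, (D ⬝ᵥ g) * Ψ (g + y) ∂(gau I) = ∑ i, D i ^ 2 := by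
    have := Ds_gr hΨ hC y D
    unfold Ds at this
    rw [this, ← hD, dotProduct]
    simp only [sq]
  rw [h1] at h0
  linarith

lemma Ds_sq_le (hΨ : Measurable Ψ) (hC : ∀ g, |Ψ g| ≤ C) (y w : I → ℝ) :
    Ds Ψ y w ^ 2 ≤ C ^ 2 * ∑ i, w i ^ 2 := by
  rw [Ds_gr hΨ hC]
  have h1 : (w ⬝ᵥ gr Ψ y) ^ 2 ≤ (∑ i, w i ^ 2) * ∑ i, gr Ψ y i ^ 2 :=
    Finset.sum_mul_sq_le_sq_mul_sq _ _ _
  have h2 : ∑ i, gr Ψ y i ^ 2 ≤ C ^ 2 := by
    refine (bessel hΨ hC y).trans ?_
    calc ∫ g, Ψ (g + y) ^ 2 ∂(gau I) ≤ ∫ _, C ^ 2 ∂(gau I) := by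
          refine integral_mono (integrable_sq hΨ hC y) (integrable_const _) fun g => ?_
          simp only
          rw [← sq_abs]
          exact pow_le_pow_left₀ (abs_nonneg _) (hC _) 2
      _ = C ^ 2 := by simp
  have h3 : 0 ≤ ∑ i, w i ^ 2 := Finset.sum_nonneg fun i _ => sq_nonneg _
  nlinarith

/-- Bessel for a random direction `T g̃` -/
lemma bessel_T (hΨ : Measurable Ψ) (hC : ∀ g, |Ψ g| ≤ C) (T : Matrix I J ℝ) {ρ : ℝ}
    (hT : ∀ v : I → ℝ, ∑ j, (v ᵥ* T) j ^ 2 ≤ ρ ^ 2 * ∑ i, v i ^ 2) (y : I → ℝ) :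
    ∫ b, Ds Ψ y (T *ᵥ b) ^ 2 ∂(gau J) ≤ ρ ^ 2 * ∫ g, Ψ (g + y) ^ 2 ∂(gau I) := by
  have h1 : ∀ b : J → ℝ, Ds Ψ y (T *ᵥ b) = (gr Ψ y ᵥ* T) ⬝ᵥ b := by
    intro b
    rw [Ds_gr hΨ hC, dotProduct_comm, dotProduct_mulVec]
  simp only [h1]
  rw [integral_dot_sq]
  exact (hT _).trans (mul_le_mul_of_nonneg_left (bessel hΨ hC y) (sq_nonneg _))

end bessel

section rotation

/-- rotation invariance of a pair of independent standard Gaussian vectors -/
lemma rot (θ : ℝ) (f : (J → ℝ) × (J → ℝ) → ℝ) (hf : Measurable f) :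
    ∫ p, f (cy p.1 p.2 θ, cy' p.1 p.2 θ) ∂((gau J).prod (gau J))
      = ∫ p, f p ∂((gau J).prod (gau J)) := by
  classical
  set e := (MeasurableEquiv.sumPiEquivProdPi fun _ : J ⊕ J => ℝ) with he
  have h1 := gau_sum (I₁ := J) (I₂ := J)
  -- transport to `J ⊕ J`
  have hL : ∀ F : (J → ℝ) × (J → ℝ) → ℝ, ∫ p, F p ∂((gau J).prod (gau J))
      = ∫ g, F (e g) ∂(gau (J ⊕ J)) := by
    intro F
    exact (h1.integral_comp (MeasurableEquiv.measurableEmbedding _) F).symm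
  rw [hL, hL]
  set B : Matrix (J ⊕ J) (J ⊕ J) ℝ := fromBlocks (Real.cos θ • (1 : Matrix J J ℝ))
    (Real.sin θ • (1 : Matrix J J ℝ)) (-Real.sin θ • (1 : Matrix J J ℝ))
    (Real.cos θ • (1 : Matrix J J ℝ)) with hB
  have hBB : B * Bᵀ = 1 * (1 : Matrix (J ⊕ J) (J ⊕ J) ℝ)ᵀ := by
    rw [hB, fromBlocks_transpose, fromBlocks_multiply]
    simp only [transpose_smul, transpose_one, mul_smul_comm, smul_smul, mul_one,
      ← add_smul]
    have e1 : Real.cos θ * Real.cos θ + Real.sin θ * Real.sin θ = 1 := by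
      nlinarith [Real.sin_sq_add_cos_sq θ]
    have e2 : -Real.sin θ * Real.cos θ + Real.cos θ * Real.sin θ = 0 := by ring
    have e3 : Real.cos θ * -Real.sin θ + Real.sin θ * Real.cos θ = 0 := by ring
    have e4 : -Real.sin θ * -Real.sin θ + Real.cos θ * Real.cos θ = 1 := by
      nlinarith [Real.sin_sq_add_cos_sq θ]
    rw [e1, e4]
    simp only [e2, e3, one_smul, zero_smul]
    rw [fromBlocks_one]
  have h2 := law_integral_eq B (1 : Matrix (J ⊕ J) (J ⊕ J) ℝ) hBB (fun g => f (e g))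
    (hf.comp e.measurable).stronglyMeasurable
  simp only [one_mulVec] at h2
  rw [← h2]
  refine integral_congr_ae (Filter.Eventually.of_forall fun g => ?_)
  simp only
  congr 1
  ext j
  · have : (e (B *ᵥ g)).1 j = (B *ᵥ g) (Sum.inl j) := rfl
    rw [this, hB, fromBlocks_mulVec]
    simp only [Sum.elim_inl, Pi.add_apply, smul_mulVec, one_mulVec, Pi.smul_apply, smul_eq_mul, cy]
    rfl
  · have : (e (B *ᵥ g)).2 j = (B *ᵥ g) (Sum.inr j) := rfl
    rw [this, hB, fromBlocks_mulVec]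
    simp only [Sum.elim_inr, Pi.add_apply, smul_mulVec, one_mulVec, Pi.smul_apply, smul_eq_mul, cy']
    rfl

end rotation

end Vale.Agent.P159.H363
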