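import Vale.Agent.P159.H363.Law

/-!
P159 / H363: the GAIN lemma. `ψ` has charge one and depends only on the field in `B`; `A e = τ` on
`B` for a unit vector `e` (one mode of the Gaussian field `A g` is constant `τ` on `B`). Then
`E ψ(x + A g) = exp (-2π²τ²(1-r²)) E ψ(x + A S_r g)`, `S_r` = the mode `e` reduced by the factor `r`,
and `|ψ(x + A S_r g)|` has the same law as `|ψ(x + A g)|`.
-/

namespace Vale.Agent.P159.H363

open MeasureTheory ProbabilityTheory Finset Matrix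
open Vale.Agent.P159.H37 (gau gau_sum)
open scoped Real

variable {I J Λ : Type*} [Fintype I] [Fintype J] [Fintype Λ]

/-- charge one -/
def Ch (ψ : (Λ → ℝ) → ℂ) : Prop :=
  ∀ (F : Λ → ℝ) (c : ℝ), ψ (fun x => F x + c) = Complex.exp (((2 * π * c : ℝ) : ℂ) * Complex.I) * ψ F

/-- `ψ` depends on the field in `B` only -/
def Loc (B : Finset Λ) (ψ : (Λ → ℝ) → ℂ) : Prop :=
  ∀ F F' : Λ → ℝ, (∀ x ∈ B, F x = F' x) → ψ F = ψ F'

/-- multiplication of the component along `e` by `r` -/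
def sc [DecidableEq I] (e : I → ℝ) (r : ℝ) : Matrix I I ℝ := 1 - (1 - r) • vecMulVec e e

section gaussum

/-- a Gaussian integral over `I ⊕ Unit` as an iterated integral -/
lemma integral_gau_sum {E : Type*} [NormedAddCommGroup E] [NormedSpace ℝ E] [CompleteSpace E]
    (f : (I ⊕ J → ℝ) → E) (hf : Integrable f (gau (I ⊕ J))) :
    ∫ g, f g ∂(gau (I ⊕ J)) = ∫ g, ∫ η, f (Sum.elim g η) ∂(gau J) ∂(gau I) := by
  have h1 := gau_sum (I₁ := I) (I₂ := J)
  have h2 : ∫ g, f g ∂(gau (I ⊕ J))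
      = ∫ p, f ((MeasurableEquiv.sumPiEquivProdPi fun _ : I ⊕ J => ℝ).symm p)
        ∂((gau I).prod (gau J)) := by
    rw [← h1.integral_comp (MeasurableEquiv.measurableEmbedding _)]
    simp
  have h3 : Integrable (fun p => f ((MeasurableEquiv.sumPiEquivProdPi fun _ : I ⊕ J => ℝ).symm p))
      ((gau I).prod (gau J)) := by
    rw [← h1.integrable_comp_emb (MeasurableEquiv.measurableEmbedding _)]
    refine hf.congr (Filter.Eventually.of_forall fun g => ?_)
    simp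
  rw [h2, integral_prod _ h3]
  refine integral_congr_ae (Filter.Eventually.of_forall fun g => ?_)
  refine integral_congr_ae (Filter.Eventually.of_forall fun η => ?_)
  simp only
  congr 1

end gaussum

section gain

variable [DecidableEq I]

lemma sc_mul_transpose (e : I → ℝ) (he : e ⬝ᵥ e = 1) (r : ℝ) :
    sc e r * (sc e r)ᵀ = sc e 0 * (sc e 0)ᵀ + (r ^ 2) • vecMulVec e e := by
  have ht : (vecMulVec e e)ᵀ = vecMulVec e e := by
    rw [transpose_vecMulVec]
  have hm : vecMulVec e e * vecMulVec e e = vecMulVec e e := by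
    rw [vecMulVec_mul_vecMulVec, he, one_smul]
  unfold sc
  rw [transpose_sub, transpose_smul, transpose_sub, transpose_smul, ht, transpose_one]
  simp only [sub_mul, mul_sub, one_mul, mul_one, smul_mul_assoc, mul_smul_comm, hm, smul_smul,
    sub_zero]
  module

/-- the mode `e` is split off -/
lemma split_mode {E : Type*} [NormedAddCommGroup E] [NormedSpace ℝ E] [CompleteSpace E]
    (A : Matrix Λ I ℝ) (e : I → ℝ) (he : e ⬝ᵥ e = 1) (r : ℝ) (x : Λ → ℝ) (f : (Λ → ℝ) → E)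
    (hf : StronglyMeasurable f) {C : ℝ} (hC : ∀ F, ‖f F‖ ≤ C) :
    ∫ g, f (x + (A * sc e r) *ᵥ g) ∂(gau I)
      = ∫ g, ∫ η, f (x + (A * sc e 0) *ᵥ g + (r * η ()) • (A *ᵥ e)) ∂(gau Unit) ∂(gau I) := by
  set c : Matrix Λ Unit ℝ := Matrix.of fun y _ => r * (A *ᵥ e) y with hc
  set B : Matrix Λ (I ⊕ Unit) ℝ := fromCols (A * sc e 0) c with hB
  have hcov : (A * sc e r) * (A * sc e r)ᵀ = B * Bᵀ := by
    rw [hB, transpose_fromCols, fromCols_mul_fromRows, transpose_mul, transpose_mul]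
    have h1 : A * sc e r * ((sc e r)ᵀ * Aᵀ) = A * (sc e r * (sc e r)ᵀ) * Aᵀ := by
      simp only [Matrix.mul_assoc]
    have h2 : A * sc e 0 * ((sc e 0)ᵀ * Aᵀ) = A * (sc e 0 * (sc e 0)ᵀ) * Aᵀ := by
      simp only [Matrix.mul_assoc]
    rw [h1, h2, sc_mul_transpose e he r, Matrix.mul_add, Matrix.add_mul]
    congr 1
    ext y z
    rw [Matrix.mul_smul, Matrix.smul_mul, Matrix.smul_apply, Matrix.mul_apply, Matrix.mul_apply, hc]
    simp only [Matrix.mul_apply, vecMulVec_apply, transpose_apply, of_apply,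
      Finset.univ_unique, Finset.sum_singleton, mulVec, dotProduct, smul_eq_mul]
    have : ∀ j, (∑ i, A y i * (e i * e j)) * A z j = (∑ i, A y i * e i) * (A z j * e j) := by
      intro j
      rw [Finset.sum_mul, Finset.sum_mul]
      refine Finset.sum_congr rfl fun i _ => ?_
      ring
    simp only [this]
    rw [← Finset.mul_sum]
    ring
  rw [law_integral_eq_add _ B hcov x f hf]
  have hint : Integrable (fun g : I ⊕ Unit → ℝ => f (x + B *ᵥ g)) (gau (I ⊕ Unit)) := by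
    refine Integrable.of_bound (C := C) ?_ (Filter.Eventually.of_forall fun g => hC _)
    exact (hf.comp_measurable (by
      exact (measurable_const.add (measurable_mulVec B)))).aestronglyMeasurable
  rw [integral_gau_sum _ hint]
  refine integral_congr_ae (Filter.Eventually.of_forall fun g => ?_)
  refine integral_congr_ae (Filter.Eventually.of_forall fun η => ?_)
  simp only
  congr 1
  rw [add_assoc]
  congr 1
  funext y
  have h1 : (B *ᵥ Sum.elim g η) y = ((A * sc e 0) *ᵥ g) y + (c *ᵥ η) y := by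
    rw [hB, fromCols_mulVec]
    rfl
  rw [h1]
  simp only [Pi.add_apply, Pi.smul_apply, smul_eq_mul, hc, mulVec, dotProduct, of_apply,
    Finset.univ_unique, Finset.sum_singleton]
  have : η default = η () := rfl
  rw [this]
  ring

lemma ch_loc_add {ψ : (Λ → ℝ) → ℂ} {B : Finset Λ} (hch : Ch ψ) (hloc : Loc B ψ) (F v : Λ → ℝ)
    (c : ℝ) (hv : ∀ y ∈ B, v y = c) :
    ψ (F + v) = Complex.exp (((2 * π * c : ℝ) : ℂ) * Complex.I) * ψ F := by
  rw [← hch F c]
  apply hloc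
  intro y hy
  simp only [Pi.add_apply]
  rw [hv y hy]

/-- GAIN lemma, exact form -/
theorem gain_zero (A : Matrix Λ I ℝ) (e : I → ℝ) (he : e ⬝ᵥ e = 1) (r τ : ℝ) (x : Λ → ℝ)
    {ψ : (Λ → ℝ) → ℂ} {B : Finset Λ} (hch : Ch ψ) (hloc : Loc B ψ)
    (hψ : StronglyMeasurable ψ) {C : ℝ} (hC : ∀ F, ‖ψ F‖ ≤ C)
    (hA : ∀ y ∈ B, (A *ᵥ e) y = τ) :
    ∫ g, ψ (x + (A * sc e r) *ᵥ g) ∂(gau I)
      = ((Real.exp (-(2 * π ^ 2 * τ ^ 2 * r ^ 2)) : ℝ) : ℂ)
        * ∫ g, ψ (x + (A * sc e 0) *ᵥ g) ∂(gau I) := by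
  rw [split_mode A e he r x ψ hψ hC, ← integral_const_mul]
  refine integral_congr_ae (Filter.Eventually.of_forall fun g => ?_)
  simp only
  have h1 : ∀ η : Unit → ℝ, ψ (x + (A * sc e 0) *ᵥ g + (r * η ()) • (A *ᵥ e))
      = Complex.exp (((∑ i : Unit, (2 * π * r * τ) * η i : ℝ) : ℂ) * Complex.I)
        * ψ (x + (A * sc e 0) *ᵥ g) := by
    intro η
    rw [ch_loc_add hch hloc _ _ (r * η () * τ) (fun y hy => by
      rw [Pi.smul_apply, hA y hy, smul_eq_mul])]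
    congr 3
    simp only [Finset.univ_unique, Finset.sum_singleton]
    have : η default = η () := rfl
    rw [this]
    congr 1
    ring
  simp only [h1]
  rw [integral_mul_const, gau_char (I := Unit) (fun _ => 2 * π * r * τ)]
  congr 1
  rw [← Complex.ofReal_neg, ← Complex.ofReal_exp]
  congr 2
  simp only [Finset.univ_unique, Finset.sum_singleton]
  ring

/-- GAIN lemma -/
theorem gain (A : Matrix Λ I ℝ) (e : I → ℝ) (he : e ⬝ᵥ e = 1) (r τ : ℝ) (x : Λ → ℝ)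
    {ψ : (Λ → ℝ) → ℂ} {B : Finset Λ} (hch : Ch ψ) (hloc : Loc B ψ)
    (hψ : StronglyMeasurable ψ) {C : ℝ} (hC : ∀ F, ‖ψ F‖ ≤ C)
    (hA : ∀ y ∈ B, (A *ᵥ e) y = τ) :
    ∫ g, ψ (x + A *ᵥ g) ∂(gau I)
      = ((Real.exp (-(2 * π ^ 2 * τ ^ 2 * (1 - r ^ 2))) : ℝ) : ℂ)
        * ∫ g, ψ (x + (A * sc e r) *ᵥ g) ∂(gau I) := by
  have h1 := gain_zero A e he 1 τ x hch hloc hψ hC hA
  have h2 := gain_zero A e he r τ x hch hloc hψ hC hA
  have hs : A * sc e 1 = A := by
    simp [sc]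
  rw [hs] at h1
  rw [h1, h2, ← mul_assoc, ← Complex.ofReal_mul, ← Real.exp_add]
  congr 3
  ring

/-- norms do not see the mode `e` -/
theorem norm_mode (A : Matrix Λ I ℝ) (e : I → ℝ) (he : e ⬝ᵥ e = 1) (r τ : ℝ) (x : Λ → ℝ)
    {ψ : (Λ → ℝ) → ℂ} {B : Finset Λ} (hch : Ch ψ) (hloc : Loc B ψ)
    (hψ : StronglyMeasurable ψ) {C : ℝ} (hC : ∀ F, ‖ψ F‖ ≤ C)
    (hA : ∀ y ∈ B, (A *ᵥ e) y = τ) (p : ℕ) :
    ∫ g, ‖ψ (x + (A * sc e r) *ᵥ g)‖ ^ p ∂(gau I) = ∫ g, ‖ψ (x + A *ᵥ g)‖ ^ p ∂(gau I) := by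
  have hf : StronglyMeasurable fun F => ‖ψ F‖ ^ p := hψ.norm.pow p
  have hfC : ∀ F, ‖‖ψ F‖ ^ p‖ ≤ C ^ p := by
    intro F
    rw [norm_pow, norm_norm]
    exact pow_le_pow_left₀ (norm_nonneg _) (hC F) p
  have key : ∀ r : ℝ, ∫ g, ‖ψ (x + (A * sc e r) *ᵥ g)‖ ^ p ∂(gau I)
      = ∫ g, ‖ψ (x + (A * sc e 0) *ᵥ g)‖ ^ p ∂(gau I) := by
    intro r
    rw [split_mode A e he r x _ hf hfC]
    refine integral_congr_ae (Filter.Eventually.of_forall fun g => ?_)
    simp only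
    have h1 : ∀ η : Unit → ℝ, ‖ψ (x + (A * sc e 0) *ᵥ g + (r * η ()) • (A *ᵥ e))‖ ^ p
        = ‖ψ (x + (A * sc e 0) *ᵥ g)‖ ^ p := by
      intro η
      rw [ch_loc_add hch hloc _ _ (r * η () * τ) (fun y hy => by
        rw [Pi.smul_apply, hA y hy, smul_eq_mul]), norm_mul, Complex.norm_exp_ofReal_mul_I,
        one_mul]
    simp only [h1]
    rw [integral_const]
    simp
  have hs : A * sc e 1 = A := by
    simp [sc]
  have h1 := key 1
  rw [hs] at h1
  rw [key r, h1]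

end gain

end Vale.Agent.P159.H363
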