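import Mathlib

/-!
P159 / H363: a small real-valued `L²` calculus for complex functions on a probability space.
-/

namespace Vale.Agent.P159.H363

open MeasureTheory Finset

variable {α : Type*} [MeasurableSpace α] {μ : Measure α}

/-- the `L²` norm as a real number -/
noncomputable def n2 (μ : Measure α) (u : α → ℂ) : ℝ := (eLpNorm u 2 μ).toReal

lemma n2_nonneg (u : α → ℂ) : 0 ≤ n2 μ u := ENNReal.toReal_nonneg

lemma n2_congr {u v : α → ℂ} (h : ∀ a, u a = v a) : n2 μ u = n2 μ v := by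
  have : u = v := funext h
  rw [this]

lemma n2_add_le {u v : α → ℂ} (hu : MemLp u 2 μ) (hv : MemLp v 2 μ) :
    n2 μ (fun a => u a + v a) ≤ n2 μ u + n2 μ v := by
  unfold n2
  rw [← ENNReal.toReal_add hu.eLpNorm_ne_top hv.eLpNorm_ne_top]
  refine ENNReal.toReal_mono (ENNReal.add_ne_top.2 ⟨hu.eLpNorm_ne_top, hv.eLpNorm_ne_top⟩) ?_
  exact eLpNorm_add_le hu.1 hv.1 (by norm_num)

lemma n2_const_mul (c : ℂ) (u : α → ℂ) : n2 μ (fun a => c * u a) = ‖c‖ * n2 μ u := by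
  unfold n2
  have : (fun a => c * u a) = c • u := by
    funext a
    simp [smul_eq_mul]
  rw [this, eLpNorm_const_smul, ENNReal.toReal_mul]
  simp

lemma n2_neg (u : α → ℂ) : n2 μ (fun a => -u a) = n2 μ u := by
  have h := n2_const_mul (μ := μ) (-1) u
  simpa using h

lemma n2_sub_le {u v : α → ℂ} (hu : MemLp u 2 μ) (hv : MemLp v 2 μ) :
    n2 μ (fun a => u a - v a) ≤ n2 μ u + n2 μ v := by
  have h := n2_add_le hu hv.neg
  have e : (fun a => u a + (-v) a) = fun a => u a - v a := by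
    funext a
    simp [sub_eq_add_neg]
  rw [e] at h
  have e2 : n2 μ (-v) = n2 μ v := n2_neg v
  rw [e2] at h
  exact h

lemma memLp_sum {ι : Type*} (s : Finset ι) {u : ι → α → ℂ} (hu : ∀ i ∈ s, MemLp (u i) 2 μ) :
    MemLp (fun a => ∑ i ∈ s, u i a) 2 μ :=
  memLp_finset_sum s hu

lemma n2_sum_le {ι : Type*} (s : Finset ι) {u : ι → α → ℂ} (hu : ∀ i ∈ s, MemLp (u i) 2 μ) :
    n2 μ (fun a => ∑ i ∈ s, u i a) ≤ ∑ i ∈ s, n2 μ (u i) := by
  classical
  induction s using Finset.induction_on with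
  | empty =>
    simp only [Finset.sum_empty]
    unfold n2
    simp
  | insert i s hi ih =>
    simp only [Finset.sum_insert hi]
    have h1 : MemLp (u i) 2 μ := hu i (Finset.mem_insert_self i s)
    have h2 : ∀ j ∈ s, MemLp (u j) 2 μ := fun j hj => hu j (Finset.mem_insert_of_mem hj)
    exact (n2_add_le h1 (memLp_sum s h2)).trans (by linarith [ih h2])

lemma n2_sq {u : α → ℂ} (hu : MemLp u 2 μ) : n2 μ u ^ 2 = ∫ a, ‖u a‖ ^ 2 ∂μ := by
  unfold n2
  rw [hu.eLpNorm_eq_integral_rpow_norm (by norm_num) (by norm_num)]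
  have h0 : 0 ≤ ∫ a, ‖u a‖ ^ 2 ∂μ := integral_nonneg fun a => by positivity
  have e : (∫ a, ‖u a‖ ^ (2 : ENNReal).toReal ∂μ) = ∫ a, ‖u a‖ ^ 2 ∂μ := by
    refine integral_congr_ae (Filter.Eventually.of_forall fun a => ?_)
    simp
  rw [e, ENNReal.toReal_ofReal (by positivity)]
  simp only [ENNReal.toReal_ofNat]
  rw [← Real.rpow_natCast, ← Real.rpow_mul h0]
  norm_num

lemma n2_le {u : α → ℂ} (hu : MemLp u 2 μ) {c : ℝ} (hc : 0 ≤ c) :
    n2 μ u ≤ c ↔ ∫ a, ‖u a‖ ^ 2 ∂μ ≤ c ^ 2 := by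
  rw [← n2_sq hu]
  constructor
  · intro h
    exact pow_le_pow_left₀ (n2_nonneg u) h 2
  · intro h
    exact le_of_sq_le_sq h hc

lemma memLp_bdd [IsFiniteMeasure μ] {u : α → ℂ} (hu : AEStronglyMeasurable u μ) {C : ℝ}
    (hC : ∀ a, ‖u a‖ ≤ C) : MemLp u 2 μ :=
  MemLp.of_bound hu C (Filter.Eventually.of_forall hC)

/-- convex combinations -/
lemma n2_comb_le {ι : Type*} (s : Finset ι) {u : ι → α → ℂ} (hu : ∀ i ∈ s, MemLp (u i) 2 μ)
    (c : ι → ℂ) {K : ℝ} (hK : ∀ i ∈ s, n2 μ (u i) ≤ K) :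
    n2 μ (fun a => ∑ i ∈ s, c i * u i a) ≤ (∑ i ∈ s, ‖c i‖) * K := by
  refine (n2_sum_le s (u := fun i a => c i * u i a) fun i hi => (hu i hi).const_mul (c i)).trans ?_
  rw [Finset.sum_mul]
  refine Finset.sum_le_sum fun i hi => ?_
  rw [n2_const_mul]
  exact mul_le_mul_of_nonneg_left (hK i hi) (norm_nonneg _)

/-- `n2` of a function bounded pointwise by a constant -/
lemma n2_le_const [IsProbabilityMeasure μ] {u : α → ℂ} (hu : AEStronglyMeasurable u μ) {C : ℝ}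
    (hC0 : 0 ≤ C) (hC : ∀ a, ‖u a‖ ≤ C) : n2 μ u ≤ C := by
  rw [n2_le (memLp_bdd hu hC) hC0]
  have h2 : ∀ a, ‖u a‖ ^ 2 ≤ C ^ 2 := fun a => pow_le_pow_left₀ (norm_nonneg _) (hC a) 2
  calc ∫ a, ‖u a‖ ^ 2 ∂μ ≤ ∫ _, C ^ 2 ∂μ := by
        refine integral_mono_of_nonneg (Filter.Eventually.of_forall fun a => by positivity)
          (integrable_const _) (Filter.Eventually.of_forall h2)
    _ = C ^ 2 := by simp

/-- norm of an integral, `L²` version of Jensen -/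
lemma norm_integral_sq_le [IsProbabilityMeasure μ] {u : α → ℂ} (hu : MemLp u 2 μ) :
    ‖∫ a, u a ∂μ‖ ^ 2 ≤ ∫ a, ‖u a‖ ^ 2 ∂μ := by
  have hi : Integrable u μ := hu.integrable (by norm_num)
  set m := ∫ a, ‖u a‖ ∂μ with hm
  have h1 : ‖∫ a, u a ∂μ‖ ≤ m := norm_integral_le_integral_norm _
  have h2 : Integrable (fun a => ‖u a‖ ^ 2) μ := hu.integrable_norm_pow (by norm_num)
  have h0 : 0 ≤ ∫ a, (‖u a‖ - m) ^ 2 ∂μ := integral_nonneg fun a => sq_nonneg _
  have e : ∀ a, (‖u a‖ - m) ^ 2 = (‖u a‖ ^ 2 - (2 * m) * ‖u a‖) + m ^ 2 := fun a => by ring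
  simp only [e] at h0
  have ha := integral_add (h2.sub (hi.norm.const_mul (2 * m))) (integrable_const (μ := μ) (m ^ 2))
  simp only [Pi.sub_apply] at ha
  rw [ha, integral_sub h2 (hi.norm.const_mul _), integral_const_mul, ← hm, integral_const] at h0
  simp only [probReal_univ, smul_eq_mul] at h0
  have h3 : ‖∫ a, u a ∂μ‖ ^ 2 ≤ m ^ 2 := pow_le_pow_left₀ (norm_nonneg _) h1 2
  nlinarith

end Vale.Agent.P159.H363
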