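import Vale.Agent.P159.H37.Gau

/-!
P159 / H363: vector valued Cameron-Martin and Gaussian integration by parts (Stein) for bounded
functions with bounded partial derivatives.
-/

namespace Vale.Agent.P159.H363

open MeasureTheory ProbabilityTheory Finset
open Vale.Agent.P159.H37 (gau gau_map_sub integrable_exp_norm)

variable {I : Type*} [Fintype I]
variable {E : Type*} [NormedAddCommGroup E] [NormedSpace ℝ E]

/-- Cameron-Martin, vector valued -/
lemma gau_shiftE (a : I → ℝ) (f : (I → ℝ) → E) :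
    ∫ g, f (g + a) ∂(gau I)
      = ∫ g, Real.exp ((∑ i, a i * g i) - (∑ i, a i ^ 2) / 2) • f g ∂(gau I) := by
  have hemb : MeasurableEmbedding (fun J : I → ℝ => J - -a) :=
    (MeasurableEquiv.subRight (-a)).measurableEmbedding
  have h0 : (fun g : I → ℝ => f (g + a)) = fun g => f (g - -a) := by
    funext g; rw [sub_neg_eq_add]
  rw [h0, ← hemb.integral_map (μ := gau I) f, gau_map_sub,
    integral_withDensity_eq_integral_toReal_smul (by fun_prop)
      (Filter.Eventually.of_forall fun x => ENNReal.ofReal_lt_top)]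
  apply integral_congr_ae
  refine Filter.Eventually.of_forall fun J => ?_
  simp only
  rw [ENNReal.toReal_ofReal (Real.exp_pos _).le]
  congr 2
  simp [Finset.sum_neg_distrib]

lemma abs_le_sum_abs (g : I → ℝ) (x : I) : |g x| ≤ ∑ i, |g i| :=
  Finset.single_le_sum (f := fun i => |g i|) (fun i _ => abs_nonneg _) (Finset.mem_univ x)

/-- polynomial times bounded is integrable -/
lemma integrable_coord_smul [DecidableEq I] {h : (I → ℝ) → E} (hm : AEStronglyMeasurable h (gau I))
    {K : ℝ} (hK : ∀ g, ‖h g‖ ≤ K) (x : I) : Integrable (fun g : I → ℝ => g x • h g) (gau I) := by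
  have h1 := (integrable_exp_norm (I := I) 1).mul_const K
  refine h1.mono' ?_ (Filter.Eventually.of_forall fun g => ?_)
  · exact (measurable_pi_apply x).aestronglyMeasurable.smul hm
  · rw [norm_smul, Real.norm_eq_abs]
    have h2 : |g x| ≤ Real.exp (1 * ∑ i, |g i|) := by
      have := abs_le_sum_abs g x
      have h3 := Real.add_one_le_exp (1 * ∑ i, |g i|)
      linarith
    exact mul_le_mul h2 (hK g) (norm_nonneg _) (Real.exp_pos _).le

/-- bounded continuous with bounded continuous partial derivatives `D x` -/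
structure BC1 [DecidableEq I] (Z : (I → ℝ) → E) (D : I → (I → ℝ) → E) (K : ℝ) : Prop where
  cont : Continuous Z
  dcont : ∀ x, Continuous (D x)
  bd : ∀ F, ‖Z F‖ ≤ K
  dbd : ∀ x F, ‖D x F‖ ≤ K
  der : ∀ x F (s : ℝ), HasDerivAt (fun s : ℝ => Z (F + s • Pi.single x 1))
    (D x (F + s • Pi.single x 1)) s

variable [DecidableEq I] {Z : (I → ℝ) → E} {D : I → (I → ℝ) → E} {K : ℝ}

lemma BC1.integrable (h : BC1 Z D K) (f : I → ℝ) (σ : ℝ) :
    Integrable (fun g : I → ℝ => Z (f + σ • g)) (gau I) :=
  Integrable.of_bound (C := K) (h.cont.comp (by fun_prop)).aestronglyMeasurable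
    (Filter.Eventually.of_forall fun g => h.bd _)

lemma BC1.dintegrable (h : BC1 Z D K) (x : I) (f : I → ℝ) (σ : ℝ) :
    Integrable (fun g : I → ℝ => D x (f + σ • g)) (gau I) :=
  Integrable.of_bound (C := K) ((h.dcont x).comp (by fun_prop)).aestronglyMeasurable
    (Filter.Eventually.of_forall fun g => h.dbd _ _)

/-- derivative of the Gaussian average -/
theorem BC1.hasDerivAt (h : BC1 Z D K) (f : I → ℝ) (σ : ℝ) (x : I) :
    HasDerivAt (fun s : ℝ => ∫ g, Z (f + s • Pi.single x 1 + σ • g) ∂(gau I))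
      (∫ g, D x (f + σ • g) ∂(gau I)) 0 := by
  have h1 := hasDerivAt_integral_of_dominated_loc_of_deriv_le (μ := gau I) (𝕜 := ℝ)
    (F := fun (s : ℝ) g => Z (f + s • Pi.single x 1 + σ • g))
    (F' := fun (s : ℝ) g => D x (f + s • Pi.single x 1 + σ • g)) (x₀ := (0 : ℝ))
    (s := Metric.ball 0 1) (bound := fun _ => K) (Metric.ball_mem_nhds 0 one_pos)
    (Filter.Eventually.of_forall fun s => (h.cont.comp (by fun_prop)).aestronglyMeasurable)
    (h.integrable _ σ) (((h.dcont x).comp (by fun_prop)).aestronglyMeasurable)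
    (Filter.Eventually.of_forall fun g s _ => h.dbd _ _) (integrable_const _)
    (Filter.Eventually.of_forall fun g s _ => ?_)
  · have h2 := h1.2
    simpa using h2
  · have h3 := h.der x (f + σ • g) s
    have e : ∀ s : ℝ, f + σ • g + s • Pi.single x (1 : ℝ) = f + s • Pi.single x 1 + σ • g := by
      intro s; abel
    simpa only [e] using h3

/-- the same derivative through Cameron-Martin -/
theorem BC1.hasDerivAt' (h : BC1 Z D K) (f : I → ℝ) {σ : ℝ} (hσ : σ ≠ 0) (x : I) :
    HasDerivAt (fun s : ℝ => ∫ g, Z (f + s • Pi.single x 1 + σ • g) ∂(gau I))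
      (∫ g, (g x / σ) • Z (f + σ • g) ∂(gau I)) 0 := by
  have hK0 : 0 ≤ K := (norm_nonneg _).trans (h.bd 0)
  -- Cameron-Martin form
  have e1 : ∀ s : ℝ, ∫ g, Z (f + s • Pi.single x 1 + σ • g) ∂(gau I)
      = ∫ g, Real.exp (s / σ * g x - (s / σ) ^ 2 / 2) • Z (f + σ • g) ∂(gau I) := by
    intro s
    have h1 := gau_shiftE ((s / σ) • (Pi.single x 1 : I → ℝ)) fun g : I → ℝ => Z (f + σ • g)
    have e2 : ∀ g : I → ℝ, f + σ • (g + (s / σ) • (Pi.single x 1 : I → ℝ))
        = f + s • Pi.single x 1 + σ • g := by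
      intro g
      have : σ * (s / σ) = s := by field_simp
      rw [smul_add, smul_smul, this]
      abel
    simp only [e2] at h1
    rw [h1]
    refine integral_congr_ae (Filter.Eventually.of_forall fun g => ?_)
    simp only [Pi.smul_apply, smul_eq_mul]
    congr 2
    have s1 : ∑ i, s / σ * (Pi.single x (1 : ℝ) : I → ℝ) i * g i = s / σ * g x := by
      rw [Finset.sum_eq_single x]
      · simp
      · intro i _ hi
        simp [Pi.single_eq_of_ne hi]
      · simp
    have s2 : ∑ i, (s / σ * (Pi.single x (1 : ℝ) : I → ℝ) i) ^ 2 = (s / σ) ^ 2 := by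
      rw [Finset.sum_eq_single x]
      · simp
      · intro i _ hi
        simp [Pi.single_eq_of_ne hi]
      · simp
    rw [s1, s2]
  simp only [e1]
  set c : ℝ := |σ|⁻¹ with hc
  have hc0 : 0 ≤ c := by positivity
  have h1 := hasDerivAt_integral_of_dominated_loc_of_deriv_le (μ := gau I) (𝕜 := ℝ)
    (F := fun (s : ℝ) (g : I → ℝ) => Real.exp (s / σ * g x - (s / σ) ^ 2 / 2) • Z (f + σ • g))
    (F' := fun (s : ℝ) (g : I → ℝ) => (Real.exp (s / σ * g x - (s / σ) ^ 2 / 2)
      * (1 / σ * g x - s / σ ^ 2)) • Z (f + σ • g)) (x₀ := (0 : ℝ))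
    (s := Metric.ball 0 1) (bound := fun g => Real.exp ((2 * c + 1) * ∑ i, |g i|)
      * ((c + c ^ 2) * K)) (Metric.ball_mem_nhds 0 one_pos)
    (Filter.Eventually.of_forall fun s => ?_)
    ?_ ?_
    (Filter.Eventually.of_forall fun g s hs => ?_)
    ((integrable_exp_norm (2 * c + 1)).mul_const _)
    (Filter.Eventually.of_forall fun g s _ => ?_)
  · have h2 := h1.2
    refine h2.congr_deriv ?_
    refine integral_congr_ae (Filter.Eventually.of_forall fun g => ?_)
    simp only
    congr 1
    simp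
    ring
  · have hcont : Continuous fun g : I → ℝ =>
        Real.exp (s / σ * g x - (s / σ) ^ 2 / 2) • Z (f + σ • g) :=
      (by fun_prop : Continuous fun g : I → ℝ => Real.exp (s / σ * g x - (s / σ) ^ 2 / 2)).smul
        (h.cont.comp (by fun_prop))
    exact hcont.aestronglyMeasurable
  · have : ∀ g : I → ℝ, Real.exp (0 / σ * g x - (0 / σ) ^ 2 / 2) • Z (f + σ • g) = Z (f + σ • g) := by
      intro g; simp
    simp only [this]
    exact h.integrable f σ
  · have hcont : Continuous fun g : I → ℝ => (Real.exp (0 / σ * g x - (0 / σ) ^ 2 / 2)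
        * (1 / σ * g x - 0 / σ ^ 2)) • Z (f + σ • g) :=
      (by fun_prop : Continuous fun g : I → ℝ => Real.exp (0 / σ * g x - (0 / σ) ^ 2 / 2)
        * (1 / σ * g x - 0 / σ ^ 2)).smul (h.cont.comp (by fun_prop))
    exact hcont.aestronglyMeasurable
  · rw [norm_smul, Real.norm_eq_abs, abs_mul, abs_of_pos (Real.exp_pos _)]
    have hs' : |s| ≤ 1 := by
      rw [Metric.mem_ball, Real.dist_eq, sub_zero] at hs
      exact hs.le
    set S : ℝ := ∑ i, |g i| with hS
    have hgx : |g x| ≤ S := abs_le_sum_abs g x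
    have hS0 : 0 ≤ S := (abs_nonneg _).trans hgx
    have a1 : s / σ * g x - (s / σ) ^ 2 / 2 ≤ c * S := by
      have : s / σ * g x ≤ c * S := by
        calc s / σ * g x ≤ |s / σ * g x| := le_abs_self _
          _ = |s| * c * |g x| := by rw [abs_mul, abs_div, div_eq_mul_inv]
          _ ≤ 1 * c * S := by
              refine mul_le_mul (mul_le_mul_of_nonneg_right hs' hc0) hgx (abs_nonneg _)
                (by positivity)
          _ = c * S := by ring
      nlinarith [sq_nonneg (s / σ)]
    have a2 : |1 / σ * g x - s / σ ^ 2| ≤ (c + c ^ 2) * Real.exp S := by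
      have h2 : |1 / σ * g x - s / σ ^ 2| ≤ c * |g x| + c ^ 2 * |s| := by
        refine (abs_sub _ _).trans (le_of_eq ?_)
        rw [abs_mul, abs_div, abs_div, abs_one, abs_pow]
        rw [hc]
        field_simp
      have h3 : c * |g x| + c ^ 2 * |s| ≤ c * S + c ^ 2 * 1 :=
        add_le_add (mul_le_mul_of_nonneg_left hgx hc0)
          (mul_le_mul_of_nonneg_left hs' (sq_nonneg c))
      have h4 : S + 1 ≤ Real.exp S := Real.add_one_le_exp S
      have h5 : (1 : ℝ) ≤ Real.exp S := by linarith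
      have h6 : S ≤ Real.exp S := by linarith
      nlinarith [mul_le_mul_of_nonneg_left h6 hc0, mul_le_mul_of_nonneg_left h5 (sq_nonneg c)]
    calc Real.exp (s / σ * g x - (s / σ) ^ 2 / 2) * |1 / σ * g x - s / σ ^ 2| * ‖Z (f + σ • g)‖
        ≤ Real.exp (c * S) * ((c + c ^ 2) * Real.exp S) * K := by
          refine mul_le_mul (mul_le_mul (Real.exp_le_exp.2 a1) a2 (abs_nonneg _)
            (Real.exp_pos _).le) (h.bd _) (norm_nonneg _) (by positivity)
      _ = Real.exp ((c + 1) * S) * ((c + c ^ 2) * K) := by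
          rw [show (c + 1) * S = c * S + S by ring, Real.exp_add]
          ring
      _ ≤ Real.exp ((2 * c + 1) * S) * ((c + c ^ 2) * K) := by
          refine mul_le_mul_of_nonneg_right (Real.exp_le_exp.2 ?_) (by positivity)
          nlinarith
  · have h2 : HasDerivAt (fun s : ℝ => s / σ * g x - (s / σ) ^ 2 / 2)
        (1 / σ * g x - s / σ ^ 2) s := by
      have h3 : HasDerivAt (fun s : ℝ => s / σ) (1 / σ) s := (hasDerivAt_id s).div_const σ
      have h4 := (h3.mul_const (g x)).sub ((h3.pow 2).div_const 2)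
      refine h4.congr_deriv ?_
      simp only [Nat.cast_ofNat, Nat.add_one_sub_one, pow_one]
      field_simp
    exact (h2.exp).smul_const _

/-- **Stein**: `∫ g_x Z(f + σ g) = σ ∫ (∂_x Z)(f + σ g)` -/
theorem BC1.stein (h : BC1 Z D K) (f : I → ℝ) {σ : ℝ} (hσ : σ ≠ 0) (x : I) :
    ∫ g, g x • Z (f + σ • g) ∂(gau I) = σ • ∫ g, D x (f + σ • g) ∂(gau I) := by
  have h1 := (h.hasDerivAt f σ x).unique (h.hasDerivAt' f hσ x)
  rw [h1, ← integral_smul]
  refine integral_congr_ae (Filter.Eventually.of_forall fun g => ?_)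
  simp only
  rw [smul_smul]
  congr 1
  field_simp

end Vale.Agent.P159.H363
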