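import Vale.Agent.P159.H363.Wde
import Vale.Agent.P159.H767.Cvp1
import Vale.Agent.P159.H889.Vwin

/-!
P159 / H363, VB10 functional side, part 1: tools. `gm0` = noise without the constant mode; charge one
and invariant functionals (not necessarily bounded) under a constant mode; the weight of the cell
field is invariant under constants.
-/

namespace Vale.Agent.P159.H363

open Finset Matrix MeasureTheory
open Vale.Agent.P159.TM.H104 (EM Ex Cv Lg li nh Gr)
open Vale.Agent.P159.H37 (qf bf Zn Zq ZM wM gau gau_sum cellP)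
open Vale.Agent.P159.TM.Spec (V)
open Vale.Agent.P159.TM.SpecC (Tor wT)
open Vale.Agent.P159.H864 (TI sym fc MC cl up cobV)
open Vale.Agent.P159.H963 (Pn nMC ntr gw_wT mf_MC ti_Pn sym_Pn)
open Vale.Agent.P159.H462 (ahat Gam ti_ahat sym_ahat ti_Gam)
open Vale.Agent.P159.H896 (WM Ph om ph)
open Vale.Agent.P159.H767 (cst)
open Vale.Agent.P159.H889 (Dif dn)
open scoped Real

noncomputable section

/-! ### a constant mode, without boundedness -/

section mode

variable {W I J : Type*} [Fintype W] [Fintype I] [Fintype J]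

/-- adding an independent constant mode -/
def adc (B : Matrix W J ℝ) (τ2 : ℝ) : Matrix W (J ⊕ Unit) ℝ :=
  fromCols B (Matrix.of fun _ _ => √τ2)

omit [Fintype W] in
lemma adc_cov {B : Matrix W J ℝ} {τ2 : ℝ} (hτ : 0 ≤ τ2) :
    adc B τ2 * (adc B τ2)ᵀ = B * Bᵀ + cst W τ2 := by
  unfold adc
  rw [transpose_fromCols, fromCols_mul_fromRows]
  congr 1
  ext y z
  rw [Matrix.mul_apply]
  simp only [cst, transpose_apply, of_apply, Finset.univ_unique, Finset.sum_singleton]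
  exact Real.mul_self_sqrt hτ

omit [Fintype W] in
lemma adc_mulVec (B : Matrix W J ℝ) (τ2 : ℝ) (g : J → ℝ) (η : Unit → ℝ) :
    adc B τ2 *ᵥ Sum.elim g η = fun y => (B *ᵥ g) y + √τ2 * η () := by
  funext y
  unfold adc
  rw [fromCols_mulVec_sumElim, Pi.add_apply]
  congr 1
  simp [mulVec, dotProduct]

lemma law_integrable {E : Type*} [NormedAddCommGroup E] {A : Matrix W I ℝ} {B : Matrix W J ℝ}
    (h : A * Aᵀ = B * Bᵀ) {f : (W → ℝ) → E} (hf : StronglyMeasurable f)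
    (hi : Integrable (fun g => f (A *ᵥ g)) (gau I)) :
    Integrable (fun g => f (B *ᵥ g)) (gau J) := by
  have h1 : Integrable f ((gau I).map fun g => A *ᵥ g) :=
    (integrable_map_measure hf.aestronglyMeasurable (measurable_mulVec A).aemeasurable).2 hi
  rw [law_eq A B h] at h1
  exact (integrable_map_measure hf.aestronglyMeasurable (measurable_mulVec B).aemeasurable).1 h1

/-- charge one functional, constant mode integrated out, without boundedness -/
theorem gain_int {A : Matrix W I ℝ} {B : Matrix W J ℝ} {τ2 : ℝ} (hτ : 0 ≤ τ2)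
    (h : A * Aᵀ = B * Bᵀ + cst W τ2) {ψ : (W → ℝ) → ℂ} (hch : Ch ψ) (hm : StronglyMeasurable ψ)
    (hi : Integrable (fun g => ψ (A *ᵥ g)) (gau I)) :
    ∫ g, ψ (A *ᵥ g) ∂(gau I) =
      ((Real.exp (-(2 * π ^ 2 * τ2)) : ℝ) : ℂ) * ∫ g, ψ (B *ᵥ g) ∂(gau J) := by
  have hcov : A * Aᵀ = adc B τ2 * (adc B τ2)ᵀ := by rw [h, adc_cov hτ]
  have hval : ∀ (g : J → ℝ) (η : Unit → ℝ), ψ (adc B τ2 *ᵥ Sum.elim g η) =
      Complex.exp (((∑ i : Unit, (2 * π * √τ2) * η i : ℝ) : ℂ) * Complex.I) * ψ (B *ᵥ g) := by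
    intro g η
    rw [adc_mulVec, hch]
    congr 3
    simp only [Finset.univ_unique, Finset.sum_singleton]
    have : η default = η () := rfl
    rw [this]
    congr 1
    ring
  rw [law_integral_eq A _ hcov ψ hm, integral_gau_sum _ (law_integrable hcov hm hi),
    ← integral_const_mul]
  refine integral_congr_ae (Filter.Eventually.of_forall fun g => ?_)
  simp only [hval]
  rw [integral_mul_const, gau_char]
  congr 1
  push_cast
  congr 1
  simp only [Finset.univ_unique, Finset.sum_singleton]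
  have : ((√τ2 : ℝ) : ℂ) ^ 2 = (τ2 : ℂ) := by
    rw [← Complex.ofReal_pow, Real.sq_sqrt hτ]
  rw [mul_pow, this]
  ring

/-- invariant functional, constant mode integrated out, without boundedness -/
theorem inv_int {A : Matrix W I ℝ} {B : Matrix W J ℝ} {τ2 : ℝ} (hτ : 0 ≤ τ2)
    (h : A * Aᵀ = B * Bᵀ + cst W τ2) {f : (W → ℝ) → ℝ} (hf : StronglyMeasurable f)
    (hin : ∀ F (c : ℝ), f (fun x => F x + c) = f F)
    (hi : Integrable (fun g => f (A *ᵥ g)) (gau I)) :
    Integrable (fun g => f (B *ᵥ g)) (gau J) ∧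
      ∫ g, f (A *ᵥ g) ∂(gau I) = ∫ g, f (B *ᵥ g) ∂(gau J) := by
  have hcov : A * Aᵀ = adc B τ2 * (adc B τ2)ᵀ := by rw [h, adc_cov hτ]
  have hval : ∀ (g : J → ℝ) (η : Unit → ℝ), f (adc B τ2 *ᵥ Sum.elim g η) = f (B *ᵥ g) := by
    intro g η
    rw [adc_mulVec, hin]
  have h2 := law_integrable hcov hf hi
  constructor
  · have h1 := (measurePreserving_fst (μ := gau J) (ν := gau Unit)).comp
      (gau_sum (I₁ := J) (I₂ := Unit))
    refine (h1.integrable_comp
      (hf.comp_measurable (measurable_mulVec B)).aestronglyMeasurable).1 ?_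
    refine h2.congr (Filter.Eventually.of_forall fun g => ?_)
    simp only [Function.comp_apply]
    have e : g = Sum.elim ((MeasurableEquiv.sumPiEquivProdPi fun _ : J ⊕ Unit => ℝ) g).1
        ((MeasurableEquiv.sumPiEquivProdPi fun _ : J ⊕ Unit => ℝ) g).2 := by
      funext i
      cases i <;> rfl
    conv_lhs => rw [e]
    rw [hval]
  · rw [law_integral_eq A _ hcov f hf, integral_gau_sum _ h2]
    refine integral_congr_ae (Filter.Eventually.of_forall fun g => ?_)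
    simp only [hval]
    simp

end mode

/-! ### the noise without the constant mode -/

section gm0

variable {N : ℕ} [NeZero N] {A : Matrix (V N) (V N) ℝ} {s : ℝ}

/-- square root of `Γ` without the constant mode -/
def gm0 (s : ℝ) (A : Matrix (V N) (V N) ℝ) : Matrix (V N) (V N) ℝ := Pn * gm s A

lemma ti_gm0 (s : ℝ) (A : Matrix (V N) (V N) ℝ) : TI (gm0 s A) := ti_Pn.mul (ti_gm s A)

lemma cst_eq (c : ℝ) : cst (V N) c = (c * (N : ℝ) ^ 2) • (1 - Pn : Matrix (V N) (V N) ℝ) := by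
  have hN := H864.N_pos (N := N)
  have h1 : (Pn : Matrix (V N) (V N) ℝ)
      = 1 - Matrix.of fun _ _ => 1 / (Fintype.card (V N) : ℝ) := rfl
  rw [h1]
  ext x y
  simp only [cst, of_apply, Matrix.smul_apply, smul_eq_mul, sub_sub_cancel]
  rw [TM.H764.card_V, mul_assoc, mul_one_div, div_self hN.ne', mul_one]

/-- **the constant mode splits off** -/
lemma gm_split (hz : sym A 0 = 0) (hs : 0 ≤ s) :
    gm s A * (gm s A)ᵀ = gm0 s A * (gm0 s A)ᵀ + cst (V N) (s / (N : ℝ) ^ 2) := by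
  have hN := H864.N_pos (N := N)
  rw [(ti_gm s A).transpose, (ti_gm0 s A).transpose, cst_eq,
    div_mul_cancel₀ _ (by positivity : (N : ℝ) ^ 2 ≠ 0)]
  have t0 := ti_gm0 s A
  have tg := ti_gm s A
  have t1 : TI (1 - Pn : Matrix (V N) (V N) ℝ) := TI.one.sub ti_Pn
  refine H864.sym_inj (tg.mul tg) ((t0.mul t0).add (t1.smul s)) fun k => ?_
  rw [H864.sym_add, H864.sym_mul t0 t0, H864.sym_mul tg tg, H864.sym_smul, H864.sym_sub,
    H864.sym_one, sym_Pn]
  unfold gm0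
  rw [H864.sym_mul ti_Pn tg, sym_Pn]
  unfold gm
  rw [H864.sym_fc]
  by_cases hk : k = 0
  · subst hk
    rw [hz]
    simp only [if_true, mul_zero, add_zero, inv_one, mul_one, zero_mul, sub_zero, zero_add]
    exact Real.mul_self_sqrt hs
  · simp only [if_neg hk, one_mul, sub_self, mul_zero, add_zero]

/-- `gm (s⁻¹ gm) = ahat` -/
lemma gm_W0 (h0 : ∀ k, 0 ≤ sym A k) (hs : 0 < s) :
    gm s A * (s⁻¹ • gm s A) = ahat s A := by
  have tg := ti_gm s A
  rw [mul_smul_comm]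
  refine H864.sym_inj ((tg.mul tg).smul _) (ti_ahat s A) fun k => ?_
  rw [H864.sym_smul, H864.sym_mul tg tg, sym_ahat]
  unfold gm
  rw [H864.sym_fc]
  have h1 := h0 k
  rw [Real.mul_self_sqrt (by positivity)]
  field_simp

lemma gm_sq_le (h0 : ∀ k, 0 ≤ sym A k) (hs : 0 < s) (v : V N → ℝ) :
    ∑ X, (v ᵥ* (s⁻¹ • gm s A)) X ^ 2 ≤ s⁻¹ * ∑ i, v i ^ 2 := by
  have tg := ti_gm s A
  have h1 : ∑ X, (v ᵥ* (s⁻¹ • gm s A)) X ^ 2 = s⁻¹ ^ 2 * qf (gm s A * (gm s A)ᵀ) v := by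
    have e1 : ∀ X, (v ᵥ* (s⁻¹ • gm s A)) X ^ 2 = s⁻¹ ^ 2 * (v ᵥ* gm s A) X ^ 2 := by
      intro X
      rw [vecMul_smul, Pi.smul_apply, smul_eq_mul, mul_pow]
    simp only [e1]
    rw [← Finset.mul_sum, vecMul_sq, H37.qf_eq]
  rw [h1]
  have h2 : qf (gm s A * (gm s A)ᵀ) v ≤ s * ∑ i, v i ^ 2 := by
    have e : gm s A * (gm s A)ᵀ = gm s A * gm s A := by rw [tg.transpose]
    have hle : ∀ k, sym (gm s A * gm s A) k ≤ s := by
      intro k
      rw [H864.sym_mul tg tg]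
      unfold gm
      rw [H864.sym_fc]
      have h3 := h0 k
      rw [Real.mul_self_sqrt (by positivity)]
      have : (1 + s * sym A k)⁻¹ ≤ 1 := by
        apply inv_le_one_of_one_le₀
        have := mul_nonneg hs.le h3
        linarith
      calc s * (1 + s * sym A k)⁻¹ ≤ s * 1 := mul_le_mul_of_nonneg_left this hs.le
        _ = s := mul_one s
    rw [e]
    have h3 := (H864.qf_le_iff (tg.mul tg) (TI.one.smul s)).2 (fun k => by
      rw [H864.sym_smul, H864.sym_one, mul_one]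
      exact hle k) v
    refine h3.trans (le_of_eq ?_)
    rw [H37.qf_eq, smul_mulVec, one_mulVec, dotProduct_smul, smul_eq_mul]
    congr 1
    exact Finset.sum_congr rfl fun i _ => (pow_two _).symm
  calc s⁻¹ ^ 2 * qf (gm s A * (gm s A)ᵀ) v ≤ s⁻¹ ^ 2 * (s * ∑ i, v i ^ 2) :=
        mul_le_mul_of_nonneg_left h2 (by positivity)
    _ = s⁻¹ * ∑ i, v i ^ 2 := by
        field_simp

/-- **reverse Poincare for the density, any translation invariant law of the coarse field** -/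
theorem rev_B (h0 : ∀ k, 0 ≤ sym A k) (hs : 0 < s) {G : (V N → ℝ) → ℂ}
    {γ : V N → (V N → ℝ) → ℂ} (hG : Dif G γ) (hcov : Cov γ) {B : Matrix (V N) (V N) ℝ}
    (hB : TI B) {K : ℝ} (hK : ∀ F, ‖G F‖ ≤ K) (x : V N) :
    n2 (gau (V N)) (fun b => dn (ahat s A) (gm s A) γ x (B *ᵥ b))
      ≤ (2 * π)⁻¹ * (√(s * (N : ℝ) ^ 2))⁻¹ * K := by
  classical
  have hK0 : 0 ≤ K := (norm_nonneg _).trans (hK 0)
  obtain ⟨K', hK'0, hK'⟩ := hG.bdx'
  have hN := H864.N_pos (N := N)
  have h1 := H889.rev_dn_int hG (gm_W0 h0 hs) (inv_nonneg.2 hs.le) (gm_sq_le h0 hs) B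
  have hm : ∀ y, Measurable (dn (ahat s A) (gm s A) γ y) := fun y => H889.measurable_dn hG.mx y
  have e1 : ∀ y, ∫ b, ‖dn (ahat s A) (gm s A) γ y (B *ᵥ b)‖ ^ 2 ∂(gau (V N))
      = ∫ b, ‖dn (ahat s A) (gm s A) γ x (B *ᵥ b)‖ ^ 2 ∂(gau (V N)) := fun y =>
    H889.int_cov hB (H889.cov_dn (ti_ahat s A) (ti_gm s A) hcov) y x
  rw [Finset.sum_congr rfl fun y _ => e1 y, Finset.sum_const, Finset.card_univ, nsmul_eq_mul,
    TM.H764.card_V] at h1
  have e2 : ∫ b, ∫ g, ‖G (ahat s A *ᵥ (B *ᵥ b) + gm s A *ᵥ g)‖ ^ 2 ∂(gau (V N)) ∂(gau (V N))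
      ≤ K ^ 2 := by
    have e3 : ∀ b : V N → ℝ, ∫ g, ‖G (ahat s A *ᵥ (B *ᵥ b) + gm s A *ᵥ g)‖ ^ 2 ∂(gau (V N))
        ≤ K ^ 2 := by
      intro b
      have h2 := integral_mono_of_nonneg (μ := gau (V N))
        (f := fun g => ‖G (ahat s A *ᵥ (B *ᵥ b) + gm s A *ᵥ g)‖ ^ 2) (g := fun _ => K ^ 2)
        (Filter.Eventually.of_forall fun g => by positivity) (integrable_const _)
        (Filter.Eventually.of_forall fun g => pow_le_pow_left₀ (norm_nonneg _) (hK _) 2)
      simpa using h2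
    have h2 := integral_mono_of_nonneg (μ := gau (V N))
      (f := fun b => ∫ g, ‖G (ahat s A *ᵥ (B *ᵥ b) + gm s A *ᵥ g)‖ ^ 2 ∂(gau (V N)))
      (g := fun _ => K ^ 2)
      (Filter.Eventually.of_forall fun b => integral_nonneg fun g => by positivity)
      (integrable_const _) (Filter.Eventually.of_forall e3)
    simpa using h2
  have hmem : MemLp (fun b => dn (ahat s A) (gm s A) γ x (B *ᵥ b)) 2 (gau (V N)) :=
    memLp_bdd ((hm x).comp (measurable_mulVec _)).aestronglyMeasurable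
      fun b => H889.norm_dn_le hK' x _
  rw [n2_le hmem (by positivity)]
  have h3 : ((2 * π)⁻¹ * (√(s * (N : ℝ) ^ 2))⁻¹ * K) ^ 2
      = ((N : ℝ) ^ 2)⁻¹ * ((2 * π)⁻¹ ^ 2 * s⁻¹ * K ^ 2) := by
    rw [mul_pow, mul_pow, inv_pow (√_), Real.sq_sqrt (by positivity)]
    field_simp
  rw [h3, ← div_eq_inv_mul, le_div_iff₀ (by positivity), mul_comm]
  exact h1.trans (mul_le_mul_of_nonneg_left e2 (by positivity))

/-- the densities sum up to the functional -/
theorem sum_dn {F0 M : Matrix (V N) (V N) ℝ} (hrow : ∀ y, ∑ X, F0 y X = 1)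
    {W : (V N → ℝ) → ℂ} {u : V N → (V N → ℝ) → ℂ} (hu : ∀ x, Measurable (u x)) {K : ℝ}
    (hK : ∀ x F, ‖u x F‖ ≤ K) (hs : ∀ F, ∑ x, u x F = W F) (f : V N → ℝ) :
    ∑ x, dn F0 M u x f = Pg F0 M W f := by
  unfold dn
  rw [Finset.sum_comm]
  have e1 : ∀ y, ∑ X, (F0 y X : ℂ) * Pg F0 M (u y) f = Pg F0 M (u y) f := by
    intro y
    rw [← Finset.sum_mul]
    have : ∑ X, (F0 y X : ℂ) = 1 := by
      have := hrow y
      exact_mod_cast this
    rw [this, one_mul]
  rw [Finset.sum_congr rfl fun y _ => e1 y]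
  unfold Pg
  rw [← integral_finsetSum _ fun y _ => integrable_Pg (hu y) (hK y) f]
  refine integral_congr_ae (Filter.Eventually.of_forall fun g => ?_)
  exact hs _

/-- **mean of the functional = number of sites times the mean of one density** -/
theorem int_sum_cov {B : Matrix (V N) (V N) ℝ} (hB : TI B) {Ψ : (V N → ℝ) → ℂ}
    {ψ : V N → (V N → ℝ) → ℂ} (hm : ∀ x, Measurable (ψ x)) {K : ℝ} (hK : ∀ x F, ‖ψ x F‖ ≤ K)
    (hcov : Cov ψ) (hs : ∀ F, ∑ x, ψ x F = Ψ F) (x : V N) :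
    ∫ g, Ψ (B *ᵥ g) ∂(gau (V N)) = (N : ℂ) ^ 2 * ∫ g, ψ x (B *ᵥ g) ∂(gau (V N)) := by
  have e1 : ∀ y, ∫ g, ψ y (B *ᵥ g) ∂(gau (V N)) = ∫ g, ψ x (B *ᵥ g) ∂(gau (V N)) := by
    intro y
    have h1 : ∀ b : V N → ℝ, ψ y (B *ᵥ b) = ψ x (B *ᵥ sh (y - x) b) := by
      intro b
      have h2 := hcov (y - x) x (B *ᵥ b)
      rw [show x + (y - x) = y by abel] at h2
      rw [h2, sh_mulVec hB]
    simp only [h1]
    exact gau_permE (Equiv.addRight (y - x)) fun b : V N → ℝ => ψ x (B *ᵥ b)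
  have e2 : ∫ g, Ψ (B *ᵥ g) ∂(gau (V N)) = ∑ y, ∫ g, ψ y (B *ᵥ g) ∂(gau (V N)) := by
    rw [← integral_finsetSum]
    · exact integral_congr_ae (Filter.Eventually.of_forall fun g => (hs _).symm)
    · intro y _
      exact Integrable.of_bound (C := K) ((hm y).comp (measurable_mulVec B)).aestronglyMeasurable
        (Filter.Eventually.of_forall fun g => hK _ _)
  rw [e2, Finset.sum_congr rfl fun y _ => e1 y, Finset.sum_const, Finset.card_univ, nsmul_eq_mul]
  congr 1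
  have := TM.H764.card_V (N := N)
  exact_mod_cast this

end gm0

end

end Vale.Agent.P159.H363
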