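import Vale.Agent.P159.H363.Lmw
import Vale.Agent.P159.H767.Cvp8
import Vale.Agent.P159.H358.Ugeo4

/-!
P159 / H363, assembly of VB10, part 3: the coarse law is below the typical law; densities on the
second torus; real letters.
-/

set_option linter.unusedSectionVars false

namespace Vale.Agent.P159.H363

open Finset Matrix MeasureTheory ProbabilityTheory
open Vale.Agent.P159.TM.H764 (EE)
open Vale.Agent.P159.TM.Spec (V)
open Vale.Agent.P159.TM.SpecC (Tor wT)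
open Vale.Agent.P159.H37 (gau qf bf wt Rs)
open Vale.Agent.P159.H864 (TI sym cl)
open Vale.Agent.P159.H462 (Dom ahat Gam ti_ahat sym_ahat)
open Vale.Agent.P159.H767 (cst)
open Vale.Agent.P159.H889 (Lcl dn cutx lamw tl tl_nonneg tl_eq uc mc)
open Vale.Agent.P159.H733.Torg (ip ip_zero ip_inj)
open Vale.Agent.P159.H733.Vt (zb mem_zb zero_mem_zb card_zb trp lft Jz)
open Vale.Agent.P159.H896 (om)
open Vale.Agent.P159.H145 (mt)
open Vale.Agent.P159.H43 (omT)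
open scoped Real

noncomputable section

section law

variable {N : ℕ} [NeZero N] {A : Matrix (V N) (V N) ℝ} {ν c s s2 : ℝ}

/-- noise without constant mode is below the typical law -/
lemma below_gm0 (h : Dom A ν c) (hs : 0 ≤ s) : Below A (gm0 s A) := by
  intro α
  rw [vecMul_sq, ← H37.qf_eq]
  have t0 := ti_gm0 s A
  have tt : TI (gm0 s A * (gm0 s A)ᵀ) := by
    rw [t0.transpose]
    exact t0.mul t0
  refine (H864.qf_le_iff tt (by rw [pin_mul h.ti h.nn]; exact H864.ti_fc _ _)).2 (fun k => ?_) α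
  rw [pin_mul h.ti h.nn, H864.sym_fc, sym_gm0_sq k (h.nn k) hs]
  by_cases hk : k = 0
  · rw [if_pos hk]
    exact inv_nonneg.2 (h.nn k)
  · rw [if_neg hk]
    have h1 := h.sym_pos hk
    have h2 : 0 < 1 + s * sym A k := by positivity
    rw [← div_eq_mul_inv, div_le_iff₀ h2]
    have h3 : (sym A k)⁻¹ * (1 + s * sym A k) = (sym A k)⁻¹ + s := by
      field_simp
    rw [h3]
    have : 0 < (sym A k)⁻¹ := inv_pos.2 h1
    linarith

/-- rows of a factor below the typical law -/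
lemma Below.row {I : Type*} [Fintype I] {B : Matrix (V N) I ℝ} (hB : Below A B) (v : V N) :
    ∑ i, B v i ^ 2 ≤ H889.sg A ^ 2 := by
  classical
  have h := hB (Pi.single v 1)
  have e1 : ∀ i, ((Pi.single v (1 : ℝ) : V N → ℝ) ᵥ* B) i = B v i := fun i => by
    rw [Matrix.single_one_vecMul]
    rfl
  simp only [e1] at h
  rw [H37.qf_eq, ← vecMul_sq] at h
  have e2 : ∀ i, ((Pi.single v (1 : ℝ) : V N → ℝ) ᵥ* pin A) i = pin A v i := fun i => by
    rw [Matrix.single_one_vecMul]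
    rfl
  simp only [e2] at h
  exact h.trans (H889.sg_row A v)

/-- the typical law after one window -/
lemma dom_ahat (h : Dom A ν c) (hs : 0 < s) : Dom (A * ahat s A) (ν⁻¹ + s)⁻¹ c := by
  have hν := h.hν
  have hc := h.hc
  have hsy : ∀ k, sym (A * ahat s A) k = sym A k * (1 + s * sym A k)⁻¹ := fun k => by
    rw [H864.sym_mul h.ti (ti_ahat s A), sym_ahat]
  refine ⟨h.ti.mul (ti_ahat s A), by positivity, hc, fun k => ?_, fun k => ?_, ?_, fun k => ?_⟩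
  · rw [hsy]
    have := h.nn k
    positivity
  · rw [hsy]
    have h0 := h.nn k
    have h1 := h.le k
    rw [← div_eq_mul_inv, div_le_iff₀ (by positivity)]
    have e : (ν⁻¹ + s)⁻¹ * (1 + s * sym A k) = ν * (1 + s * sym A k) / (1 + s * ν) := by
      field_simp
    rw [e, le_div_iff₀ (by positivity)]
    nlinarith
  · rw [hsy, h.zero, zero_mul]
  · rw [hsy]
    have h2 := h.ge k
    have hE := H462.EE_nonneg k
    rcases hE.eq_or_lt with h0 | hpos
    · rw [← h0]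
      simp only [mul_zero, zero_div]
      have := h.nn k
      positivity
    · set x : ℝ := ν * (c * EE k) / (ν + c * EE k) with hx
      have hx0 : 0 < x := by positivity
      have e1 : (ν⁻¹ + s)⁻¹ * (c * EE k) / ((ν⁻¹ + s)⁻¹ + c * EE k) = x * (1 + s * x)⁻¹ := by
        rw [hx]
        field_simp
        ring
      rw [e1, ← div_eq_mul_inv, ← div_eq_mul_inv, div_le_div_iff₀ (by positivity) (by
        have := h.nn k
        positivity)]
      nlinarith [h.nn k]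

lemma apr_eq (h : TI A) : apr s A = A * ahat s A := by
  unfold apr
  exact H864.sym_inj ((ti_ahat s A).mul h) (h.mul (ti_ahat s A)) fun k => by
    rw [H864.sym_mul (ti_ahat s A) h, H864.sym_mul h (ti_ahat s A), mul_comm]

/-- the coarse law is below the typical law after one window -/
lemma below_coarse (h : Dom A ν c) (hs : 0 < s) (hs2 : 0 ≤ s2) :
    Below (A * ahat s A) (gm0 s2 (apr s A)) := by
  rw [apr_eq h.ti]
  exact below_gm0 (dom_ahat h hs) hs2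

/-- closeness from a good set, any law -/
lemma n2_good_law {I : Type*} [Fintype I] {B : Matrix (V N) I ℝ} {u : (V N → ℝ) → ℂ}
    (hm : Measurable u) {K r p : ℝ} (hK : ∀ F, ‖u F‖ ≤ K) {G : Set (V N → ℝ)}
    (hG : MeasurableSet G) (hr : 0 ≤ r) (hp0 : 0 ≤ p) (hg : ∀ F ∈ G, ‖u F‖ ≤ r)
    (hp : (gau I).real {g | B *ᵥ g ∉ G} ≤ p ^ 2) :
    n2 (gau I) (fun g => u (B *ᵥ g)) ≤ r + K * p := by
  have hK0 : 0 ≤ K := (norm_nonneg _).trans (hK 0)
  have L : MemLp (fun g => u (B *ᵥ g)) 2 (gau I) :=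
    memLp_bdd (hm.comp (measurable_mulVec B)).aestronglyMeasurable fun g => hK _
  have h := H552.l2_good (P := gau I) (X := fun g => B *ᵥ g) (measurable_mulVec B) hm hG hg hK hp
  rw [← n2_sq L] at h
  refine le_of_sq_le_sq (h.trans ?_) (by positivity)
  nlinarith [mul_nonneg hr (mul_nonneg hK0 hp0)]

end law

/-! ### densities on the second torus, sharp form -/

section two

variable {N1 N2 : ℕ} [NeZero N1] [NeZero N2] {A1 : Matrix (V N1) (V N1) ℝ}
  {A2 : Matrix (V N2) (V N2) ℝ} {ν c1 c2 s : ℝ}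

/-- error of the transport of the functional, `L²` form -/
def etr2 (K Lp e η σ : ℝ) (R0 D0 : ℕ) : ℝ :=
  K * ((2 * R0 + 1) ^ 2 * e) + 4 * η * K
    + Lp * (2 * σ * √(Real.log (2 * (2 * ((R0 + D0 : ℕ) : ℝ) + 1) ^ 2)))

/-- **densities on the torus `N2` against the window of the functional of the torus `N1`** -/
theorem lcl_two (h1 : Dom A1 ν c1) (h2 : Dom A2 ν c2) (hs : 0 < s)
    (o1 : ∀ x y, x ≠ y → A1 x y ≤ 0) (o2 : ∀ x y, x ≠ y → A2 x y ≤ 0) {R0 D0 D1 R : ℕ}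
    (hD : R0 + D0 + R ≤ D1) (hN1 : 2 * D1 < N1) (hN2 : 2 * D1 < N2) {e η K Km Lp r : ℝ}
    (he : ∀ ζ ∈ zb (2 * D1), |ahat s A2 0 (ip N2 ζ) - ahat s A1 0 (ip N1 ζ)| ≤ e)
    (hη2 : η ≤ 1 / 2) (hηe : (1 + s * ν) * (2 * D0 + 1) ^ 2 * e ≤ η)
    {A' : Matrix (V N1) (V N1) ℝ} {mu : V N1 → (V N1 → ℝ) → ℂ} (hmu : Lcl A' D0 0 Lp mu mu)
    (hKm : ∀ x F, ‖mu x F‖ ≤ Km)
    {u2 : V N2 → (V N2 → ℝ) → ℂ} (hm2 : ∀ x, Measurable (u2 x)) (hK : ∀ x F, ‖u2 x F‖ ≤ K)
    (hch2 : ∀ x, Ch (u2 x)) {I J : Type*} [Fintype I] [Fintype J]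
    {B' : Matrix (V N2) I ℝ} {B : Matrix (V N2) J ℝ} {v0 : ℝ} (hv0 : 0 ≤ v0)
    (hBB : (ahat s A2 * B') * (ahat s A2 * B')ᵀ + gm s A2 * (gm s A2)ᵀ = B * Bᵀ + cst (V N2) v0)
    (hBl : Below (A2 * ahat s A2) B')
    {σ : ℝ} (hσ0 : 0 ≤ σ) (hσ : vaw (ν⁻¹ + s)⁻¹ c2 e (tl (ahat s A1) R + tl (ahat s A2) R) N2 D1
      ≤ σ ^ 2)
    (hS : ∀ y, n2 (gau J) (fun g => u2 y (B *ᵥ g) - lft D0 mu y (B *ᵥ g)) ≤ r) (x : V N2) :
    n2 (gau I) (fun g => dn (ahat s A2) (gm s A2) u2 x (B' *ᵥ g)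
      - lft D1 (lamw s A1 R0 D1 mu) x (B' *ᵥ g))
      ≤ eloc A2 s r K Lp (H889.sg (A2 * ahat s A2)) R0 D0 R + etr2 Km Lp e η σ R0 D0 := by
  have hL : Lcl (1 : Matrix (V N2) (V N2) ℝ) D0 0 Lp (lft D0 mu) (lft D0 mu) :=
    ⟨H733.Vt.measurable_lft hmu.m, ⟨Km, H733.Vt.norm_lft hKm⟩, H733.Vt.ch_lft hmu.ch,
      H733.Vt.cov_lft D0 mu, H733.Vt.loc_lft D0 mu, H733.Vt.lip_lft hmu.lip, fun x => by
        simp only [sub_self]
        exact (H733.Vt.tn2_zero _).le⟩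
  have L2 := lcl_law (x := x) h2 hs o2 hD hv0 hBB (H889.sg_nonneg _) (fun v => hBl.row v) hm2 hK
    hch2 hL hS
  have L3 := lamw_two_n2 (x := x) h1 h2 hs o1 o2 hD hN1 hN2 he hη2 hηe hmu hKm (dom_ahat h2 hs)
    hBl hσ0 hσ
  -- bounds of the window functionals
  have L1 := H889.lcl_window h1 hs o1 hD hmu.m hKm hmu.ch
    (⟨hmu.m, hmu.bd, hmu.ch, hmu.cov, hmu.loc, hmu.lip, fun x => by
        simp only [sub_self]
        exact (H733.Vt.tn2_zero _).le⟩ : Lcl A1 D0 0 Lp mu mu)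
  have L2' := H889.lcl_window h2 hs o2 hD (H733.Vt.measurable_lft hmu.m) (H733.Vt.norm_lft hKm)
    (H733.Vt.ch_lft hmu.ch) (⟨hL.m, hL.bd, hL.ch, hL.cov, hL.loc, hL.lip, fun x => by
        simp only [sub_self]
        exact (H733.Vt.tn2_zero _).le⟩ : Lcl A2 D0 0 Lp (lft D0 mu) (lft D0 mu))
  obtain ⟨Kl, hKl⟩ := L2'.bd
  obtain ⟨Kl', hKl'⟩ := L1.bd
  obtain ⟨Kd, hKd⟩ : ∃ Kd : ℝ, ∀ F, ‖dn (ahat s A2) (gm s A2) u2 x F‖ ≤ Kd :=
    ⟨_, fun F => H889.norm_dn_le hK x F⟩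
  have md : Measurable (dn (ahat s A2) (gm s A2) u2 x) := H889.measurable_dn hm2 x
  have ma := L2'.m x
  have mb := H733.Vt.measurable_lft (N2 := N2) (D := D1) L1.m x
  have l1 : MemLp (fun g => dn (ahat s A2) (gm s A2) u2 x (B' *ᵥ g)
      - lamw s A2 R0 D1 (lft D0 mu) x (B' *ᵥ g)) 2 (gau I) :=
    memLp_bdd (C := Kd + Kl) ((md.comp (measurable_mulVec _)).sub
      (ma.comp (measurable_mulVec _))).aestronglyMeasurable
      fun g => (norm_sub_le _ _).trans (add_le_add (hKd _) (hKl _ _))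
  have l2 : MemLp (fun g => lamw s A2 R0 D1 (lft D0 mu) x (B' *ᵥ g)
      - lft D1 (lamw s A1 R0 D1 mu) x (B' *ᵥ g)) 2 (gau I) :=
    memLp_bdd (C := Kl + Kl') ((ma.comp (measurable_mulVec _)).sub
      (mb.comp (measurable_mulVec _))).aestronglyMeasurable
      fun g => (norm_sub_le _ _).trans (add_le_add (hKl _ _) (H733.Vt.norm_lft hKl' _ _))
  have e1 : ∀ g : I → ℝ, dn (ahat s A2) (gm s A2) u2 x (B' *ᵥ g)
        - lft D1 (lamw s A1 R0 D1 mu) x (B' *ᵥ g)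
      = (dn (ahat s A2) (gm s A2) u2 x (B' *ᵥ g) - lamw s A2 R0 D1 (lft D0 mu) x (B' *ᵥ g))
        + (lamw s A2 R0 D1 (lft D0 mu) x (B' *ᵥ g)
          - lft D1 (lamw s A1 R0 D1 mu) x (B' *ᵥ g)) := fun g => by ring
  rw [n2_congr e1]
  exact (n2_add_le l1 l2).trans (add_le_add L2 L3)

end two

end

end Vale.Agent.P159.H363
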