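import Mathlib

/-!
P159 / H363: the finite dimensional Douglas lemma: a Loewner inequality between Gram forms
gives a factorisation by a contraction.
-/

namespace Vale.Agent.P159.H363

open Matrix Finset

variable {B I J : Type*} [Fintype B] [Fintype I] [Fintype J]

/-- `X X^T ≤ ρ² Y Y^T` as quadratic forms implies `X = Y T` with `|u T| ≤ ρ |u|` -/
theorem douglas (X : Matrix B J ℝ) (Y : Matrix B I ℝ) {ρ : ℝ}
    (h : ∀ l : B → ℝ, ∑ j, (l ᵥ* X) j ^ 2 ≤ ρ ^ 2 * ∑ i, (l ᵥ* Y) i ^ 2) :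
    ∃ T : Matrix I J ℝ, X = Y * T ∧
      ∀ u : I → ℝ, ∑ j, (u ᵥ* T) j ^ 2 ≤ ρ ^ 2 * ∑ i, u i ^ 2 := by
  classical
  let E := EuclideanSpace ℝ I
  let y : (B → ℝ) →ₗ[ℝ] E :=
    { toFun := fun l => WithLp.toLp 2 (l ᵥ* Y)
      map_add' := fun a b => by
        rw [Matrix.add_vecMul]
        rfl
      map_smul' := fun c a => by
        rw [Matrix.smul_vecMul]
        rfl }
  let x : (B → ℝ) →ₗ[ℝ] (J → ℝ) :=
    { toFun := fun l => l ᵥ* X
      map_add' := fun a b => Matrix.add_vecMul _ _ _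
      map_smul' := fun c a => Matrix.smul_vecMul _ _ _ }
  have hy : ∀ l, y l = WithLp.toLp 2 (l ᵥ* Y) := fun l => rfl
  have hx : ∀ l, x l = l ᵥ* X := fun l => rfl
  have hnorm : ∀ l, ‖y l‖ ^ 2 = ∑ i, (l ᵥ* Y) i ^ 2 := by
    intro l
    rw [EuclideanSpace.norm_sq_eq]
    refine Finset.sum_congr rfl fun i _ => ?_
    rw [Real.norm_eq_abs, sq_abs]
    rfl
  have hker : ∀ l, y l = 0 → x l = 0 := by
    intro l hl
    have h1 := h l
    rw [← hnorm l, hl, norm_zero] at h1
    have h2 : ∑ j, (l ᵥ* X) j ^ 2 ≤ 0 := by simpa using h1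
    funext j
    have h3 := (Finset.sum_eq_zero_iff_of_nonneg (fun j _ => sq_nonneg ((l ᵥ* X) j))).mp
      (le_antisymm h2 (Finset.sum_nonneg fun j _ => sq_nonneg _)) j (Finset.mem_univ j)
    simpa [hx] using h3
  obtain ⟨g, hg⟩ := y.rangeRestrict.exists_rightInverse_of_surjective
    (LinearMap.range_eq_top.mpr y.surjective_rangeRestrict)
  have hg' : ∀ k : LinearMap.range y, y (g k) = k := by
    intro k
    have := LinearMap.congr_fun hg k
    simpa using congrArg Subtype.val this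
  let t : E →ₗ[ℝ] (J → ℝ) :=
    x ∘ₗ g ∘ₗ ((LinearMap.range y).orthogonalProjectionOnto : E →L[ℝ] LinearMap.range y).toLinearMap
  have ht : ∀ u : E, t u = x (g ((LinearMap.range y).orthogonalProjectionOnto u)) := fun u => rfl
  have hty : ∀ l, t (y l) = x l := by
    intro l
    rw [ht]
    have h1 : ((LinearMap.range y).orthogonalProjectionOnto (y l) : E) = y l :=
      Submodule.starProjection_eq_self_iff.mpr ⟨l, rfl⟩
    have h2 : y (g ((LinearMap.range y).orthogonalProjectionOnto (y l)) - l) = 0 := by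
      rw [map_sub, hg', h1, sub_self]
    have h3 := hker _ h2
    rw [map_sub] at h3
    exact sub_eq_zero.mp h3
  have htn : ∀ u : E, ∑ j, (t u) j ^ 2 ≤ ρ ^ 2 * ‖u‖ ^ 2 := by
    intro u
    rw [ht, hx]
    refine (h _).trans ?_
    rw [← hnorm, hg']
    refine mul_le_mul_of_nonneg_left ?_ (sq_nonneg ρ)
    have := (LinearMap.range y).norm_orthogonalProjectionOnto_apply_le u
    exact pow_le_pow_left₀ (norm_nonneg _) this 2
  let T : Matrix I J ℝ := fun i j => t (EuclideanSpace.single i 1) j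
  have hT : ∀ u : I → ℝ, u ᵥ* T = t (WithLp.toLp 2 u) := by
    intro u
    have h1 : (WithLp.toLp 2 u : E) = ∑ i, u i • EuclideanSpace.single i (1 : ℝ) := by
      ext k
      simp [Finset.sum_apply, Pi.single_apply]
    rw [h1, map_sum]
    funext j
    simp only [map_smul, Finset.sum_apply, Pi.smul_apply, smul_eq_mul, Matrix.vecMul,
      dotProduct, T]
  refine ⟨T, ?_, ?_⟩
  · ext b j
    have h1 := hty (Pi.single b 1)
    rw [hy, hx, ← hT] at h1
    have h2 := congrFun h1 j
    rw [Matrix.vecMul_vecMul] at h2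
    simpa [Matrix.single_one_vecMul] using h2.symm
  · intro u
    rw [hT]
    refine (htn _).trans (le_of_eq ?_)
    rw [EuclideanSpace.norm_sq_eq]
    congr 1
    refine Finset.sum_congr rfl fun i _ => ?_
    rw [Real.norm_eq_abs, sq_abs]

end Vale.Agent.P159.H363
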