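import Vale.Agent.P159.H363.Win
import Vale.Agent.P159.H363.Doug

/-!
P159 / H363: (IN2) the gain mode from a cut-off `q` and construction of `Geo`.
`Γ = A Aᵀ`, `Γ Γi = 1`, `q = 1` on `B`, `c₀ = <Γi q, q>`: the unit vector `e = Aᵀ Γi q / √c₀`
satisfies `A e = q / √c₀`.
-/

namespace Vale.Agent.P159.H363

open MeasureTheory ProbabilityTheory Finset Matrix
open scoped Real

variable {I J Λ : Type*} [Fintype I] [Fintype J] [Fintype Λ]

section mode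

variable [DecidableEq Λ] {A : Matrix Λ I ℝ} {Γi : Matrix Λ Λ ℝ} {q : Λ → ℝ}

lemma mode_app (h : A * Aᵀ * Γi = 1) : A *ᵥ (Aᵀ *ᵥ (Γi *ᵥ q)) = q := by
  rw [mulVec_mulVec, mulVec_mulVec, h, one_mulVec]

lemma mode_norm (h : A * Aᵀ * Γi = 1) :
    (Aᵀ *ᵥ (Γi *ᵥ q)) ⬝ᵥ (Aᵀ *ᵥ (Γi *ᵥ q)) = (Γi *ᵥ q) ⬝ᵥ q := by
  have h1 : (Γi *ᵥ q) ⬝ᵥ (A *ᵥ (Aᵀ *ᵥ (Γi *ᵥ q)))
      = (Aᵀ *ᵥ (Γi *ᵥ q)) ⬝ᵥ (Aᵀ *ᵥ (Γi *ᵥ q)) := by
    rw [dotProduct_mulVec (Γi *ᵥ q), ← mulVec_transpose A (Γi *ᵥ q)]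
  rw [← h1, mode_app h]

/-- the gain mode -/
lemma gain_mode (h : A * Aᵀ * Γi = 1) {B : Finset Λ} (hB : B.Nonempty) (hq : ∀ y ∈ B, q y = 1)
    {c : ℝ} (hc : (Γi *ᵥ q) ⬝ᵥ q ≤ c) :
    ∃ (e : I → ℝ) (τ : ℝ), e ⬝ᵥ e = 1 ∧ (∀ y ∈ B, (A *ᵥ e) y = τ) ∧ 0 < c ∧ 1 / c ≤ τ ^ 2 := by
  set p : I → ℝ := Aᵀ *ᵥ (Γi *ᵥ q) with hp
  set c0 : ℝ := (Γi *ᵥ q) ⬝ᵥ q with hc0
  have hpp : p ⬝ᵥ p = c0 := mode_norm h
  have hAp : A *ᵥ p = q := mode_app h
  have hc0p : 0 < c0 := by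
    have h0 : 0 ≤ c0 := by
      rw [← hpp]
      exact Finset.sum_nonneg fun i _ => mul_self_nonneg _
    rcases h0.lt_or_eq with h1 | h1
    · exact h1
    · exfalso
      have hp0 : p = 0 := dotProduct_self_eq_zero.mp (by rw [hpp, ← h1])
      obtain ⟨y, hy⟩ := hB
      have h2 := hq y hy
      rw [← hAp, hp0, mulVec_zero] at h2
      simp at h2
  have hs : 0 < Real.sqrt c0 := Real.sqrt_pos.mpr hc0p
  refine ⟨(1 / Real.sqrt c0) • p, 1 / Real.sqrt c0, ?_, ?_, hc0p.trans_le hc, ?_⟩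
  · rw [smul_dotProduct, dotProduct_smul, hpp, smul_eq_mul, smul_eq_mul]
    have := Real.mul_self_sqrt hc0p.le
    field_simp
    nlinarith [this]
  · intro y hy
    rw [mulVec_smul, hAp, Pi.smul_apply, smul_eq_mul, hq y hy, mul_one]
  · rw [div_pow, one_pow, Real.sq_sqrt hc0p.le]
    exact one_div_le_one_div_of_le hc0p hc

end mode

section red

variable [DecidableEq I]

/-- the reduced operator is bounded below -/
lemma sc_ge (e : I → ℝ) (he : e ⬝ᵥ e = 1) {r : ℝ} (hr0 : 0 ≤ r) (hr1 : r ≤ 1) (w : I → ℝ) :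
    r ^ 2 * ∑ i, w i ^ 2 ≤ ∑ i, (w ᵥ* sc e r) i ^ 2 := by
  have h1 : ∀ i, (w ᵥ* sc e r) i = w i - (1 - r) * (w ⬝ᵥ e) * e i := by
    intro i
    unfold sc
    rw [vecMul_sub, vecMul_one, vecMul_smul, Pi.sub_apply, Pi.smul_apply, smul_eq_mul,
      vecMul_vecMulVec]
    simp only [Pi.smul_apply, smul_eq_mul, MulOpposite.smul_eq_mul_unop, MulOpposite.unop_op]
    ring
  have h2 : ∑ i, (w ᵥ* sc e r) i ^ 2 = ∑ i, w i ^ 2 - (1 - r ^ 2) * (w ⬝ᵥ e) ^ 2 := by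
    have e1 : ∀ i, (w ᵥ* sc e r) i ^ 2 = w i ^ 2 - 2 * (1 - r) * (w ⬝ᵥ e) * (w i * e i)
        + (1 - r) ^ 2 * (w ⬝ᵥ e) ^ 2 * (e i * e i) := by
      intro i
      rw [h1]
      ring
    simp only [e1]
    rw [Finset.sum_add_distrib, Finset.sum_sub_distrib, ← Finset.mul_sum, ← Finset.mul_sum]
    have e2 : ∑ i, w i * e i = w ⬝ᵥ e := rfl
    have e3 : ∑ i, e i * e i = 1 := he
    rw [e2, e3]
    ring
  have h3 : (w ⬝ᵥ e) ^ 2 ≤ ∑ i, w i ^ 2 := by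
    have h4 := Finset.sum_mul_sq_le_sq_mul_sq Finset.univ w e
    have e3 : ∑ i, e i ^ 2 = 1 := by
      rw [← he]
      exact Finset.sum_congr rfl fun i _ => sq (e i)
    rw [e3, mul_one] at h4
    exact h4
  rw [h2]
  have h5 : 0 ≤ 1 - r ^ 2 := by nlinarith
  nlinarith [mul_le_mul_of_nonneg_left h3 h5]

end red

/-- **(IN2)+(IN3) ⇒ Geo**: a cut-off `q` with `<Γi q, q> ≤ c` and the Loewner inequality
`|l X|² ≤ (ρ r)² <l, Γ l>` for `l` supported in `B`. -/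
theorem geo_of [DecidableEq I] [DecidableEq Λ] {ah S : Matrix Λ Λ ℝ} {C' : Matrix Λ J ℝ}
    {A : Matrix Λ I ℝ} {Γi : Matrix Λ Λ ℝ} {q : Λ → ℝ} (h : A * Aᵀ * Γi = 1)
    {x : Λ} {B : Finset Λ} (hB : B.Nonempty) (hq : ∀ y ∈ B, q y = 1) {c r γr ρ : ℝ}
    (hc : (Γi *ᵥ q) ⬝ᵥ q ≤ c) (hr0 : 0 ≤ r) (hr1 : r ≤ 1)
    (hγ : Real.exp (-(2 * π ^ 2 * ((1 - r ^ 2) / c))) ≤ γr)
    (hL : ∀ l : Λ → ℝ, (∀ y, y ∉ B → l y = 0) →
      ∑ j, (l ᵥ* (ah * C') - (∑ y, l y) • (S * ah * C') x) j ^ 2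
        ≤ (ρ * r) ^ 2 * ∑ i, (l ᵥ* A) i ^ 2) :
    Geo ah S C' A γr ρ x B := by
  obtain ⟨e, τ, he, hτ, hc0, hτc⟩ := gain_mode (A := A) h hB hq hc
  have key := douglas (B := {y // y ∈ B})
    (Matrix.of fun y j => (ah * C') y.1 j - (S * ah * C') x j)
    (Matrix.of fun y i => (A * sc e r) y.1 i) (ρ := ρ) ?_
  · obtain ⟨T, hT1, hT2⟩ := key
    refine ⟨e, τ, r, T, he, hτ, ?_, ?_, hT2⟩
    · refine le_trans (Real.exp_le_exp.mpr ?_) hγ
      have h1 : 0 ≤ 1 - r ^ 2 := by nlinarith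
      have h2 : (1 - r ^ 2) / c ≤ τ ^ 2 * (1 - r ^ 2) := by
        rw [div_eq_mul_one_div, mul_comm]
        exact mul_le_mul_of_nonneg_right hτc h1
      have hpi : 0 ≤ 2 * π ^ 2 := by positivity
      nlinarith [mul_le_mul_of_nonneg_left h2 hpi]
    · intro a y hy
      have h1 : ∀ j, (ah * C') y j - (S * ah * C') x j = ((A * sc e r) * T) y j := by
        intro j
        have h2 := congrFun (congrFun hT1 ⟨y, hy⟩) j
        simp only [Matrix.of_apply, Matrix.mul_apply] at h2 ⊢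
        exact h2
      rw [mulVec_mulVec]
      simp only [mulVec, dotProduct]
      rw [← Finset.sum_sub_distrib]
      refine Finset.sum_congr rfl fun j _ => ?_
      rw [← sub_mul, h1 j]
  · intro l
    set l' : Λ → ℝ := fun y => if hy : y ∈ B then l ⟨y, hy⟩ else 0 with hl'
    have hl0 : ∀ y, y ∉ B → l' y = 0 := fun y hy => by simp [hl', hy]
    have hsum : ∀ f : Λ → ℝ, ∑ y : {y // y ∈ B}, l y * f y.1 = ∑ y, l' y * f y := by
      intro f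
      rw [← Finset.sum_subset (Finset.subset_univ B) (fun y _ hy => by rw [hl0 y hy, zero_mul]),
        ← Finset.sum_coe_sort B (fun y => l' y * f y)]
      refine Finset.sum_congr rfl fun y _ => ?_
      simp [hl']
    have e1 : ∀ j, (l ᵥ* (Matrix.of fun (y : {y // y ∈ B}) j =>
        (ah * C') y.1 j - (S * ah * C') x j)) j
        = (l' ᵥ* (ah * C') - (∑ y, l' y) • (S * ah * C') x) j := by
      intro j
      simp only [vecMul, dotProduct, Matrix.of_apply, Pi.sub_apply, Pi.smul_apply, smul_eq_mul]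
      rw [hsum (fun y => (ah * C') y j - (S * ah * C') x j), Finset.sum_mul,
        ← Finset.sum_sub_distrib]
      refine Finset.sum_congr rfl fun y _ => ?_
      ring
    have e2 : (l ᵥ* (Matrix.of fun (y : {y // y ∈ B}) i => (A * sc e r) y.1 i))
        = (l' ᵥ* A) ᵥ* sc e r := by
      rw [vecMul_vecMul]
      funext i
      simp only [vecMul, dotProduct, Matrix.of_apply]
      exact hsum fun y => (A * sc e r) y i
    simp only [e1, e2]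
    refine (hL l' hl0).trans ?_
    rw [mul_pow, mul_assoc]
    exact mul_le_mul_of_nonneg_left (sc_ge e he hr0 hr1 _) (sq_nonneg ρ)

end Vale.Agent.P159.H363
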