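import Vale.Agent.P159.H363.Cvn9
import Vale.Agent.P159.H972.Good
import Vale.Agent.P159.H972.Stf

/-!
P159 / H363, CVPN part 1: the sizes of `CvNum` for powers of two.
-/

set_option linter.unusedSectionVars false

namespace Vale.Agent.P159.H363

open Vale.Agent.P159.H972 (tn)
open scoped Real

noncomputable section

lemma tn_eq (n : ℕ) : tn n = ((4 : ℝ) ^ n)⁻¹ := rfl

lemma four_two (n : ℕ) : (4 : ℝ) ^ n = (2 ^ n) ^ 2 := by
  rw [← pow_mul, mul_comm, pow_mul]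
  norm_num

/-- the letters of powers of two -/
lemma cast_div {r s : ℕ} (h : s ≤ r) : ((2 ^ r / 2 ^ s : ℕ) : ℝ) = 2 ^ r / 2 ^ s := by
  rw [Nat.pow_div h (by norm_num)]
  push_cast
  rw [eq_div_iff (by positivity), ← pow_add, Nat.sub_add_cancel h]

/-- the precision `ν` -/
lemma nu_num {n s : ℕ} {T : ℝ} (h1 : tn n ≤ T) (h2 : T ≤ 4 * tn n) :
    ((2 : ℝ) ^ s / 2 ^ n) ^ 2 ≤ T * ((2 ^ s : ℕ) : ℝ) ^ 2 ∧
      T * ((2 ^ s : ℕ) : ℝ) ^ 2 ≤ 4 * ((2 : ℝ) ^ s / 2 ^ n) ^ 2 := by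
  have e1 : tn n * ((2 ^ s : ℕ) : ℝ) ^ 2 = ((2 : ℝ) ^ s / 2 ^ n) ^ 2 := by
    rw [tn_eq, four_two]
    push_cast
    rw [div_pow]
    field_simp
  have h3 : (0 : ℝ) ≤ ((2 ^ s : ℕ) : ℝ) ^ 2 := by positivity
  have h4 := mul_le_mul_of_nonneg_right h1 h3
  have h5 := mul_le_mul_of_nonneg_right h2 h3
  constructor <;> linarith

/-- the noise `s12` -/
lemma s12_num {n m r1 r2 s : ℕ} {T : ℝ} (h1 : tn n ≤ T) (h2 : T ≤ 4 * tn n) (hn : n ≤ r1)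
    (hm : r1 + 2 ≤ m) (hr : m ≤ r2) :
    ((2 : ℝ) ^ r1 / 2 ^ s) ^ 2 ≤ sn (2 ^ s) T (4 * tn m) ∧
      2 * sn (2 ^ s) T (4 * tn m) ≤ ((2 : ℝ) ^ r2 / 2 ^ s) ^ 2 ∧
      sn (2 ^ s) T (4 * tn m) * (T * ((2 ^ s : ℕ) : ℝ) ^ 2) ≤ 4 ^ m / 4 ^ n ∧
      0 < sn (2 ^ s) T (4 * tn m) := by
  have hT : 0 < T := (H972.tn_pos n).trans_le h1
  have e1 : (4 * tn m)⁻¹ = (4 : ℝ) ^ m / 4 := by
    rw [tn_eq]
    field_simp
  have e2 : T⁻¹ ≤ (4 : ℝ) ^ n := by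
    have := inv_anti₀ (H972.tn_pos n) h1
    rwa [tn_eq, inv_inv] at this
  have e3 : 0 < T⁻¹ := by positivity
  have e4 : (4 : ℝ) ^ r1 * 16 ≤ 4 ^ m := by
    calc (4 : ℝ) ^ r1 * 16 = 4 ^ (r1 + 2) := by rw [pow_add]; norm_num
      _ ≤ 4 ^ m := pow_le_pow_right₀ (by norm_num) hm
  have e5 : (4 : ℝ) ^ n ≤ 4 ^ r1 := pow_le_pow_right₀ (by norm_num) hn
  have e6 : (4 : ℝ) ^ m ≤ 4 ^ r2 := pow_le_pow_right₀ (by norm_num) hr
  have hs : (0 : ℝ) < 4 ^ s := by positivity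
  have ecast : (((2 ^ s : ℕ) : ℝ)) ^ 2 = 4 ^ s := by
    rw [four_two]
    push_cast
    rfl
  have hpos : 0 < (4 : ℝ) ^ r1 := by positivity
  unfold sn
  rw [ecast, e1]
  refine ⟨?_, ?_, ?_, ?_⟩
  · rw [div_pow, ← four_two, ← four_two]
    refine div_le_div_of_nonneg_right ?_ hs.le
    linarith
  · rw [div_pow, ← four_two, ← four_two, mul_div_assoc']
    refine div_le_div_of_nonneg_right ?_ hs.le
    have : (0 : ℝ) < 4 ^ m := by positivity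
    linarith
  · have e7 : (4 ^ m / 4 - T⁻¹) / (4 : ℝ) ^ s * (T * 4 ^ s) = (4 ^ m / 4 - T⁻¹) * T := by
      field_simp
    rw [e7]
    have e8 : T ≤ 4 * (4 ^ n)⁻¹ := by rw [← tn_eq]; exact h2
    have e9 : (4 ^ m / 4 - T⁻¹) * T ≤ 4 ^ m / 4 * (4 * (4 ^ n)⁻¹) := by
      have : (4 : ℝ) ^ m / 4 * T ≤ 4 ^ m / 4 * (4 * (4 ^ n)⁻¹) :=
        mul_le_mul_of_nonneg_left e8 (by positivity)
      have : 0 < T⁻¹ * T := by positivity
      nlinarith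
    refine e9.trans (le_of_eq ?_)
    field_simp
  · refine div_pos ?_ hs
    linarith

/-- the last condition as an exponential -/
lemma pow_exp {C2 L : ℝ} (hL : 1 ≤ L) {k : ℕ} {A : ℝ} (hA : 1 ≤ A) (h : (k : ℝ) + Real.log A ≤ C2) :
    A * L ^ k ≤ Real.exp (C2 * (1 + Real.log L)) := by
  have hL0 : 0 < L := by linarith
  have hA0 : 0 < A := by linarith
  have hlL := Real.log_nonneg hL
  have hlA := Real.log_nonneg hA
  have e1 : A * L ^ k = Real.exp (Real.log A + k * Real.log L) := by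
    rw [Real.exp_add, Real.exp_log hA0, show (k : ℝ) * Real.log L = Real.log (L ^ k) by
      rw [Real.log_pow], Real.exp_log (by positivity)]
  rw [e1]
  refine Real.exp_le_exp.2 ?_
  have hk : (0 : ℝ) ≤ k := Nat.cast_nonneg k
  nlinarith

end

end Vale.Agent.P159.H363
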