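import Vale.Agent.P159.H363.Cpn1

/-!
P159 / H363, CVPN part 2: `CvNum` for powers of two.
-/

set_option linter.unusedSectionVars false

namespace Vale.Agent.P159.H363

open Vale.Agent.P159.H972 (tn)
open scoped Real

noncomputable section

/-- the windows -/
lemma win_sizes {Λ k0 A0 lam L : ℝ} {D0 : ℕ} (hΛ : 1 ≤ Λ) (hk0 : 0 < k0) (hk1 : k0 ≤ 1)
    (hlam : 0 < lam) (hlam1 : lam ≤ 1) (hL : 1 ≤ L) (hD0 : (D0 : ℝ) ≤ A0 * L / lam + 1) :
    ∃ R0 D1 : ℕ, Λ * L * (2 / (k0 * lam)) ≤ R0 ∧ D1 = R0 + D0 + R0 ∧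
      (D1 : ℝ) ≤ (4 * Λ / k0 + A0 + 3) * L / lam ∧ 4 * L / lam ≤ D1 := by
  have h0 : 0 < Λ * L * (2 / (k0 * lam)) := by positivity
  have hc := Nat.le_ceil (Λ * L * (2 / (k0 * lam)))
  have hc' := Nat.ceil_lt_add_one h0.le
  have e0 : Λ * L * (2 / (k0 * lam)) = 2 * Λ / k0 * L / lam := by
    field_simp
  have e1 : 1 ≤ L / lam := by
    rw [le_div_iff₀ hlam]
    linarith
  have e2 : 2 * (L / lam) ≤ Λ * L * (2 / (k0 * lam)) := by
    rw [e0]
    have e3 : 2 ≤ 2 * Λ / k0 := by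
      rw [le_div_iff₀ hk0]
      linarith
    have e4 : 2 * Λ / k0 * L / lam = 2 * Λ / k0 * (L / lam) := by ring
    rw [e4]
    exact mul_le_mul_of_nonneg_right e3 (by positivity)
  refine ⟨⌈Λ * L * (2 / (k0 * lam))⌉₊, _, hc, rfl, ?_, ?_⟩
  · push_cast
    have e5 : (4 * Λ / k0 + A0 + 3) * L / lam =
        2 * (2 * Λ / k0 * L / lam) + A0 * L / lam + 3 * (L / lam) := by ring
    rw [e5, ← e0]
    linarith
  · push_cast
    have : (0 : ℝ) ≤ D0 := Nat.cast_nonneg _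
    have e6 : 4 * L / lam = 2 * (2 * (L / lam)) := by ring
    rw [e6]
    linarith

/-- scalar sizes; `X = N1 / ξ`, `lam = l / ξ`, `D = D1`, `q = p L` -/
lemma sizes_X {C p A k0 L X lam D ν n1 : ℝ} (hC : 1 ≤ C) (hp : 5 ≤ p) (hA : 1 ≤ A)
    (hk0 : 0 < k0) (hL : 1 ≤ L) (hlam : 0 < lam) (hD0 : 0 ≤ D)
    (hD : D ≤ A * L / lam) (hν1 : lam ^ 2 ≤ ν) (hν4 : ν ≤ 4 * lam ^ 2) (hn1 : n1 = X / lam)
    (h1 : 16 * A * p * L ^ 2 ≤ X) (h2 : 2 / k0 * L ^ 5 ≤ X) (h3 : C * L ^ 3 ≤ X)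
    (h4 : 16 * C * p * A ^ 4 * L ^ 7 ≤ X) (hX1 : 1 ≤ X) :
    4 * D ≤ n1 ∧ L ^ 5 * 2 ≤ k0 * lam * n1 ∧ C * L ^ 3 ≤ ν * n1 ^ 2 ∧ 16 * (D * (p * L)) ≤ n1 ∧
      C * L ^ 2 * (p * L * ν * D ^ 4 / n1 ^ 2) ≤ 1 / 4 := by
  have hX0 : 0 < X := by linarith
  have hn0 : 0 < n1 := by rw [hn1]; positivity
  have hDl : D * lam ≤ A * L := by
    calc D * lam ≤ A * L / lam * lam := mul_le_mul_of_nonneg_right hD hlam.le
      _ = A * L := by field_simp
  have hnl : n1 * lam = X := by rw [hn1]; field_simp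
  have hpL : 1 ≤ p * L := by nlinarith
  have key : 16 * (D * (p * L)) ≤ n1 := by
    have e1 : 16 * (D * (p * L)) * lam ≤ n1 * lam := by
      rw [hnl]
      calc 16 * (D * (p * L)) * lam = 16 * (p * L) * (D * lam) := by ring
        _ ≤ 16 * (p * L) * (A * L) := mul_le_mul_of_nonneg_left hDl (by positivity)
        _ = 16 * A * p * L ^ 2 := by ring
        _ ≤ X := h1
    exact le_of_mul_le_mul_right e1 hlam
  refine ⟨?_, ?_, ?_, key, ?_⟩
  · have : D ≤ D * (p * L) := by nlinarith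
    linarith
  · have e1 : k0 * lam * n1 = k0 * X := by rw [← hnl]; ring
    rw [e1]
    have e2 := mul_le_mul_of_nonneg_left h2 hk0.le
    have e3 : k0 * (2 / k0 * L ^ 5) = L ^ 5 * 2 := by field_simp
    linarith
  · have e1 : X ^ 2 ≤ ν * n1 ^ 2 := by
      have : (n1 * lam) ^ 2 ≤ ν * n1 ^ 2 := by
        rw [mul_pow, mul_comm]
        exact mul_le_mul_of_nonneg_right hν1 (by positivity)
      rwa [hnl] at this
    nlinarith
  · have e1 : ν * D ^ 4 / n1 ^ 2 ≤ 4 * A ^ 4 * L ^ 4 / X ^ 2 := by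
      rw [div_le_div_iff₀ (by positivity) (by positivity)]
      have e2 : (D * lam) ^ 4 ≤ (A * L) ^ 4 := pow_le_pow_left₀ (by positivity) hDl 4
      calc ν * D ^ 4 * X ^ 2 ≤ 4 * lam ^ 2 * D ^ 4 * X ^ 2 := by gcongr
        _ = 4 * (D * lam) ^ 4 * n1 ^ 2 := by rw [← hnl]; ring
        _ ≤ 4 * (A * L) ^ 4 * n1 ^ 2 := by gcongr
        _ = 4 * A ^ 4 * L ^ 4 * n1 ^ 2 := by ring
    have e3 : C * L ^ 2 * (p * L * ν * D ^ 4 / n1 ^ 2) =
        C * p * L ^ 3 * (ν * D ^ 4 / n1 ^ 2) := by ring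
    rw [e3]
    have e4 : C * p * L ^ 3 * (ν * D ^ 4 / n1 ^ 2) ≤ C * p * L ^ 3 * (4 * A ^ 4 * L ^ 4 / X ^ 2) :=
      mul_le_mul_of_nonneg_left e1 (by positivity)
    have e5 : C * p * L ^ 3 * (4 * A ^ 4 * L ^ 4 / X ^ 2) =
        (16 * C * p * A ^ 4 * L ^ 7) / X ^ 2 / 4 := by ring
    rw [e5] at e4
    have e6 : (16 * C * p * A ^ 4 * L ^ 7) / X ^ 2 ≤ 1 := by
      rw [div_le_one (by positivity)]
      nlinarith
    linarith

/-- the logarithmic condition -/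
lemma w_num {C p A L X lam D n1 : ℝ} (hp : 5 ≤ p) (hA : 1 ≤ A) (hL : 1 ≤ L) (hlam : 0 < lam)
    (hD0 : 0 < D) (hD : D ≤ A * L / lam) (hn1 : n1 = X / lam) (hX : 0 < X)
    (h : A * p * L ^ 2 * Real.exp (C * (1 + Real.log L)) ≤ X) :
    C * (1 + Real.log L) ≤ Real.log (n1 / (D * (p * L))) := by
  rw [Real.le_log_iff_exp_le (by rw [hn1]; positivity), le_div_iff₀ (by positivity)]
  have hDl : D * lam ≤ A * L := by
    calc D * lam ≤ A * L / lam * lam := mul_le_mul_of_nonneg_right hD hlam.le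
      _ = A * L := by field_simp
  have e1 : Real.exp (C * (1 + Real.log L)) * (D * (p * L)) * lam ≤ X := by
    calc Real.exp (C * (1 + Real.log L)) * (D * (p * L)) * lam
        = Real.exp (C * (1 + Real.log L)) * (p * L) * (D * lam) := by ring
      _ ≤ Real.exp (C * (1 + Real.log L)) * (p * L) * (A * L) :=
          mul_le_mul_of_nonneg_left hDl (by positivity)
      _ = A * p * L ^ 2 * Real.exp (C * (1 + Real.log L)) := by ring
      _ ≤ X := h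
  rw [hn1, le_div_iff₀ hlam]
  exact e1

end

end Vale.Agent.P159.H363
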