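import Vale.Agent.P159.H363.Cpn2

/-!
P159 / H363, CVPN part 3: `CvNum` for powers of two, assembled.
-/

set_option linter.unusedSectionVars false

namespace Vale.Agent.P159.H363

open Vale.Agent.P159.H972 (tn)
open scoped Real

noncomputable section

/-- the constant of the condition on `X` -/
lemma X_conds {C k0 A p : ℝ} (hC : 1 ≤ C) (hk0 : 0 < k0) (hk1 : k0 ≤ 1) (hA1 : 1 ≤ A)
    (hp5 : 5 ≤ p) : ∃ C2 : ℝ, C ≤ C2 ∧ ∀ L X : ℝ, 1 ≤ L →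
      Real.exp (C2 * (1 + Real.log L)) ≤ X →
      16 * A * p * L ^ 2 ≤ X ∧ 2 / k0 * L ^ 5 ≤ X ∧ C * L ^ 3 ≤ X ∧ 16 * C * p * A ^ 4 * L ^ 7 ≤ X ∧
        A * p * L ^ 2 * Real.exp (C * (1 + Real.log L)) ≤ X := by
  have g1 : 0 ≤ Real.log (16 * A * p) := Real.log_nonneg (by nlinarith)
  have h2k : 1 ≤ 2 / k0 := by
    rw [le_div_iff₀ hk0]
    linarith
  have g2 : 0 ≤ Real.log (2 / k0) := Real.log_nonneg h2k
  have g3 : 0 ≤ Real.log C := Real.log_nonneg hC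
  have hA4 : 1 ≤ A ^ 4 := one_le_pow₀ hA1
  have hCp : 1 ≤ C * p := by nlinarith
  have h16 : 1 ≤ 16 * C * p * A ^ 4 := by nlinarith
  have g4 : 0 ≤ Real.log (16 * C * p * A ^ 4) := Real.log_nonneg h16
  have hAp : 1 ≤ A * p := by nlinarith
  have g5 : 0 ≤ Real.log (A * p) := Real.log_nonneg hAp
  refine ⟨C + 7 + Real.log (16 * A * p) + Real.log (2 / k0) + Real.log C +
    Real.log (16 * C * p * A ^ 4) + Real.log (A * p), by linarith, ?_⟩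
  intro L X hL hX
  have hlL := Real.log_nonneg hL
  refine ⟨(pow_exp hL (k := 2) (by nlinarith) (by push_cast; linarith)).trans hX,
    (pow_exp hL (k := 5) h2k (by push_cast; linarith)).trans hX,
    (pow_exp hL (k := 3) hC (by push_cast; linarith)).trans hX,
    (pow_exp hL (k := 7) h16 (by push_cast; linarith)).trans hX, ?_⟩
  have e1 : A * p * L ^ 2 ≤ Real.exp ((2 + Real.log (A * p)) * (1 + Real.log L)) :=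
    pow_exp hL (k := 2) hAp (by push_cast; linarith)
  refine le_trans (mul_le_mul_of_nonneg_right e1 (Real.exp_pos _).le) (le_trans ?_ hX)
  rw [← Real.exp_add]
  refine Real.exp_le_exp.2 ?_
  have e2 : (2 + Real.log (A * p)) * (1 + Real.log L) + C * (1 + Real.log L) =
      (2 + Real.log (A * p) + C) * (1 + Real.log L) := by ring
  rw [e2]
  exact mul_le_mul_of_nonneg_right (by linarith) (by linarith)

lemma nuU_num {lam ν p0 p L : ℝ} (hlam0 : 0 < lam) (v1 : lam ^ 2 ≤ ν) (hL : 1 ≤ L)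
    (hp2 : 2 * p0 + 1 ≤ p) (hlU : lam⁻¹ ≤ Real.exp (p0 * L)) : ν⁻¹ ≤ Real.exp (p * L) := by
  have e1 : ν⁻¹ ≤ (lam ^ 2)⁻¹ := inv_anti₀ (by positivity) v1
  have e2 : (lam ^ 2)⁻¹ = lam⁻¹ * lam⁻¹ := by
    rw [pow_two, mul_inv]
  have e3 : lam⁻¹ * lam⁻¹ ≤ Real.exp (p0 * L) * Real.exp (p0 * L) :=
    mul_le_mul hlU hlU (by positivity) (Real.exp_pos _).le
  rw [← Real.exp_add] at e3
  rw [e2] at e1
  refine e1.trans (e3.trans (Real.exp_le_exp.2 ?_))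
  nlinarith

lemma sD_num {lam ν p L D : ℝ} (hlam0 : 0 < lam) (v1 : lam ^ 2 ≤ ν) (hL : 1 ≤ L) (hp5 : 5 ≤ p)
    (w4 : 4 * L / lam ≤ D) : 3 / ν ≤ (D * (p * L)) ^ 2 := by
  have hpL : 5 ≤ p * L := by nlinarith
  have e1 : 3 / ν ≤ 3 / lam ^ 2 := div_le_div_of_nonneg_left (by norm_num) (by positivity) v1
  have e2 : (4 / lam) ^ 2 ≤ (D * (p * L)) ^ 2 := by
    refine pow_le_pow_left₀ (by positivity) ?_ 2
    have e3 : 4 / lam ≤ 4 * L / lam := div_le_div_of_nonneg_right (by linarith) hlam0.le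
    have e4 : 4 / lam ≤ D := e3.trans w4
    have e5 : 0 < 4 / lam := by positivity
    nlinarith
  have e5 : 3 / lam ^ 2 ≤ (4 / lam) ^ 2 := by
    rw [div_pow]
    exact div_le_div_of_nonneg_right (by norm_num) (by positivity)
  linarith

lemma x_num {n m : ℕ} {s12 ν a x1 : ℝ} (s4 : 0 < s12) (hν0 : 0 < ν)
    (s3 : s12 * ν ≤ 4 ^ m / 4 ^ n)
    (hx : |1 - π / (2 * a)| * (((m : ℝ) - n) * Real.log 4) ≤ x1) :
    |1 - π / (2 * a)| * Real.log (s12 / (3 / ν)) ≤ x1 := by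
  refine le_trans (mul_le_mul_of_nonneg_left ?_ (abs_nonneg _)) hx
  have e1 : s12 / (3 / ν) ≤ 4 ^ m / 4 ^ n := by
    rw [div_div_eq_mul_div]
    have e2 : 0 < s12 * ν := mul_pos s4 hν0
    rw [div_le_iff₀ (by norm_num)]
    linarith
  have e3 : 0 < s12 / (3 / ν) := by positivity
  refine (Real.log_le_log e3 e1).trans (le_of_eq ?_)
  rw [Real.log_div (by positivity) (by positivity), Real.log_pow, Real.log_pow]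
  ring

lemma mk_lg {p lam L D : ℝ} (hL : 1 ≤ L) (hp5 : 5 ≤ p) (hlam0 : 0 < lam) (hpl : p * lam ≤ 1)
    (w4 : 4 * L / lam ≤ D) : p * L ≤ D := by
  refine le_trans ?_ w4
  rw [le_div_iff₀ hlam0]
  have e1 : p * L * lam = p * lam * L := by ring
  rw [e1]
  have e2 : p * lam * L ≤ 1 * L := mul_le_mul_of_nonneg_right hpl (by linarith)
  linarith

lemma mk_nu {lam ν : ℝ} (hlam0 : 0 < lam) (hlam8 : 8 * lam ≤ 1) (v2 : ν ≤ 4 * lam ^ 2) :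
    ν ≤ 1 / 8 := by
  have : lam ^ 2 ≤ 1 / 64 := by
    have e1 : lam ≤ 1 / 8 := by linarith
    calc lam ^ 2 ≤ (1 / 8) ^ 2 := pow_le_pow_left₀ hlam0.le e1 2
      _ = 1 / 64 := by norm_num
  linarith

lemma mk_pL {p L : ℝ} (hL : 1 ≤ L) (hp5 : 5 ≤ p) : 5 ≤ p * L := by
  have : p * 1 ≤ p * L := mul_le_mul_of_nonneg_left hL (by linarith)
  linarith

lemma mk_nat {N D : ℕ} {x : ℝ} (h : (N : ℝ) = x) (h2 : 4 * (D : ℝ) ≤ x) : 4 * D ≤ N := by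
  have : ((4 * D : ℕ) : ℝ) ≤ N := by
    push_cast
    rw [h]
    exact h2
  exact_mod_cast this

lemma mk_ns {s r : ℕ} (h : s ≤ r) {S : ℝ} (h1 : ((2 : ℝ) ^ r / 2 ^ s) ^ 2 ≤ S) :
    ((2 ^ r / 2 ^ s : ℕ) : ℝ) ^ 2 ≤ S := by
  rw [cast_div h]
  exact h1

lemma mk_s2 {s r : ℕ} (h : s ≤ r) {S : ℝ} (h1 : S ≤ ((2 : ℝ) ^ r / 2 ^ s) ^ 2) :
    S ≤ ((2 ^ r / 2 ^ s : ℕ) : ℝ) ^ 2 := by
  rw [cast_div h]
  exact h1

/-- the structure from its scalar ingredients -/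
lemma cvnum_mk {Λ C κ p L a x1 ν s12 : ℝ} {N1 N2 R0 D0 D1 : ℕ}
    (hν8 : ν ≤ 1 / 8) (hνU : ν⁻¹ ≤ Real.exp (p * L)) (hYU : (N2 : ℝ) ≤ Real.exp (p * L))
    (w1 : Λ * L * (2 / κ) ≤ R0) (w2 : D1 = R0 + D0 + R0) (hDp : p * L ≤ D1)
    (h12 : N1 ≤ N2) (z1 : 4 * (D1 : ℝ) ≤ N1) (z2 : L ^ 5 * 2 ≤ κ * N1)
    (z3 : C * L ^ 3 ≤ ν * N1 ^ 2) (z4 : 16 * (D1 * (p * L)) ≤ N1)
    (s1 : (N1 : ℝ) ^ 2 ≤ s12) (s2 : 2 * s12 ≤ (N2 : ℝ) ^ 2)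
    (sD : 3 / ν ≤ (D1 * (p * L)) ^ 2) (hx : |1 - π / (2 * a)| * Real.log (s12 / (3 / ν)) ≤ x1)
    (z5 : C * L ^ 2 * (p * L * ν * D1 ^ 4 / (N1 : ℝ) ^ 2) ≤ 1 / 4)
    (z6 : C * (1 + Real.log L) ≤ Real.log (N1 / (D1 * (p * L))))
    (hpL : 5 ≤ p * L)
    (hG : C * (1 + Real.log L) + x1 ≤ p * L) :
    CvNum N1 N2 ν κ s12 L p Λ C a (p * L) x1 R0 D0 D1 R0 := by
  have hD5 : (5 : ℝ) ≤ D1 := hpL.trans hDp
  have hD0 : (0 : ℝ) < D1 := by linarith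
  have hN0 : (0 : ℝ) < N1 := by linarith
  have hN12 : (N1 : ℝ) ≤ N2 := by exact_mod_cast h12
  have hlog1 : Real.log N1 ≤ p * L := by
    rw [Real.log_le_iff_le_exp hN0]
    exact hN12.trans hYU
  exact
    { ν8 := hν8
      νU := hνU
      R0l := w1
      Rl := w1
      sum := w2.ge
      D1U := by linarith
      n2U := hYU
      n12 := h12
      D4 := by exact_mod_cast z1
      κn := z2
      νn := z3
      ns := s1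
      s2 := s2
      D5 := by exact_mod_cast hD5
      q5 := hpL
      lD := by linarith
      lq := hlog1
      Dq := z4
      sD := sD
      x := hx
      eta := z5
      w := z6
      G := hG }

lemma YU_num {lam Y p0 p L : ℝ} (hlam0 : 0 < lam) (hL : 1 ≤ L)
    (hp2 : p0 + 1 ≤ p) (hlU : lam⁻¹ ≤ Real.exp (p0 * L)) (hr2 : Y ≤ Real.exp L) :
    Y / lam ≤ Real.exp (p * L) := by
  rw [div_eq_mul_inv]
  refine (mul_le_mul hr2 hlU (by positivity) (Real.exp_pos _).le).trans ?_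
  rw [← Real.exp_add]
  refine Real.exp_le_exp.2 ?_
  have : (p0 + 1) * L ≤ p * L := mul_le_mul_of_nonneg_right hp2 (by linarith)
  linarith

lemma sq_num {lam ν A L D X : ℝ} (hlam0 : 0 < lam) (v1 : lam ^ 2 ≤ ν) (v2 : ν ≤ 4 * lam ^ 2)
    (hD0 : 0 ≤ D) (w3 : D ≤ A * L / lam) (hX : 0 ≤ X) :
    √ν * D ≤ 2 * A * L ∧ X ≤ √ν * (X / lam) := by
  constructor
  · have e1 : √ν ≤ 2 * lam := by
      rw [Real.sqrt_le_left (by positivity)]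
      calc ν ≤ 4 * lam ^ 2 := v2
        _ = (2 * lam) ^ 2 := by ring
    calc √ν * D ≤ 2 * lam * (A * L / lam) := mul_le_mul e1 w3 hD0 (by positivity)
      _ = 2 * A * L := by field_simp
  · have e1 : lam ≤ √ν := Real.le_sqrt_of_sq_le v1
    calc X = lam * (X / lam) := by field_simp
      _ ≤ √ν * (X / lam) := mul_le_mul_of_nonneg_right e1 (by positivity)

/-- all conditions that only see the sizes -/
lemma cvnum_core {Λ C k0 A0 p0 : ℝ} (hΛ : 1 ≤ Λ) (hC : 1 ≤ C) (hk0 : 0 < k0) (hk1 : k0 ≤ 1)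
    (hA0 : 0 ≤ A0) {p : ℝ} (hp5 : 5 ≤ p) (hp2 : 2 * p0 + 1 ≤ p) (hp00 : 0 ≤ p0) :
    ∃ C2 : ℝ, C ≤ C2 ∧ ∀ (N1 N2 D0 : ℕ) (ν L a x1 lam X Y S : ℝ), 0 < lam → 1 ≤ L →
      8 * lam ≤ 1 → p * lam ≤ 1 → lam ^ 2 ≤ ν → ν ≤ 4 * lam ^ 2 →
      lam⁻¹ ≤ Real.exp (p0 * L) → Y ≤ Real.exp L → 1 ≤ X →
      (N1 : ℝ) = X / lam → (N2 : ℝ) = Y / lam → N1 ≤ N2 →
      (D0 : ℝ) ≤ A0 * L / lam + 1 →
      Real.exp (C2 * (1 + Real.log L)) ≤ X →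
      (N1 : ℝ) ^ 2 ≤ S → 2 * S ≤ (N2 : ℝ) ^ 2 →
      |1 - π / (2 * a)| * Real.log (S / (3 / ν)) ≤ x1 →
      C * (1 + Real.log L) + x1 ≤ p * L →
      ∃ R0 D1 : ℕ, CvNum N1 N2 ν (k0 * lam) S L p Λ C a (p * L) x1 R0 D0 D1 R0 ∧
        √ν * D1 ≤ 2 * (4 * Λ / k0 + A0 + 3) * L ∧ X ≤ √ν * (N1 : ℝ) := by
  obtain ⟨A, hA⟩ : ∃ A : ℝ, A = 4 * Λ / k0 + A0 + 3 := ⟨_, rfl⟩
  have hA1 : 1 ≤ A := by
    rw [hA]
    have : 0 < 4 * Λ / k0 := by positivity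
    linarith
  obtain ⟨C2, hC2, HX⟩ := X_conds hC hk0 hk1 hA1 hp5
  refine ⟨C2, hC2, ?_⟩
  intro N1 N2 D0 ν L a x1 lam X Y S hlam0 hL hlam8 hpl v1 v2 hlU hYL hX1 hn1 hn2 h12 hD0 hX s1 s2
    hx hG
  obtain ⟨c1, c2, c3, c4, c5⟩ := HX L X hL hX
  have hlam1 : lam ≤ 1 := by linarith
  have hν0 : 0 < ν := lt_of_lt_of_le (by positivity) v1
  obtain ⟨R0, D1, w1, w2, w3, w4⟩ := win_sizes (D0 := D0) hΛ hk0 hk1 hlam0 hlam1 hL hD0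
  rw [← hA] at w3 ⊢
  have hD00 : (0 : ℝ) ≤ D1 := Nat.cast_nonneg _
  have hD10 : (0 : ℝ) < D1 := lt_of_lt_of_le (by positivity) w4
  obtain ⟨z1, z2, z3, z4, z5⟩ := sizes_X hC hp5 hA1 hk0 hL hlam0 hD00 w3 v1 v2 hn1 c1 c2 c3 c4 hX1
  have z6 := w_num hp5 hA1 hL hlam0 hD10 w3 hn1 (by linarith) c5
  have hYU : (N2 : ℝ) ≤ Real.exp (p * L) := by
    rw [hn2]
    exact YU_num hlam0 hL (by linarith) hlU hYL
  obtain ⟨q1, q2⟩ := sq_num hlam0 v1 v2 hD00 w3 (by linarith : (0 : ℝ) ≤ X)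
  rw [← hn1] at q2
  exact ⟨R0, D1, cvnum_mk (mk_nu hlam0 hlam8 v2) (nuU_num hlam0 v1 hL hp2 hlU) hYU w1 w2
    (mk_lg hL hp5 hlam0 hpl w4) h12 z1 z2 z3 z4 s1 s2 (sD_num hlam0 v1 hL hp5 w4) hx z5 z6
    (mk_pL hL hp5) hG, q1, q2⟩

/-- **the sizes of `cvn`** -/
theorem cvnum_ex {Λ C k0 A0 p0 : ℝ} (hΛ : 1 ≤ Λ) (hC : 1 ≤ C) (hk0 : 0 < k0) (hk1 : k0 ≤ 1)
    (hA0 : 0 ≤ A0) {p : ℝ} (hp5 : 5 ≤ p) (hp2 : 2 * p0 + 1 ≤ p) (hp00 : 0 ≤ p0) :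
    ∃ C2 : ℝ, C ≤ C2 ∧ ∀ (n m r1 r2 s D0 : ℕ) (T L a x1 : ℝ), tn n ≤ T → T ≤ 4 * tn n → s ≤ n →
      n ≤ r1 → r1 + 2 ≤ m → m ≤ r2 → 1 ≤ L → 8 * ((2 : ℝ) ^ s / 2 ^ n) ≤ 1 →
      p * ((2 : ℝ) ^ s / 2 ^ n) ≤ 1 →
      ((2 : ℝ) ^ s / 2 ^ n)⁻¹ ≤ Real.exp (p0 * L) → (2 : ℝ) ^ r2 / 2 ^ n ≤ Real.exp L →
      (D0 : ℝ) ≤ A0 * L / ((2 : ℝ) ^ s / 2 ^ n) + 1 →
      Real.exp (C2 * (1 + Real.log L)) ≤ (2 : ℝ) ^ r1 / 2 ^ n →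
      |1 - π / (2 * a)| * (((m : ℝ) - n) * Real.log 4) ≤ x1 →
      C * (1 + Real.log L) + x1 ≤ p * L →
      ∃ R0 D1 : ℕ, CvNum (2 ^ r1 / 2 ^ s) (2 ^ r2 / 2 ^ s) (T * ((2 ^ s : ℕ) : ℝ) ^ 2)
        (k0 * ((2 : ℝ) ^ s / 2 ^ n)) (sn (2 ^ s) T (4 * tn m)) L p Λ C a (p * L) x1 R0 D0 D1 R0 ∧
        √(T * ((2 ^ s : ℕ) : ℝ) ^ 2) * D1 ≤ 2 * (4 * Λ / k0 + A0 + 3) * L ∧
        (2 : ℝ) ^ r1 / 2 ^ n ≤ √(T * ((2 ^ s : ℕ) : ℝ) ^ 2) * ((2 ^ r1 / 2 ^ s : ℕ) : ℝ) := by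
  obtain ⟨C2, hC2, H⟩ := cvnum_core (A0 := A0) hΛ hC hk0 hk1 hA0 hp5 hp2 hp00
  refine ⟨C2, hC2, ?_⟩
  intro n m r1 r2 s D0 T L a x1 hT1 hT2 hsn hn hm hr hL hl8 hpl hlU hr2 hD0 hX hx hG
  obtain ⟨v1, v2⟩ := nu_num (n := n) (s := s) hT1 hT2
  obtain ⟨s1, s2, s3, s4⟩ := s12_num (s := s) hT1 hT2 hn hm hr
  have hlam0 : (0 : ℝ) < (2 : ℝ) ^ s / 2 ^ n := by positivity
  have hν0 : 0 < T * ((2 ^ s : ℕ) : ℝ) ^ 2 := lt_of_lt_of_le (by positivity) v1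
  have hX1 : 1 ≤ (2 : ℝ) ^ r1 / 2 ^ n := by
    rw [le_div_iff₀ (by positivity), one_mul]
    exact pow_le_pow_right₀ one_le_two hn
  have hn1 : ((2 ^ r1 / 2 ^ s : ℕ) : ℝ) = (2 : ℝ) ^ r1 / 2 ^ n / ((2 : ℝ) ^ s / 2 ^ n) := by
    rw [cast_div (hsn.trans hn)]
    field_simp
  have hn2 : ((2 ^ r2 / 2 ^ s : ℕ) : ℝ) = (2 : ℝ) ^ r2 / 2 ^ n / ((2 : ℝ) ^ s / 2 ^ n) := by
    rw [cast_div (by omega)]
    field_simp
  have h12 : 2 ^ r1 / 2 ^ s ≤ 2 ^ r2 / 2 ^ s :=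
    Nat.div_le_div_right (Nat.pow_le_pow_right (by norm_num) (by omega))
  exact H _ _ D0 _ L a x1 _ _ _ _ hlam0 hL hl8 hpl v1 v2 hlU hr2 hX1 hn1 hn2 h12 hD0 hX
    (mk_ns (hsn.trans hn) s1) (mk_s2 (by omega) s2) (x_num s4 hν0 s3 hx) hG

end

end Vale.Agent.P159.H363
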