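import Vale.Agent.P159.H363.Cpn3
import Vale.Agent.P159.H316.Zb13
import Vale.Agent.P159.H358.Um2

/-!
P159 / H363, CVPN part 4: the weights and the typical set under the reference law, from `TyIn`.
-/

set_option linter.unusedSectionVars false

namespace Vale.Agent.P159.H363

open Finset Matrix MeasureTheory ProbabilityTheory
open Vale.Agent.P159.TM.H764 (EE)
open Vale.Agent.P159.TM.Spec (V)
open Vale.Agent.P159.TM.SpecC (wT)
open Vale.Agent.P159.H37 (gau qf Rs)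
open Vale.Agent.P159.H864 (TI sym fc cl MC)
open Vale.Agent.P159.H316 (TyIn Rcl_mid_smul Wcl_mid Qn_eq prob_dom int_dom Rcl_quarter)
open Vale.Agent.P159.H963 (Pn ti_Pn)
open Vale.Agent.P159.H358 (Rn)
open scoped Real

noncomputable section

section mat

variable {n : ℕ} [NeZero n] {A B E : Matrix (V n) (V n) ℝ}

/-- square root of a form with nonnegative symbol -/
lemma fc_sqrt_mul (hE : TI E) (h : ∀ k, 0 ≤ sym E k) :
    fc (fun x => √x) E * (fc (fun x => √x) E)ᵀ = E := by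
  have tD : TI (fc (fun x => √x) E) := H864.ti_fc _ _
  rw [tD.transpose]
  refine H864.sym_inj (tD.mul tD) hE fun k => ?_
  rw [H864.sym_mul tD tD, H864.sym_fc]
  exact Real.mul_self_sqrt (h k)

/-- the noise of the form `B` against the full law of the form `A` -/
lemma gm0_dom (hA : Nf A) (hB : Nf B) {s : ℝ} (hs : 0 ≤ s)
    (h : ∀ k, k ≠ 0 → sym A k ≤ 4 * sym B k) : ∃ D : Matrix (V n) (V n) ℝ,
      ((2 : ℝ) • pin A) * ((2 : ℝ) • pin A)ᵀ = gm0 s B * (gm0 s B)ᵀ + D * Dᵀ := by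
  have tP : TI ((2 : ℝ) • pin A) := (ti_pin A).smul _
  have tG : TI (gm0 s B) := ti_gm0 s B
  have tE : TI (((2 : ℝ) • pin A) * ((2 : ℝ) • pin A) - gm0 s B * gm0 s B) :=
    (tP.mul tP).sub (tG.mul tG)
  refine ⟨fc (fun x => √x) (((2 : ℝ) • pin A) * ((2 : ℝ) • pin A) - gm0 s B * gm0 s B), ?_⟩
  rw [fc_sqrt_mul tE, tP.transpose, tG.transpose, add_sub_cancel]
  intro k
  rw [H864.sym_sub, H864.sym_mul tP tP, H864.sym_mul tG tG, H864.sym_smul, sym_pin]
  unfold gm0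
  rw [H864.sym_mul ti_Pn (ti_gm s B), H963.sym_Pn]
  unfold gm
  rw [H864.sym_fc]
  by_cases hk : k = 0
  · rw [if_pos hk]
    have : 0 ≤ √((sym A k)⁻¹) := Real.sqrt_nonneg _
    simp only [zero_mul, sub_zero]
    positivity
  · rw [if_neg hk, one_mul]
    have hA0 := hA.pos k hk
    have hB0 := hB.pos k hk
    have h1 := h k hk
    have e1 : 2 * √((sym A k)⁻¹) * (2 * √((sym A k)⁻¹)) = 4 * (sym A k)⁻¹ := by
      have := Real.mul_self_sqrt (show 0 ≤ (sym A k)⁻¹ by positivity)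
      linear_combination 4 * this
    rw [e1, Real.mul_self_sqrt (by positivity), sub_nonneg, ← div_eq_mul_inv, ← div_eq_mul_inv,
      div_le_div_iff₀ (by positivity) hA0]
    nlinarith [mul_nonneg hs (sub_nonneg.2 h1)]

/-- symbols of close forms -/
lemma sym_of_rel (hA : Nf A) (hB : Nf B) {η : ℝ} (hη : η ≤ 1 / 2) (hη0 : 0 ≤ η)
    (h : ∑ k, rel A B k ^ 2 ≤ η ^ 2) (k : V n) (hk : k ≠ 0) : sym A k ≤ 4 * sym B k := by
  have h1 : rel A B k ^ 2 ≤ η ^ 2 :=
    (Finset.single_le_sum (f := fun k => rel A B k ^ 2) (fun i _ => sq_nonneg _)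
      (Finset.mem_univ k)).trans h
  have h2 := (abs_le_of_sq_le_sq' h1 hη0).2
  unfold rel at h2
  rw [if_neg hk] at h2
  have hB0 := hB.pos k hk
  have h3 : sym A k / sym B k ≤ 4 := by linarith
  rwa [div_le_iff₀ hB0] at h3

end mat

section cell

variable {N l : ℕ} [NeZero N] [NeZero (N / l)] {b T t₁ : ℝ}

/-- the two remainders -/
lemma Rn_eq_Rcl (b T : ℝ) (F : V (N / l) → ℝ) :
    Rn N b T (H552.lft (cl : V N → V (N / l)) F) = Rcl N l b T T ((2 : ℝ) • F) := by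
  unfold Rn Rcl
  rw [H864.MC_self, lf_smul, mulVec_smul]
  unfold H963.nMC H963.nwt
  rw [H864.MC_self]
  rfl

/-- **the typical set under the reference law** -/
theorem prob_ref (hb : 0 ≤ b) (hl : l ∣ N) (hT : 0 < T) {η p : ℝ} (H : TyIn N l b T η p)
    (hA : Nf (acl N l b T T)) {B : Matrix (V (N / l)) (V (N / l)) ℝ} (hB : Nf B) {s ηB : ℝ}
    (hs : 0 ≤ s) (hη : ηB ≤ 1 / 2) (hη0 : 0 ≤ ηB)
    (h : ∑ k, rel (acl N l b T T) B k ^ 2 ≤ ηB ^ 2) :
    (gau (V (N / l))).real {g | 8 < Rn N b T (H552.lft (cl : V N → V (N / l)) (gm0 s B *ᵥ g))}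
      ≤ 2 * p := by
  obtain ⟨D, hD⟩ := gm0_dom hA hB hs (sym_of_rel hA hB hη hη0 h)
  have hRc : Continuous (Rcl N l b T T) := continuous_Rcl (b := b) (t := T) hb hl hT le_rfl
  have mR : Measurable fun F : V (N / l) → ℝ => Rcl N l b T T ((2 : ℝ) • F) :=
    (hRc.comp (continuous_const_smul (2 : ℝ))).measurable
  have h3 := prob_dom _ _ _ hD mR (Rcl_mid_smul hb hl hT le_rfl 2) 8
  simp only [Rn_eq_Rcl]
  refine h3.trans (mul_le_mul_of_nonneg_left (le_trans (measureReal_mono fun g hg => ?_) H.tl)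
    (by norm_num))
  simp only [Set.mem_ofPred_eq] at hg ⊢
  have h4 := Rcl_quarter (b := b) hb hl hT ((8 : ℝ) • (pin (acl N l b T T) *ᵥ g)) 1
  have e2 : (2 : ℝ) • (((2 : ℝ) • pin (acl N l b T T)) *ᵥ g) =
      ((1 : ℝ) / 2) ^ 1 • (8 : ℝ) • (pin (acl N l b T T) *ᵥ g) := by
    rw [smul_mulVec, smul_smul, smul_smul]
    norm_num
  rw [e2] at hg
  rw [pow_one] at h4
  have h5 : 0 ≤ Rcl N l b T T ((8 : ℝ) • (pin (acl N l b T T) *ᵥ g)) := by
    by_contra hc
    rw [pow_one] at hg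
    linarith
  rw [pow_one] at hg
  linarith

/-- **the weight** -/
theorem wt_le (hb : 0 ≤ b) (hl : l ∣ N) (ht₁ : 0 < t₁) (htT : t₁ < T) {η p : ℝ}
    (H : TyIn N l b T η p) (hA : Nf (acl N l b T T)) :
    1 - (∫ g, Wcl N l b T T (Bfl N l b T t₁ *ᵥ g) ∂(gau (V (N / l))))⁻¹ ≤ η := by
  have hT : 0 < T := ht₁.trans htT
  have hs0 : 0 < sn l T t₁ := sn_pos hl ht₁ htT
  have hAz : sym (acl N l b T T) 0 = 0 := sym_acl_zero hl hb hT le_rfl
  have hWc := continuous_Wcl (b := b) hb hl hT (le_refl T)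
  have hWi : Integrable (fun g => Wcl N l b T T (Bfl N l b T t₁ *ᵥ g)) (gau (V (N / l))) := by
    have hi := integrable_Wcl (b := b) hb hl ht₁ htT le_rfl (0 : V (N / l) → ℝ)
    simp only [mulVec_zero, zero_add] at hi
    exact (inv_int (by positivity)
      (gm_split (A := acl N l b T T) (s := sn l T t₁) hAz hs0.le)
      hWc.stronglyMeasurable (fun F c => Wcl_const hl hT le_rfl F c) hi).1
  have h1 := one_le_intW (fun _ => one_le_Wcl hb hl hT le_rfl _) hWi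
  have h2 := H316.Qn_gm_dom hA hs0.le
  rw [Qn_eq] at h2
  have h3 := int_dom _ _ _ h2 hWc.measurable (fun F => (Real.exp_pos _).le)
    (Wcl_mid hb hl hT le_rfl) H.it
  have h4 : ∫ g, Wcl N l b T T (Bfl N l b T t₁ *ᵥ g) ∂(gau (V (N / l))) ≤ 1 + η :=
    h3.trans H.nm
  set I := ∫ g, Wcl N l b T T (Bfl N l b T t₁ *ᵥ g) ∂(gau (V (N / l)))
  have hI : 0 < I := by linarith
  have e1 : 1 - I⁻¹ = (I - 1) / I := by
    field_simp
  rw [e1, div_le_iff₀ hI]
  nlinarith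

end cell

end

end Vale.Agent.P159.H363
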