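import Vale.Agent.P159.H363.Cpn4
import Vale.Agent.P159.H415.EvC
import Vale.Agent.P159.H767.Nr12
import Vale.Agent.P159.H375.AclE

/-!
P159 / H363, CVPN part 5: monotonicity of the reference structures; scalar bounds of `SW`, `EtB`;
the numbers of the combination.
-/

set_option linter.unusedSectionVars false

namespace Vale.Agent.P159.H363

open Finset Matrix MeasureTheory ProbabilityTheory
open Vale.Agent.P159.TM.H764 (EE)
open Vale.Agent.P159.TM.Spec (V)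
open Vale.Agent.P159.TM.SpecC (wT)
open Vale.Agent.P159.H37 (gau qf Rs)
open Vale.Agent.P159.H864 (TI sym fc cl MC yt)
open Vale.Agent.P159.H462 (Dom)
open Vale.Agent.P159.H145 (mt)
open Vale.Agent.P159.H43 (omT ch2)
open Vale.Agent.P159.H896 (om Om)
open Vale.Agent.P159.H733.Torg (Two)
open Vale.Agent.P159.H972 (tn)
open scoped Real

noncomputable section

section mono

variable {N N2 : ℕ} [NeZero N] [NeZero N2]

lemma dom_mono {A : Matrix (V N) (V N) ℝ} {ν c c' : ℝ} (h : Dom A ν c) (h0 : 0 < c')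
    (h1 : c' ≤ c) : Dom A ν c' where
  ti := h.ti
  hν := h.hν
  hc := h0
  nn := h.nn
  le := h.le
  zero := h.zero
  ge := fun k => by
    refine le_trans ?_ (h.ge k)
    have hν := h.hν
    have hE := H462.EE_nonneg k
    have h2 : c' * EE k ≤ c * EE k := mul_le_mul_of_nonneg_right h1 hE
    have h3 : 0 ≤ c' * EE k := by positivity
    rw [div_le_div_iff₀ (by positivity) (by linarith)]
    nlinarith [mul_le_mul_of_nonneg_left h2 (mul_nonneg hν.le hν.le)]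

lemma two_mono {h : N ∣ N2} {A : Matrix (V N) (V N) ℝ} {A2 : Matrix (V N2) (V N2) ℝ}
    {ν c κ C1 c' κ' : ℝ} (H : Two h A A2 ν c κ C1) (h0 : 0 < c') (h1 : c' ≤ c) (h2 : 0 < κ')
    (h3 : κ' ≤ κ) : Two h A A2 ν c' κ' C1 where
  dom := dom_mono H.dom h0 h1
  dom2 := dom_mono H.dom2 h0 h1
  per := H.per
  off := H.off
  kp := h2
  mom := by
    refine le_trans (Finset.sum_le_sum fun z _ => ?_) H.mom
    refine mul_le_mul_of_nonneg_left (Real.exp_le_exp.2 ?_) (H.h02 0 z)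
    exact mul_le_mul_of_nonneg_right h3 (Nat.cast_nonneg _)

end mono

/-- the scalar numbers of one torus -/
theorem sw_num {b : ℝ} (hb : 0 < b) {n r : ℕ} (hr : n ≤ r) {T Y : ℝ} (h1 : tn n ≤ T)
    (h2 : T ≤ 4 * tn n) (hy : yt (2 ^ r) b (4 * tn n) ≤ Y)
    (hs : 4 * ((2 ^ (r - n)) ^ 2 * Y) ≤ 1) :
    omT (wT b (2 ^ r)) (mt (2 ^ r) T) ≤ 1 / 2 ∧
      SW (2 ^ r) b T ≤ 15 * ((2 ^ (r - n)) ^ 2 * Y) ∧
      ∀ (l : ℕ) [NeZero (2 ^ r / l)] (r' η : ℝ), 0 ≤ r' → 0 ≤ η →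
        EtB (2 ^ r) l b T r' η ≤
          ((2 ^ (r - n)) ^ 2 * Y) * (2 * r' + 56 * ((2 ^ (r - n)) ^ 2 * Y) + 30 * η) := by
  have hT : 0 < T := (H972.tn_pos n).trans_le h1
  have hW := H896.wp_t (N := 2 ^ r) hb.le hT
  have e1 := H415.Om_yt hb hr h1 h2 hy hs
  have e2 := H896.two_om_le hW one_ne_zero
  have e3 := H415.ch2_le_Om hW
  have e0 := H896.Om_nonneg hW
  have e4 := H896.om_nonneg hW.toWM 1
  have e5 : 0 ≤ ch2 (wT b (2 ^ r)) (mt (2 ^ r) T) 0 := H43.nm_nonneg _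
  set X : ℝ := (2 ^ (r - n)) ^ 2 * Y with hX
  set O := Om (wT b (2 ^ r)) (T • (1 : Matrix (V (2 ^ r)) (V (2 ^ r)) ℝ)) with hO
  have eO : omT (wT b (2 ^ r)) (mt (2 ^ r) T) = O := rfl
  have eo : om (wT b (2 ^ r)) (mt (2 ^ r) T) 1 =
    om (wT b (2 ^ r)) (T • (1 : Matrix (V (2 ^ r)) (V (2 ^ r)) ℝ)) 1 := rfl
  have ec : ch2 (wT b (2 ^ r)) (mt (2 ^ r) T) 0 =
    ch2 (wT b (2 ^ r)) (T • (1 : Matrix (V (2 ^ r)) (V (2 ^ r)) ℝ)) 0 := rfl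
  have f1 : om (wT b (2 ^ r)) (mt (2 ^ r) T) 1 ≤ X := by
    rw [eo]
    linarith
  have f0 : 0 ≤ om (wT b (2 ^ r)) (mt (2 ^ r) T) 1 := by
    rw [eo]
    exact e4
  have f2 : ch2 (wT b (2 ^ r)) (mt (2 ^ r) T) 0 ≤ 2 * X := by
    rw [ec]
    linarith
  have hX0 : 0 ≤ X := by linarith
  have f3 : e1n (2 ^ r) b T ≤ 56 * X ^ 2 := by
    unfold e1n
    rw [eO]
    have g1 : O * ch2 (wT b (2 ^ r)) (mt (2 ^ r) T) 0 ≤ 2 * X * (2 * X) :=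
      mul_le_mul e1 f2 e5 (by positivity)
    have g2 : O ^ 3 ≤ (2 * X) ^ 3 := pow_le_pow_left₀ e0 e1 3
    have g3 : X ^ 3 ≤ 1 / 4 * X ^ 2 := by
      have : X ^ 3 = X * X ^ 2 := by ring
      rw [this]
      exact mul_le_mul_of_nonneg_right (by linarith) (sq_nonneg _)
    have g4 : (2 * X) ^ 3 = 8 * X ^ 3 := by ring
    rw [g4] at g2
    nlinarith
  have f4 : SW (2 ^ r) b T ≤ 15 * X := by
    unfold SW
    have g1 : X ^ 2 ≤ 1 / 4 * X := by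
      rw [pow_two]
      exact mul_le_mul_of_nonneg_right (by linarith) hX0
    linarith
  refine ⟨by rw [eO]; linarith, f4, ?_⟩
  intro l _ r' η hr' hη
  unfold EtB Eto
  have g1 : 2 * om (wT b (2 ^ r)) (mt (2 ^ r) T) 1 * r' ≤ 2 * X * r' := by
    exact mul_le_mul_of_nonneg_right (by linarith) hr'
  have g2 : 2 * η * SW (2 ^ r) b T ≤ 2 * η * (15 * X) :=
    mul_le_mul_of_nonneg_left f4 (by positivity)
  have g3 : X * (2 * r' + 56 * X + 30 * η) = 2 * X * r' + 56 * X ^ 2 + 2 * η * (15 * X) := by ring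
  rw [g3]
  linarith

/-- the factor in front -/
lemma front_num (m r2 : ℕ) : 4 / (4 * tn m * (((2 ^ r2 : ℕ) : ℝ)) ^ 2) = 4 ^ m / 4 ^ r2 := by
  rw [tn_eq, four_two r2]
  push_cast
  field_simp

/-- the numbers of the combination -/
structure CvE (g W u v Y K ρ0 η δ : ℝ) : Prop where
  g1 : 1 ≤ g
  u0 : 0 < u
  uW : u ≤ W
  Y0 : 0 ≤ Y
  ρ0' : 0 ≤ ρ0
  η0 : 0 ≤ η
  uv : u ≤ v
  n1 : g * (W ^ 2 * (2 * ρ0 + 56 * (v ^ 2 * Y) + 30 * η)) ≤ δ / 4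
  n2 : g * K / u ≤ δ / 4

/-- **the combination** -/
lemma comb_fin {g W u v Y K ρ0 η δ BL LHS oh E1 E2 SW1 q A L n1 D1 : ℝ}
    (h : CvE g W u v Y K ρ0 η δ)
    (hK : 15 * q ^ 3 * (A * L) ^ 6 ≤ K)
    (hmain : LHS ≤ g * (oh + E1) + g * (q ^ 3 * D1 ^ 6 / n1 ^ 3 * SW1) + E2 + BL * (1 + SW1))
    (hE1 : E1 ≤ u ^ 2 * Y * (2 * ρ0 + 56 * (u ^ 2 * Y) + 30 * η))
    (hE2 : E2 ≤ W ^ 2 / v ^ 2 * (v ^ 2 * Y * (2 * ρ0 + 56 * (v ^ 2 * Y) + 30 * η)))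
    (hSW : SW1 ≤ 15 * (u ^ 2 * Y)) (hSW0 : 0 ≤ SW1) (hu4 : 4 * (u ^ 2 * Y) ≤ 1)
    (hq : 0 ≤ q) (hD0 : 0 ≤ D1) (hD : D1 ≤ A * L) (hn : u ≤ n1) (hBL : 0 ≤ BL) :
    LHS ≤ g * oh + δ * Y + 5 * BL := by
  have hu := h.u0
  have hY := h.Y0
  have hv : 0 < v := hu.trans_le h.uv
  have hg : 0 ≤ g := zero_le_one.trans h.g1
  have a1 : u ^ 2 * Y ≤ v ^ 2 * Y := mul_le_mul_of_nonneg_right
    (pow_le_pow_left₀ hu.le h.uv 2) hY
  have a0 : 0 ≤ u ^ 2 * Y := by positivity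
  have a2 : 2 * ρ0 + 56 * (u ^ 2 * Y) + 30 * η ≤ 2 * ρ0 + 56 * (v ^ 2 * Y) + 30 * η := by linarith
  have a4 : 0 ≤ 2 * ρ0 + 56 * (u ^ 2 * Y) + 30 * η := by
    have := h.ρ0'
    have := h.η0
    positivity
  have a3 : 0 ≤ W ^ 2 * (2 * ρ0 + 56 * (v ^ 2 * Y) + 30 * η) :=
    mul_nonneg (sq_nonneg _) (a4.trans a2)
  have hn1 : W ^ 2 * (2 * ρ0 + 56 * (v ^ 2 * Y) + 30 * η) ≤ δ / 4 := by
    refine le_trans ?_ h.n1
    exact le_mul_of_one_le_left a3 h.g1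
  -- first
  have b1 : g * E1 ≤ δ / 4 * Y := by
    have c1 : E1 ≤ W ^ 2 * (2 * ρ0 + 56 * (v ^ 2 * Y) + 30 * η) * Y := by
      refine hE1.trans ?_
      calc u ^ 2 * Y * (2 * ρ0 + 56 * (u ^ 2 * Y) + 30 * η)
          ≤ W ^ 2 * Y * (2 * ρ0 + 56 * (v ^ 2 * Y) + 30 * η) := by
            refine mul_le_mul ?_ a2 a4 (by positivity)
            exact mul_le_mul_of_nonneg_right (pow_le_pow_left₀ hu.le h.uW 2) hY
        _ = _ := by ring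
    calc g * E1 ≤ g * (W ^ 2 * (2 * ρ0 + 56 * (v ^ 2 * Y) + 30 * η) * Y) :=
          mul_le_mul_of_nonneg_left c1 hg
      _ = g * (W ^ 2 * (2 * ρ0 + 56 * (v ^ 2 * Y) + 30 * η)) * Y := by ring
      _ ≤ δ / 4 * Y := mul_le_mul_of_nonneg_right h.n1 hY
  have b2 : g * (q ^ 3 * D1 ^ 6 / n1 ^ 3 * SW1) ≤ δ / 4 * Y := by
    have c1 : q ^ 3 * D1 ^ 6 / n1 ^ 3 ≤ q ^ 3 * (A * L) ^ 6 / u ^ 3 := by
      have d1 : D1 ^ 6 ≤ (A * L) ^ 6 := pow_le_pow_left₀ hD0 hD 6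
      have d2 : u ^ 3 ≤ n1 ^ 3 := pow_le_pow_left₀ hu.le hn 3
      have d3 : 0 < u ^ 3 := by positivity
      have d4 : 0 ≤ D1 ^ 6 := by positivity
      gcongr
    have c0 : 0 ≤ q ^ 3 * (A * L) ^ 6 / u ^ 3 := by
      have : 0 ≤ (A * L) ^ 6 := by
        have := hD0.trans hD
        positivity
      positivity
    have c2 : q ^ 3 * D1 ^ 6 / n1 ^ 3 * SW1 ≤ q ^ 3 * (A * L) ^ 6 / u ^ 3 * (15 * (u ^ 2 * Y)) :=
      mul_le_mul c1 hSW hSW0 c0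
    have c3 : q ^ 3 * (A * L) ^ 6 / u ^ 3 * (15 * (u ^ 2 * Y)) =
        (15 * q ^ 3 * (A * L) ^ 6) * Y / u := by
      field_simp
    rw [c3] at c2
    have c4 : (15 * q ^ 3 * (A * L) ^ 6) * Y / u ≤ K * Y / u := by
      gcongr
    calc g * (q ^ 3 * D1 ^ 6 / n1 ^ 3 * SW1) ≤ g * (K * Y / u) :=
          mul_le_mul_of_nonneg_left (c2.trans c4) hg
      _ = g * K / u * Y := by ring
      _ ≤ δ / 4 * Y := mul_le_mul_of_nonneg_right h.n2 hY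
  have b3 : E2 ≤ δ / 4 * Y := by
    refine hE2.trans ?_
    have c1 : W ^ 2 / v ^ 2 * (v ^ 2 * Y * (2 * ρ0 + 56 * (v ^ 2 * Y) + 30 * η)) =
        W ^ 2 * (2 * ρ0 + 56 * (v ^ 2 * Y) + 30 * η) * Y := by
      field_simp
    rw [c1]
    exact mul_le_mul_of_nonneg_right hn1 hY
  have b4 : BL * (1 + SW1) ≤ 5 * BL := by
    have : 1 + SW1 ≤ 5 := by linarith
    calc BL * (1 + SW1) ≤ BL * 5 := mul_le_mul_of_nonneg_left this hBL
      _ = _ := by ring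
  have b5 : 0 ≤ δ / 4 * Y := mul_nonneg (a3.trans hn1) hY
  have e1 : g * (oh + E1) = g * oh + g * E1 := by ring
  rw [e1] at hmain
  have e2 : δ * Y = 4 * (δ / 4 * Y) := by ring
  rw [e2]
  linarith

end

end Vale.Agent.P159.H363
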