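import Vale.Agent.P159.H363.Cpn5
import Vale.Agent.P159.H358.Un11
import Vale.Agent.P159.H767.Nr11

/-!
P159 / H363, CVPN part 6: one level, all structures.
-/

set_option linter.unusedSectionVars false

namespace Vale.Agent.P159.H363

open Finset Matrix MeasureTheory ProbabilityTheory
open Vale.Agent.P159.TM.H764 (EE)
open Vale.Agent.P159.TM.Spec (V)
open Vale.Agent.P159.TM.SpecC (wT)
open Vale.Agent.P159.H37 (gau qf Rs)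
open Vale.Agent.P159.H864 (TI sym fc cl MC yt)
open Vale.Agent.P159.H462 (Dom)
open Vale.Agent.P159.H145 (mt)
open Vale.Agent.P159.H43 (omT ch2)
open Vale.Agent.P159.H896 (om Om)
open Vale.Agent.P159.H316 (TyIn)
open Vale.Agent.P159.H733.Torg (Two pz)
open Vale.Agent.P159.H767 (A3 Ref)
open Vale.Agent.P159.H358 (Ls mcm NrOne NrTwo exp_Ls)
open Vale.Agent.P159.H972 (tn)
open scoped Real

noncomputable section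

/-- the scalar data of one level and two tori -/
structure CpS (C C2 L0 A0 : ℝ) (n m r1 r2 s D0 : ℕ) (T Y a x1 ηB ρ0 : ℝ) : Prop where
  T1 : tn n ≤ T
  T2 : T ≤ 4 * tn n
  sn : s ≤ n
  nr : n < r1
  rm : r1 + 2 ≤ m
  mr : m ≤ r2
  L0 : L0 ≤ Ls n s
  l8 : 8 * ((2 : ℝ) ^ s / 2 ^ n) ≤ 1
  r2L : (2 : ℝ) ^ r2 / 2 ^ n ≤ Real.exp (Ls n s)
  X : Real.exp (C2 * (1 + Real.log (Ls n s))) ≤ (2 : ℝ) ^ r1 / 2 ^ n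
  x : |1 - π / (2 * a)| * (((m : ℝ) - n) * Real.log 4) ≤ x1
  G : C * (1 + Real.log (Ls n s)) + x1 ≤ 5 * Ls n s
  D0 : (D0 : ℝ) ≤ A0 * Ls n s / ((2 : ℝ) ^ s / 2 ^ n) + 1
  a1 : 1 ≤ a
  a2 : a ≤ 2
  η0 : 0 ≤ ηB
  η1 : ηB ≤ 1 / 2
  ρ0 : 0 ≤ ρ0
  Y1 : 4 * ((2 ^ (r2 - n)) ^ 2 * Y) ≤ 1
  Y0 : 0 ≤ Y

/-- the model data -/
structure CpM (b c cm Cm B : ℝ) (n r1 r2 s D0 : ℕ) [NeZero (2 ^ r1 / 2 ^ s)]
    [NeZero (2 ^ r2 / 2 ^ s)] (h1 : 2 ^ r1 / 2 ^ s ∣ 2 ^ r2 / 2 ^ s)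
    (h2 : 2 ^ r2 / 2 ^ s ∣ 2 ^ r2 / 2 ^ s) (e T Y a ρ0 p : ℝ) : Prop where
  R1 : Ref (2 ^ r1) (2 ^ r2) (2 ^ s) h1 b T c (cm * ((2 : ℝ) ^ s / 2 ^ n)) Cm
    (e ^ (22 / 25 : ℝ))
  R2 : Ref (2 ^ r2) (2 ^ r2) (2 ^ s) h2 b T c (cm * ((2 : ℝ) ^ s / 2 ^ n)) Cm
    (e ^ (22 / 25 : ℝ))
  s1 : ∀ k, sym (acl (2 ^ r1) (2 ^ s) b T T) k ≤ (a - e ^ (22 / 25 : ℝ)) * EE k
  s2 : ∀ k, sym (acl (2 ^ r2) (2 ^ s) b T T) k ≤ (a - e ^ (22 / 25 : ℝ)) * EE k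
  t1 : TyIn (2 ^ r1) (2 ^ s) b T ρ0 p
  t2 : TyIn (2 ^ r2) (2 ^ s) b T ρ0 p
  N1 : NrOne b c (B + 26) n s e T D0 r1
  N2 : NrTwo b c (B + 26) n s e T D0 r1 r2
  y1 : yt (2 ^ r1) b (4 * tn n) ≤ Y
  y2 : yt (2 ^ r2) b (4 * tn n) ≤ Y

lemma Ref.symB {N M l : ℕ} [NeZero N] [NeZero M] [NeZero (N / l)] [NeZero (M / l)]
    {hd : N / l ∣ M / l} {b τ c κ C1 η a : ℝ} (R : Ref N M l hd b τ c κ C1 η)
    (h : ∀ k, sym (acl N l b τ τ) k ≤ (a - η) * EE k) (k : V (N / l)) :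
    sym (pz hd (A3 M l b τ)) k ≤ a * EE k := by
  have h1 := (abs_le.1 (R.sy k)).2
  have h2 := h k
  have e : a * EE k = (a - η) * EE k + η * EE k := by ring
  rw [e]
  linarith

lemma CpM.ref {b c cm Cm B : ℝ} {n r1 r2 s D0 : ℕ} [NeZero (2 ^ r1 / 2 ^ s)]
    [NeZero (2 ^ r2 / 2 ^ s)] {h1 : 2 ^ r1 / 2 ^ s ∣ 2 ^ r2 / 2 ^ s}
    {h2 : 2 ^ r2 / 2 ^ s ∣ 2 ^ r2 / 2 ^ s} {e T Y a ρ0 p : ℝ}
    (H : CpM b c cm Cm B n r1 r2 s D0 h1 h2 e T Y a ρ0 p) (ha1 : 1 ≤ a) (ha2 : a ≤ 2)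
    (hη0 : 0 ≤ e ^ (22 / 25 : ℝ)) (hη1 : e ^ (22 / 25 : ℝ) ≤ 1 / 2) :
    CvRef (2 ^ r1) (2 ^ r2) (2 ^ s) (2 ^ r2 / 2 ^ s) h1 h2 b T (cm * ((2 : ℝ) ^ s / 2 ^ n)) c Cm
      a (e ^ (22 / 25 : ℝ)) (e ^ (22 / 25 : ℝ)) (pz h1 (A3 (2 ^ r2) (2 ^ s) b T))
      (pz h2 (A3 (2 ^ r2) (2 ^ s) b T)) (A3 (2 ^ r2) (2 ^ s) b T) where
  T1 := H.R1.two
  T2 := H.R2.two
  a1 := Nf.of_dom H.R1.dom
  a2 := Nf.of_dom H.R2.dom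
  g1 := hη0
  g1' := hη1
  g2 := hη0
  g2' := hη1
  HS₁ := H.R1.hs
  HS₂ := H.R2.hs
  ha := ha1
  ha2 := ha2
  hA1 := Ref.symB H.R1 H.s1
  hA2 := Ref.symB H.R2 H.s2

lemma four_tn_lt {n m : ℕ} (h : n + 3 ≤ m) : 4 * (4 * tn m) < tn n := by
  have h1 : tn m * (4 * 4 * 4) ≤ tn n := by
    rw [tn_eq, tn_eq]
    have h2 : (4 : ℝ) ^ n * (4 * 4 * 4) ≤ 4 ^ m := by
      calc (4 : ℝ) ^ n * (4 * 4 * 4) = 4 ^ (n + 3) := by rw [pow_add]; norm_num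
        _ ≤ 4 ^ m := pow_le_pow_right₀ (by norm_num) h
    rw [inv_mul_eq_div, div_le_iff₀ (by positivity), inv_mul_eq_div, le_div_iff₀ (by positivity)]
    linarith
  have h3 := H972.tn_pos m
  linarith

lemma CpM.loc {b c cm Cm B : ℝ} {n m r1 r2 s D0 : ℕ} [NeZero (2 ^ r1 / 2 ^ s)]
    [NeZero (2 ^ r2 / 2 ^ s)] {h1 : 2 ^ r1 / 2 ^ s ∣ 2 ^ r2 / 2 ^ s}
    {h2 : 2 ^ r2 / 2 ^ s ∣ 2 ^ r2 / 2 ^ s} {e T Y a ρ0 p x1 ηB C C2 L0 A0 : ℝ} (hb : 0 < b)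
    (H : CpM b c cm Cm B n r1 r2 s D0 h1 h2 e T Y a ρ0 p)
    (S : CpS C C2 L0 A0 n m r1 r2 s D0 T Y a x1 ηB ρ0) :
    CvLoc (2 ^ r1) (2 ^ r2) (2 ^ s) b T (4 * tn m) (π⁻¹ * (T * ((2 ^ s : ℕ) : ℝ) ^ 2))
      (Real.exp (-((B + 26) * Ls n s))) ρ0 ρ0 D0 (pz h1 (A3 (2 ^ r2) (2 ^ s) b T))
      (pz h2 (A3 (2 ^ r2) (2 ^ s) b T)) (mcm (2 ^ r1) (2 ^ s) b T D0) := by
  have hT : 0 < T := (H972.tn_pos n).trans_le S.T1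
  have hsr1 : s ≤ r1 := S.sn.trans S.nr.le
  have hr12 : r1 ≤ r2 := by
    have := S.rm
    have := S.mr
    omega
  have hl1 : 2 ^ s ∣ 2 ^ r1 := pow_dvd_pow 2 hsr1
  have hl2 : 2 ^ s ∣ 2 ^ r2 := pow_dvd_pow 2 (hsr1.trans hr12)
  have ht1 : 0 < 4 * tn m := by
    have := H972.tn_pos m
    positivity
  have htT : 4 * tn m < T := by
    have h3 := four_tn_lt (n := n) (m := m) (by
      have := S.nr
      have := S.rm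
      omega)
    have := S.T1
    linarith
  have hsn := sn_pos hl1 ht1 htT
  have hY := S.Y1
  have hY1 : 4 * ((2 ^ (r1 - n)) ^ 2 * Y) ≤ 1 := by
    refine le_trans ?_ hY
    have h3 : (2 : ℝ) ^ (r1 - n) ≤ 2 ^ (r2 - n) := pow_le_pow_right₀ one_le_two (by omega)
    have h4 : ((2 : ℝ) ^ (r1 - n)) ^ 2 ≤ (2 ^ (r2 - n)) ^ 2 := pow_le_pow_left₀ (by positivity) h3 2
    have := mul_le_mul_of_nonneg_right h4 S.Y0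
    linarith
  have o1 := (sw_num hb S.nr.le S.T1 S.T2 H.y1 hY1).1
  have o2 := (sw_num hb (S.nr.le.trans hr12) S.T1 S.T2 H.y2 hY).1
  have hν : T * ((2 ^ s : ℕ) : ℝ) ^ 2 ≤ 1 / 8 := by
    obtain ⟨v1, v2⟩ := nu_num (n := n) (s := s) S.T1 S.T2
    exact mk_nu (by positivity) S.l8 v2
  have hν0 : 0 < T * ((2 ^ s : ℕ) : ℝ) ^ 2 := by positivity
  have hπ : π⁻¹ ≤ 1 := inv_le_one_of_one_le₀ (by linarith [Real.pi_gt_three])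
  have hπ0 : 0 < π⁻¹ := inv_pos.2 Real.pi_pos
  exact
    { h12₁ := o1
      h12₂ := o2
      hr := wt_le hb.le hl1 ht1 htT H.t1 (Nf.of_dom H.R1.dom)
      hr' := wt_le hb.le hl2 ht1 htT H.t2 (Nf.of_dom H.R2.dom)
      r0 := S.ρ0
      r0' := S.ρ0
      hmu := H358.lcl_mcm hb.le hT hl1 1 D0
      bmu := fun x F => H889.norm_uc_le hb.le hT hl1 x _
      Lp0 := by positivity
      Lp1 := by nlinarith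
      near1 := fun y => H.N1 H.R1.two.dom le_rfl (Nf.of_dom H.R1.two.dom) H.R1.hs
        (below_gm0 H.R1.two.dom hsn.le) y
      near2 := fun y => H.N2 H.R2.two.dom le_rfl (Nf.of_dom H.R2.two.dom) H.R2.hs
        (below_gm0 H.R2.two.dom hsn.le) y }

end

end Vale.Agent.P159.H363
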