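import Vale.Agent.P159.H363.Cpn6

/-!
P159 / H363, CVPN part 7: one level, the conclusion.
-/

set_option linter.unusedSectionVars false

namespace Vale.Agent.P159.H363

open Finset Matrix MeasureTheory ProbabilityTheory
open Vale.Agent.P159.TM.H764 (EE)
open Vale.Agent.P159.TM.Spec (V)
open Vale.Agent.P159.TM.SpecC (wT)
open Vale.Agent.P159.H864 (TI sym yt)
open Vale.Agent.P159.H462 (Dom)
open Vale.Agent.P159.H145 (mt)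
open Vale.Agent.P159.H896 (om Om)
open Vale.Agent.P159.H733.Torg (Two pz)
open Vale.Agent.P159.H767 (A3 Ref)
open Vale.Agent.P159.H358 (Ls mcm NrOne NrTwo exp_Ls)
open Vale.Agent.P159.H972 (tn)
open scoped Real

noncomputable section

lemma two_div {r n : ℕ} (h : n ≤ r) : (2 : ℝ) ^ r / 2 ^ n = 2 ^ (r - n) := by
  rw [div_eq_iff (by positivity), ← pow_add, Nat.sub_add_cancel h]

lemma four_div {m r n : ℕ} (h1 : n ≤ m) (h2 : n ≤ r) :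
    (4 : ℝ) ^ m / 4 ^ r = (2 ^ (m - n)) ^ 2 / (2 ^ (r - n)) ^ 2 := by
  rw [← two_div h1, ← two_div h2, four_two, four_two]
  field_simp

/-- `CvnOut` from the data of one level -/
theorem cvpn_out {B : ℝ} (hB : 0 ≤ B) {c cm Cm A0 : ℝ} (hc : 0 < c) (hc1 : c ≤ 1) (hcm : 0 < cm)
    (hcm1 : cm ≤ 1) (hCm : 0 ≤ Cm) (hA0 : 0 ≤ A0) :
    ∃ C C2 L0 A' : ℝ, 1 ≤ C ∧ C ≤ C2 ∧ 1 ≤ L0 ∧ 0 ≤ A' ∧
      ∀ (n m r1 r2 s D0 : ℕ) [NeZero (2 ^ r1 / 2 ^ s)] [NeZero (2 ^ r2 / 2 ^ s)]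
        (h1 : 2 ^ r1 / 2 ^ s ∣ 2 ^ r2 / 2 ^ s) (h2 : 2 ^ r2 / 2 ^ s ∣ 2 ^ r2 / 2 ^ s)
        (b e T Y a x1 ρ0 p : ℝ), 0 < b →
        CpS C C2 L0 A0 n m r1 r2 s D0 T Y a x1 (e ^ (22 / 25 : ℝ)) ρ0 →
        CpM b c cm Cm B n r1 r2 s D0 h1 h2 e T Y a ρ0 p →
        ∃ D1 : ℕ, CvnOut (2 ^ r1) (2 ^ r2) (2 ^ s) b T (4 * tn m) B C (Ls n s) x1 (5 * Ls n s)
            ρ0 ρ0 (e ^ (22 / 25 : ℝ)) (e ^ (22 / 25 : ℝ)) D1 ∧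
          √(T * ((2 ^ s : ℕ) : ℝ) ^ 2) * D1 ≤ A' * Ls n s ∧
          (2 : ℝ) ^ (r1 - n) ≤ √(T * ((2 ^ s : ℕ) : ℝ) ^ 2) * ((2 ^ r1 / 2 ^ s : ℕ) : ℝ) := by
  obtain ⟨Λ, C, L0, hΛ, hC, hL0, HC⟩ := cvn (B := B) (p := 5) (C1 := Cm) (k0 := cm / 2) (c := c)
    hB (by norm_num) hCm (by positivity) (by linarith) hc hc1
  obtain ⟨C2, hC2, HN⟩ := cvnum_ex (Λ := Λ) (C := C) (k0 := cm) (A0 := A0) (p0 := 1) hΛ hC hcm hcm1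
    hA0 (p := 5) le_rfl (by norm_num) zero_le_one
  refine ⟨C, C2, L0, 2 * (4 * Λ / cm + A0 + 3), hC, hC2, hL0, by positivity, ?_⟩
  intro n m r1 r2 s D0 _ _ h1 h2 b e T Y a x1 ρ0 p hb S H
  have hT : 0 < T := (H972.tn_pos n).trans_le S.T1
  have hsr1 : s ≤ r1 := S.sn.trans S.nr.le
  have hr12 : r1 ≤ r2 := by
    have := S.rm
    have := S.mr
    omega
  have hL1 : 1 ≤ Ls n s := hL0.trans S.L0
  have hlam : ((2 : ℝ) ^ s / 2 ^ n)⁻¹ ≤ Real.exp (1 * Ls n s) := by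
    rw [one_mul, exp_Ls, inv_div, two_div S.sn]
  have h5 : 5 * ((2 : ℝ) ^ s / 2 ^ n) ≤ 1 := by
    have := S.l8
    have h0 : (0 : ℝ) < (2 : ℝ) ^ s / 2 ^ n := by positivity
    linarith
  obtain ⟨R0, D1, N1, N2, N3⟩ := HN n m r1 r2 s D0 T (Ls n s) a x1 S.T1 S.T2 S.sn S.nr.le S.rm S.mr
    hL1 S.l8 h5 hlam S.r2L S.D0 S.X S.x S.G
  rw [two_div S.nr.le] at N3
  refine ⟨D1, ?_, N2, N3⟩
  have hk : cm / 2 * √(T * ((2 ^ s : ℕ) : ℝ) ^ 2) ≤ cm * ((2 : ℝ) ^ s / 2 ^ n) := by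
    obtain ⟨v1, v2⟩ := nu_num (n := n) (s := s) S.T1 S.T2
    have e1 : √(T * ((2 ^ s : ℕ) : ℝ) ^ 2) ≤ 2 * ((2 : ℝ) ^ s / 2 ^ n) := by
      rw [Real.sqrt_le_left (by positivity)]
      calc T * ((2 ^ s : ℕ) : ℝ) ^ 2 ≤ 4 * ((2 : ℝ) ^ s / 2 ^ n) ^ 2 := v2
        _ = (2 * ((2 : ℝ) ^ s / 2 ^ n)) ^ 2 := by ring
    calc cm / 2 * √(T * ((2 ^ s : ℕ) : ℝ) ^ 2) ≤ cm / 2 * (2 * ((2 : ℝ) ^ s / 2 ^ n)) :=
          mul_le_mul_of_nonneg_left e1 (by positivity)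
      _ = _ := by ring
  have ht1 : 0 < 4 * tn m := by
    have := H972.tn_pos m
    positivity
  have htT : 4 * (4 * tn m) < T := by
    have h3 := four_tn_lt (n := n) (m := m) (by
      have := S.nr
      have := S.rm
      omega)
    have := S.T1
    linarith
  refine HC _ _ _ _ h1 h2 b T (4 * tn m) _ _ a _ x1 _ _ _ _ ρ0 ρ0 R0 D0 D1 R0 _ _ _ _ hb.le
    (pow_dvd_pow 2 hsr1) (pow_dvd_pow 2 (hsr1.trans hr12)) ht1 htT S.L0 hk N1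
    (H.ref S.a1 S.a2 S.η0 S.η1) (H.loc hb S) ?_
  refine Real.exp_le_exp.2 (le_of_eq ?_)
  ring

/-- **one level: the conclusion** -/
theorem cvpn_lvl {B : ℝ} (hB : 0 ≤ B) {c cm Cm A0 : ℝ} (hc : 0 < c) (hc1 : c ≤ 1) (hcm : 0 < cm)
    (hcm1 : cm ≤ 1) (hCm : 0 ≤ Cm) (hA0 : 0 ≤ A0) :
    ∃ C C2 L0 A' : ℝ, 1 ≤ C ∧ C ≤ C2 ∧ 1 ≤ L0 ∧ 0 ≤ A' ∧
      ∀ (n m r1 r2 s D0 : ℕ) [NeZero (2 ^ r1 / 2 ^ s)] [NeZero (2 ^ r2 / 2 ^ s)]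
        (h1 : 2 ^ r1 / 2 ^ s ∣ 2 ^ r2 / 2 ^ s) (h2 : 2 ^ r2 / 2 ^ s ∣ 2 ^ r2 / 2 ^ s)
        (b e T Y a x1 ρ0 p δ : ℝ), 0 < b →
        CpS C C2 L0 A0 n m r1 r2 s D0 T Y a x1 (e ^ (22 / 25 : ℝ)) ρ0 →
        CpM b c cm Cm B n r1 r2 s D0 h1 h2 e T Y a ρ0 p →
        CvE (Real.exp (C * (1 + Real.log (Ls n s)) + x1)) (2 ^ (m - n)) (2 ^ (r1 - n))
          (2 ^ (r2 - n)) Y (15 * (5 * Ls n s) ^ 3 * (A' * Ls n s) ^ 6) ρ0 (e ^ (22 / 25 : ℝ)) δ →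
        4 ^ m / 4 ^ r2 * om (wT b (2 ^ r2)) (mt (2 ^ r2) (4 * tn m)) 1 ≤
          Real.exp (C * (1 + Real.log (Ls n s)) + x1) *
            H316.omh (2 ^ r1) (2 ^ s) b T (4 * tn m) + δ * Y + 5 * Real.exp (-(B * Ls n s)) := by
  obtain ⟨C, C2, L0, A', hC, hC2, hL0, hA', H⟩ := cvpn_out hB hc hc1 hcm hcm1 hCm hA0
  refine ⟨C, C2, L0, A', hC, hC2, hL0, hA', ?_⟩
  intro n m r1 r2 s D0 _ _ h1 h2 b e T Y a x1 ρ0 p δ hb S M E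
  obtain ⟨D1, O, N2, N3⟩ := H n m r1 r2 s D0 h1 h2 b e T Y a x1 ρ0 p hb S M
  have hT : 0 < T := (H972.tn_pos n).trans_le S.T1
  have hr12 : r1 ≤ r2 := by
    have := S.rm
    have := S.mr
    omega
  have hL1 : 1 ≤ Ls n s := hL0.trans S.L0
  have hY := S.Y1
  have hY1 : 4 * ((2 ^ (r1 - n)) ^ 2 * Y) ≤ 1 := by
    refine le_trans ?_ hY
    have h3 : (2 : ℝ) ^ (r1 - n) ≤ 2 ^ (r2 - n) := pow_le_pow_right₀ one_le_two (by omega)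
    have h4 : ((2 : ℝ) ^ (r1 - n)) ^ 2 ≤ (2 ^ (r2 - n)) ^ 2 := pow_le_pow_left₀ (by positivity) h3 2
    have := mul_le_mul_of_nonneg_right h4 S.Y0
    linarith
  obtain ⟨o1, o2, o3⟩ := sw_num hb S.nr.le S.T1 S.T2 M.y1 hY1
  obtain ⟨q1, q2, q3⟩ := sw_num hb (S.nr.le.trans hr12) S.T1 S.T2 M.y2 hY
  have hSW0 := SW_nonneg (N := 2 ^ r1) (l := 2 ^ s) hb.le hT o1
  unfold CvnOut at O
  rw [front_num] at O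
  refine comb_fin E le_rfl O (o3 (2 ^ s) ρ0 _ S.ρ0 S.η0) ?_ o2 hSW0 hY1 (by positivity)
    (by positivity) N2 N3 (Real.exp_pos _).le
  rw [four_div (show n ≤ m by have := S.nr; have := S.rm; omega) (S.nr.le.trans hr12)]
  exact mul_le_mul_of_nonneg_left (q3 (2 ^ s) ρ0 _ S.ρ0 S.η0) (by positivity)

end

end Vale.Agent.P159.H363
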