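import Vale.Agent.P159.H363.Cpn7
import Vale.Agent.P159.H816.Ty0

/-!
P159 / H363, CVPN part 8: numbers in powers of `e`.
-/

set_option linter.unusedSectionVars false

namespace Vale.Agent.P159.H363

open Filter Topology
open Vale.Agent.P159.H972 (tn lg)
open Vale.Agent.P159.H358 (Ls exp_Ls)
open scoped Real

noncomputable section

lemma exp_log_e {e x : ℝ} (he : 0 < e) : Real.exp (x * Real.log (1 / e)) = e ^ (-x) := by
  rw [Real.rpow_def_of_pos he, one_div, Real.log_inv]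
  congr 1
  ring

/-- the exponent of the window -/
lemma g_num {C C2 c1 th L e : ℝ} (he : 0 < e) (hC : 0 ≤ C) (hC2 : C ≤ C2) (hL : 1 ≤ L)
    (hLe : L ≤ e ^ (-(2 * c1))) (h1 : 2 * c1 * C2 ≤ th / 4)
    (h2 : C2 ≤ th / 4 * Real.log (1 / e)) (hl : 0 ≤ Real.log (1 / e)) :
    C * (1 + Real.log L) ≤ th / 2 * Real.log (1 / e) := by
  have h3 : Real.log L ≤ 2 * c1 * Real.log (1 / e) := by
    refine (Real.log_le_log (by linarith) hLe).trans (le_of_eq ?_)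
    rw [Real.log_rpow he, one_div, Real.log_inv]
    ring
  have h4 := Real.log_nonneg hL
  calc C * (1 + Real.log L) ≤ C2 * (1 + Real.log L) := mul_le_mul_of_nonneg_right hC2 (by linarith)
    _ ≤ C2 * (1 + 2 * c1 * Real.log (1 / e)) :=
        mul_le_mul_of_nonneg_left (by linarith) (hC.trans hC2)
    _ = C2 + 2 * c1 * C2 * Real.log (1 / e) := by ring
    _ ≤ th / 4 * Real.log (1 / e) + th / 4 * Real.log (1 / e) :=
        add_le_add h2 (mul_le_mul_of_nonneg_right h1 hl)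
    _ = _ := by ring

/-- the width of a window -/
lemma win_up {P : H972.Par} {n m : ℕ} {e : ℝ} (he : 0 < e) (he1 : e ≤ 1 / 2) (hm : m ≤ n + 4 * P.w e) :
    (2 : ℝ) ^ (m - n) ≤ 16 * e ^ (-(4 * P.thp)) := by
  have h1 : (2 : ℝ) ^ (P.w e) ≤ 2 * e ^ (-P.thp) := H276.two_lg P.thp0.le he he1
  calc (2 : ℝ) ^ (m - n) ≤ 2 ^ (4 * P.w e) := pow_le_pow_right₀ one_le_two (by omega)
    _ = ((2 : ℝ) ^ (P.w e)) ^ 4 := by rw [← pow_mul, mul_comm]
    _ ≤ (2 * e ^ (-P.thp)) ^ 4 := pow_le_pow_left₀ (by positivity) h1 4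
    _ = 16 * e ^ (-(4 * P.thp)) := by
        rw [mul_pow, ← Real.rpow_natCast (e ^ (-P.thp)), ← Real.rpow_mul he.le]
        norm_num
        ring_nf

lemma win_log {P : H972.Par} {n m : ℕ} {e : ℝ} (he : 0 < e) (hn : n ≤ m)
    (hm : m ≤ n + 4 * P.w e) (h3 : 1 ≤ P.thp * Real.log (1 / e)) (hl : 0 ≤ Real.log (1 / e)) :
    ((m : ℝ) - n) * Real.log 4 ≤ 16 * P.thp * Real.log (1 / e) := by
  have hl2 := Real.log_pos one_lt_two
  have hl2' : Real.log 2 ≤ 1 := by linarith [Real.log_two_lt_d9]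
  have hthp := P.thp0
  have h0 : 0 ≤ P.thp * Real.logb 2 (1 / e) := by
    unfold Real.logb
    positivity
  have h1 : (P.w e : ℝ) ≤ P.thp * Real.logb 2 (1 / e) + 1 := (Nat.ceil_lt_add_one h0).le
  have h2 : (m : ℝ) ≤ n + 4 * P.w e := by exact_mod_cast hm
  have h4 : Real.log 4 = 2 * Real.log 2 := by
    rw [show (4 : ℝ) = 2 ^ 2 by norm_num, Real.log_pow]
    push_cast
    ring
  have h5 : Real.logb 2 (1 / e) * Real.log 2 = Real.log (1 / e) := by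
    unfold Real.logb
    field_simp
  rw [h4]
  calc ((m : ℝ) - n) * (2 * Real.log 2) ≤ (4 * (P.thp * Real.logb 2 (1 / e) + 1)) * (2 * Real.log 2) :=
        mul_le_mul_of_nonneg_right (by linarith) (by positivity)
    _ = 8 * P.thp * (Real.logb 2 (1 / e) * Real.log 2) + 8 * Real.log 2 := by ring
    _ = 8 * P.thp * Real.log (1 / e) + 8 * Real.log 2 := by rw [h5]
    _ ≤ 8 * P.thp * Real.log (1 / e) + 8 * (P.thp * Real.log (1 / e)) := by linarith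
    _ = _ := by ring

lemma slope_num {a th thp : ℝ} (ha : 1 ≤ a) (h : |a - π / 2| ≤ th / (32 * thp)) :
    |1 - π / (2 * a)| ≤ th / (32 * thp) := by
  refine le_trans ?_ h
  have ha0 : 0 < a := by linarith
  have e1 : 1 - π / (2 * a) = (a - π / 2) / a := by
    field_simp
  rw [e1, abs_div, abs_of_pos ha0]
  exact div_le_self (abs_nonneg _) ha

/-- the small factor -/
lemma dl_up {P : H972.Par} {n m : ℕ} {e : ℝ} (he : 0 < e) (hm : 20 * n + P.w e ≤ 20 * m) :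
    (2 : ℝ) ^ (-(((m : ℝ) - n) / 20)) ≤ e ^ (P.thp / 400) := by
  have h1 : P.thp * Real.logb 2 (1 / e) ≤ P.w e := Nat.le_ceil _
  have h2 : (P.w e : ℝ) ≤ 20 * ((m : ℝ) - n) := by
    have : ((20 * n + P.w e : ℕ) : ℝ) ≤ ((20 * m : ℕ) : ℝ) := by exact_mod_cast hm
    push_cast at this
    linarith
  have e1 : (2 : ℝ) ^ Real.logb 2 (1 / e) = 1 / e :=
    Real.rpow_logb two_pos (by norm_num) (by positivity)
  calc (2 : ℝ) ^ (-(((m : ℝ) - n) / 20)) ≤ (2 : ℝ) ^ (Real.logb 2 (1 / e) * (-(P.thp / 400))) := by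
        refine Real.rpow_le_rpow_of_exponent_le one_le_two ?_
        have : P.thp * Real.logb 2 (1 / e) ≤ 20 * ((m : ℝ) - n) := h1.trans h2
        linarith
    _ = (1 / e) ^ (-(P.thp / 400)) := by
        rw [Real.rpow_mul two_pos.le, e1]
    _ = e ^ (P.thp / 400) := by
        rw [one_div, Real.inv_rpow he.le, ← Real.rpow_neg he.le, neg_neg]

lemma dl_lo {P : H972.Par} {n m : ℕ} {e : ℝ} (he : 0 < e) (he1 : e ≤ 1 / 2) (hn : n ≤ m)
    (hm : m ≤ n + 4 * P.w e) :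
    e ^ (P.thp / 5) / 2 ≤ (2 : ℝ) ^ (-(((m : ℝ) - n) / 20)) := by
  have h1 : (2 : ℝ) ^ (P.w e) ≤ 2 * e ^ (-P.thp) := H276.two_lg P.thp0.le he he1
  have h2 : (m : ℝ) ≤ n + 4 * P.w e := by exact_mod_cast hm
  have h3 : (2 : ℝ) ^ (-((P.w e : ℝ) / 5)) ≤ (2 : ℝ) ^ (-(((m : ℝ) - n) / 20)) :=
    Real.rpow_le_rpow_of_exponent_le one_le_two (by linarith)
  refine le_trans ?_ h3
  have h4 : (2 : ℝ) ^ (-((P.w e : ℝ) / 5)) = (((2 : ℝ) ^ (P.w e)) ^ (1 / 5 : ℝ))⁻¹ := by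
    rw [← Real.rpow_natCast, ← Real.rpow_mul two_pos.le, ← Real.rpow_neg two_pos.le]
    congr 1
    ring
  have h5 : ((2 : ℝ) ^ (P.w e)) ^ (1 / 5 : ℝ) ≤ (2 * e ^ (-P.thp)) ^ (1 / 5 : ℝ) :=
    Real.rpow_le_rpow (by positivity) h1 (by norm_num)
  have h6 : (2 * e ^ (-P.thp)) ^ (1 / 5 : ℝ) ≤ 2 * e ^ (-(P.thp / 5)) := by
    have hp : 0 < e ^ (-P.thp) := Real.rpow_pos_of_pos he _
    rw [Real.mul_rpow two_pos.le hp.le, ← Real.rpow_mul he.le]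
    have e1 : -P.thp * (1 / 5) = -(P.thp / 5) := by ring
    rw [e1]
    have e2 : (2 : ℝ) ^ (1 / 5 : ℝ) ≤ 2 := by
      calc (2 : ℝ) ^ (1 / 5 : ℝ) ≤ 2 ^ (1 : ℝ) :=
            Real.rpow_le_rpow_of_exponent_le one_le_two (by norm_num)
        _ = 2 := Real.rpow_one 2
    exact mul_le_mul_of_nonneg_right e2 (Real.rpow_pos_of_pos he _).le
  rw [h4]
  have h7 : 0 < ((2 : ℝ) ^ (P.w e)) ^ (1 / 5 : ℝ) := Real.rpow_pos_of_pos (by positivity) _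
  refine le_trans ?_ (inv_anti₀ h7 (h5.trans h6))
  rw [mul_inv, Real.rpow_neg he.le, inv_inv]
  linarith

lemma u_num {n m r1 : ℕ} (hn : n ≤ r1) (h : m + 9 * n ≤ 10 * r1 + 9) :
    ((2 : ℝ) ^ (r1 - n))⁻¹ ≤ 2 * ((2 : ℝ) ^ (-(((m : ℝ) - n) / 20))) ^ 2 := by
  have h1 : ((m : ℝ) - n) ≤ 10 * ((r1 : ℝ) - n) + 9 := by
    have : ((m + 9 * n : ℕ) : ℝ) ≤ ((10 * r1 + 9 : ℕ) : ℝ) := by exact_mod_cast h
    push_cast at this
    linarith
  have e1 : ((2 : ℝ) ^ (r1 - n))⁻¹ = (2 : ℝ) ^ (-((r1 : ℝ) - n)) := by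
    rw [Real.rpow_neg two_pos.le, ← Nat.cast_sub hn, Real.rpow_natCast]
  have e2 : ((2 : ℝ) ^ (-(((m : ℝ) - n) / 20))) ^ 2 = (2 : ℝ) ^ (-(((m : ℝ) - n) / 10)) := by
    rw [← Real.rpow_natCast, ← Real.rpow_mul two_pos.le]
    congr 1
    push_cast
    ring
  rw [e1, e2]
  calc (2 : ℝ) ^ (-((r1 : ℝ) - n)) ≤ (2 : ℝ) ^ (1 + -(((m : ℝ) - n) / 10)) :=
        Real.rpow_le_rpow_of_exponent_le one_le_two (by linarith)
    _ = _ := by rw [Real.rpow_add two_pos, Real.rpow_one]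

/-- smallness of `e` -/
structure CpE (th thp x1 c1 C2 L0 A' Cq ex e : ℝ) : Prop where
  e16 : e ≤ 1 / 16
  f1 : L0 ≤ Real.log (1 / e)
  f2 : C2 ≤ th / 4 * Real.log (1 / e)
  f3 : 1 ≤ thp * Real.log (1 / e)
  f4 : 75 * e ^ (9 / 10 : ℝ) + 80 * e ^ 2 + e ^ (22 / 25 : ℝ) ≤ th / (64 * thp)
  f5 : 75 * e ^ (9 / 10 : ℝ) + 80 * e ^ 2 + e ^ (22 / 25 : ℝ) ≤ 1 / 16
  n1 : 2048 * (32 + 14 * Cq ^ 2) * e ^ (-(-(x1 / 2 - th - 8 * thp))) ≤ e ^ (-(-(thp / 5)))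
  n2 : 15000 * A' ^ 6 * e ^ (-(th + 18 * c1)) ≤ e ^ (-(thp / 400))
  n3 : Cq ^ 2 * e ^ (-(-(1 / 2 - 2 * ex - x1 / 2))) ≤ e ^ (-(0 : ℝ))
  n4 : Cq * e ^ (-ex) ≤ e ^ (-(1 : ℝ))

lemma ev_log (C : ℝ) : ∀ᶠ e in 𝓝[>] (0 : ℝ), C ≤ Real.log (1 / e) := by
  have h1 : Tendsto (fun e : ℝ => Real.log (1 / e)) (𝓝[>] 0) atTop := by
    have h2 : Tendsto (fun e : ℝ => 1 / e) (𝓝[>] 0) atTop :=
      (tendsto_inv_nhdsGT_zero (𝕜 := ℝ)).congr fun e => (one_div e).symm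
    exact Real.tendsto_log_atTop.comp h2
  exact h1.eventually_ge_atTop C

/-- powers are eventually small -/
lemma ev_zero {d : ℝ} (hd : 0 < d) (C : ℝ) {η : ℝ} (hη : 0 < η) :
    ∀ᶠ e in 𝓝[>] (0 : ℝ), C * e ^ d ≤ η := by
  filter_upwards [H816.ev_pos, H816.ev_ge hd (|C| / η)] with e he h
  rw [div_le_iff₀ hη, Real.rpow_neg he.le] at h
  have hp : 0 < e ^ d := Real.rpow_pos_of_pos he _
  have h2 : |C| * e ^ d ≤ η := by
    have := mul_le_mul_of_nonneg_right h hp.le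
    rwa [mul_comm _ η, mul_assoc, inv_mul_cancel₀ hp.ne', mul_one] at this
  exact (mul_le_mul_of_nonneg_right (le_abs_self C) hp.le).trans h2

theorem cpE_ev {th thp x1 c1 ex : ℝ} (C2 L0 A' Cq : ℝ) (hth : 0 < th) (hthp : 0 < thp)
    (h1 : 9 * thp + th < x1 / 2) (h2 : th + 18 * c1 < thp / 400)
    (h3 : 2 * ex + x1 / 2 < 1 / 2) :
    ∀ᶠ e in 𝓝[>] (0 : ℝ), CpE th thp x1 c1 C2 L0 A' Cq ex e := by
  have ht : 0 < th / (192 * thp) := by positivity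
  filter_upwards [H816.ev_pos, H816.ev_le (show (0 : ℝ) < 1 / 16 by norm_num), ev_log L0,
    ev_log (C2 / (th / 4)), ev_log (1 / thp),
    ev_zero (show (0 : ℝ) < 9 / 10 by norm_num) 75 ht,
    ev_zero (show (0 : ℝ) < 2 by norm_num) 80 ht,
    ev_zero (show (0 : ℝ) < 22 / 25 by norm_num) 1 ht,
    ev_zero (show (0 : ℝ) < 9 / 10 by norm_num) 75 (show (0 : ℝ) < 1 / 48 by norm_num),
    ev_zero (show (0 : ℝ) < 2 by norm_num) 80 (show (0 : ℝ) < 1 / 48 by norm_num),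
    ev_zero (show (0 : ℝ) < 22 / 25 by norm_num) 1 (show (0 : ℝ) < 1 / 48 by norm_num),
    H816.ev_pow (show -(x1 / 2 - th - 8 * thp) < -(thp / 5) by linarith)
      (2048 * (32 + 14 * Cq ^ 2)),
    H816.ev_pow h2 (15000 * A' ^ 6),
    H816.ev_pow (show -(1 / 2 - 2 * ex - x1 / 2) < 0 by linarith) (Cq ^ 2),
    H816.ev_pow (show ex < 1 by linarith) Cq] with e he e16 l1 l2 l3 p1 p2 p3 q1 q2 q3 m1 m2 m3 m4
  have e2 : e ^ (2 : ℝ) = e ^ 2 := by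
    rw [← Real.rpow_natCast]
    norm_num
  rw [e2] at p2 q2
  rw [one_mul] at p3 q3
  have et : th / (64 * thp) = th / (192 * thp) + th / (192 * thp) + th / (192 * thp) := by
    field_simp
    norm_num
  refine ⟨e16, l1, ?_, ?_, ?_, by linarith, m1, m2, m3, m4⟩
  · rw [div_le_iff₀ (by positivity)] at l2
    linarith
  · rw [div_le_iff₀ hthp] at l3
    linarith
  · rw [et]
    linarith

end

end Vale.Agent.P159.H363
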