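import Vale.Agent.P159.H363.Cpn8
import Vale.Agent.P159.H276.Eta3

/-!
P159 / H363, CVPN part 9: the data of one level from the letters of `Good`.
-/

set_option linter.unusedSectionVars false

namespace Vale.Agent.P159.H363

open Filter Topology
open Vale.Agent.P159.TM.H764 (EE)
open Vale.Agent.P159.TM.Spec (V)
open Vale.Agent.P159.TM.SpecC (wT)
open Vale.Agent.P159.H864 (TI sym yt)
open Vale.Agent.P159.H145 (mt)
open Vale.Agent.P159.H896 (om)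
open Vale.Agent.P159.H972 (tn lg Good GP FL)
open Vale.Agent.P159.H358 (Ls exp_Ls LvR Lvl)
open scoped Real

noncomputable section

/-- the data of CVPN at one level; `a` the stiffness -/
structure CpL (P : H972.Par) (b c1 : ℝ) (n m r1 r2 s : ℕ) (e T Y a : ℝ) : Prop where
  lv : LvR P b c1 n s e T Y r1 r2
  rm : r1 + 2 ≤ m
  mr : m ≤ r2
  m9 : m + 9 * n ≤ 10 * r1 + 9
  w1 : 20 * n + P.w e ≤ 20 * m
  w2 : m ≤ n + 4 * P.w e
  fl : FL b (tn n) a (17 * e ^ P.pf) (2 ^ r1)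
  ap : |a - π / 2| ≤ P.th / (64 * P.thp)

/-- the constants -/
structure CpK (P : H972.Par) (c1 C C2 L0 A' : ℝ) (e : ℝ) : Prop where
  C0 : 1 ≤ C
  CC : C ≤ C2
  L1 : 1 ≤ L0
  A0 : 0 ≤ A'
  c1C : 2 * c1 * C2 ≤ P.th / 4
  c1p : 0 < c1
  pf : P.pf = 9 / 10
  th1 : P.th ≤ P.thp
  thp1 : P.thp ≤ 1
  x1 : P.x1 ≤ 1
  E : CpE P.th P.thp P.x1 c1 C2 L0 A' (2 ^ (1 + 4 * P.q0)) (P.th + 4 * P.q0 * P.thp) e

section lvl

variable {P : H972.Par} {b c1 C C2 L0 A' : ℝ} {n m r1 r2 s : ℕ} {e T Y a : ℝ}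

lemma CpK.log0 (K : CpK P c1 C C2 L0 A' e) : 1 ≤ Real.log (1 / e) := K.L1.trans K.E.f1

lemma CpL.logL (H : CpL P b c1 n m r1 r2 s e T Y a) : Real.log (1 / e) ≤ Ls n s := by
  have he := H.lv.lv.e0
  rw [Real.log_le_iff_le_exp (by positivity), exp_Ls, ← two_div H.lv.lv.sn, one_div]
  have h1 := H.lv.lv.lam
  have h2 : (0 : ℝ) < (2 : ℝ) ^ s / 2 ^ n := by positivity
  have h3 := inv_anti₀ h2 h1
  rwa [inv_div] at h3

lemma CpL.one (H : CpL P b c1 n m r1 r2 s e T Y a) (K : CpK P c1 C C2 L0 A' e) : 1 ≤ Ls n s :=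
  K.log0.trans H.logL

lemma CpL.nr (H : CpL P b c1 n m r1 r2 s e T Y a) : n < r1 := by
  have h1 := H.lv.T1.1
  have h2 : 1 ≤ P.kE e := H972.one_le_lg P.th0 H.lv.lv.e0 (H.lv.lv.ees.trans P.es1)
  omega

lemma CpL.gn (H : CpL P b c1 n m r1 r2 s e T Y a) (K : CpK P c1 C C2 L0 A' e) {D : ℝ}
    (hD : 0 ≤ D) (hD2 : D ≤ C2) :
    D * (1 + Real.log (Ls n s)) ≤ P.th / 2 * Real.log (1 / e) := by
  refine g_num H.lv.lv.e0 hD hD2 (H.one K) H.lv.lv.Lu ?_ K.E.f2 (by linarith [K.log0])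
  exact K.c1C

lemma CpL.g_le (H : CpL P b c1 n m r1 r2 s e T Y a) (K : CpK P c1 C C2 L0 A' e) :
    Real.exp (C * (1 + Real.log (Ls n s)) + P.th / 2 * Real.log (1 / e)) ≤ e ^ (-P.th) := by
  rw [← exp_log_e H.lv.lv.e0]
  refine Real.exp_le_exp.2 ?_
  have := H.gn K (D := C) (by linarith [K.C0]) K.CC
  linarith

lemma CpL.v_le (H : CpL P b c1 n m r1 r2 s e T Y a) :
    (2 : ℝ) ^ (r2 - n) ≤ 2 ^ (1 + 4 * P.q0) * e ^ (-(P.th + 4 * P.q0 * P.thp)) := by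
  have hnr : n ≤ r2 := (Nat.le_add_right _ _).trans H.lv.T2.1
  have h1 := H358.TT_pow_le H.lv.T2 H.lv.lv.e0 (by
    have := H.lv.lv.ees
    have := P.es1
    linarith)
  rw [← two_div hnr, div_le_iff₀ (by positivity)]
  exact h1

lemma CpL.v2 (H : CpL P b c1 n m r1 r2 s e T Y a) (K : CpK P c1 C C2 L0 A' e) :
    4 * ((2 ^ (r2 - n)) ^ 2 * Y) ≤ e ^ (P.x1 / 2) := by
  have he := H.lv.lv.e0
  have h1 := H358.Y_le he H.lv.Y2
  have h2 := H.v_le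
  have h3 := K.E.n3
  obtain ⟨ex, hex⟩ : ∃ ex : ℝ, ex = P.th + 4 * P.q0 * P.thp := ⟨_, rfl⟩
  obtain ⟨Cq, hCq⟩ : ∃ Cq : ℝ, Cq = 2 ^ (1 + 4 * P.q0) := ⟨_, rfl⟩
  rw [← hex, ← hCq] at h2 h3
  have h4 : ((2 : ℝ) ^ (r2 - n)) ^ 2 ≤ Cq ^ 2 * e ^ (-(2 * ex)) := by
    calc ((2 : ℝ) ^ (r2 - n)) ^ 2 ≤ (Cq * e ^ (-ex)) ^ 2 := pow_le_pow_left₀ (by positivity) h2 2
      _ = Cq ^ 2 * e ^ (-(2 * ex)) := by
          rw [mul_pow, ← Real.rpow_natCast (e ^ (-ex)), ← Real.rpow_mul he.le]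
          congr 2
          push_cast
          ring
  have hp : 0 < e ^ (1 / 2 : ℝ) := Real.rpow_pos_of_pos he _
  have e1 : e ^ (-(2 * ex)) * e ^ (1 / 2 : ℝ) =
      e ^ (-(-(1 / 2 - 2 * ex - P.x1 / 2))) * e ^ (P.x1 / 2) := by
    rw [← Real.rpow_add he, ← Real.rpow_add he]
    congr 1
    ring
  rw [neg_zero, Real.rpow_zero] at h3
  calc 4 * ((2 ^ (r2 - n)) ^ 2 * Y) = (2 ^ (r2 - n)) ^ 2 * (4 * Y) := by ring
    _ ≤ (2 ^ (r2 - n)) ^ 2 * e ^ (1 / 2 : ℝ) := mul_le_mul_of_nonneg_left h1 (by positivity)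
    _ ≤ Cq ^ 2 * e ^ (-(2 * ex)) * e ^ (1 / 2 : ℝ) := mul_le_mul_of_nonneg_right h4 hp.le
    _ = (Cq ^ 2 * e ^ (-(-(1 / 2 - 2 * ex - P.x1 / 2)))) * e ^ (P.x1 / 2) := by
        rw [mul_assoc, e1, ← mul_assoc]
    _ ≤ 1 * e ^ (P.x1 / 2) := mul_le_mul_of_nonneg_right h3 (Real.rpow_nonneg he.le _)
    _ = _ := one_mul _

/-- the numbers of the combination -/
theorem CpL.cve (H : CpL P b c1 n m r1 r2 s e T Y a) (K : CpK P c1 C C2 L0 A' e) (hY : 0 ≤ Y) :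
    CvE (Real.exp (C * (1 + Real.log (Ls n s)) + P.th / 2 * Real.log (1 / e))) (2 ^ (m - n))
      (2 ^ (r1 - n)) (2 ^ (r2 - n)) Y (15 * (5 * Ls n s) ^ 3 * (A' * Ls n s) ^ 6)
      (e ^ (P.x1 / 2)) (e ^ (22 / 25 : ℝ)) ((2 : ℝ) ^ (-(((m : ℝ) - n) / 20))) := by
  have he := H.lv.lv.e0
  have he1 : e ≤ 1 / 2 := H.lv.lv.ees.trans P.es1
  have hnr := H.nr
  have hrm := H.rm
  have hmr := H.mr
  have hL1 := H.one K
  have hthp := P.thp0
  have hx1 := P.x10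
  have hg := H.g_le K
  have hW := win_up he he1 H.w2
  have hv2 := H.v2 K
  have hd1 := dl_up he H.w1
  have hd2 := dl_lo he he1 (by omega) H.w2
  have hu := u_num hnr.le H.m9
  have hn1 := K.E.n1
  have hn2 := K.E.n2
  set δ := (2 : ℝ) ^ (-(((m : ℝ) - n) / 20)) with hδ
  have hδ0 : 0 < δ := Real.rpow_pos_of_pos two_pos _
  have hx0 : 0 < e ^ (P.x1 / 2) := Real.rpow_pos_of_pos he _
  have hη : e ^ (22 / 25 : ℝ) ≤ e ^ (P.x1 / 2) :=
    Real.rpow_le_rpow_of_exponent_ge he (by linarith) (by linarith [K.x1])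
  have hη0 : 0 < e ^ (22 / 25 : ℝ) := Real.rpow_pos_of_pos he _
  set g := Real.exp (C * (1 + Real.log (Ls n s)) + P.th / 2 * Real.log (1 / e)) with hgd
  have hg0 : 0 < g := Real.exp_pos _
  refine ⟨?_, by positivity, pow_le_pow_right₀ one_le_two (by omega), hY, hx0.le, hη0.le,
    pow_le_pow_right₀ one_le_two (by omega), ?_, ?_⟩
  · rw [hgd]
    refine Real.one_le_exp ?_
    have h1 := Real.log_nonneg hL1
    have h2 := K.C0
    have h3 := K.log0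
    have h4 := P.th0
    have h5 : 0 ≤ C * (1 + Real.log (Ls n s)) := by positivity
    have h6 : 0 ≤ P.th / 2 * Real.log (1 / e) := by positivity
    linarith
  · -- first number
    have k0 : 2 * e ^ (P.x1 / 2) + 56 * ((2 ^ (r2 - n)) ^ 2 * Y) + 30 * e ^ (22 / 25 : ℝ) ≤
        (32 + 14 * (2 ^ (1 + 4 * P.q0)) ^ 2) * e ^ (P.x1 / 2) := by
      have hq : (1 : ℝ) ≤ (2 ^ (1 + 4 * P.q0)) ^ 2 := one_le_pow₀ (one_le_pow₀ one_le_two)
      have := mul_le_mul_of_nonneg_right hq hx0.le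
      linarith
    have k1 : ((2 : ℝ) ^ (m - n)) ^ 2 ≤ 256 * e ^ (-(8 * P.thp)) := by
      calc ((2 : ℝ) ^ (m - n)) ^ 2 ≤ (16 * e ^ (-(4 * P.thp))) ^ 2 :=
            pow_le_pow_left₀ (by positivity) hW 2
        _ = 256 * e ^ (-(8 * P.thp)) := by
            rw [mul_pow, ← Real.rpow_natCast (e ^ (-(4 * P.thp))), ← Real.rpow_mul he.le]
            norm_num
            ring_nf
    have k2 : 0 ≤ 2 * e ^ (P.x1 / 2) + 56 * ((2 ^ (r2 - n)) ^ 2 * Y) + 30 * e ^ (22 / 25 : ℝ) := by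
      positivity
    have k3 : ((2 : ℝ) ^ (m - n)) ^ 2 *
        (2 * e ^ (P.x1 / 2) + 56 * ((2 ^ (r2 - n)) ^ 2 * Y) + 30 * e ^ (22 / 25 : ℝ)) ≤
        256 * e ^ (-(8 * P.thp)) * ((32 + 14 * (2 ^ (1 + 4 * P.q0)) ^ 2) * e ^ (P.x1 / 2)) :=
      mul_le_mul k1 k0 k2 (by positivity)
    have k4 : g * (((2 : ℝ) ^ (m - n)) ^ 2 *
        (2 * e ^ (P.x1 / 2) + 56 * ((2 ^ (r2 - n)) ^ 2 * Y) + 30 * e ^ (22 / 25 : ℝ))) ≤
        e ^ (-P.th) *
        (256 * e ^ (-(8 * P.thp)) * ((32 + 14 * (2 ^ (1 + 4 * P.q0)) ^ 2) * e ^ (P.x1 / 2))) :=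
      mul_le_mul hg k3 (mul_nonneg (by positivity) k2) (Real.rpow_nonneg he.le _)
    have e1 : e ^ (-(-(P.x1 / 2 - P.th - 8 * P.thp))) =
        e ^ (-P.th) * e ^ (-(8 * P.thp)) * e ^ (P.x1 / 2) := by
      rw [← Real.rpow_add he, ← Real.rpow_add he]
      congr 1
      ring
    have e2 : e ^ (-(-(P.thp / 5))) = e ^ (P.thp / 5) := by rw [neg_neg]
    rw [e1, e2] at hn1
    have e3 : e ^ (-P.th) *
        (256 * e ^ (-(8 * P.thp)) * ((32 + 14 * (2 ^ (1 + 4 * P.q0)) ^ 2) * e ^ (P.x1 / 2))) =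
        2048 * (32 + 14 * (2 ^ (1 + 4 * P.q0)) ^ 2) *
          (e ^ (-P.th) * e ^ (-(8 * P.thp)) * e ^ (P.x1 / 2)) / 8 := by ring
    rw [e3] at k4
    linarith
  · -- second number
    have hLu : Ls n s ^ 9 ≤ e ^ (-(18 * c1)) := by
      have := H.lv.lv.Lk 9
      refine this.trans (le_of_eq ?_)
      congr 1
      push_cast
      ring
    have e1 : 15 * (5 * Ls n s) ^ 3 * (A' * Ls n s) ^ 6 = 1875 * A' ^ 6 * Ls n s ^ 9 := by ring
    rw [e1]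
    have k1 : g * (1875 * A' ^ 6 * Ls n s ^ 9) ≤ e ^ (-P.th) * (1875 * A' ^ 6 * e ^ (-(18 * c1))) :=
      mul_le_mul hg (mul_le_mul_of_nonneg_left hLu (by positivity)) (by positivity)
        (Real.rpow_nonneg he.le _)
    have e2 : e ^ (-P.th) * (1875 * A' ^ 6 * e ^ (-(18 * c1))) =
        15000 * A' ^ 6 * e ^ (-(P.th + 18 * c1)) / 8 := by
      have e3 : e ^ (-(P.th + 18 * c1)) = e ^ (-P.th) * e ^ (-(18 * c1)) := by
        rw [← Real.rpow_add he]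
        congr 1
        ring
      rw [e3]
      ring
    rw [e2] at k1
    have k2 : g * (1875 * A' ^ 6 * Ls n s ^ 9) ≤ e ^ (-(P.thp / 400)) / 8 := by linarith
    have k3 : e ^ (-(P.thp / 400)) * δ ≤ 1 := by
      calc e ^ (-(P.thp / 400)) * δ ≤ e ^ (-(P.thp / 400)) * e ^ (P.thp / 400) :=
            mul_le_mul_of_nonneg_left hd1 (Real.rpow_nonneg he.le _)
        _ = 1 := by
            rw [← Real.rpow_add he, neg_add_cancel, Real.rpow_zero]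
    rw [div_eq_mul_inv]
    calc g * (1875 * A' ^ 6 * Ls n s ^ 9) * ((2 : ℝ) ^ (r1 - n))⁻¹
        ≤ e ^ (-(P.thp / 400)) / 8 * (2 * δ ^ 2) := by
          refine mul_le_mul k2 hu (by positivity) ?_
          have := Real.rpow_nonneg he.le (-(P.thp / 400))
          positivity
      _ = (e ^ (-(P.thp / 400)) * δ) * (δ / 4) := by ring
      _ ≤ 1 * (δ / 4) := mul_le_mul_of_nonneg_right k3 (by positivity)
      _ = δ / 4 := one_mul _

end lvl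

end

end Vale.Agent.P159.H363
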