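import Vale.Agent.P159.H552.GauHS
import Vale.Agent.P159.H363.L2

/-!
P159 / H363: (V7), comparison of a tilted law `W μ / ∫ W` (`W ≥ 1`, `W ≤ 1 + η` off a bad set)
with `μ`: bounded functions and covariances.
-/

namespace Vale.Agent.P159.H363

open MeasureTheory Finset
open Vale.Agent.P159.H552 (int_cs)

variable {Ω : Type*} [MeasurableSpace Ω] {μ : Measure Ω} [IsProbabilityMeasure μ]
  {W : Ω → ℝ} {B : Set Ω} {η : ℝ}

lemma one_le_intW (hW1 : ∀ x, 1 ≤ W x) (hWi : Integrable W μ) : 1 ≤ ∫ x, W x ∂μ := by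
  have h := integral_mono (μ := μ) (integrable_const (1 : ℝ)) hWi hW1
  simpa using h

/-- bounded functions -/
theorem nl1 (hW1 : ∀ x, 1 ≤ W x) (hWi : Integrable W μ) (hB : MeasurableSet B)
    (hη0 : 0 ≤ η) (hη : ∀ x, x ∉ B → W x ≤ 1 + η) {ψ : Ω → ℂ} (hψ : AEStronglyMeasurable ψ μ)
    {M : ℝ} (hM : ∀ x, ‖ψ x‖ ≤ M) :
    ‖(∫ x, (W x : ℂ) * ψ x ∂μ) / ((∫ x, W x ∂μ : ℝ) : ℂ) - ∫ x, ψ x ∂μ‖
      ≤ 2 * η * ∫ x, ‖ψ x‖ ∂μ + 2 * M * ((∫ x in B, W x ∂μ) / ∫ x, W x ∂μ) := by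
  set D : ℝ := ∫ x, W x ∂μ with hD
  have hD1 : 1 ≤ D := one_le_intW hW1 hWi
  have hD0 : 0 < D := by linarith
  have hW0 : ∀ x, 0 ≤ W x := fun x => by linarith [hW1 x]
  have iψ : Integrable ψ μ := Integrable.of_bound hψ M (Filter.Eventually.of_forall hM)
  have iWψ : Integrable (fun x => (W x : ℂ) * ψ x) μ := by
    refine (hWi.mul_const M).mono' ((Complex.continuous_ofReal.comp_aestronglyMeasurable hWi.1).mul
      hψ) (Filter.Eventually.of_forall fun x => ?_)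
    rw [norm_mul, Complex.norm_real, Real.norm_eq_abs, abs_of_nonneg (hW0 x)]
    exact mul_le_mul_of_nonneg_left (hM x) (hW0 x)
  have hM0 : 0 ≤ M := by
    have : Nonempty Ω := by
      by_contra hne
      rw [not_nonempty_iff] at hne
      have h1 : μ Set.univ = 0 := by
        rw [Set.eq_empty_of_isEmpty Set.univ, measure_empty]
      rw [measure_univ] at h1
      exact one_ne_zero h1
    obtain ⟨x⟩ := this
    exact (norm_nonneg _).trans (hM x)
  -- the weight `W - 1`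
  have i1 : Integrable (fun x => (W x - 1) * ‖ψ x‖) μ := by
    refine (hWi.mul_const M).mono' ((hWi.1.sub aestronglyMeasurable_const).mul hψ.norm)
      (Filter.Eventually.of_forall fun x => ?_)
    rw [Real.norm_eq_abs, abs_of_nonneg (mul_nonneg (by linarith [hW1 x]) (norm_nonneg _))]
    exact mul_le_mul (by linarith) (hM x) (norm_nonneg _) (hW0 x)
  have b1 : ∫ x, (W x - 1) * ‖ψ x‖ ∂μ ≤ η * ∫ x, ‖ψ x‖ ∂μ + M * ∫ x in B, W x ∂μ := by
    rw [← integral_add_compl hB i1]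
    have h1 : ∫ x in B, (W x - 1) * ‖ψ x‖ ∂μ ≤ M * ∫ x in B, W x ∂μ := by
      rw [← integral_const_mul]
      refine integral_mono i1.integrableOn (hWi.const_mul M).integrableOn fun x => ?_
      simp only
      have := mul_le_mul (by linarith : W x - 1 ≤ W x) (hM x) (norm_nonneg _) (hW0 x)
      linarith
    have h2 : ∫ x in Bᶜ, (W x - 1) * ‖ψ x‖ ∂μ ≤ η * ∫ x, ‖ψ x‖ ∂μ := by
      have h3 : ∫ x in Bᶜ, (W x - 1) * ‖ψ x‖ ∂μ ≤ ∫ x in Bᶜ, η * ‖ψ x‖ ∂μ := by
        refine setIntegral_mono_on i1.integrableOn (iψ.norm.const_mul η).integrableOn hB.compl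
          fun x hx => ?_
        exact mul_le_mul_of_nonneg_right (by linarith [hη x hx]) (norm_nonneg _)
      refine h3.trans ?_
      rw [← integral_const_mul]
      exact setIntegral_le_integral (iψ.norm.const_mul η)
        (Filter.Eventually.of_forall fun x => by positivity)
    linarith
  have b2 : D - 1 ≤ η + ∫ x in B, W x ∂μ := by
    have h0 : D - 1 = ∫ x, (W x - 1) ∂μ := by
      rw [integral_sub hWi (integrable_const _)]
      simp [hD]
    have iW1 : Integrable (fun x => W x - 1) μ := hWi.sub (integrable_const _)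
    rw [h0, ← integral_add_compl hB iW1]
    have h1 : ∫ x in B, (W x - 1) ∂μ ≤ ∫ x in B, W x ∂μ :=
      integral_mono iW1.integrableOn hWi.integrableOn fun x => by simp
    have h2 : ∫ x in Bᶜ, (W x - 1) ∂μ ≤ η := by
      have h3 : ∫ x in Bᶜ, (W x - 1) ∂μ ≤ ∫ x in Bᶜ, η ∂μ :=
        setIntegral_mono_on iW1.integrableOn
          (integrable_const _).integrableOn hB.compl fun x hx => by linarith [hη x hx]
      refine h3.trans ?_
      rw [setIntegral_const, smul_eq_mul]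
      have : μ.real Bᶜ ≤ 1 := measureReal_le_one
      nlinarith
    linarith
  have hP : ‖∫ x, ψ x ∂μ‖ ≤ ∫ x, ‖ψ x‖ ∂μ := norm_integral_le_integral_norm _
  have hPM : ∫ x, ‖ψ x‖ ∂μ ≤ M := by
    have h := integral_mono (μ := μ) iψ.norm (integrable_const M) hM
    simpa using h
  have hB0 : 0 ≤ ∫ x in B, W x ∂μ := integral_nonneg fun x => hW0 x
  have hP0 : 0 ≤ ∫ x, ‖ψ x‖ ∂μ := integral_nonneg fun x => norm_nonneg _
  have e1 : (∫ x, (W x : ℂ) * ψ x ∂μ) / (D : ℂ) - ∫ x, ψ x ∂μ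
      = ((∫ x, ((W x - 1 : ℝ) : ℂ) * ψ x ∂μ) - ((D - 1 : ℝ) : ℂ) * ∫ x, ψ x ∂μ) / (D : ℂ) := by
    have h1 : ∫ x, ((W x - 1 : ℝ) : ℂ) * ψ x ∂μ = (∫ x, (W x : ℂ) * ψ x ∂μ) - ∫ x, ψ x ∂μ := by
      rw [← integral_sub iWψ iψ]
      refine integral_congr_ae (Filter.Eventually.of_forall fun x => ?_)
      push_cast
      ring
    rw [h1]
    have hDc : (D : ℂ) ≠ 0 := by exact_mod_cast hD0.ne'
    field_simp
    push_cast
    ring
  rw [e1, norm_div, Complex.norm_real, Real.norm_eq_abs, abs_of_pos hD0, div_le_iff₀ hD0]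
  have h3 : ‖∫ x, ((W x - 1 : ℝ) : ℂ) * ψ x ∂μ‖ ≤ ∫ x, (W x - 1) * ‖ψ x‖ ∂μ := by
    refine (norm_integral_le_integral_norm _).trans (le_of_eq ?_)
    refine integral_congr_ae (Filter.Eventually.of_forall fun x => ?_)
    simp only
    rw [norm_mul, Complex.norm_real, Real.norm_eq_abs, abs_of_nonneg (by linarith [hW1 x])]
  have h4 : ‖((D - 1 : ℝ) : ℂ) * ∫ x, ψ x ∂μ‖ ≤ (η + ∫ x in B, W x ∂μ) * ∫ x, ‖ψ x‖ ∂μ := by
    rw [norm_mul, Complex.norm_real, Real.norm_eq_abs, abs_of_nonneg (by linarith)]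
    exact mul_le_mul b2 hP (norm_nonneg _) (by positivity)
  refine (norm_sub_le _ _).trans ((add_le_add (h3.trans b1) h4).trans ?_)
  have h5 : (∫ x in B, W x ∂μ) / D * D = ∫ x in B, W x ∂μ := div_mul_cancel₀ _ hD0.ne'
  have h6 : (∫ x in B, W x ∂μ) * ∫ x, ‖ψ x‖ ∂μ ≤ M * ∫ x in B, W x ∂μ := by
    rw [mul_comm]
    exact mul_le_mul_of_nonneg_right hPM hB0
  calc _ ≤ 2 * η * (∫ x, ‖ψ x‖ ∂μ) + 2 * M * ∫ x in B, W x ∂μ := by
        linarith
    _ ≤ 2 * η * (∫ x, ‖ψ x‖ ∂μ) * D + 2 * M * ((∫ x in B, W x ∂μ) / D * D) := by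
        rw [h5]
        have : 0 ≤ 2 * η * ∫ x, ‖ψ x‖ ∂μ := by positivity
        nlinarith
    _ = _ := by ring

/-- mean of a nonnegative function under the tilted law, good part and bad part -/
theorem nl_abs (hW1 : ∀ x, 1 ≤ W x) (hWi : Integrable W μ) (hB : MeasurableSet B)
    (hη : ∀ x, x ∉ B → W x ≤ 1 + η) {r : Ω → ℝ} (hr : AEStronglyMeasurable r μ)
    (hr2 : Integrable (fun x => W x * r x ^ 2) μ) :
    (∫ x, W x * |r x| ∂μ) / (∫ x, W x ∂μ)
      ≤ (1 + η) * (∫ x in Bᶜ, |r x| ∂μ) + √(∫ x in B, W x * r x ^ 2 ∂μ) := by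
  set D : ℝ := ∫ x, W x ∂μ with hD
  have hD1 : 1 ≤ D := one_le_intW hW1 hWi
  have hD0 : 0 < D := by linarith
  have hW0 : ∀ x, 0 ≤ W x := fun x => by linarith [hW1 x]
  have iWr : Integrable (fun x => W x * |r x|) μ := by
    refine (hWi.add hr2).mono' (hWi.1.mul hr.norm) (Filter.Eventually.of_forall fun x => ?_)
    rw [Real.norm_eq_abs, abs_of_nonneg (mul_nonneg (hW0 x) (abs_nonneg _)), Pi.add_apply]
    have h1 : |r x| ≤ 1 + r x ^ 2 := by
      rw [← sq_abs (r x)]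
      nlinarith [sq_nonneg (|r x| - 1), abs_nonneg (r x)]
    have := mul_le_mul_of_nonneg_left h1 (hW0 x)
    linarith
  have ir : Integrable (fun x => |r x|) μ := by
    refine iWr.mono' hr.norm (Filter.Eventually.of_forall fun x => ?_)
    rw [Real.norm_eq_abs, abs_abs]
    have := mul_le_mul_of_nonneg_right (hW1 x) (abs_nonneg (r x))
    linarith
  rw [← integral_add_compl hB iWr, add_div, add_comm]
  refine add_le_add ?_ ?_
  · have hg : 0 ≤ ∫ x in Bᶜ, W x * |r x| ∂μ :=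
      integral_nonneg fun x => mul_nonneg (hW0 x) (abs_nonneg _)
    refine (div_le_self hg hD1).trans ?_
    rw [← integral_const_mul]
    refine setIntegral_mono_on iWr.integrableOn (ir.const_mul _).integrableOn hB.compl fun x hx => ?_
    exact mul_le_mul_of_nonneg_right (hη x hx) (abs_nonneg _)
  · have hs1 : ∀ x, √(W x) ^ 2 = W x := fun x => Real.sq_sqrt (hW0 x)
    have hs2 : ∀ x, (√(W x) * |r x|) ^ 2 = W x * r x ^ 2 := fun x => by
      rw [mul_pow, hs1, sq_abs]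
    have hs3 : ∀ x, √(W x) * (√(W x) * |r x|) = W x * |r x| := fun x => by
      rw [← mul_assoc, Real.mul_self_sqrt (hW0 x)]
    have h1 := int_cs (m := μ.restrict B) (u := fun x => √(W x)) (v := fun x => √(W x) * |r x|)
      (by simp only [hs1]; exact hWi.integrableOn) (by simp only [hs2]; exact hr2.integrableOn)
      (by simp only [hs3]; exact iWr.integrableOn)
    simp only [hs1, hs2, hs3] at h1
    have h2 : ∫ x in B, W x ∂μ ≤ D :=
      setIntegral_le_integral hWi (Filter.Eventually.of_forall hW0)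
    have h3 : 0 ≤ ∫ x in B, W x * r x ^ 2 ∂μ :=
      integral_nonneg fun x => mul_nonneg (hW0 x) (sq_nonneg _)
    have h4 : 0 ≤ ∫ x in B, W x * |r x| ∂μ :=
      integral_nonneg fun x => mul_nonneg (hW0 x) (abs_nonneg _)
    rw [div_le_iff₀ hD0]
    refine le_of_sq_le_sq ?_ (by positivity)
    rw [mul_pow, Real.sq_sqrt h3]
    calc _ ≤ _ := h1
      _ ≤ D * ∫ x in B, W x * r x ^ 2 ∂μ := mul_le_mul_of_nonneg_right h2 h3
      _ ≤ (∫ x in B, W x * r x ^ 2 ∂μ) * D ^ 2 := by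
        have : D ≤ D ^ 2 := by nlinarith
        nlinarith [mul_le_mul_of_nonneg_right this h3]

/-- covariance under the tilted law of a bounded function and `r` -/
theorem nl2 (hW1 : ∀ x, 1 ≤ W x) (hWi : Integrable W μ)
    {Φ : Ω → ℂ} {w : ℝ} (hw0 : 0 ≤ w) (hw : ∀ x, ‖Φ x‖ ≤ w) {r : Ω → ℝ}
    (hWr : Integrable (fun x => W x * |r x|) μ) :
    ‖(∫ x, (W x : ℂ) * (Φ x * (r x : ℂ)) ∂μ) / ((∫ x, W x ∂μ : ℝ) : ℂ)
      - (∫ x, (W x : ℂ) * Φ x ∂μ) / ((∫ x, W x ∂μ : ℝ) : ℂ)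
        * ((∫ x, (W x : ℂ) * (r x : ℂ) ∂μ) / ((∫ x, W x ∂μ : ℝ) : ℂ))‖
      ≤ 2 * w * ((∫ x, W x * |r x| ∂μ) / ∫ x, W x ∂μ) := by
  set D : ℝ := ∫ x, W x ∂μ with hD
  have hD1 : 1 ≤ D := one_le_intW hW1 hWi
  have hD0 : 0 < D := by linarith
  have hW0 : ∀ x, 0 ≤ W x := fun x => by linarith [hW1 x]
  have n1 : ∀ z : ℂ, ‖z / (D : ℂ)‖ = ‖z‖ / D := by
    intro z
    rw [norm_div, Complex.norm_real, Real.norm_eq_abs, abs_of_pos hD0]
  have h1 : ‖∫ x, (W x : ℂ) * (Φ x * (r x : ℂ)) ∂μ‖ ≤ w * ∫ x, W x * |r x| ∂μ := by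
    rw [← integral_const_mul]
    refine (norm_integral_le_integral_norm _).trans ?_
    refine integral_mono_of_nonneg (Filter.Eventually.of_forall fun x => norm_nonneg _)
      (hWr.const_mul w) (Filter.Eventually.of_forall fun x => ?_)
    simp only
    rw [norm_mul, norm_mul, Complex.norm_real, Complex.norm_real, Real.norm_eq_abs,
      Real.norm_eq_abs, abs_of_nonneg (hW0 x)]
    have := mul_le_mul_of_nonneg_right (hw x) (mul_nonneg (hW0 x) (abs_nonneg (r x)))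
    nlinarith [this]
  have h2 : ‖∫ x, (W x : ℂ) * Φ x ∂μ‖ ≤ w * D := by
    rw [hD, ← integral_const_mul]
    refine (norm_integral_le_integral_norm _).trans ?_
    refine integral_mono_of_nonneg (Filter.Eventually.of_forall fun x => norm_nonneg _)
      (hWi.const_mul w) (Filter.Eventually.of_forall fun x => ?_)
    simp only
    rw [norm_mul, Complex.norm_real, Real.norm_eq_abs, abs_of_nonneg (hW0 x), mul_comm]
    exact mul_le_mul_of_nonneg_right (hw x) (hW0 x)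
  have h3 : ‖∫ x, (W x : ℂ) * (r x : ℂ) ∂μ‖ ≤ ∫ x, W x * |r x| ∂μ := by
    refine (norm_integral_le_integral_norm _).trans (le_of_eq ?_)
    refine integral_congr_ae (Filter.Eventually.of_forall fun x => ?_)
    simp only
    rw [norm_mul, Complex.norm_real, Complex.norm_real, Real.norm_eq_abs,
      Real.norm_eq_abs, abs_of_nonneg (hW0 x)]
  have hr0 : 0 ≤ ∫ x, W x * |r x| ∂μ :=
    integral_nonneg fun x => mul_nonneg (hW0 x) (abs_nonneg _)
  refine (norm_sub_le _ _).trans ?_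
  rw [norm_mul, n1, n1, n1]
  have h4 : ‖∫ x, (W x : ℂ) * (Φ x * (r x : ℂ)) ∂μ‖ / D ≤ w * ((∫ x, W x * |r x| ∂μ) / D) := by
    rw [← mul_div_assoc]
    exact div_le_div_of_nonneg_right h1 hD0.le
  have h5 : ‖∫ x, (W x : ℂ) * Φ x ∂μ‖ / D ≤ w := by
    rw [div_le_iff₀ hD0]
    exact h2
  have h6 : ‖∫ x, (W x : ℂ) * (r x : ℂ) ∂μ‖ / D ≤ (∫ x, W x * |r x| ∂μ) / D :=
    div_le_div_of_nonneg_right h3 hD0.le
  have h7 := mul_le_mul h5 h6 (by positivity) hw0
  linarith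

end Vale.Agent.P159.H363
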