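import Vale.Agent.P159.H363.Cvf1
import Vale.Agent.P159.H363.NL

/-!
P159 / H363, VB10 functional side, part 2: one torus. `ω̂ = e^{2π² s₂ / n} om (MC N l T t₁) 1` (the
constant mode removed) against `∫ Ψ (gm0 g)`, `Ψ = P W₁` the functional at the level `t`.
-/

namespace Vale.Agent.P159.H363

open Finset Matrix MeasureTheory
open Vale.Agent.P159.TM.H104 (EM Ex Cv Lg li nh Gr)
open Vale.Agent.P159.H37 (qf bf Zn Zq ZM wM gau gau_sum cellP)
open Vale.Agent.P159.TM.Spec (V)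
open Vale.Agent.P159.TM.SpecC (Tor wT)
open Vale.Agent.P159.H864 (TI sym fc MC cl up cobV)
open Vale.Agent.P159.H963 (Pn nMC ntr gw_wT mf_MC ti_Pn sym_Pn)
open Vale.Agent.P159.H462 (ahat Gam ti_ahat sym_ahat ti_Gam)
open Vale.Agent.P159.H896 (WM Ph om ph)
open Vale.Agent.P159.H145 (mt)
open Vale.Agent.P159.H43 (Wq omT ch2 Phq)
open Vale.Agent.P159.H767 (cst)
open Vale.Agent.P159.H889 (Dif dn)
open scoped Real

noncomputable section

/-- the tilted mean of a bounded function -/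
theorem tilt_sub {Ω : Type*} [MeasurableSpace Ω] {μ : Measure Ω} [IsProbabilityMeasure μ]
    {W : Ω → ℝ} (hW1 : ∀ x, 1 ≤ W x) (hWi : Integrable W μ) {φ : Ω → ℂ}
    (hφ : AEStronglyMeasurable φ μ) {M : ℝ} (hM : ∀ x, ‖φ x‖ ≤ M) :
    ‖(∫ x, (W x : ℂ) * φ x ∂μ) / ((∫ x, W x ∂μ : ℝ) : ℂ) - ∫ x, φ x ∂μ‖
      ≤ 2 * M * (1 - (∫ x, W x ∂μ)⁻¹) := by
  set D : ℝ := ∫ x, W x ∂μ with hD
  have hD1 : 1 ≤ D := one_le_intW hW1 hWi
  have hD0 : 0 < D := by linarith
  have iφ : Integrable φ μ := Integrable.of_bound hφ M (Filter.Eventually.of_forall hM)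
  have iWφ : Integrable (fun x => (W x : ℂ) * φ x) μ := by
    refine (hWi.mul_const M).mono' ((Complex.continuous_ofReal.comp_aestronglyMeasurable hWi.1).mul
      hφ) (Filter.Eventually.of_forall fun x => ?_)
    rw [norm_mul, Complex.norm_real, Real.norm_eq_abs, abs_of_nonneg (by linarith [hW1 x])]
    exact mul_le_mul_of_nonneg_left (hM x) (by linarith [hW1 x])
  have h1 : ‖(∫ x, (W x : ℂ) * φ x ∂μ) - ∫ x, φ x ∂μ‖ ≤ M * (D - 1) := by
    rw [← integral_sub iWφ iφ]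
    have e : M * (D - 1) = ∫ x, M * (W x - 1) ∂μ := by
      rw [integral_const_mul, integral_sub hWi (integrable_const _), ← hD]
      simp
    rw [e]
    refine (norm_integral_le_integral_norm _).trans ?_
    refine integral_mono_of_nonneg (Filter.Eventually.of_forall fun x => norm_nonneg _)
      ((hWi.sub (integrable_const _)).const_mul M) (Filter.Eventually.of_forall fun x => ?_)
    simp only
    have e2 : (W x : ℂ) * φ x - φ x = ((W x - 1 : ℝ) : ℂ) * φ x := by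
      push_cast
      ring
    rw [e2, norm_mul, Complex.norm_real, Real.norm_eq_abs, abs_of_nonneg (by linarith [hW1 x]),
      mul_comm]
    exact mul_le_mul_of_nonneg_right (hM x) (by linarith [hW1 x])
  have h2 : ‖∫ x, φ x ∂μ‖ ≤ M := by
    have h := norm_integral_le_of_norm_le_const (μ := μ) (Filter.Eventually.of_forall hM)
    simpa using h
  have e3 : (∫ x, (W x : ℂ) * φ x ∂μ) / (D : ℂ) - ∫ x, φ x ∂μ
      = ((D⁻¹ : ℝ) : ℂ) * ((∫ x, (W x : ℂ) * φ x ∂μ) - ∫ x, φ x ∂μ)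
        - ((1 - D⁻¹ : ℝ) : ℂ) * ∫ x, φ x ∂μ := by
    have hDc : (D : ℂ) ≠ 0 := by exact_mod_cast hD0.ne'
    push_cast
    field_simp
    ring
  have hDi : 0 ≤ 1 - D⁻¹ := by
    have := inv_le_one_of_one_le₀ hD1
    linarith
  rw [e3]
  refine (norm_sub_le _ _).trans ?_
  rw [norm_mul, norm_mul, Complex.norm_real, Complex.norm_real, Real.norm_eq_abs,
    Real.norm_eq_abs, abs_of_pos (inv_pos.2 hD0), abs_of_nonneg hDi]
  have h4 : D⁻¹ * ‖(∫ x, (W x : ℂ) * φ x ∂μ) - ∫ x, φ x ∂μ‖ ≤ D⁻¹ * (M * (D - 1)) :=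
    mul_le_mul_of_nonneg_left h1 (inv_pos.2 hD0).le
  have h5 : (1 - D⁻¹) * ‖∫ x, φ x ∂μ‖ ≤ (1 - D⁻¹) * M := mul_le_mul_of_nonneg_left h2 hDi
  have e6 : D⁻¹ * (M * (D - 1)) = M * (1 - D⁻¹) := by
    field_simp
  rw [e6] at h4
  linarith

variable {N l : ℕ} [NeZero N] [NeZero (N / l)] {b T t t₁ τ : ℝ}

/-- the source of a cell field does not see constants -/
lemma Rcl_const (hl : l ∣ N) (hτ : 0 < τ) (h : τ ≤ t) (F : V (N / l) → ℝ) (c : ℝ) :
    Rcl N l b t τ (fun x => F x + c) = Rcl N l b t τ F := by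
  have hrow : ∀ x, ∑ y, MC N l t τ x y = τ := (mf_MC hl hτ h).row
  have hz : ntr (MC N l t τ) τ *ᵥ (fun _ => c) = 0 := by
    have h1 : (fun _ : V N => c) = c • fun _ => (1 : ℝ) := by
      funext v
      simp
    rw [h1, mulVec_smul]
    have h2 : ntr (MC N l t τ) τ *ᵥ (fun _ => (1 : ℝ)) = 0 := by
      funext v
      have := H963.ntr_row hrow v
      simpa [mulVec, dotProduct] using this
    rw [h2, smul_zero]
  unfold Rcl
  have e : lf N l (fun x => F x + c) = lf N l F + fun _ => c := rfl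
  rw [e, mulVec_add, hz, add_zero]

lemma Wcl_const (hl : l ∣ N) (hτ : 0 < τ) (h : τ ≤ t) (F : V (N / l) → ℝ) (c : ℝ) :
    Wcl N l b t τ (fun x => F x + c) = Wcl N l b t τ F := by
  unfold Wcl
  rw [Rcl_const hl hτ h]

/-- the charge one functional on cell fields -/
def Phc (N l : ℕ) [NeZero N] [NeZero (N / l)] (b t τ : ℝ) (F : V (N / l) → ℝ) : ℂ :=
  Ph (wT b N) (MC N l t τ) 1 (lf N l F)

lemma ch_Phc (hb : 0 ≤ b) (hl : l ∣ N) (hτ : 0 < τ) (h : τ ≤ t) : Ch (Phc N l b t τ) := by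
  intro F c
  unfold Phc
  rw [lf_cs, H896.Ph_shift (wm_MC hb hl hτ h)]
  congr 1
  unfold ph
  congr 1
  push_cast
  ring

lemma continuous_Phc (hb : 0 ≤ b) (hl : l ∣ N) (hτ : 0 < τ) (h : τ ≤ t) :
    Continuous (Phc N l b t τ) :=
  (continuous_Ph (wm_MC hb hl hτ h) 1).comp continuous_lf

lemma norm_Phc_le (hb : 0 ≤ b) (hl : l ∣ N) (hτ : 0 < τ) (h : τ ≤ t) (F : V (N / l) → ℝ) :
    ‖Phc N l b t τ F‖ ≤ om (wT b N) (MC N l t τ) 1 := H896.norm_Ph_le (wm_MC hb hl hτ h) 1 _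

lemma om_MC_mono (hb : 0 ≤ b) (hl : l ∣ N) (ht : 0 < t) (h1 : t ≤ τ) (h : τ ≤ T) :
    om (wT b N) (MC N l T t) 1 ≤ om (wT b N) (MC N l T τ) 1 :=
  H896.om_mono (chn_MC hl ht h1 h) (wm_MC hb hl ht (h1.trans h)) 1

/-- the activity with the constant mode removed -/
def omh (N l : ℕ) [NeZero N] [NeZero (N / l)] (b T t t₁ : ℝ) : ℝ :=
  Real.exp (2 * π ^ 2 * (sn l t t₁ / ((N / l : ℕ) : ℝ) ^ 2)) * om (wT b N) (MC N l T t₁) 1

/-- **the hat activity as a mean over the noise without constant mode** -/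
theorem omh_eq (hb : 0 ≤ b) (hl : l ∣ N) (ht₁ : 0 < t₁) (h1 : t₁ < t) (h : t ≤ T) :
    (omh N l b T t t₁ : ℂ)
      = (∫ g, (Wcl N l b T t (gm0 (sn l t t₁) (acl N l b T t) *ᵥ g) : ℂ)
          * Phc N l b T t (gm0 (sn l t t₁) (acl N l b T t) *ᵥ g) ∂(gau (V (N / l))))
        / ((∫ g, Wcl N l b T t (gm0 (sn l t t₁) (acl N l b T t) *ᵥ g)
            ∂(gau (V (N / l))) : ℝ) : ℂ) := by
  have ht : 0 < t := ht₁.trans h1
  set A := acl N l b T t with hA
  set s := sn l t t₁ with hs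
  have hs0 : 0 < s := sn_pos hl ht₁ h1
  have hsp := gm_split (A := A) (s := s) (sym_acl_zero hl hb ht h) hs0.le
  set m : ℝ := s / ((N / l : ℕ) : ℝ) ^ 2 with hm
  have hm0 : 0 ≤ m := by positivity
  have hWc := continuous_Wcl (b := b) hb hl ht h
  have hPc := continuous_Phc (b := b) hb hl ht h
  have hWi := integrable_Wcl (b := b) hb hl ht₁ h1 h (0 : V (N / l) → ℝ)
  rw [← hA, ← hs] at hWi
  simp only [mulVec_zero, zero_add] at hWi
  have hom0 := H896.om_nonneg (wm_MC (b := b) (N := N) hb hl ht h) 1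
  -- the two integrals
  have i1 := inv_int hm0 hsp hWc.stronglyMeasurable (fun F c => Wcl_const hl ht h F c) hWi
  have hch : Ch fun F => (Wcl N l b T t F : ℂ) * Phc N l b T t F := by
    intro F c
    simp only
    rw [Wcl_const hl ht h, ch_Phc hb hl ht h F c]
    ring
  have i2 := gain_int (ψ := fun F => (Wcl N l b T t F : ℂ) * Phc N l b T t F) hm0 hsp hch
    ((Complex.continuous_ofReal.comp hWc).mul hPc).stronglyMeasurable (by
      refine (hWi.mul_const (om (wT b N) (MC N l T t) 1)).mono'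
        ((((Complex.continuous_ofReal.comp hWc).mul hPc).measurable.comp
          (measurable_mulVec _)).aestronglyMeasurable)
        (Filter.Eventually.of_forall fun g => ?_)
      have hW1 := one_le_Wcl (b := b) hb hl ht h (gm s A *ᵥ g)
      rw [norm_mul, Complex.norm_real, Real.norm_eq_abs, abs_of_nonneg (by linarith)]
      exact mul_le_mul_of_nonneg_left (norm_Phc_le hb hl ht h _) (by linarith))
  have hbr := bridge (b := b) hb hl ht₁ h1 h 1 (0 : V (N / l) → ℝ)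
  rw [← hA, ← hs] at hbr
  simp only [mulVec_zero, zero_add] at hbr
  have e0 : lf N l (0 : V (N / l) → ℝ) = 0 := rfl
  rw [e0, H896.Ph_zero (wm_MC hb hl ht₁ (h1.le.trans h)) 1] at hbr
  have e1 : ∀ F : V (N / l) → ℝ, Ph (wT b N) (MC N l T t) 1 (lf N l F) = Phc N l b T t F :=
    fun F => rfl
  simp only [e1] at hbr
  rw [i1.2, i2] at hbr
  unfold omh
  rw [← hs, ← hm, Complex.ofReal_mul, hbr, ← mul_div_assoc, ← mul_assoc, ← Complex.ofReal_mul,
    ← Real.exp_add]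
  have : 2 * π ^ 2 * m + -(2 * π ^ 2 * m) = 0 := by ring
  rw [this, Real.exp_zero, Complex.ofReal_one, one_mul]

/-! ### the functional at the level `t` -/

/-- mean weight of the step `T → t` -/
def Icl (N l : ℕ) [NeZero N] [NeZero (N / l)] (b T t : ℝ) (f : V (N / l) → ℝ) : ℝ :=
  ∫ g, Wcl N l b T T (ahat (sn l T t) (acl N l b T T) *ᵥ f + gm (sn l T t) (acl N l b T T) *ᵥ g)
    ∂(gau (V (N / l)))

/-- `Ψ = P W₁` -/
def Psc (N l : ℕ) [NeZero N] [NeZero (N / l)] (b T t : ℝ) : (V (N / l) → ℝ) → ℂ :=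
  Pg (ahat (sn l T t) (acl N l b T T)) (gm (sn l T t) (acl N l b T T)) (W1c N l b T)

/-- the density of `Ψ` -/
def psc (N l : ℕ) [NeZero N] [NeZero (N / l)] (b T t : ℝ) : V (N / l) → (V (N / l) → ℝ) → ℂ :=
  dn (ahat (sn l T t) (acl N l b T T)) (gm (sn l T t) (acl N l b T T)) (utc N l b T)

lemma dif_psc (hb : 0 ≤ b) (hT : 0 < T) : Dif (Psc N l b T t) (psc N l b T t) :=
  (dif_W1c hb hT).step _ _

lemma cov_psc (hl : l ∣ N) (hb : 0 ≤ b) (hT : 0 < T) : Cov (psc N l b T t) :=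
  H889.cov_dn (ti_ahat _ _) (ti_gm _ _) (cov_utc hl hb hT)

lemma measurable_psc (hb : 0 ≤ b) (hT : 0 < T) (x : V (N / l)) : Measurable (psc N l b T t x) :=
  (dif_psc hb hT).mx x

lemma measurable_Psc (hb : 0 ≤ b) (hT : 0 < T) : Measurable (Psc N l b T t) := (dif_psc hb hT).m

lemma ahat_col {n : ℕ} [NeZero n] {A : Matrix (V n) (V n) ℝ} {s : ℝ} (h0 : sym A 0 = 0) (y : V n) :
    ∑ X, ahat s A y X = 1 := ahat_row A h0 y

lemma sum_psc (hl : l ∣ N) (hb : 0 ≤ b) (hT : 0 < T) (f : V (N / l) → ℝ) :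
    ∑ x, psc N l b T t x f = Psc N l b T t f := by
  obtain ⟨K, -, hK⟩ := (dif_W1c (N := N) (l := l) hb hT).bdx'
  exact sum_dn (fun y => ahat_col (sym_acl_zero hl hb hT le_rfl) y)
    (fun x => (dif_W1c hb hT).mx x) hK (fun F => sum_utc hb hT F) f

/-- charge one is kept by the Gaussian step -/
lemma ch_Pg {n : ℕ} [NeZero n] {F0 M : Matrix (V n) (V n) ℝ} (hrow : ∀ y, ∑ X, F0 y X = 1)
    {u : (V n → ℝ) → ℂ} (hu : Ch u) : Ch (Pg F0 M u) := by
  intro f c
  unfold Pg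
  rw [← integral_const_mul]
  refine integral_congr_ae (Filter.Eventually.of_forall fun g => ?_)
  simp only
  have e : F0 *ᵥ (fun x => f x + c) + M *ᵥ g = fun x => (F0 *ᵥ f + M *ᵥ g) x + c := by
    funext x
    have h1 : (F0 *ᵥ fun x => f x + c) x = (F0 *ᵥ f) x + c := by
      simp only [mulVec, dotProduct, mul_add, Finset.sum_add_distrib]
      rw [← Finset.sum_mul, hrow, one_mul]
    rw [Pi.add_apply, h1, Pi.add_apply]
    ring
  rw [e]
  exact hu _ c

lemma ch_dn {n : ℕ} [NeZero n] {F0 M : Matrix (V n) (V n) ℝ} (hrow : ∀ y, ∑ X, F0 y X = 1)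
    {u : V n → (V n → ℝ) → ℂ} (hu : ∀ y, Ch (u y)) (X : V n) : Ch (dn F0 M u X) := by
  intro f c
  unfold dn
  rw [Finset.mul_sum]
  refine Finset.sum_congr rfl fun y _ => ?_
  rw [ch_Pg hrow (hu y) f c]
  ring

lemma ch_psc (hl : l ∣ N) (hb : 0 ≤ b) (hT : 0 < T) (x : V (N / l)) : Ch (psc N l b T t x) :=
  ch_dn (fun y => ahat_col (sym_acl_zero hl hb hT le_rfl) y) (fun y => H552.ut_ch hb hT y) x

lemma one_le_Icl (hb : 0 ≤ b) (hl : l ∣ N) (ht : 0 < t) (h1 : t < T) (f : V (N / l) → ℝ) :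
    1 ≤ Icl N l b T t f :=
  one_le_intW (fun _ => one_le_Wcl hb hl (ht.trans h1) le_rfl _)
    (integrable_Wcl hb hl ht h1 le_rfl f)

lemma measurable_Icl (hb : 0 ≤ b) (hl : l ∣ N) (hT : 0 < T) : Measurable (Icl N l b T t) := by
  unfold Icl
  apply StronglyMeasurable.measurable
  apply StronglyMeasurable.integral_prod_right'
    (f := fun q : (V (N / l) → ℝ) × (V (N / l) → ℝ) =>
      Wcl N l b T T (ahat (sn l T t) (acl N l b T T) *ᵥ q.1 + gm (sn l T t) (acl N l b T T) *ᵥ q.2))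
  apply Measurable.stronglyMeasurable
  exact (continuous_Wcl hb hl hT le_rfl).measurable.comp
    (((measurable_mulVec _).comp measurable_fst).add ((measurable_mulVec _).comp measurable_snd))

/-- the number `e₁` at the top level -/
def e1n (N : ℕ) [NeZero N] (b T : ℝ) : ℝ :=
  2 * omT (wT b N) (mt N T) * ch2 (wT b N) (mt N T) 0 + 24 * omT (wT b N) (mt N T) ^ 3

/-- **one step: `Φ_t - P W₁`** -/
theorem phc_sub_psc (hb : 0 ≤ b) (hl : l ∣ N) (ht : 0 < t) (h1 : t < T)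
    (h12 : omT (wT b N) (mt N T) ≤ 1 / 2) (f : V (N / l) → ℝ) :
    ‖Phc N l b T t f - Psc N l b T t f‖
      ≤ 2 * om (wT b N) (MC N l T T) 1 * (1 - (Icl N l b T t f)⁻¹) + e1n N b T := by
  have hT : 0 < T := ht.trans h1
  set A := acl N l b T T with hA
  set s := sn l T t with hs
  have hWc := continuous_Wcl (b := b) hb hl hT (le_refl T)
  have hPc := continuous_Phc (b := b) hb hl hT (le_refl T)
  have mF : Measurable fun g : V (N / l) → ℝ => ahat s A *ᵥ f + gm s A *ᵥ g :=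
    measurable_const.add (measurable_mulVec _)
  have hbr := bridge (b := b) hb hl ht h1 le_rfl 1 f
  rw [← hA, ← hs] at hbr
  have h2 := tilt_sub (μ := gau (V (N / l)))
    (W := fun g => Wcl N l b T T (ahat s A *ᵥ f + gm s A *ᵥ g))
    (φ := fun g => Phc N l b T T (ahat s A *ᵥ f + gm s A *ᵥ g))
    (fun g => one_le_Wcl hb hl hT le_rfl _) (integrable_Wcl hb hl ht h1 le_rfl f)
    (hPc.measurable.comp mF).aestronglyMeasurable (fun g => norm_Phc_le hb hl hT le_rfl _)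
  have h3 : Phc N l b T t f = (∫ g, (Wcl N l b T T (ahat s A *ᵥ f + gm s A *ᵥ g) : ℂ)
        * Phc N l b T T (ahat s A *ᵥ f + gm s A *ᵥ g) ∂(gau (V (N / l))))
        / ((∫ g, Wcl N l b T T (ahat s A *ᵥ f + gm s A *ᵥ g) ∂(gau (V (N / l))) : ℝ) : ℂ) := hbr
  have h4 : ‖(∫ g, Phc N l b T T (ahat s A *ᵥ f + gm s A *ᵥ g) ∂(gau (V (N / l))))
      - Psc N l b T t f‖ ≤ e1n N b T := by
    have hp : ∀ F : V (N / l) → ℝ, ‖Phc N l b T T F - W1c N l b T F‖ ≤ e1n N b T := by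
      intro F
      unfold Phc W1c
      rw [H864.MC_self]
      exact H43.e1_le (H896.wm_t hb hT) h12 _
    have hC0 : 0 ≤ e1n N b T := (norm_nonneg _).trans (hp 0)
    obtain ⟨K, hK⟩ := (dif_W1c (N := N) (l := l) (b := b) hb hT).bd
    have i1 : Integrable (fun g => Phc N l b T T (ahat s A *ᵥ f + gm s A *ᵥ g))
        (gau (V (N / l))) := Integrable.of_bound (hPc.measurable.comp mF).aestronglyMeasurable _
          (Filter.Eventually.of_forall fun g => norm_Phc_le hb hl hT le_rfl _)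
    have i2 : Integrable (fun g => W1c N l b T (ahat s A *ᵥ f + gm s A *ᵥ g))
        (gau (V (N / l))) := Integrable.of_bound
          ((dif_W1c hb hT).m.comp mF).aestronglyMeasurable K
          (Filter.Eventually.of_forall fun g => hK _)
    have e5 : Psc N l b T t f = ∫ g, W1c N l b T (ahat s A *ᵥ f + gm s A *ᵥ g)
        ∂(gau (V (N / l))) := rfl
    rw [e5, ← integral_sub i1 i2]
    have h6 := norm_integral_le_of_norm_le_const (μ := gau (V (N / l))) (C := e1n N b T)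
      (f := fun g => Phc N l b T T (ahat s A *ᵥ f + gm s A *ᵥ g)
        - W1c N l b T (ahat s A *ᵥ f + gm s A *ᵥ g))
      (Filter.Eventually.of_forall fun g => hp _)
    simpa using h6
  rw [h3]
  have h7 := norm_sub_le_norm_sub_add_norm_sub
    ((∫ g, (Wcl N l b T T (ahat s A *ᵥ f + gm s A *ᵥ g) : ℂ)
        * Phc N l b T T (ahat s A *ᵥ f + gm s A *ᵥ g) ∂(gau (V (N / l))))
        / ((∫ g, Wcl N l b T T (ahat s A *ᵥ f + gm s A *ᵥ g) ∂(gau (V (N / l))) : ℝ) : ℂ))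
    (∫ g, Phc N l b T T (ahat s A *ᵥ f + gm s A *ᵥ g) ∂(gau (V (N / l))))
    (Psc N l b T t f)
  have h8 : (∫ g, Wcl N l b T T (ahat s A *ᵥ f + gm s A *ᵥ g) ∂(gau (V (N / l))))
      = Icl N l b T t f := rfl
  rw [h8] at h2 h7 ⊢
  linarith

/-- **ONE TORUS**: the hat activity is the number of cells times the mean of one density -/
theorem one_torus (hb : 0 ≤ b) (hl : l ∣ N) (ht₁ : 0 < t₁) (h1 : t₁ < t) (h : t < T)
    (h12 : omT (wT b N) (mt N T) ≤ 1 / 2) {r1 r2 : ℝ}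
    (hr1 : ∫ g, (1 - (Icl N l b T t (gm0 (sn l t t₁) (acl N l b T t) *ᵥ g))⁻¹)
      ∂(gau (V (N / l))) ≤ r1)
    (hr2 : 1 - (∫ g, Wcl N l b T t (gm0 (sn l t t₁) (acl N l b T t) *ᵥ g)
      ∂(gau (V (N / l))))⁻¹ ≤ r2) (x : V (N / l)) :
    ‖(omh N l b T t t₁ : ℂ) - ((N / l : ℕ) : ℂ) ^ 2
        * ∫ g, psc N l b T t x (gm0 (sn l t t₁) (acl N l b T t) *ᵥ g) ∂(gau (V (N / l)))‖
      ≤ 2 * om (wT b N) (MC N l T T) 1 * (r1 + r2) + e1n N b T := by
  have ht : 0 < t := ht₁.trans h1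
  have hT : 0 < T := ht.trans h
  set B := gm0 (sn l t t₁) (acl N l b T t) with hB
  have tB : TI B := ti_gm0 _ _
  set ω := om (wT b N) (MC N l T T) 1 with hω
  have hω0 : 0 ≤ ω := H896.om_nonneg (wm_MC (b := b) (N := N) hb hl hT le_rfl) 1
  have hωt : om (wT b N) (MC N l T t) 1 ≤ ω := om_MC_mono hb hl ht h.le le_rfl
  have hWc := continuous_Wcl (b := b) hb hl ht h.le
  have hPc := continuous_Phc (b := b) hb hl ht h.le
  -- the weight is integrable over the noise without constant mode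
  have hWi : Integrable (fun g => Wcl N l b T t (B *ᵥ g)) (gau (V (N / l))) := by
    have hi := integrable_Wcl (b := b) hb hl ht₁ h1 h.le (0 : V (N / l) → ℝ)
    simp only [mulVec_zero, zero_add] at hi
    have hs0 : 0 < sn l t t₁ := sn_pos hl ht₁ h1
    exact (inv_int (by positivity)
      (gm_split (A := acl N l b T t) (s := sn l t t₁) (sym_acl_zero hl hb ht h.le) hs0.le)
      hWc.stronglyMeasurable (fun F c => Wcl_const hl ht h.le F c) hi).1
  obtain ⟨K', -, hK'⟩ := (dif_psc (N := N) (l := l) (b := b) (t := t) hb hT).bdx'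
  obtain ⟨K, -, hK⟩ := (dif_psc (N := N) (l := l) (b := b) (t := t) hb hT).bd'
  have hsum := int_sum_cov tB (fun x => measurable_psc (t := t) hb hT x) hK'
    (cov_psc (t := t) hl hb hT) (fun F => sum_psc (t := t) hl hb hT F) x
  rw [← hsum, omh_eq hb hl ht₁ h1 h.le, ← hB]
  -- first difference
  have h2 := tilt_sub (μ := gau (V (N / l))) (W := fun g => Wcl N l b T t (B *ᵥ g))
    (φ := fun g => Phc N l b T t (B *ᵥ g))
    (fun g => one_le_Wcl hb hl ht h.le _) hWi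
    (hPc.measurable.comp (measurable_mulVec _)).aestronglyMeasurable
    (fun g => (norm_Phc_le hb hl ht h.le _).trans hωt)
  have h2' : 2 * ω * (1 - (∫ g, Wcl N l b T t (B *ᵥ g) ∂(gau (V (N / l))))⁻¹)
      ≤ 2 * ω * r2 := mul_le_mul_of_nonneg_left hr2 (by positivity)
  -- second difference
  have i1 : Integrable (fun g => Phc N l b T t (B *ᵥ g)) (gau (V (N / l))) :=
    Integrable.of_bound (hPc.measurable.comp (measurable_mulVec _)).aestronglyMeasurable _
      (Filter.Eventually.of_forall fun g => norm_Phc_le hb hl ht h.le _)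
  have i2 : Integrable (fun g => Psc N l b T t (B *ᵥ g)) (gau (V (N / l))) :=
    Integrable.of_bound ((measurable_Psc hb hT).comp (measurable_mulVec _)).aestronglyMeasurable K
      (Filter.Eventually.of_forall fun g => hK _)
  have mI : Measurable fun g : V (N / l) → ℝ => 1 - (Icl N l b T t (B *ᵥ g))⁻¹ :=
    measurable_const.sub (((measurable_Icl hb hl hT).comp (measurable_mulVec B)).inv)
  have bI : ∀ g : V (N / l) → ℝ, 0 ≤ 1 - (Icl N l b T t (B *ᵥ g))⁻¹ ∧
      1 - (Icl N l b T t (B *ᵥ g))⁻¹ ≤ 1 := by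
    intro g
    have h3 := one_le_Icl (b := b) hb hl ht h (B *ᵥ g)
    have h4 := inv_le_one_of_one_le₀ h3
    have h5 : 0 ≤ (Icl N l b T t (B *ᵥ g))⁻¹ := inv_nonneg.2 (by linarith)
    constructor <;> linarith
  have iI : Integrable (fun g : V (N / l) → ℝ => 1 - (Icl N l b T t (B *ᵥ g))⁻¹)
      (gau (V (N / l))) := Integrable.of_bound mI.aestronglyMeasurable 1
        (Filter.Eventually.of_forall fun g => by
          rw [Real.norm_eq_abs, abs_of_nonneg (bI g).1]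
          exact (bI g).2)
  have h3 : ‖(∫ g, Phc N l b T t (B *ᵥ g) ∂(gau (V (N / l))))
      - ∫ g, Psc N l b T t (B *ᵥ g) ∂(gau (V (N / l)))‖ ≤ 2 * ω * r1 + e1n N b T := by
    rw [← integral_sub i1 i2]
    refine (norm_integral_le_integral_norm _).trans ?_
    have h4 := integral_mono_of_nonneg (μ := gau (V (N / l)))
      (f := fun g => ‖Phc N l b T t (B *ᵥ g) - Psc N l b T t (B *ᵥ g)‖)
      (g := fun g => 2 * ω * (1 - (Icl N l b T t (B *ᵥ g))⁻¹) + e1n N b T)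
      (Filter.Eventually.of_forall fun g => norm_nonneg _)
      ((iI.const_mul _).add (integrable_const _))
      (Filter.Eventually.of_forall fun g => phc_sub_psc hb hl ht h h12 _)
    refine h4.trans ?_
    rw [integral_add (iI.const_mul _) (integrable_const _), integral_const_mul, integral_const,
      probReal_univ, one_smul]
    have := mul_le_mul_of_nonneg_left hr1 (by positivity : 0 ≤ 2 * ω)
    linarith
  have h7 := norm_sub_le_norm_sub_add_norm_sub
    ((∫ g, (Wcl N l b T t (B *ᵥ g) : ℂ) * Phc N l b T t (B *ᵥ g) ∂(gau (V (N / l))))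
        / ((∫ g, Wcl N l b T t (B *ᵥ g) ∂(gau (V (N / l))) : ℝ) : ℂ))
    (∫ g, Phc N l b T t (B *ᵥ g) ∂(gau (V (N / l))))
    (∫ g, Psc N l b T t (B *ᵥ g) ∂(gau (V (N / l))))
  have e9 : 2 * ω * (r1 + r2) = 2 * ω * r1 + 2 * ω * r2 := by ring
  rw [e9]
  linarith

/-- **the size of one density** (reverse Poincare) -/
theorem n2_psc (hb : 0 ≤ b) (hl : l ∣ N) (ht : 0 < t) (h : t < T)
    (h12 : omT (wT b N) (mt N T) ≤ 1 / 2) {B : Matrix (V (N / l)) (V (N / l)) ℝ} (hB : TI B)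
    (x : V (N / l)) :
    n2 (gau (V (N / l))) (fun g => psc N l b T t x (B *ᵥ g))
      ≤ (2 * π)⁻¹ * (√(sn l T t * ((N / l : ℕ) : ℝ) ^ 2))⁻¹
        * (om (wT b N) (mt N T) 1 + e1n N b T) := by
  have hT : 0 < T := ht.trans h
  refine rev_B (sym_acl_nonneg hb hl hT le_rfl) (sn_pos hl ht h) (dif_W1c hb hT)
    (cov_utc hl hb hT) hB (fun F => ?_) x
  have h1 := H43.e1_le (H896.wm_t (N := N) hb hT) h12 (lf N l F)
  have h2 := H896.norm_Ph_le (H896.wm_t (N := N) hb hT) 1 (lf N l F)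
  have h3 : ‖W1c N l b T F‖ ≤ ‖Ph (wT b N) (mt N T) 1 (lf N l F)‖
      + ‖Ph (wT b N) (mt N T) 1 (lf N l F) - W1c N l b T F‖ := by
    have e : W1c N l b T F = Ph (wT b N) (mt N T) 1 (lf N l F)
        - (Ph (wT b N) (mt N T) 1 (lf N l F) - W1c N l b T F) := by ring
    conv_lhs => rw [e]
    exact norm_sub_le _ _
  have h4 : ‖Ph (wT b N) (mt N T) 1 (lf N l F) - W1c N l b T F‖ ≤ e1n N b T := h1
  linarith

end

end Vale.Agent.P159.H363
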