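import Vale.Agent.P159.H363.Cvf2
import Vale.Agent.P159.H358.Vtor3

/-!
P159 / H363, VB10 functional side, part 3: two tori. The activity at the low mass `t₁` on a big torus
by the hat activity on a small torus and the size of the density on the small torus.
-/

namespace Vale.Agent.P159.H363

open Finset Matrix MeasureTheory
open Vale.Agent.P159.H37 (qf bf Zn Zq ZM wM gau gau_sum cellP)
open Vale.Agent.P159.TM.Spec (V)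
open Vale.Agent.P159.TM.SpecC (Tor wT)
open Vale.Agent.P159.H864 (TI sym fc MC cl up cobV)
open Vale.Agent.P159.H462 (ahat Gam ti_ahat sym_ahat ti_Gam)
open Vale.Agent.P159.H896 (WM Ph om ph)
open Vale.Agent.P159.H145 (mt)
open Vale.Agent.P159.H43 (Wq omT ch2 Phq)
open Vale.Agent.P159.H767 (cst)
open Vale.Agent.P159.H889 (Dif dn)
open Vale.Agent.P159.H358 (exw rsw exw_add measurable_exw measurable_rsw n2_le_sqrt sqrt_add_sq_le)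
open Vale.Agent.P159.H552 (Ps cutB l2_good)
open scoped Real

noncomputable section

section one

variable {N l : ℕ} [NeZero N] [NeZero (N / l)] {b T t t₁ : ℝ}

/-- fine masses only lower the activity -/
theorem om_scalar_le (hb : 0 ≤ b) (hl : l ∣ N) (ht₁ : 0 < t₁) (h : t₁ ≤ T) :
    om (wT b N) (mt N t₁) 1 ≤ om (wT b N) (MC N l T t₁) 1 := by
  have hT : 0 < T := ht₁.trans_le h
  have hσ : 0 ≤ t₁⁻¹ - T⁻¹ := sub_nonneg.2 (inv_anti₀ ht₁ h)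
  have hn : ∀ u : V N → ℝ, 0 ≤ qf (MC N l T t₁) u := fun u =>
    le_trans (mul_nonneg ht₁.le (Finset.sum_nonneg fun _ _ => sq_nonneg _)) (H864.qf_MC_ge hl h u)
  have hPP := H864.cellP_mul_self (N := N) hl
  have hQ : (1 - cellP N l)ᵀ = 1 - cellP N l := by
    rw [transpose_sub, transpose_one, H864.cellP_tr]
  have hQQ : (1 - cellP N l) * (1 - cellP N l) = 1 - cellP N l := by
    rw [Matrix.mul_sub, Matrix.mul_one, Matrix.sub_mul, Matrix.one_mul, hPP, sub_self, sub_zero]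
  have hMQ : MC N l T t₁ * (1 - cellP N l) = T • (1 - cellP N l) := by
    unfold MC
    rw [Matrix.add_mul, Matrix.smul_mul, Matrix.smul_mul, hQQ, Matrix.mul_sub, Matrix.mul_one, hPP,
      sub_self, smul_zero, add_zero]
  have hc := H896.chn_proj (H864.MC_tr N l T t₁) hn hQ hQQ hMQ hT.le hσ
  have h4 : (t₁⁻¹ - T⁻¹) * T ^ 2 / (1 + (t₁⁻¹ - T⁻¹) * T) = T - t₁ := by
    have h5 : 1 + (t₁⁻¹ - T⁻¹) * T = T / t₁ := by field_simp; ring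
    rw [h5]
    field_simp
  have h3 : MC N l T t₁ - ((t₁⁻¹ - T⁻¹) * T ^ 2 / (1 + (t₁⁻¹ - T⁻¹) * T)) • (1 - cellP N l)
      = mt N t₁ := by
    rw [h4]
    unfold MC H145.mt
    rw [smul_sub, smul_sub, sub_smul, sub_smul]
    abel
  rw [h3] at hc
  exact H896.om_mono hc (H896.wm_t hb ht₁) 1

lemma omh_nonneg (hb : 0 ≤ b) (hl : l ∣ N) (ht₁ : 0 < t₁) (h : t₁ ≤ T) :
    0 ≤ omh N l b T t t₁ :=
  mul_nonneg (Real.exp_pos _).le (H896.om_nonneg (wm_MC hb hl ht₁ h) 1)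

/-- **the activity at the scalar mass is at most the hat activity** -/
theorem om_le_omh (hb : 0 ≤ b) (hl : l ∣ N) (ht₁ : 0 < t₁) (h1 : t₁ ≤ t) (h : t ≤ T) :
    om (wT b N) (mt N t₁) 1 ≤ omh N l b T t t₁ := by
  refine (om_scalar_le hb hl ht₁ (h1.trans h)).trans ?_
  unfold omh
  have h0 := H896.om_nonneg (wm_MC (b := b) (N := N) hb hl ht₁ (h1.trans h)) 1
  have ht : 0 < t := ht₁.trans_le h1
  have hs : 0 ≤ sn l t t₁ := by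
    unfold sn
    have : t⁻¹ ≤ t₁⁻¹ := inv_anti₀ ht₁ h1
    have h3 : 0 ≤ t₁⁻¹ - t⁻¹ := by linarith
    positivity
  have he : 1 ≤ Real.exp (2 * π ^ 2 * (sn l t t₁ / ((N / l : ℕ) : ℝ) ^ 2)) :=
    Real.one_le_exp (by positivity)
  nlinarith

lemma psc_eq_Ps (x : V (N / l)) (f : V (N / l) → ℝ) :
    psc N l b T t x f
      = Ps (ahat (sn l T t) (acl N l b T T)) (gm (sn l T t) (acl N l b T T)) (utc N l b T) x f := by
  unfold psc dn Ps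
  refine Finset.sum_congr rfl fun y _ => ?_
  rw [(ti_ahat _ _).sy y x]
  rfl

end one

section two

variable {N₁ N₂ l : ℕ} [NeZero N₁] [NeZero (N₁ / l)] [NeZero N₂] [NeZero (N₂ / l)]
  {b T t t₁ : ℝ}

lemma norm_int_le_n2 {Ω : Type*} [MeasurableSpace Ω] {μ : Measure Ω} [IsProbabilityMeasure μ]
    {u : Ω → ℂ} (hu : MemLp u 2 μ) : ‖∫ x, u x ∂μ‖ ≤ n2 μ u := by
  have h := norm_integral_sq_le hu
  exact abs_le_of_sq_le_sq' (by rw [← n2_sq hu] at h; simpa using h) (n2_nonneg _) |>.2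

/-- **TWO TORI**, functional side of VB10 -/
theorem two_tori (hb : 0 ≤ b) (hl₁ : l ∣ N₁) (hl₂ : l ∣ N₂) (ht₁ : 0 < t₁) (h1 : t₁ < t)
    (h : t < T) (h12₁ : omT (wT b N₁) (mt N₁ T) ≤ 1 / 2) (h12₂ : omT (wT b N₂) (mt N₂ T) ≤ 1 / 2)
    {r1 r2 r1' r2' : ℝ}
    (hr1 : ∫ g, (1 - (Icl N₁ l b T t (gm0 (sn l t t₁) (acl N₁ l b T t) *ᵥ g))⁻¹)
      ∂(gau (V (N₁ / l))) ≤ r1)
    (hr2 : 1 - (∫ g, Wcl N₁ l b T t (gm0 (sn l t t₁) (acl N₁ l b T t) *ᵥ g)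
      ∂(gau (V (N₁ / l))))⁻¹ ≤ r2)
    (hr1' : ∫ g, (1 - (Icl N₂ l b T t (gm0 (sn l t t₁) (acl N₂ l b T t) *ᵥ g))⁻¹)
      ∂(gau (V (N₂ / l))) ≤ r1')
    (hr2' : 1 - (∫ g, Wcl N₂ l b T t (gm0 (sn l t t₁) (acl N₂ l b T t) *ᵥ g)
      ∂(gau (V (N₂ / l))))⁻¹ ≤ r2')
    {W J J' : Type*} [Fintype W] [Fintype J] [DecidableEq J] [Fintype J'] (ι₁ : W → V (N₁ / l))
    (ι₂ : W → V (N₂ / l)) (b0 : W) {ψW : (W → ℝ) → ℂ} (hch : Ch ψW) (hm : Measurable ψW)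
    {C : ℝ} (hC : ∀ F, ‖ψW F‖ ≤ C) {q1 q2 : ℝ}
    (hq1 : n2 (gau (V (N₁ / l))) (fun g =>
      psc N₁ l b T t (ι₁ b0) (gm0 (sn l t t₁) (acl N₁ l b T t) *ᵥ g)
        - ψW (((gm0 (sn l t t₁) (acl N₁ l b T t)).submatrix ι₁ id) *ᵥ g)) ≤ q1)
    (hq2 : n2 (gau (V (N₂ / l))) (fun g =>
      psc N₂ l b T t (ι₂ b0) (gm0 (sn l t t₁) (acl N₂ l b T t) *ᵥ g)
        - ψW (((gm0 (sn l t t₁) (acl N₂ l b T t)).submatrix ι₂ id) *ᵥ g)) ≤ q2)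
    {D₁ : Matrix W J ℝ} {D₂ : Matrix W J' ℝ} {v1 v2 : ℝ} (hv1 : 0 ≤ v1) (hv2 : 0 ≤ v2)
    (hc1 : (gm0 (sn l t t₁) (acl N₁ l b T t)).submatrix ι₁ id
      * ((gm0 (sn l t t₁) (acl N₁ l b T t)).submatrix ι₁ id)ᵀ = D₁ * D₁ᵀ + cst W v1)
    (hc2 : (gm0 (sn l t t₁) (acl N₂ l b T t)).submatrix ι₂ id
      * ((gm0 (sn l t t₁) (acl N₂ l b T t)).submatrix ι₂ id)ᵀ = D₂ * D₂ᵀ + cst W v2)
    {H : Matrix J J ℝ} (hH : Hᵀ = H) (hD : D₂ * D₂ᵀ = D₁ * (1 + H) * D₁ᵀ) {η : ℝ} (hη : 0 ≤ η)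
    (hη2 : η ≤ 1 / 2) (hHS : ∑ x, ∑ y, H x y ^ 2 ≤ η ^ 2) :
    omh N₂ l b T t t₁ ≤
      ((N₂ / l : ℕ) : ℝ) ^ 2 * (q2 + Real.exp (-(2 * π ^ 2 * v2)) *
        (Real.exp (2 * π ^ 2 * v1) *
            ((omh N₁ l b T t t₁ + (2 * om (wT b N₁) (mt N₁ T) 1 * (r1 + r2) + e1n N₁ b T))
              / ((N₁ / l : ℕ) : ℝ) ^ 2 + q1)
          + 2 * η * ((2 * π)⁻¹ * (√(sn l T t * ((N₁ / l : ℕ) : ℝ) ^ 2))⁻¹
            * (om (wT b N₁) (mt N₁ T) 1 + e1n N₁ b T) + q1)))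
      + (2 * om (wT b N₂) (mt N₂ T) 1 * (r1' + r2') + e1n N₂ b T) := by
  have ht : 0 < t := ht₁.trans h1
  have hT : 0 < T := ht.trans h
  set B₁ := gm0 (sn l t t₁) (acl N₁ l b T t) with hB₁
  set B₂ := gm0 (sn l t t₁) (acl N₂ l b T t) with hB₂
  set M₁ : Matrix W (V (N₁ / l)) ℝ := B₁.submatrix ι₁ id with hM₁
  set M₂ : Matrix W (V (N₂ / l)) ℝ := B₂.submatrix ι₂ id with hM₂
  have hn1 : (0 : ℝ) < ((N₁ / l : ℕ) : ℝ) ^ 2 := H864.N_pos (N := N₁ / l)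
  have hn2 : (0 : ℝ) < ((N₂ / l : ℕ) : ℝ) ^ 2 := H864.N_pos (N := N₂ / l)
  -- one torus
  have o1 := one_torus hb hl₁ ht₁ h1 h h12₁ hr1 hr2 (ι₁ b0)
  have o2 := one_torus hb hl₂ ht₁ h1 h h12₂ hr1' hr2' (ι₂ b0)
  rw [H864.MC_self, ← hB₁] at o1
  rw [H864.MC_self, ← hB₂] at o2
  -- memberships
  obtain ⟨K1, -, hK1⟩ := (dif_psc (N := N₁) (l := l) (b := b) (t := t) hb hT).bdx'
  obtain ⟨K2, -, hK2⟩ := (dif_psc (N := N₂) (l := l) (b := b) (t := t) hb hT).bdx'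
  have L1 : MemLp (fun g => psc N₁ l b T t (ι₁ b0) (B₁ *ᵥ g)) 2 (gau (V (N₁ / l))) :=
    memLp_bdd ((measurable_psc hb hT _).comp (measurable_mulVec _)).aestronglyMeasurable
      fun g => hK1 _ _
  have L2 : MemLp (fun g => psc N₂ l b T t (ι₂ b0) (B₂ *ᵥ g)) 2 (gau (V (N₂ / l))) :=
    memLp_bdd ((measurable_psc hb hT _).comp (measurable_mulVec _)).aestronglyMeasurable
      fun g => hK2 _ _
  have P1 : MemLp (fun g => ψW (M₁ *ᵥ g)) 2 (gau (V (N₁ / l))) :=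
    memLp_bdd (hm.comp (measurable_mulVec _)).aestronglyMeasurable fun g => hC _
  have P2 : MemLp (fun g => ψW (M₂ *ᵥ g)) 2 (gau (V (N₂ / l))) :=
    memLp_bdd (hm.comp (measurable_mulVec _)).aestronglyMeasurable fun g => hC _
  set a1 : ℂ := ∫ g, psc N₁ l b T t (ι₁ b0) (B₁ *ᵥ g) ∂(gau (V (N₁ / l))) with ha1
  set a2 : ℂ := ∫ g, psc N₂ l b T t (ι₂ b0) (B₂ *ᵥ g) ∂(gau (V (N₂ / l))) with ha2
  set c1 : ℂ := ∫ g, ψW (M₁ *ᵥ g) ∂(gau (V (N₁ / l))) with hc1'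
  set c2 : ℂ := ∫ g, ψW (M₂ *ᵥ g) ∂(gau (V (N₂ / l))) with hc2'
  have d1 : ‖a1 - c1‖ ≤ q1 := by
    rw [ha1, hc1', ← integral_sub (L1.integrable (by norm_num)) (P1.integrable (by norm_num))]
    exact (norm_int_le_n2 (L1.sub P1)).trans hq1
  have d2 : ‖a2 - c2‖ ≤ q2 := by
    rw [ha2, hc2', ← integral_sub (L2.integrable (by norm_num)) (P2.integrable (by norm_num))]
    exact (norm_int_le_n2 (L2.sub P2)).trans hq2
  -- the Gaussian comparison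
  have hcv := H767.cvp_abs hv1 hv2 hc1 hc2 hH hD hη hη2 hHS hch hm.stronglyMeasurable hC
  have hsq : √(∫ g, ‖ψW (M₁ *ᵥ g)‖ ^ 2 ∂(gau (V (N₁ / l)))) = n2 (gau (V (N₁ / l)))
      fun g => ψW (M₁ *ᵥ g) := by
    rw [← n2_sq P1, Real.sqrt_sq (n2_nonneg _)]
  rw [hsq, ← hc1', ← hc2'] at hcv
  have hS : n2 (gau (V (N₁ / l))) (fun g => ψW (M₁ *ᵥ g)) ≤
      (2 * π)⁻¹ * (√(sn l T t * ((N₁ / l : ℕ) : ℝ) ^ 2))⁻¹
        * (om (wT b N₁) (mt N₁ T) 1 + e1n N₁ b T) + q1 := by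
    have e : ∀ g : V (N₁ / l) → ℝ, ψW (M₁ *ᵥ g) = psc N₁ l b T t (ι₁ b0) (B₁ *ᵥ g)
        - (psc N₁ l b T t (ι₁ b0) (B₁ *ᵥ g) - ψW (M₁ *ᵥ g)) := fun g => by ring
    rw [n2_congr e]
    refine (n2_sub_le L1 (L1.sub P1)).trans (add_le_add ?_ hq1)
    exact n2_psc hb hl₁ ht h h12₁ (ti_gm0 _ _) (ι₁ b0)
  have hc1n : ‖c1‖ ≤ (omh N₁ l b T t t₁ + (2 * om (wT b N₁) (mt N₁ T) 1 * (r1 + r2)
      + e1n N₁ b T)) / ((N₁ / l : ℕ) : ℝ) ^ 2 + q1 := by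
    have h3 : ‖a1‖ ≤ (omh N₁ l b T t t₁ + (2 * om (wT b N₁) (mt N₁ T) 1 * (r1 + r2)
        + e1n N₁ b T)) / ((N₁ / l : ℕ) : ℝ) ^ 2 := by
      rw [le_div_iff₀ hn1]
      have h4 : ‖((N₁ / l : ℕ) : ℂ) ^ 2 * a1‖ = ‖a1‖ * ((N₁ / l : ℕ) : ℝ) ^ 2 := by
        rw [norm_mul, norm_pow, Complex.norm_natCast, mul_comm]
      rw [← h4]
      have h5 : ((N₁ / l : ℕ) : ℂ) ^ 2 * a1 = (omh N₁ l b T t t₁ : ℂ)
          - ((omh N₁ l b T t t₁ : ℂ) - ((N₁ / l : ℕ) : ℂ) ^ 2 * a1) := by ring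
      rw [h5]
      refine (norm_sub_le _ _).trans ?_
      rw [Complex.norm_real, Real.norm_eq_abs, abs_of_nonneg
        (omh_nonneg hb hl₁ ht₁ (h1.le.trans h.le))]
      exact add_le_add le_rfl o1
    have h6 : c1 = a1 - (a1 - c1) := by ring
    rw [h6]
    exact (norm_sub_le _ _).trans (add_le_add h3 d1)
  have hc2n : ‖c2‖ ≤ Real.exp (-(2 * π ^ 2 * v2)) *
        (Real.exp (2 * π ^ 2 * v1) *
            ((omh N₁ l b T t t₁ + (2 * om (wT b N₁) (mt N₁ T) 1 * (r1 + r2) + e1n N₁ b T))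
              / ((N₁ / l : ℕ) : ℝ) ^ 2 + q1)
          + 2 * η * ((2 * π)⁻¹ * (√(sn l T t * ((N₁ / l : ℕ) : ℝ) ^ 2))⁻¹
            * (om (wT b N₁) (mt N₁ T) 1 + e1n N₁ b T) + q1)) := by
    refine hcv.trans (mul_le_mul_of_nonneg_left ?_ (Real.exp_pos _).le)
    exact add_le_add (mul_le_mul_of_nonneg_left hc1n (Real.exp_pos _).le)
      (mul_le_mul_of_nonneg_left hS (by positivity))
  have ha2n : ‖a2‖ ≤ q2 + ‖c2‖ := by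
    have h6 : a2 = (a2 - c2) + c2 := by ring
    calc ‖a2‖ = ‖(a2 - c2) + c2‖ := by rw [← h6]
      _ ≤ ‖a2 - c2‖ + ‖c2‖ := norm_add_le _ _
      _ ≤ _ := by linarith
  have hfin : omh N₂ l b T t t₁ ≤ ((N₂ / l : ℕ) : ℝ) ^ 2 * ‖a2‖
      + (2 * om (wT b N₂) (mt N₂ T) 1 * (r1' + r2') + e1n N₂ b T) := by
    have h5 : (omh N₂ l b T t t₁ : ℂ) = ((omh N₂ l b T t t₁ : ℂ)
        - ((N₂ / l : ℕ) : ℂ) ^ 2 * a2) + ((N₂ / l : ℕ) : ℂ) ^ 2 * a2 := by ring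
    have h6 : ‖(omh N₂ l b T t t₁ : ℂ)‖ ≤ (2 * om (wT b N₂) (mt N₂ T) 1 * (r1' + r2')
        + e1n N₂ b T) + ((N₂ / l : ℕ) : ℝ) ^ 2 * ‖a2‖ := by
      rw [h5]
      refine (norm_add_le _ _).trans (add_le_add o2 (le_of_eq ?_))
      rw [norm_mul, norm_pow, Complex.norm_natCast]
    rw [Complex.norm_real, Real.norm_eq_abs] at h6
    have := le_abs_self (omh N₂ l b T t t₁)
    linarith
  refine hfin.trans (add_le_add (mul_le_mul_of_nonneg_left (ha2n.trans ?_) hn2.le) le_rfl)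
  linarith

end two

end

end Vale.Agent.P159.H363
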