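import Vale.Agent.P159.H363.Cvf3

/-!
P159 / H363, VB10 functional side, part 4: the same with weights and Hessians at the SCALAR mass `T`
only: the law of the coarse field is `gm0 s₂ (A (1 + s₁ A)⁻¹)`, `A = acl N l b T T`.
-/

namespace Vale.Agent.P159.H363

open Finset Matrix MeasureTheory
open Vale.Agent.P159.H37 (qf bf Zn Zq ZM wM gau gau_sum cellP)
open Vale.Agent.P159.TM.Spec (V)
open Vale.Agent.P159.TM.SpecC (Tor wT)
open Vale.Agent.P159.H864 (TI sym fc MC cl up cobV)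
open Vale.Agent.P159.H963 (Pn ti_Pn sym_Pn)
open Vale.Agent.P159.H462 (ahat Gam ti_ahat sym_ahat ti_Gam)
open Vale.Agent.P159.H896 (WM Ph om ph)
open Vale.Agent.P159.H145 (mt)
open Vale.Agent.P159.H43 (Wq omT ch2 Phq)
open Vale.Agent.P159.H767 (cst)
open Vale.Agent.P159.H889 (Dif dn)
open scoped Real

noncomputable section

/-! ### the effective form after a step -/

section apr

variable {n : ℕ} [NeZero n] {A : Matrix (V n) (V n) ℝ} {s s1 s2 : ℝ}

/-- `A (1 + s A)⁻¹` -/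
def apr (s : ℝ) (A : Matrix (V n) (V n) ℝ) : Matrix (V n) (V n) ℝ := ahat s A * A

lemma ti_apr (hA : TI A) : TI (apr s A) := (ti_ahat s A).mul hA

lemma sym_apr (hA : TI A) (k : V n) : sym (apr s A) k = (1 + s * sym A k)⁻¹ * sym A k := by
  unfold apr
  rw [H864.sym_mul (ti_ahat s A) hA, sym_ahat]

lemma sym_apr_zero (hA : TI A) (h0 : sym A 0 = 0) : sym (apr s A) 0 = 0 := by
  rw [sym_apr hA, h0, mul_zero]

lemma sym_apr_nonneg (hA : TI A) (h0 : ∀ k, 0 ≤ sym A k) (hs : 0 ≤ s) (k : V n) :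
    0 ≤ sym (apr s A) k := by
  rw [sym_apr hA]
  have := h0 k
  positivity

lemma sym_gm0_sq (k : V n) (hA0 : 0 ≤ sym A k) (hs : 0 ≤ s) :
    sym (gm0 s A * (gm0 s A)ᵀ) k = if k = 0 then 0 else s * (1 + s * sym A k)⁻¹ := by
  have t0 := ti_gm0 s A
  rw [t0.transpose, H864.sym_mul t0 t0]
  unfold gm0
  rw [H864.sym_mul ti_Pn (ti_gm s A), sym_Pn]
  unfold gm
  rw [H864.sym_fc]
  by_cases hk : k = 0
  · rw [if_pos hk, if_pos hk, zero_mul, zero_mul]
  · rw [if_neg hk, if_neg hk, one_mul]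
    exact Real.mul_self_sqrt (by positivity)

/-- **two steps are one step**, the constant mode of the first step is kept -/
theorem two_steps (hA : TI A) (h0 : ∀ k, 0 ≤ sym A k) (hz : sym A 0 = 0) (hs1 : 0 < s1)
    (hs2 : 0 ≤ s2) :
    (ahat s1 A * gm0 s2 (apr s1 A)) * (ahat s1 A * gm0 s2 (apr s1 A))ᵀ + gm s1 A * (gm s1 A)ᵀ
      = gm0 (s1 + s2) A * (gm0 (s1 + s2) A)ᵀ + cst (V n) (s1 / (n : ℝ) ^ 2) := by
  have hN := H864.N_pos (N := n)
  have ta := ti_ahat s1 A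
  have tg0 := ti_gm0 s2 (apr s1 A)
  have tp : TI (gm0 s2 (apr s1 A) * (gm0 s2 (apr s1 A))ᵀ) := by
    rw [tg0.transpose]
    exact tg0.mul tg0
  have e1 : (ahat s1 A * gm0 s2 (apr s1 A)) * (ahat s1 A * gm0 s2 (apr s1 A))ᵀ
      = ahat s1 A * (gm0 s2 (apr s1 A) * (gm0 s2 (apr s1 A))ᵀ) * ahat s1 A := by
    rw [transpose_mul, ta.transpose]
    simp only [Matrix.mul_assoc]
  have tt0 := ti_gm0 (s1 + s2) A
  have tt : TI (gm0 (s1 + s2) A * (gm0 (s1 + s2) A)ᵀ) := by
    rw [tt0.transpose]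
    exact tt0.mul tt0
  rw [e1, gm_split hz hs1.le]
  have tgs0 := ti_gm0 s1 A
  have tgs : TI (gm0 s1 A * (gm0 s1 A)ᵀ) := by
    rw [tgs0.transpose]
    exact tgs0.mul tgs0
  rw [← add_assoc]
  congr 1
  refine H864.sym_inj (((ta.mul tp).mul ta).add tgs) tt fun k => ?_
  have hk0 := h0 k
  have hk1 := sym_apr_nonneg hA h0 hs1.le k
  rw [H864.sym_add, H864.sym_mul (ta.mul tp) ta, H864.sym_mul ta tp, sym_gm0_sq k hk1 hs2,
    sym_gm0_sq k hk0 hs1.le, sym_gm0_sq k hk0 (by positivity), sym_ahat, sym_apr hA]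
  by_cases hk : k = 0
  · simp only [if_pos hk, mul_zero, zero_mul, add_zero]
  · simp only [if_neg hk]
    have h1 : 0 < 1 + s1 * sym A k := by positivity
    have h2 : 0 < 1 + (s1 + s2) * sym A k := by positivity
    have h3 : 1 + s2 * ((1 + s1 * sym A k)⁻¹ * sym A k)
        = (1 + (s1 + s2) * sym A k) / (1 + s1 * sym A k) := by
      field_simp
      ring
    rw [h3]
    field_simp
    ring

/-- **the law of the coarse field = white noise + the law of the field** -/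
theorem coarse_law (hA : TI A) (h0 : ∀ k, 0 ≤ sym A k) (hs1 : 0 < s1) (hs2 : 0 ≤ s2) :
    gm0 s2 (apr s1 A) * (gm0 s2 (apr s1 A))ᵀ
      = (s1 * s2 / (s1 + s2)) • (Pn : Matrix (V n) (V n) ℝ)
        + (s2 / (s1 + s2)) ^ 2 • (gm0 (s1 + s2) A * (gm0 (s1 + s2) A)ᵀ) := by
  have tg0 := ti_gm0 s2 (apr s1 A)
  have tp : TI (gm0 s2 (apr s1 A) * (gm0 s2 (apr s1 A))ᵀ) := by
    rw [tg0.transpose]
    exact tg0.mul tg0
  have tt0 := ti_gm0 (s1 + s2) A
  have tt : TI (gm0 (s1 + s2) A * (gm0 (s1 + s2) A)ᵀ) := by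
    rw [tt0.transpose]
    exact tt0.mul tt0
  refine H864.sym_inj tp ((ti_Pn.smul _).add (tt.smul _)) fun k => ?_
  have hk0 := h0 k
  have hk1 := sym_apr_nonneg hA h0 hs1.le k
  rw [H864.sym_add, H864.sym_smul, H864.sym_smul, sym_gm0_sq k hk1 hs2,
    sym_gm0_sq k hk0 (by positivity), sym_Pn, sym_apr hA]
  by_cases hk : k = 0
  · simp only [if_pos hk, mul_zero, add_zero]
  · simp only [if_neg hk]
    have h1 : 0 < 1 + s1 * sym A k := by positivity
    have h2 : 0 < 1 + (s1 + s2) * sym A k := by positivity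
    have h3 : 1 + s2 * ((1 + s1 * sym A k)⁻¹ * sym A k)
        = (1 + (s1 + s2) * sym A k) / (1 + s1 * sym A k) := by
      field_simp
      ring
    have h4 : 0 < s1 + s2 := by positivity
    rw [h3]
    field_simp
    ring

end apr

/-! ### one torus, scalar mass only -/

variable {N l : ℕ} [NeZero N] [NeZero (N / l)] {b T t t₁ : ℝ}

lemma sn_add : sn l T t + sn l t t₁ = sn l T t₁ := by
  unfold sn
  ring

/-- the law of the coarse field -/
abbrev Bcl (N l : ℕ) [NeZero N] [NeZero (N / l)] (b T t t₁ : ℝ) :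
    Matrix (V (N / l)) (V (N / l)) ℝ :=
  gm0 (sn l t t₁) (apr (sn l T t) (acl N l b T T))

/-- **ONE TORUS**, only the weight at the scalar mass `T` -/
theorem one_torus1 (hb : 0 ≤ b) (hl : l ∣ N) (ht₁ : 0 < t₁) (h1 : t₁ < t) (h : t < T)
    (h12 : omT (wT b N) (mt N T) ≤ 1 / 2) {r : ℝ}
    (hr : 1 - (∫ g, Wcl N l b T T (gm0 (sn l T t₁) (acl N l b T T) *ᵥ g)
      ∂(gau (V (N / l))))⁻¹ ≤ r) (x : V (N / l)) :
    ‖(omh N l b T t t₁ : ℂ) - ((N / l : ℕ) : ℂ) ^ 2
        * ∫ g, psc N l b T t x (Bcl N l b T t t₁ *ᵥ g) ∂(gau (V (N / l)))‖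
      ≤ 2 * om (wT b N) (mt N T) 1 * r + e1n N b T := by
  have ht : 0 < t := ht₁.trans h1
  have hT : 0 < T := ht.trans h
  have htT : t₁ < T := h1.trans h
  set A := acl N l b T T with hA
  set s1 := sn l T t with hs1
  set s2 := sn l t t₁ with hs2
  have hs10 : 0 < s1 := sn_pos hl ht h
  have hs20 : 0 < s2 := sn_pos hl ht₁ h1
  have hss : sn l T t₁ = s1 + s2 := sn_add.symm
  have tA : TI A := ti_acl hb hl hT le_rfl
  have hA0 : ∀ k, 0 ≤ sym A k := sym_acl_nonneg hb hl hT le_rfl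
  have hAz : sym A 0 = 0 := sym_acl_zero hl hb hT le_rfl
  set ω := om (wT b N) (mt N T) 1 with hω
  have hω0 : 0 ≤ ω := H896.om_nonneg (H896.wm_t (N := N) hb hT) 1
  set B := gm0 (sn l T t₁) A with hB
  have tB : TI B := ti_gm0 _ _
  have tB' : TI (Bcl N l b T t t₁) := ti_gm0 _ _
  have hWc := continuous_Wcl (b := b) hb hl hT (le_refl T)
  have hPc := continuous_Phc (b := b) hb hl hT (le_refl T)
  have hWi : Integrable (fun g => Wcl N l b T T (B *ᵥ g)) (gau (V (N / l))) := by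
    have hi := integrable_Wcl (b := b) hb hl ht₁ htT le_rfl (0 : V (N / l) → ℝ)
    simp only [mulVec_zero, zero_add] at hi
    have hs0 : 0 < sn l T t₁ := sn_pos hl ht₁ htT
    exact (inv_int (by positivity)
      (gm_split (A := acl N l b T T) (s := sn l T t₁) hAz hs0.le)
      hWc.stronglyMeasurable (fun F c => Wcl_const hl hT le_rfl F c) hi).1
  obtain ⟨K', -, hK'⟩ := (dif_psc (N := N) (l := l) (b := b) (t := t) hb hT).bdx'
  obtain ⟨K, hK0, hK⟩ := (dif_W1c (N := N) (l := l) (b := b) hb hT).bd'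
  have hsum := int_sum_cov tB' (fun x => measurable_psc (t := t) hb hT x) hK'
    (cov_psc (t := t) hl hb hT) (fun F => sum_psc (t := t) hl hb hT F) x
  have mW := (dif_W1c (N := N) (l := l) (b := b) hb hT).m
  -- the functional `Ψ` over the coarse law is `W₁` over the law of the field
  have hPsi : ∫ g, Psc N l b T t (Bcl N l b T t t₁ *ᵥ g) ∂(gau (V (N / l)))
      = ((Real.exp (-(2 * π ^ 2 * (s1 / ((N / l : ℕ) : ℝ) ^ 2))) : ℝ) : ℂ)
        * ∫ g, W1c N l b T (B *ᵥ g) ∂(gau (V (N / l))) := by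
    have e1 : ∀ g : V (N / l) → ℝ, Psc N l b T t (Bcl N l b T t t₁ *ᵥ g)
        = Pg (ahat s1 A * Bcl N l b T t t₁) (gm s1 A) (W1c N l b T) g := by
      intro g
      rw [H889.Pg_mulVec]
      rfl
    simp only [e1]
    have e2 : ∫ g, Pg (ahat s1 A * Bcl N l b T t t₁) (gm s1 A) (W1c N l b T) g
          ∂(gau (V (N / l)))
        = ∫ g, W1c N l b T (fromCols (ahat s1 A * Bcl N l b T t t₁) (gm s1 A) *ᵥ g)
          ∂(gau (V (N / l) ⊕ V (N / l))) := by
      rw [integral_gau_sum]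
      · refine integral_congr_ae (Filter.Eventually.of_forall fun g => ?_)
        simp only [fromCols_mulVec_sumElim]
        rfl
      · exact Integrable.of_bound (C := K) (mW.comp (measurable_mulVec _)).aestronglyMeasurable
          (Filter.Eventually.of_forall fun g => hK _)
    rw [e2]
    refine (H767.gain_const (B := B) (τ2 := s1 / ((N / l : ℕ) : ℝ) ^ 2) (by positivity) ?_
      (ch_W1c hb hT) mW.stronglyMeasurable hK).1
    rw [transpose_fromCols, fromCols_mul_fromRows, hB, hss]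
    exact two_steps tA hA0 hAz hs10 hs20.le
  have homh : (omh N l b T t t₁ : ℂ)
      = ((Real.exp (-(2 * π ^ 2 * (s1 / ((N / l : ℕ) : ℝ) ^ 2))) : ℝ) : ℂ)
        * (omh N l b T T t₁ : ℂ) := by
    unfold omh
    rw [← Complex.ofReal_mul, ← mul_assoc, ← Real.exp_add, hss, ← hs2]
    congr 3
    ring_nf
  rw [← hsum, hPsi, homh, ← mul_sub, norm_mul, Complex.norm_real, Real.norm_eq_abs,
    abs_of_pos (Real.exp_pos _)]
  have hle1 : Real.exp (-(2 * π ^ 2 * (s1 / ((N / l : ℕ) : ℝ) ^ 2))) ≤ 1 := by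
    rw [Real.exp_le_one_iff]
    have : 0 ≤ 2 * π ^ 2 * (s1 / ((N / l : ℕ) : ℝ) ^ 2) := by positivity
    linarith
  -- tilt
  have hT1 : om (wT b N) (MC N l T T) 1 = ω := by rw [H864.MC_self]
  have h2 := tilt_sub (μ := gau (V (N / l))) (W := fun g => Wcl N l b T T (B *ᵥ g))
    (φ := fun g => Phc N l b T T (B *ᵥ g))
    (fun g => one_le_Wcl hb hl hT le_rfl _) hWi
    (hPc.measurable.comp (measurable_mulVec _)).aestronglyMeasurable
    (M := ω) (fun g => by
      rw [← hT1]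
      exact norm_Phc_le hb hl hT le_rfl _)
  have h2' : 2 * ω * (1 - (∫ g, Wcl N l b T T (B *ᵥ g) ∂(gau (V (N / l))))⁻¹)
      ≤ 2 * ω * r := mul_le_mul_of_nonneg_left hr (by positivity)
  have hp : ∀ F : V (N / l) → ℝ, ‖Phc N l b T T F - W1c N l b T F‖ ≤ e1n N b T := by
    intro F
    unfold Phc W1c
    rw [H864.MC_self]
    exact H43.e1_le (H896.wm_t hb hT) h12 _
  have i1 : Integrable (fun g => Phc N l b T T (B *ᵥ g)) (gau (V (N / l))) :=
    Integrable.of_bound (hPc.measurable.comp (measurable_mulVec _)).aestronglyMeasurable _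
      (Filter.Eventually.of_forall fun g => norm_Phc_le hb hl hT le_rfl _)
  have i2 : Integrable (fun g => W1c N l b T (B *ᵥ g)) (gau (V (N / l))) :=
    Integrable.of_bound (mW.comp (measurable_mulVec _)).aestronglyMeasurable K
      (Filter.Eventually.of_forall fun g => hK _)
  have h3 : ‖(∫ g, Phc N l b T T (B *ᵥ g) ∂(gau (V (N / l))))
      - ∫ g, W1c N l b T (B *ᵥ g) ∂(gau (V (N / l)))‖ ≤ e1n N b T := by
    rw [← integral_sub i1 i2]
    have h6 := norm_integral_le_of_norm_le_const (μ := gau (V (N / l))) (C := e1n N b T)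
      (f := fun g => Phc N l b T T (B *ᵥ g) - W1c N l b T (B *ᵥ g))
      (Filter.Eventually.of_forall fun g => hp _)
    simpa using h6
  have h7 := norm_sub_le_norm_sub_add_norm_sub (omh N l b T T t₁ : ℂ)
    (∫ g, Phc N l b T T (B *ᵥ g) ∂(gau (V (N / l))))
    (∫ g, W1c N l b T (B *ᵥ g) ∂(gau (V (N / l))))
  have h8 := omh_eq (b := b) hb hl ht₁ htT le_rfl
  rw [← hA, ← hB] at h8
  rw [← h8] at h2
  have h9 : ‖(omh N l b T T t₁ : ℂ) - ∫ g, W1c N l b T (B *ᵥ g) ∂(gau (V (N / l)))‖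
      ≤ 2 * ω * r + e1n N b T := by linarith
  calc _ ≤ 1 * ‖(omh N l b T T t₁ : ℂ) - ∫ g, W1c N l b T (B *ᵥ g) ∂(gau (V (N / l)))‖ :=
        mul_le_mul_of_nonneg_right hle1 (norm_nonneg _)
    _ ≤ _ := by rw [one_mul]; exact h9

end

end Vale.Agent.P159.H363
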