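import Vale.Agent.P159.H363.Cvf4

/-!
P159 / H363, VB10 functional side, part 5: two tori, scalar mass only.
-/

namespace Vale.Agent.P159.H363

open Finset Matrix MeasureTheory
open Vale.Agent.P159.H37 (qf bf Zn Zq ZM wM gau gau_sum cellP)
open Vale.Agent.P159.TM.Spec (V)
open Vale.Agent.P159.TM.SpecC (Tor wT)
open Vale.Agent.P159.H864 (TI sym fc MC cl up cobV)
open Vale.Agent.P159.H963 (Pn ti_Pn sym_Pn)
open Vale.Agent.P159.H462 (ahat Gam ti_ahat sym_ahat ti_Gam)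
open Vale.Agent.P159.H896 (WM Ph om ph)
open Vale.Agent.P159.H145 (mt)
open Vale.Agent.P159.H43 (Wq omT ch2 Phq)
open Vale.Agent.P159.H767 (cst)
open Vale.Agent.P159.H889 (Dif dn)
open Vale.Agent.P159.H358 (exw rsw exw_add measurable_exw measurable_rsw n2_le_sqrt sqrt_add_sq_le
  exw_comp)
open Vale.Agent.P159.H552 (Ps cutB l2_good)
open scoped Real

noncomputable section

section core

variable {n₁ n₂ : ℕ} [NeZero n₁] [NeZero n₂]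

/-- **two tori, abstract**: densities `u₁`, `u₂` near a common window functional `ψW` -/
theorem two_core {u₁ : (V n₁ → ℝ) → ℂ} {u₂ : (V n₂ → ℝ) → ℂ} (hu₁ : Measurable u₁)
    (hu₂ : Measurable u₂) {K1 K2 : ℝ} (hK1 : ∀ F, ‖u₁ F‖ ≤ K1) (hK2 : ∀ F, ‖u₂ F‖ ≤ K2)
    {B₁ : Matrix (V n₁) (V n₁) ℝ} {B₂ : Matrix (V n₂) (V n₂) ℝ} {ω₁ ω₂ E₁ E₂ S₁ : ℝ}
    (hω₁ : 0 ≤ ω₁)
    (o1 : ‖(ω₁ : ℂ) - (n₁ : ℂ) ^ 2 * ∫ g, u₁ (B₁ *ᵥ g) ∂(gau (V n₁))‖ ≤ E₁)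
    (o2 : ‖(ω₂ : ℂ) - (n₂ : ℂ) ^ 2 * ∫ g, u₂ (B₂ *ᵥ g) ∂(gau (V n₂))‖ ≤ E₂)
    (hS : n2 (gau (V n₁)) (fun g => u₁ (B₁ *ᵥ g)) ≤ S₁)
    {W J J' : Type*} [Fintype W] [Fintype J] [DecidableEq J] [Fintype J'] (ι₁ : W → V n₁)
    (ι₂ : W → V n₂) {ψW : (W → ℝ) → ℂ} (hch : Ch ψW) (hm : Measurable ψW)
    {C : ℝ} (hC : ∀ F, ‖ψW F‖ ≤ C) {q1 q2 : ℝ}
    (hq1 : n2 (gau (V n₁)) (fun g => u₁ (B₁ *ᵥ g) - ψW ((B₁.submatrix ι₁ id) *ᵥ g)) ≤ q1)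
    (hq2 : n2 (gau (V n₂)) (fun g => u₂ (B₂ *ᵥ g) - ψW ((B₂.submatrix ι₂ id) *ᵥ g)) ≤ q2)
    {D₁ : Matrix W J ℝ} {D₂ : Matrix W J' ℝ} {v1 v2 : ℝ} (hv1 : 0 ≤ v1) (hv2 : 0 ≤ v2)
    (hc1 : B₁.submatrix ι₁ id * (B₁.submatrix ι₁ id)ᵀ = D₁ * D₁ᵀ + cst W v1)
    (hc2 : B₂.submatrix ι₂ id * (B₂.submatrix ι₂ id)ᵀ = D₂ * D₂ᵀ + cst W v2)
    {H : Matrix J J ℝ} (hH : Hᵀ = H) (hD : D₂ * D₂ᵀ = D₁ * (1 + H) * D₁ᵀ) {η : ℝ} (hη : 0 ≤ η)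
    (hη2 : η ≤ 1 / 2) (hHS : ∑ x, ∑ y, H x y ^ 2 ≤ η ^ 2) :
    ω₂ ≤ (n₂ : ℝ) ^ 2 * (q2 + Real.exp (-(2 * π ^ 2 * v2)) *
        (Real.exp (2 * π ^ 2 * v1) * ((ω₁ + E₁) / (n₁ : ℝ) ^ 2 + q1) + 2 * η * (S₁ + q1)))
      + E₂ := by
  have hn1 : (0 : ℝ) < (n₁ : ℝ) ^ 2 := H864.N_pos (N := n₁)
  have hn2 : (0 : ℝ) < (n₂ : ℝ) ^ 2 := H864.N_pos (N := n₂)
  set M₁ : Matrix W (V n₁) ℝ := B₁.submatrix ι₁ id with hM₁
  set M₂ : Matrix W (V n₂) ℝ := B₂.submatrix ι₂ id with hM₂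
  have L1 : MemLp (fun g => u₁ (B₁ *ᵥ g)) 2 (gau (V n₁)) :=
    memLp_bdd (hu₁.comp (measurable_mulVec _)).aestronglyMeasurable fun g => hK1 _
  have L2 : MemLp (fun g => u₂ (B₂ *ᵥ g)) 2 (gau (V n₂)) :=
    memLp_bdd (hu₂.comp (measurable_mulVec _)).aestronglyMeasurable fun g => hK2 _
  have P1 : MemLp (fun g => ψW (M₁ *ᵥ g)) 2 (gau (V n₁)) :=
    memLp_bdd (hm.comp (measurable_mulVec _)).aestronglyMeasurable fun g => hC _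
  have P2 : MemLp (fun g => ψW (M₂ *ᵥ g)) 2 (gau (V n₂)) :=
    memLp_bdd (hm.comp (measurable_mulVec _)).aestronglyMeasurable fun g => hC _
  set a1 : ℂ := ∫ g, u₁ (B₁ *ᵥ g) ∂(gau (V n₁)) with ha1
  set a2 : ℂ := ∫ g, u₂ (B₂ *ᵥ g) ∂(gau (V n₂)) with ha2
  set c1 : ℂ := ∫ g, ψW (M₁ *ᵥ g) ∂(gau (V n₁)) with hc1'
  set c2 : ℂ := ∫ g, ψW (M₂ *ᵥ g) ∂(gau (V n₂)) with hc2'
  have d1 : ‖a1 - c1‖ ≤ q1 := by
    rw [ha1, hc1', ← integral_sub (L1.integrable (by norm_num)) (P1.integrable (by norm_num))]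
    exact (norm_int_le_n2 (L1.sub P1)).trans hq1
  have d2 : ‖a2 - c2‖ ≤ q2 := by
    rw [ha2, hc2', ← integral_sub (L2.integrable (by norm_num)) (P2.integrable (by norm_num))]
    exact (norm_int_le_n2 (L2.sub P2)).trans hq2
  have hcv := H767.cvp_abs hv1 hv2 hc1 hc2 hH hD hη hη2 hHS hch hm.stronglyMeasurable hC
  have hsq : √(∫ g, ‖ψW (M₁ *ᵥ g)‖ ^ 2 ∂(gau (V n₁))) = n2 (gau (V n₁))
      fun g => ψW (M₁ *ᵥ g) := by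
    rw [← n2_sq P1, Real.sqrt_sq (n2_nonneg _)]
  rw [hsq, ← hc1', ← hc2'] at hcv
  have hS' : n2 (gau (V n₁)) (fun g => ψW (M₁ *ᵥ g)) ≤ S₁ + q1 := by
    have e : ∀ g : V n₁ → ℝ, ψW (M₁ *ᵥ g) = u₁ (B₁ *ᵥ g)
        - (u₁ (B₁ *ᵥ g) - ψW (M₁ *ᵥ g)) := fun g => by ring
    rw [n2_congr e]
    exact (n2_sub_le L1 (L1.sub P1)).trans (add_le_add hS hq1)
  have hc1n : ‖c1‖ ≤ (ω₁ + E₁) / (n₁ : ℝ) ^ 2 + q1 := by
    have h3 : ‖a1‖ ≤ (ω₁ + E₁) / (n₁ : ℝ) ^ 2 := by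
      rw [le_div_iff₀ hn1]
      have h4 : ‖(n₁ : ℂ) ^ 2 * a1‖ = ‖a1‖ * (n₁ : ℝ) ^ 2 := by
        rw [norm_mul, norm_pow, Complex.norm_natCast, mul_comm]
      rw [← h4]
      have h5 : (n₁ : ℂ) ^ 2 * a1 = (ω₁ : ℂ) - ((ω₁ : ℂ) - (n₁ : ℂ) ^ 2 * a1) := by ring
      rw [h5]
      refine (norm_sub_le _ _).trans ?_
      rw [Complex.norm_real, Real.norm_eq_abs, abs_of_nonneg hω₁]
      exact add_le_add le_rfl o1
    have h6 : c1 = a1 - (a1 - c1) := by ring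
    rw [h6]
    exact (norm_sub_le _ _).trans (add_le_add h3 d1)
  have hc2n : ‖c2‖ ≤ Real.exp (-(2 * π ^ 2 * v2)) *
        (Real.exp (2 * π ^ 2 * v1) * ((ω₁ + E₁) / (n₁ : ℝ) ^ 2 + q1) + 2 * η * (S₁ + q1)) := by
    refine hcv.trans (mul_le_mul_of_nonneg_left ?_ (Real.exp_pos _).le)
    exact add_le_add (mul_le_mul_of_nonneg_left hc1n (Real.exp_pos _).le)
      (mul_le_mul_of_nonneg_left hS' (by positivity))
  have ha2n : ‖a2‖ ≤ q2 + ‖c2‖ := by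
    have h6 : a2 = (a2 - c2) + c2 := by ring
    calc ‖a2‖ = ‖(a2 - c2) + c2‖ := by rw [← h6]
      _ ≤ ‖a2 - c2‖ + ‖c2‖ := norm_add_le _ _
      _ ≤ _ := by linarith
  have hfin : ω₂ ≤ (n₂ : ℝ) ^ 2 * ‖a2‖ + E₂ := by
    have h5 : (ω₂ : ℂ) = ((ω₂ : ℂ) - (n₂ : ℂ) ^ 2 * a2) + (n₂ : ℂ) ^ 2 * a2 := by ring
    have h6 : ‖(ω₂ : ℂ)‖ ≤ E₂ + (n₂ : ℝ) ^ 2 * ‖a2‖ := by
      rw [h5]
      refine (norm_add_le _ _).trans (add_le_add o2 (le_of_eq ?_))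
      rw [norm_mul, norm_pow, Complex.norm_natCast]
    rw [Complex.norm_real, Real.norm_eq_abs] at h6
    have := le_abs_self ω₂
    linarith
  refine hfin.trans (add_le_add (mul_le_mul_of_nonneg_left (ha2n.trans ?_) hn2.le) le_rfl)
  linarith

end core

/-! ### window laws of the coarse field from window laws of the field -/

section window

variable {n : ℕ} [NeZero n] {A : Matrix (V n) (V n) ℝ} {s1 s2 : ℝ}
  {W J : Type*} [Fintype W] [DecidableEq W] [Fintype J]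

/-- white noise added to a factor -/
def wadd (α β : ℝ) (D : Matrix W J ℝ) : Matrix W (J ⊕ W) ℝ := fromCols (β • D) (α • 1)

omit [Fintype W] [Fintype J] [DecidableEq W] [NeZero n] in
lemma submatrix_sq {I : Type*} [Fintype I] (B : Matrix (V n) I ℝ) (ι : W → V n) :
    B.submatrix ι id * (B.submatrix ι id)ᵀ = (B * Bᵀ).submatrix ι ι := rfl

lemma wadd_sq (α β : ℝ) (D : Matrix W J ℝ) :
    wadd α β D * (wadd α β D)ᵀ = β ^ 2 • (D * Dᵀ) + α ^ 2 • (1 : Matrix W W ℝ) := by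
  unfold wadd
  rw [transpose_fromCols, fromCols_mul_fromRows, transpose_smul, transpose_smul, transpose_one,
    Matrix.smul_mul, Matrix.mul_smul, smul_smul, Matrix.smul_mul, Matrix.mul_smul, smul_smul,
    Matrix.mul_one, pow_two, pow_two]

lemma wadd_H [DecidableEq J] (α β : ℝ) (D : Matrix W J ℝ) (H : Matrix J J ℝ) :
    wadd α β D * (1 + fromBlocks H 0 0 0 : Matrix (J ⊕ W) (J ⊕ W) ℝ) * (wadd α β D)ᵀ
      = β ^ 2 • (D * (1 + H) * Dᵀ) + α ^ 2 • (1 : Matrix W W ℝ) := by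
  have h1 : (1 : Matrix (J ⊕ W) (J ⊕ W) ℝ) + fromBlocks H 0 0 0 = fromBlocks (1 + H) 0 0 1 := by
    rw [← fromBlocks_one, fromBlocks_add]
    simp
  unfold wadd
  rw [h1, fromCols_mul_fromBlocks, transpose_fromCols, fromCols_mul_fromRows, transpose_smul,
    transpose_smul, transpose_one, Matrix.mul_zero, Matrix.mul_zero, add_zero, zero_add,
    Matrix.mul_one, Matrix.smul_mul, Matrix.smul_mul, Matrix.mul_smul, smul_smul, Matrix.smul_mul,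
    Matrix.mul_smul, smul_smul, Matrix.mul_one, pow_two, pow_two]

lemma HS_blocks [DecidableEq J] (H : Matrix J J ℝ) :
    ∑ x : J ⊕ W, ∑ y : J ⊕ W, (fromBlocks H 0 0 0 : Matrix (J ⊕ W) (J ⊕ W) ℝ) x y ^ 2
      = ∑ x, ∑ y, H x y ^ 2 := by
  rw [Fintype.sum_sum_type]
  simp [Fintype.sum_sum_type]

/-- the coarse window law -/
theorem coarse_window (hA : TI A) (h0 : ∀ k, 0 ≤ sym A k) (hs1 : 0 < s1) (hs2 : 0 ≤ s2)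
    {ι : W → V n} (hι : Function.Injective ι) {D : Matrix W J ℝ} {v : ℝ}
    (h : (gm0 (s1 + s2) A).submatrix ι id * ((gm0 (s1 + s2) A).submatrix ι id)ᵀ
      = D * Dᵀ + cst W v) :
    (gm0 s2 (apr s1 A)).submatrix ι id * ((gm0 s2 (apr s1 A)).submatrix ι id)ᵀ
      = wadd (√(s1 * s2 / (s1 + s2))) (s2 / (s1 + s2)) D
          * (wadd (√(s1 * s2 / (s1 + s2))) (s2 / (s1 + s2)) D)ᵀ
        + cst W ((s2 / (s1 + s2)) ^ 2 * v - s1 * s2 / (s1 + s2) / (n : ℝ) ^ 2) := by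
  have hN := H864.N_pos (N := n)
  rw [submatrix_sq] at h ⊢
  rw [coarse_law hA h0 hs1 hs2, wadd_sq, Real.sq_sqrt (by positivity)]
  ext x y
  have h1 := congrFun (congrFun h x) y
  simp only [submatrix_apply, Matrix.add_apply, cst, of_apply] at h1
  have hPn : (Pn : Matrix (V n) (V n) ℝ)
      = 1 - Matrix.of fun _ _ => 1 / (Fintype.card (V n) : ℝ) := rfl
  simp only [submatrix_apply, Matrix.add_apply, Matrix.smul_apply, smul_eq_mul, cst, of_apply,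
    hPn, Matrix.sub_apply]
  rw [h1, TM.H764.card_V]
  have h2 : (1 : Matrix (V n) (V n) ℝ) (ι x) (ι y) = (1 : Matrix W W ℝ) x y := by
    rw [Matrix.one_apply, Matrix.one_apply]
    by_cases hxy : x = y
    · rw [if_pos hxy, if_pos (by rw [hxy])]
    · rw [if_neg hxy, if_neg (fun h => hxy (hι h))]
  rw [h2]
  ring

end window

/-! ### real letters -/

section two

variable {N₁ N₂ l : ℕ} [NeZero N₁] [NeZero (N₁ / l)] [NeZero N₂] [NeZero (N₂ / l)]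
  {b T t t₁ : ℝ}

/-- error of the one torus statement -/
def Eto (N l : ℕ) [NeZero N] [NeZero (N / l)] (b T r : ℝ) : ℝ :=
  2 * om (wT b N) (mt N T) 1 * r + e1n N b T

/-- size of one density -/
def Sto (N l : ℕ) [NeZero N] [NeZero (N / l)] (b T t : ℝ) : ℝ :=
  (2 * π)⁻¹ * (√(sn l T t * ((N / l : ℕ) : ℝ) ^ 2))⁻¹ * (om (wT b N) (mt N T) 1 + e1n N b T)

/-- **TWO TORI, scalar mass only** (functional side of VB10). `D₁`, `D₂`, `v1`, `v2`, `H`, `η`: the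
window laws of the noise `T → t₁` without constant modes. -/
theorem two_tori1 (hb : 0 ≤ b) (hl₁ : l ∣ N₁) (hl₂ : l ∣ N₂) (ht₁ : 0 < t₁) (h1 : t₁ < t)
    (h : t < T) (h12₁ : omT (wT b N₁) (mt N₁ T) ≤ 1 / 2) (h12₂ : omT (wT b N₂) (mt N₂ T) ≤ 1 / 2)
    {r r' : ℝ}
    (hr : 1 - (∫ g, Wcl N₁ l b T T (gm0 (sn l T t₁) (acl N₁ l b T T) *ᵥ g)
      ∂(gau (V (N₁ / l))))⁻¹ ≤ r)
    (hr' : 1 - (∫ g, Wcl N₂ l b T T (gm0 (sn l T t₁) (acl N₂ l b T T) *ᵥ g)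
      ∂(gau (V (N₂ / l))))⁻¹ ≤ r')
    {W J J' : Type*} [Fintype W] [DecidableEq W] [Fintype J] [DecidableEq J] [Fintype J']
    {ι₁ : W → V (N₁ / l)} {ι₂ : W → V (N₂ / l)} (i₁ : Function.Injective ι₁)
    (i₂ : Function.Injective ι₂) (b0 : W) {ψW : (W → ℝ) → ℂ} (hch : Ch ψW) (hm : Measurable ψW)
    {C : ℝ} (hC : ∀ F, ‖ψW F‖ ≤ C) {q1 q2 : ℝ}
    (hq1 : n2 (gau (V (N₁ / l))) (fun g =>
      psc N₁ l b T t (ι₁ b0) (Bcl N₁ l b T t t₁ *ᵥ g)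
        - ψW (((Bcl N₁ l b T t t₁).submatrix ι₁ id) *ᵥ g)) ≤ q1)
    (hq2 : n2 (gau (V (N₂ / l))) (fun g =>
      psc N₂ l b T t (ι₂ b0) (Bcl N₂ l b T t t₁ *ᵥ g)
        - ψW (((Bcl N₂ l b T t t₁).submatrix ι₂ id) *ᵥ g)) ≤ q2)
    {D₁ : Matrix W J ℝ} {D₂ : Matrix W J' ℝ} {v1 v2 : ℝ}
    (hc1 : (gm0 (sn l T t₁) (acl N₁ l b T T)).submatrix ι₁ id
      * ((gm0 (sn l T t₁) (acl N₁ l b T T)).submatrix ι₁ id)ᵀ = D₁ * D₁ᵀ + cst W v1)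
    (hc2 : (gm0 (sn l T t₁) (acl N₂ l b T T)).submatrix ι₂ id
      * ((gm0 (sn l T t₁) (acl N₂ l b T T)).submatrix ι₂ id)ᵀ = D₂ * D₂ᵀ + cst W v2)
    {H : Matrix J J ℝ} (hH : Hᵀ = H) (hD : D₂ * D₂ᵀ = D₁ * (1 + H) * D₁ᵀ) {η : ℝ} (hη : 0 ≤ η)
    (hη2 : η ≤ 1 / 2) (hHS : ∑ x, ∑ y, H x y ^ 2 ≤ η ^ 2) {α β w1 w2 : ℝ}
    (hα : α = sn l T t * sn l t t₁ / sn l T t₁) (hβ : β = (sn l t t₁ / sn l T t₁) ^ 2)
    (hw1 : w1 = β * v1 - α / ((N₁ / l : ℕ) : ℝ) ^ 2)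
    (hw2 : w2 = β * v2 - α / ((N₂ / l : ℕ) : ℝ) ^ 2) (hw10 : 0 ≤ w1) (hw20 : 0 ≤ w2) :
    om (wT b N₂) (mt N₂ t₁) 1 ≤
      ((N₂ / l : ℕ) : ℝ) ^ 2 * (q2 + Real.exp (-(2 * π ^ 2 * w2)) *
        (Real.exp (2 * π ^ 2 * w1) *
            ((omh N₁ l b T t t₁ + Eto N₁ l b T r) / ((N₁ / l : ℕ) : ℝ) ^ 2 + q1)
          + 2 * η * (Sto N₁ l b T t + q1)))
      + Eto N₂ l b T r' := by
  have ht : 0 < t := ht₁.trans h1
  have hT : 0 < T := ht.trans h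
  have hs10 : 0 < sn l T t := sn_pos hl₁ ht h
  have hs20 : 0 < sn l t t₁ := sn_pos hl₁ ht₁ h1
  have hss : sn l T t₁ = sn l T t + sn l t t₁ := sn_add.symm
  rw [hss] at hc1 hc2 hα hβ
  refine (om_le_omh hb hl₂ ht₁ h1.le h.le).trans ?_
  have o1 := one_torus1 hb hl₁ ht₁ h1 h h12₁ hr (ι₁ b0)
  have o2 := one_torus1 hb hl₂ ht₁ h1 h h12₂ hr' (ι₂ b0)
  obtain ⟨K1, -, hK1⟩ := (dif_psc (N := N₁) (l := l) (b := b) (t := t) hb hT).bdx'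
  obtain ⟨K2, -, hK2⟩ := (dif_psc (N := N₂) (l := l) (b := b) (t := t) hb hT).bdx'
  have hSn := n2_psc (b := b) hb hl₁ ht h h12₁ (B := Bcl N₁ l b T t t₁) (ti_gm0 _ _) (ι₁ b0)
  have cw1 := coarse_window (ti_acl (b := b) hb hl₁ hT le_rfl)
    (sym_acl_nonneg hb hl₁ hT le_rfl) hs10 hs20.le i₁ hc1
  have cw2 := coarse_window (ti_acl (b := b) hb hl₂ hT le_rfl)
    (sym_acl_nonneg hb hl₂ hT le_rfl) hs10 hs20.le i₂ hc2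
  have hw1' : (sn l t t₁ / (sn l T t + sn l t t₁)) ^ 2 * v1
      - sn l T t * sn l t t₁ / (sn l T t + sn l t t₁) / ((N₁ / l : ℕ) : ℝ) ^ 2 = w1 := by
    rw [hw1, hα, hβ]
  have hw2' : (sn l t t₁ / (sn l T t + sn l t t₁)) ^ 2 * v2
      - sn l T t * sn l t t₁ / (sn l T t + sn l t t₁) / ((N₂ / l : ℕ) : ℝ) ^ 2 = w2 := by
    rw [hw2, hα, hβ]
  rw [hw1'] at cw1
  rw [hw2'] at cw2
  have hHt : (fromBlocks H 0 0 0 : Matrix (J ⊕ W) (J ⊕ W) ℝ)ᵀ = fromBlocks H 0 0 0 := by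
    rw [fromBlocks_transpose, hH, transpose_zero, transpose_zero, transpose_zero]
  refine two_core (measurable_psc (t := t) hb hT (ι₁ b0)) (measurable_psc (t := t) hb hT (ι₂ b0))
    (fun F => hK1 _ F) (fun F => hK2 _ F) (omh_nonneg hb hl₁ ht₁ (h1.le.trans h.le)) o1 o2 hSn
    ι₁ ι₂ hch hm hC hq1 hq2 hw10 hw20 cw1 cw2 (H := fromBlocks H 0 0 0) hHt ?_ hη hη2 ?_
  · rw [wadd_sq, wadd_H, hD]
  · rw [HS_blocks]
    exact hHS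

end two

end

end Vale.Agent.P159.H363
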