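import Vale.Agent.P159.H363.Cvf5

/-!
P159 / H363, VB10 functional side, part 6: the window functional and its errors `q1`, `q2` from
pointwise locality on good sets; final form.
-/

namespace Vale.Agent.P159.H363

open Finset Matrix MeasureTheory
open Vale.Agent.P159.H37 (qf bf Zn Zq ZM wM gau gau_sum cellP)
open Vale.Agent.P159.TM.Spec (V)
open Vale.Agent.P159.TM.SpecC (Tor wT)
open Vale.Agent.P159.H864 (TI sym fc MC cl up cobV)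
open Vale.Agent.P159.H462 (ahat Gam ti_ahat sym_ahat ti_Gam)
open Vale.Agent.P159.H896 (WM Ph om ph)
open Vale.Agent.P159.H145 (mt)
open Vale.Agent.P159.H43 (Wq omT ch2 Phq)
open Vale.Agent.P159.H767 (cst)
open Vale.Agent.P159.H889 (Dif dn)
open Vale.Agent.P159.H358 (exw rsw exw_add measurable_exw measurable_rsw n2_le_sqrt sqrt_add_sq_le
  exw_comp n2_good)
open Vale.Agent.P159.H552 (Ps cutB l2_good)
open scoped Real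

noncomputable section

/-- errors of the window functional -/
theorem window_q {n₁ n₂ : ℕ} [NeZero n₁] [NeZero n₂] {u₁ : (V n₁ → ℝ) → ℂ} {u₂ : (V n₂ → ℝ) → ℂ}
    (hu₁ : Measurable u₁) (hu₂ : Measurable u₂) {K : ℝ} (hK1 : ∀ F, ‖u₁ F‖ ≤ K)
    (hK2 : ∀ F, ‖u₂ F‖ ≤ K) (B₁ : Matrix (V n₁) (V n₁) ℝ) (B₂ : Matrix (V n₂) (V n₂) ℝ)
    {W : Type*} [Fintype W] [DecidableEq W] (ι₁ : W → V n₁) (ι₂ : W → V n₂) (b0 : W)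
    {G₁ : Set (V n₁ → ℝ)} {G₂ : Set (V n₂ → ℝ)} {G : Set (W → ℝ)} (mG₁ : MeasurableSet G₁)
    (mG₂ : MeasurableSet G₂) (mG : MeasurableSet G) {a γ p : ℝ} (ha : 0 ≤ a) (hγ0 : 0 ≤ γ)
    (loc₁ : ∀ F ∈ G₁, ‖u₁ F - u₁ (cutB (univ.image ι₁) (ι₁ b0) F)‖ ≤ a)
    (loc₂ : ∀ F ∈ G₂, ‖u₂ F - u₂ (cutB (univ.image ι₂) (ι₂ b0) F)‖ ≤ a)
    (hγ : ∀ φ ∈ G, ‖u₂ (exw ι₂ univ b0 φ) - u₁ (exw ι₁ univ b0 φ)‖ ≤ γ)
    (hp₁ : (gau (V n₁)).real {g | B₁ *ᵥ g ∉ G₁} ≤ p)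
    (hp₂ : (gau (V n₂)).real {g | B₂ *ᵥ g ∉ G₂} ≤ p)
    (hp : (gau (V n₂)).real {g | rsw ι₂ (B₂ *ᵥ g) ∉ G} ≤ p) :
    n2 (gau (V n₁)) (fun g => u₁ (B₁ *ᵥ g)
        - u₁ (exw ι₁ univ b0 ((B₁.submatrix ι₁ id) *ᵥ g))) ≤ a + 2 * K * √p ∧
      n2 (gau (V n₂)) (fun g => u₂ (B₂ *ᵥ g)
        - u₁ (exw ι₁ univ b0 ((B₂.submatrix ι₂ id) *ᵥ g))) ≤
          (a + 2 * K * √p) + (γ + 2 * K * √p) := by
  have hK0 : 0 ≤ K := (norm_nonneg _).trans (hK1 0)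
  have hp0 : 0 ≤ p := measureReal_nonneg.trans hp
  constructor
  · exact n2_good (C := B₁) hu₁ hK1 ι₁ b0 mG₁ ha loc₁ hp₁
  · have g2 := n2_good (C := B₂) hu₂ hK2 ι₂ b0 mG₂ ha loc₂ hp₂
    set R₂ : (V n₂ → ℝ) → W → ℝ := fun g => rsw ι₂ (B₂ *ᵥ g) with hR₂
    have mR₂ : Measurable R₂ := (measurable_rsw ι₂).comp (measurable_mulVec B₂)
    have mE₁ := measurable_exw ι₁ (univ : Finset W) b0
    have mE₂ := measurable_exw ι₂ (univ : Finset W) b0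
    set dif : (W → ℝ) → ℂ := fun φ => u₂ (exw ι₂ univ b0 φ) - u₁ (exw ι₁ univ b0 φ) with hdif
    have mdif : Measurable dif := (hu₂.comp mE₂).sub (hu₁.comp mE₁)
    have bdif : ∀ φ, ‖dif φ‖ ≤ 2 * K := by
      intro φ
      have h1 := (norm_sub_le (u₂ (exw ι₂ univ b0 φ)) (u₁ (exw ι₁ univ b0 φ))).trans
        (add_le_add (hK2 _) (hK1 _))
      simp only [hdif]
      linarith
    have Ldif : MemLp (fun g => dif (R₂ g)) 2 (gau (V n₂)) :=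
      memLp_bdd (mdif.comp mR₂).aestronglyMeasurable fun g => bdif _
    have LP : MemLp (fun g => u₂ (B₂ *ᵥ g) - u₂ (exw ι₂ univ b0 (R₂ g))) 2 (gau (V n₂)) :=
      memLp_bdd (C := 2 * K) ((hu₂.comp (measurable_mulVec B₂)).sub
        (hu₂.comp (mE₂.comp mR₂))).aestronglyMeasurable fun g => by
          have h1 := (norm_sub_le (u₂ (B₂ *ᵥ g)) (u₂ (exw ι₂ univ b0 (R₂ g)))).trans
            (add_le_add (hK2 _) (hK2 _))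
          linarith
    have h1 : ∫ g, ‖dif (R₂ g)‖ ^ 2 ∂(gau (V n₂)) ≤ γ ^ 2 + (2 * K) ^ 2 * p :=
      l2_good mR₂ mdif mG (fun φ hφ => hγ φ hφ) bdif hp
    have h2 : n2 (gau (V n₂)) (fun g => dif (R₂ g)) ≤ γ + 2 * K * √p := by
      refine (n2_le_sqrt Ldif h1).trans ?_
      refine (sqrt_add_sq_le hγ0 (by positivity)).trans (le_of_eq ?_)
      rw [Real.sqrt_mul (by positivity), Real.sqrt_sq (by positivity)]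
    have e : ∀ g : V n₂ → ℝ, u₂ (B₂ *ᵥ g) - u₁ (exw ι₁ univ b0 ((B₂.submatrix ι₂ id) *ᵥ g))
        = (u₂ (B₂ *ᵥ g) - u₂ (exw ι₂ univ b0 (R₂ g))) + dif (R₂ g) := by
      intro g
      simp only [hdif]
      have e1 : (B₂.submatrix ι₂ id) *ᵥ g = R₂ g := rfl
      rw [e1]
      ring
    rw [n2_congr e]
    exact (n2_add_le LP Ldif).trans (add_le_add g2 h2)

section real

variable {N₁ N₂ l : ℕ} [NeZero N₁] [NeZero (N₁ / l)] [NeZero N₂] [NeZero (N₂ / l)]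
  {b T t t₁ : ℝ}

/-- the locality error -/
def qlo (K a p : ℝ) : ℝ := a + 2 * K * √p

/-- **VB10, FUNCTIONAL SIDE**. Hypotheses: `omT ≤ 1/2` on both tori, mean weights (`r`, `r'`), sup
bound `K` of the densities, locality on good sets, two-torus error `γ`, window laws of the noise
`T → t₁`. -/
theorem cvf (hb : 0 ≤ b) (hl₁ : l ∣ N₁) (hl₂ : l ∣ N₂) (ht₁ : 0 < t₁) (h1 : t₁ < t)
    (h : t < T) (h12₁ : omT (wT b N₁) (mt N₁ T) ≤ 1 / 2) (h12₂ : omT (wT b N₂) (mt N₂ T) ≤ 1 / 2)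
    {r r' : ℝ}
    (hr : 1 - (∫ g, Wcl N₁ l b T T (gm0 (sn l T t₁) (acl N₁ l b T T) *ᵥ g)
      ∂(gau (V (N₁ / l))))⁻¹ ≤ r)
    (hr' : 1 - (∫ g, Wcl N₂ l b T T (gm0 (sn l T t₁) (acl N₂ l b T T) *ᵥ g)
      ∂(gau (V (N₂ / l))))⁻¹ ≤ r')
    {W J J' : Type*} [Fintype W] [DecidableEq W] [Fintype J] [DecidableEq J] [Fintype J']
    {ι₁ : W → V (N₁ / l)} {ι₂ : W → V (N₂ / l)} (i₁ : Function.Injective ι₁)
    (i₂ : Function.Injective ι₂) (b0 : W) {K : ℝ} (hK1 : ∀ F, ‖psc N₁ l b T t (ι₁ b0) F‖ ≤ K)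
    (hK2 : ∀ F, ‖psc N₂ l b T t (ι₂ b0) F‖ ≤ K)
    {G₁ : Set (V (N₁ / l) → ℝ)} {G₂ : Set (V (N₂ / l) → ℝ)} {G : Set (W → ℝ)}
    (mG₁ : MeasurableSet G₁) (mG₂ : MeasurableSet G₂) (mG : MeasurableSet G) {a γ p : ℝ}
    (ha : 0 ≤ a) (hγ0 : 0 ≤ γ)
    (loc₁ : ∀ F ∈ G₁, ‖psc N₁ l b T t (ι₁ b0) F
      - psc N₁ l b T t (ι₁ b0) (cutB (univ.image ι₁) (ι₁ b0) F)‖ ≤ a)
    (loc₂ : ∀ F ∈ G₂, ‖psc N₂ l b T t (ι₂ b0) F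
      - psc N₂ l b T t (ι₂ b0) (cutB (univ.image ι₂) (ι₂ b0) F)‖ ≤ a)
    (hγ : ∀ φ ∈ G, ‖psc N₂ l b T t (ι₂ b0) (exw ι₂ univ b0 φ)
      - psc N₁ l b T t (ι₁ b0) (exw ι₁ univ b0 φ)‖ ≤ γ)
    (hp₁ : (gau (V (N₁ / l))).real {g | Bcl N₁ l b T t t₁ *ᵥ g ∉ G₁} ≤ p)
    (hp₂ : (gau (V (N₂ / l))).real {g | Bcl N₂ l b T t t₁ *ᵥ g ∉ G₂} ≤ p)
    (hp : (gau (V (N₂ / l))).real {g | rsw ι₂ (Bcl N₂ l b T t t₁ *ᵥ g) ∉ G} ≤ p)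
    {D₁ : Matrix W J ℝ} {D₂ : Matrix W J' ℝ} {v1 v2 : ℝ}
    (hc1 : (gm0 (sn l T t₁) (acl N₁ l b T T)).submatrix ι₁ id
      * ((gm0 (sn l T t₁) (acl N₁ l b T T)).submatrix ι₁ id)ᵀ = D₁ * D₁ᵀ + cst W v1)
    (hc2 : (gm0 (sn l T t₁) (acl N₂ l b T T)).submatrix ι₂ id
      * ((gm0 (sn l T t₁) (acl N₂ l b T T)).submatrix ι₂ id)ᵀ = D₂ * D₂ᵀ + cst W v2)
    {H : Matrix J J ℝ} (hH : Hᵀ = H) (hD : D₂ * D₂ᵀ = D₁ * (1 + H) * D₁ᵀ) {η : ℝ} (hη : 0 ≤ η)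
    (hη2 : η ≤ 1 / 2) (hHS : ∑ x, ∑ y, H x y ^ 2 ≤ η ^ 2) {α β w1 w2 : ℝ}
    (hα : α = sn l T t * sn l t t₁ / sn l T t₁) (hβ : β = (sn l t t₁ / sn l T t₁) ^ 2)
    (hw1 : w1 = β * v1 - α / ((N₁ / l : ℕ) : ℝ) ^ 2)
    (hw2 : w2 = β * v2 - α / ((N₂ / l : ℕ) : ℝ) ^ 2) (hw10 : 0 ≤ w1) (hw20 : 0 ≤ w2) :
    om (wT b N₂) (mt N₂ t₁) 1 ≤
      ((N₂ / l : ℕ) : ℝ) ^ 2 * ((qlo K a p + qlo K γ p) + Real.exp (-(2 * π ^ 2 * w2)) *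
        (Real.exp (2 * π ^ 2 * w1) *
            ((omh N₁ l b T t t₁ + Eto N₁ l b T r) / ((N₁ / l : ℕ) : ℝ) ^ 2 + qlo K a p)
          + 2 * η * (Sto N₁ l b T t + qlo K a p)))
      + Eto N₂ l b T r' := by
  have hT : 0 < T := (ht₁.trans h1).trans h
  have hq := window_q (measurable_psc (t := t) hb hT (ι₁ b0)) (measurable_psc (t := t) hb hT (ι₂ b0))
    hK1 hK2 (Bcl N₁ l b T t t₁) (Bcl N₂ l b T t t₁) ι₁ ι₂ b0 mG₁ mG₂ mG ha hγ0 loc₁ loc₂ hγ hp₁ hp₂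
    hp
  have hch : Ch fun φ : W → ℝ => psc N₁ l b T t (ι₁ b0) (exw ι₁ univ b0 φ) := by
    intro φ c
    simp only
    rw [exw_add]
    exact ch_psc hl₁ hb hT _ _ c
  have hm : Measurable fun φ : W → ℝ => psc N₁ l b T t (ι₁ b0) (exw ι₁ univ b0 φ) :=
    (measurable_psc hb hT _).comp (measurable_exw ι₁ univ b0)
  exact two_tori1 hb hl₁ hl₂ ht₁ h1 h h12₁ h12₂ hr hr' i₁ i₂ b0 hch hm (fun φ => hK1 _) hq.1 hq.2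
    hc1 hc2 hH hD hη hη2 hHS hα hβ hw1 hw2 hw10 hw20

end real

end

end Vale.Agent.P159.H363
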