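import Vale.Agent.P159.H363.Cvf6
import Vale.Agent.P159.H889.Vloc

/-!
P159 / H363, assembly of VB10, part 1: local approximants are carried through one window for any
pair of laws (`B'` after the window, `B` before).
-/

namespace Vale.Agent.P159.H363

open Finset Matrix MeasureTheory
open Vale.Agent.P159.H37 (qf gau gau_sum)
open Vale.Agent.P159.TM.Spec (V)
open Vale.Agent.P159.H864 (TI sym)
open Vale.Agent.P159.H462 (Dom ahat ti_ahat)
open Vale.Agent.P159.H767 (cst)
open Vale.Agent.P159.H889 (Lcl dn cutx lamw tl tl_nonneg tl_eq n2_wabs memLp_wabs n2_dev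
  memLp_abs_dev Pg_lip ch_Pg sum_compl_le box_trans self_mem_box)
open Vale.Agent.P159.H552 (cutB)
open scoped Real

noncomputable section

section laws

variable {W I J : Type*} [Fintype W] [Fintype I] [Fintype J]

/-- norms of a charge one functional do not see constants -/
theorem n2_inv {A : Matrix W I ℝ} {B : Matrix W J ℝ} {τ2 : ℝ} (hτ : 0 ≤ τ2)
    (h : A * Aᵀ = B * Bᵀ + cst W τ2) {u : (W → ℝ) → ℂ} (hch : Ch u) (hm : Measurable u)
    {K : ℝ} (hK : ∀ F, ‖u F‖ ≤ K) :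
    n2 (gau I) (fun g => u (A *ᵥ g)) = n2 (gau J) (fun g => u (B *ᵥ g)) := by
  have L1 : MemLp (fun g => u (A *ᵥ g)) 2 (gau I) :=
    memLp_bdd (hm.comp (measurable_mulVec A)).aestronglyMeasurable fun g => hK _
  have L2 : MemLp (fun g => u (B *ᵥ g)) 2 (gau J) :=
    memLp_bdd (hm.comp (measurable_mulVec B)).aestronglyMeasurable fun g => hK _
  have h1 := inv_int hτ h (f := fun F => ‖u F‖ ^ 2) ((hm.norm.pow_const 2).stronglyMeasurable)
    (fun F c => by
      have e : (fun x => F x + c) = F + fun _ => c := rfl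
      rw [e, hch.norm_add]) (by
      refine Integrable.of_bound (C := K ^ 2)
        ((hm.comp (measurable_mulVec A)).norm.pow_const 2).aestronglyMeasurable
        (Filter.Eventually.of_forall fun g => ?_)
      rw [Real.norm_eq_abs, abs_of_nonneg (by positivity)]
      exact pow_le_pow_left₀ (norm_nonneg _) (hK _) 2)
  have h2 : n2 (gau I) (fun g => u (A *ᵥ g)) ^ 2 = n2 (gau J) (fun g => u (B *ᵥ g)) ^ 2 := by
    rw [n2_sq L1, n2_sq L2, h1.2]
  exact (sq_eq_sq₀ (n2_nonneg _) (n2_nonneg _)).1 h2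

variable {I' Λ : Type*} [Fintype I'] [Fintype Λ]

/-- the Gaussian operator is a contraction between the laws `B'` and `B` -/
theorem n2_Pg_law {F0 : Matrix Λ W ℝ} {M : Matrix Λ I' ℝ} {B' : Matrix W I ℝ} {B : Matrix Λ J ℝ}
    {v0 : ℝ} (hv0 : 0 ≤ v0) (hBB : (F0 * B') * (F0 * B')ᵀ + M * Mᵀ = B * Bᵀ + cst Λ v0)
    {u : (Λ → ℝ) → ℂ} (hch : Ch u) (hm : Measurable u) {K : ℝ} (hK : ∀ F, ‖u F‖ ≤ K) :
    n2 (gau I) (fun b => Pg F0 M u (B' *ᵥ b)) ≤ n2 (gau J) (fun g => u (B *ᵥ g)) := by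
  have hmem : MemLp (fun b => Pg F0 M u (B' *ᵥ b)) 2 (gau I) :=
    memLp_bdd ((measurable_Pg hm).comp (measurable_mulVec _)).aestronglyMeasurable
      fun b => norm_Pg_le hK _
  have L3 : MemLp (fun g => u (fromCols (F0 * B') M *ᵥ g)) 2 (gau (I ⊕ I')) :=
    memLp_bdd (hm.comp (measurable_mulVec _)).aestronglyMeasurable fun g => hK _
  have e1 : n2 (gau (I ⊕ I')) (fun g => u (fromCols (F0 * B') M *ᵥ g))
      = n2 (gau J) (fun g => u (B *ᵥ g)) := by
    refine n2_inv hv0 ?_ hch hm hK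
    rw [transpose_fromCols, fromCols_mul_fromRows]
    exact hBB
  rw [n2_le hmem (n2_nonneg _), ← e1, n2_sq L3]
  have h1 := Pg_contr (F0 := F0 * B') (A := M) hm hK
  have e2 : ∀ b : I → ℝ, Pg (F0 * B') M u b = Pg F0 M u (B' *ᵥ b) := fun b => by
    rw [H889.Pg_mulVec]
  simp only [e2] at h1
  refine h1.trans (le_of_eq ?_)
  rw [integral_gau_sum]
  · refine integral_congr_ae (Filter.Eventually.of_forall fun a => ?_)
    simp only [fromCols_mulVec_sumElim]
  · refine Integrable.of_bound (C := K ^ 2)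
        ((hm.comp (measurable_mulVec _)).norm.pow_const 2).aestronglyMeasurable
        (Filter.Eventually.of_forall fun g => ?_)
    rw [Real.norm_eq_abs, abs_of_nonneg (by positivity)]
    exact pow_le_pow_left₀ (norm_nonneg _) (hK _) 2

end laws

variable {N : ℕ} [NeZero N] {A : Matrix (V N) (V N) ℝ}

/-- **local approximants through one window, any pair of laws** -/
theorem lcl_law {ν c s : ℝ} (h : Dom A ν c) (hs : 0 < s) (hoff : ∀ x y, x ≠ y → A x y ≤ 0)
    {R0 D0 D1 R : ℕ} (hD : R0 + D0 + R ≤ D1) {I J : Type*} [Fintype I] [Fintype J]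
    {B' : Matrix (V N) I ℝ} {B : Matrix (V N) J ℝ} {v0 : ℝ} (hv0 : 0 ≤ v0)
    (hBB : (ahat s A * B') * (ahat s A * B')ᵀ + gm s A * (gm s A)ᵀ = B * Bᵀ + cst (V N) v0)
    {σ : ℝ} (hσ0 : 0 ≤ σ) (hσ : ∀ v, ∑ i, B' v i ^ 2 ≤ σ ^ 2)
    {A' : Matrix (V N) (V N) ℝ} {η K Lp : ℝ} {u mu : V N → (V N → ℝ) → ℂ}
    (hum : ∀ x, Measurable (u x)) (hK : ∀ x F, ‖u x F‖ ≤ K) (hch : ∀ x, Ch (u x))
    (hμ : Lcl A' D0 0 Lp mu mu)
    (hη : ∀ y, n2 (gau J) (fun g => u y (B *ᵥ g) - mu y (B *ᵥ g)) ≤ η) (x : V N) :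
    n2 (gau I) (fun g => dn (ahat s A) (gm s A) u x (B' *ᵥ g)
      - lamw s A R0 D1 mu x (B' *ᵥ g)) ≤ η + tl (ahat s A) R0 * K
      + Lp * ((2 * ((R0 + D0 : ℕ) : ℝ) + 1) ^ 2 * tl (ahat s A) R * (2 * σ)) := by
  classical
  have h0 : ∀ x y, 0 ≤ ahat s A x y := ahat_nonneg h hs hoff
  have h1 : ∀ x, ∑ y, ahat s A x y = 1 := ahat_row A h.zero
  have h1' : ∀ x, ∑ y, ahat s A y x = 1 := fun x => by
    rw [← h1 x]
    exact Finset.sum_congr rfl fun y _ => (ti_ahat s A).sy y x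
  have hLp := hμ.Lp_nonneg
  obtain ⟨Km, hKm⟩ := hμ.bd
  have hKm0 : 0 ≤ Km := (norm_nonneg _).trans (hKm 0 0)
  have hK0 : 0 ≤ K := (norm_nonneg _).trans (hK 0 0)
  have mcut : ∀ x, Measurable (cutx D1 x : (V N → ℝ) → V N → ℝ) := fun x =>
    H552.measurable_cutB (H462.box x D1) x
  have hsub : ∀ x : V N, ∑ y ∈ H462.box x R0, ahat s A y x ≤ 1 := fun x => by
    rw [← h1' x]
    exact Finset.sum_le_sum_of_subset_of_nonneg (Finset.subset_univ _) fun y _ _ => h0 y x
  set B0 : Finset (V N) := H462.box x R0 with hB0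
  set T : Finset (V N) := (H462.box x D1)ᶜ with hT
  set cZ : V N → ℝ := fun Z => ∑ v ∈ H462.box x (R0 + D0), ahat s A v Z with hcZ
  have hcZ0 : ∀ Z, 0 ≤ cZ Z := fun Z => Finset.sum_nonneg fun v _ => h0 v Z
  have e0 : ∀ f : V N → ℝ, dn (ahat s A) (gm s A) u x f - lamw s A R0 D1 mu x f
      = ((∑ y ∈ B0ᶜ, (ahat s A y x : ℂ) * Pg (ahat s A) (gm s A) (u y) f)
        + ∑ y ∈ B0, (ahat s A y x : ℂ) * Pg (ahat s A) (gm s A) (fun F => u y F - mu y F) f)
        + ∑ y ∈ B0, (ahat s A y x : ℂ) * (Pg (ahat s A) (gm s A) (mu y) f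
          - Pg (ahat s A) (gm s A) (mu y) (cutx D1 x f)) := by
    intro f
    unfold dn lamw
    rw [← Finset.sum_add_sum_compl B0]
    have e2 : ∀ y, Pg (ahat s A) (gm s A) (fun F => u y F - mu y F) f
        = Pg (ahat s A) (gm s A) (u y) f - Pg (ahat s A) (gm s A) (mu y) f := fun y =>
      integral_sub (integrable_Pg (hum y) (hK y) f) (integrable_Pg (hμ.m y) (hKm y) f)
    simp only [e2, mul_sub, Finset.sum_sub_distrib]
    ring
  have mT1 : MemLp (fun b => ∑ y ∈ B0ᶜ, (ahat s A y x : ℂ)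
      * Pg (ahat s A) (gm s A) (u y) (B' *ᵥ b)) 2 (gau I) :=
    memLp_sum _ fun y _ => (memLp_bdd ((measurable_Pg (hum y)).comp
      (measurable_mulVec _)).aestronglyMeasurable fun b => norm_Pg_le (hK y) _).const_mul _
  have mdif : ∀ y, Measurable fun F => u y F - mu y F := fun y => (hum y).sub (hμ.m y)
  have bdif : ∀ y F, ‖u y F - mu y F‖ ≤ K + Km := fun y F =>
    (norm_sub_le _ _).trans (add_le_add (hK y F) (hKm y F))
  have cdif : ∀ y, Ch (fun F => u y F - mu y F) := by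
    intro y F t
    simp only
    rw [hch y F t, hμ.ch y F t]
    ring
  have mP2 : ∀ y, MemLp (fun b => Pg (ahat s A) (gm s A) (fun F => u y F - mu y F)
      (B' *ᵥ b)) 2 (gau I) := fun y =>
    memLp_bdd ((measurable_Pg (mdif y)).comp (measurable_mulVec _)).aestronglyMeasurable
      fun b => norm_Pg_le (bdif y) _
  have mT2 : MemLp (fun b => ∑ y ∈ B0, (ahat s A y x : ℂ)
      * Pg (ahat s A) (gm s A) (fun F => u y F - mu y F) (B' *ᵥ b)) 2 (gau I) :=
    memLp_sum _ fun y _ => (mP2 y).const_mul _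
  have mT3 : MemLp (fun b => ∑ y ∈ B0, (ahat s A y x : ℂ)
      * (Pg (ahat s A) (gm s A) (mu y) (B' *ᵥ b)
        - Pg (ahat s A) (gm s A) (mu y) (cutx D1 x (B' *ᵥ b)))) 2 (gau I) := by
    refine memLp_sum _ fun y _ => ?_
    refine MemLp.const_mul ?_ _
    refine (memLp_bdd ((measurable_Pg (hμ.m y)).comp
      (measurable_mulVec _)).aestronglyMeasurable fun b => norm_Pg_le (hKm y) _).sub ?_
    exact memLp_bdd (((measurable_Pg (hμ.m y)).comp (mcut x)).comp
      (measurable_mulVec _)).aestronglyMeasurable fun b => norm_Pg_le (hKm y) _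
  have n1 : n2 (gau I) (fun b => ∑ y ∈ B0ᶜ, (ahat s A y x : ℂ)
      * Pg (ahat s A) (gm s A) (u y) (B' *ᵥ b)) ≤ tl (ahat s A) R0 * K := by
    refine n2_le_const mT1.aestronglyMeasurable (mul_nonneg (tl_nonneg _ _) hK0) fun b => ?_
    refine (norm_sum_le _ _).trans ?_
    rw [← tl_eq (ti_ahat s A) x R0, Finset.sum_mul]
    refine Finset.sum_le_sum fun y _ => ?_
    rw [norm_mul, Complex.norm_real, Real.norm_eq_abs, (ti_ahat s A).sy y x]
    exact mul_le_mul_of_nonneg_left (norm_Pg_le (hK y) _) (abs_nonneg _)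
  have hη0 : 0 ≤ η := (n2_nonneg _).trans (hη x)
  have n2' : n2 (gau I) (fun b => ∑ y ∈ B0, (ahat s A y x : ℂ)
      * Pg (ahat s A) (gm s A) (fun F => u y F - mu y F) (B' *ᵥ b)) ≤ η := by
    refine (n2_comb_le B0 (fun y _ => mP2 y) (fun y => (ahat s A y x : ℂ)) (K := η)
      fun y _ => ?_).trans ?_
    · exact (n2_Pg_law hv0 hBB (cdif y) (mdif y) (bdif y)).trans (hη y)
    · have e3 : ∑ y ∈ B0, ‖(ahat s A y x : ℂ)‖ = ∑ y ∈ B0, ahat s A y x :=
        Finset.sum_congr rfl fun y _ => by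
          rw [Complex.norm_real, Real.norm_eq_abs, abs_of_nonneg (h0 y x)]
      rw [e3]
      calc (∑ y ∈ B0, ahat s A y x) * η ≤ 1 * η := mul_le_mul_of_nonneg_right (hsub x) hη0
        _ = η := one_mul _
  have n3 : n2 (gau I) (fun b => ∑ y ∈ B0, (ahat s A y x : ℂ)
      * (Pg (ahat s A) (gm s A) (mu y) (B' *ᵥ b)
        - Pg (ahat s A) (gm s A) (mu y) (cutx D1 x (B' *ᵥ b))))
      ≤ Lp * ((2 * ((R0 + D0 : ℕ) : ℝ) + 1) ^ 2 * tl (ahat s A) R * (2 * σ)) := by
    have hw := n2_wabs B' hσ0 hσ T cZ hcZ0 x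
    have hw2 : (∑ Z ∈ T, cZ Z) ≤ (2 * ((R0 + D0 : ℕ) : ℝ) + 1) ^ 2 * tl (ahat s A) R := by
      rw [hcZ]
      simp only
      rw [Finset.sum_comm]
      calc ∑ v ∈ H462.box x (R0 + D0), ∑ Z ∈ T, ahat s A v Z
          ≤ ∑ v ∈ H462.box x (R0 + D0), tl (ahat s A) R := by
            refine Finset.sum_le_sum fun v hv => ?_
            refine le_trans (Finset.sum_le_sum fun Z _ => le_abs_self _) ?_
            exact sum_compl_le (ti_ahat s A) hv hD
        _ = ((H462.box x (R0 + D0)).card : ℝ) * tl (ahat s A) R := by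
            rw [Finset.sum_const, nsmul_eq_mul]
        _ ≤ _ := mul_le_mul_of_nonneg_right (H462.card_box x (R0 + D0)) (tl_nonneg _ _)
    have hpt : ∀ b : I → ℝ, ‖∑ y ∈ B0, (ahat s A y x : ℂ)
        * (Pg (ahat s A) (gm s A) (mu y) (B' *ᵥ b)
          - Pg (ahat s A) (gm s A) (mu y) (cutx D1 x (B' *ᵥ b)))‖
        ≤ ‖((Lp : ℝ) : ℂ) * ((∑ Z ∈ T, cZ Z * |(B' *ᵥ b) Z - (B' *ᵥ b) x| : ℝ) : ℂ)‖ := by
      intro b
      set f : V N → ℝ := B' *ᵥ b with hf
      set M : ℝ := ∑ Z ∈ T, cZ Z * |f Z - f x| with hM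
      have hM0 : 0 ≤ M := Finset.sum_nonneg fun Z _ => mul_nonneg (hcZ0 Z) (abs_nonneg _)
      rw [norm_mul, Complex.norm_real, Complex.norm_real, Real.norm_eq_abs, Real.norm_eq_abs,
        abs_of_nonneg hLp, abs_of_nonneg hM0]
      refine (norm_sum_le _ _).trans ?_
      calc ∑ y ∈ B0, ‖(ahat s A y x : ℂ) * (Pg (ahat s A) (gm s A) (mu y) f
            - Pg (ahat s A) (gm s A) (mu y) (cutx D1 x f))‖
          ≤ ∑ y ∈ B0, ahat s A y x * (Lp * M) := by
            refine Finset.sum_le_sum fun y hy => ?_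
            rw [norm_mul, Complex.norm_real, Real.norm_eq_abs, abs_of_nonneg (h0 y x)]
            refine mul_le_mul_of_nonneg_left ?_ (h0 y x)
            refine Pg_lip (hμ.m y) (hKm y) (hμ.lip y) _ _ fun v hv => ?_
            have hv2 : v ∈ H462.box x (R0 + D0) := box_trans hy hv
            have e5 : (ahat s A *ᵥ f) v - (ahat s A *ᵥ cutx D1 x f) v
                = ∑ Z, ahat s A v Z * (f Z - cutx D1 x f Z) := by
              simp only [mulVec, dotProduct]
              rw [← Finset.sum_sub_distrib]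
              exact Finset.sum_congr rfl fun Z _ => by ring
            rw [e5]
            refine (Finset.abs_sum_le_sum_abs _ _).trans ?_
            rw [← Finset.sum_add_sum_compl (H462.box x D1)]
            have hz : ∑ Z ∈ H462.box x D1, |ahat s A v Z * (f Z - cutx D1 x f Z)| = 0 := by
              refine Finset.sum_eq_zero fun Z hZ => ?_
              have e6 : cutx D1 x f Z = f Z := H552.cutB_of_mem hZ f
              rw [e6, sub_self, mul_zero, abs_zero]
            rw [hz, zero_add]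
            refine Finset.sum_le_sum fun Z hZ => ?_
            have e7 : cutx D1 x f Z = f x := by
              unfold cutx cutB
              rw [if_neg (Finset.mem_compl.1 hZ)]
            rw [abs_mul, abs_of_nonneg (h0 v Z), e7]
            refine mul_le_mul_of_nonneg_right ?_ (abs_nonneg _)
            exact Finset.single_le_sum (f := fun v => ahat s A v Z) (fun w _ => h0 w Z) hv2
        _ = (∑ y ∈ B0, ahat s A y x) * (Lp * M) := by rw [Finset.sum_mul]
        _ ≤ 1 * (Lp * M) := mul_le_mul_of_nonneg_right (hsub x) (by positivity)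
        _ = Lp * M := one_mul _
    refine (n2_mono ((memLp_wabs _ T cZ x).const_mul _) hpt).trans ?_
    rw [n2_const_mul, Complex.norm_real, Real.norm_eq_abs, abs_of_nonneg hLp]
    refine mul_le_mul_of_nonneg_left (hw.trans ?_) hLp
    exact mul_le_mul_of_nonneg_right hw2 (by linarith)
  rw [n2_congr fun b => e0 (B' *ᵥ b)]
  refine (n2_add_le (mT1.add mT2) mT3).trans ?_
  have := (n2_add_le mT1 mT2).trans (add_le_add n1 n2')
  exact (add_le_add this n3).trans (le_of_eq (by ring))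

end

end Vale.Agent.P159.H363
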