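import Vale.Agent.P159.H363.Cvg1
import Vale.Agent.P159.H733.Vt3

/-!
P159 / H363, assembly of VB10, part 2: the same local functional on two tori, any laws; reading on
the integer window.
-/

namespace Vale.Agent.P159.H363

open Finset Matrix MeasureTheory
open Vale.Agent.P159.H37 (qf gau gau_sum)
open Vale.Agent.P159.TM.Spec (V)
open Vale.Agent.P159.H864 (TI sym)
open Vale.Agent.P159.H462 (Dom ahat ti_ahat)
open Vale.Agent.P159.H767 (cst)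
open Vale.Agent.P159.H889 (Lcl dn cutx lamw tl tl_nonneg tl_eq n2_wabs memLp_wabs n2_dev
  memLp_abs_dev Pg_lip ch_Pg sum_compl_le box_trans self_mem_box)
open Vale.Agent.P159.H733.Torg (ip ip_zero)
open Vale.Agent.P159.H733.Vt (zb mem_zb zero_mem_zb zz zz_mem trp lft osc osc_nonneg Jz rz card_zb)
open scoped Real

noncomputable section

section osc

variable {N : ℕ} [NeZero N] {I : Type*} [Fintype I]

lemma osc_sum (D : ℕ) (x : V N) (B : Matrix (V N) I ℝ) (a : I → ℝ) :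
    ((osc D x (B *ᵥ a) : ℝ) : ℂ)
      = ∑ ζ ∈ zb D, ((|(B *ᵥ a) (x + ip N ζ) - (B *ᵥ a) x| : ℝ) : ℂ) := by
  unfold osc
  push_cast
  rfl

lemma memLp_osc_law (B : Matrix (V N) I ℝ) (D : ℕ) (x : V N) :
    MemLp (fun a : I → ℝ => ((osc D x (B *ᵥ a) : ℝ) : ℂ)) 2 (gau I) := by
  have e : (fun a : I → ℝ => ((osc D x (B *ᵥ a) : ℝ) : ℂ))
      = fun a => ∑ ζ ∈ zb D, ((|(B *ᵥ a) (x + ip N ζ) - (B *ᵥ a) x| : ℝ) : ℂ) :=
    funext fun a => osc_sum D x B a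
  rw [e]
  exact memLp_sum _ fun ζ _ => memLp_abs_dev B (x + ip N ζ) x

lemma n2_osc_law (B : Matrix (V N) I ℝ) {σ : ℝ} (hσ0 : 0 ≤ σ) (hσ : ∀ v, ∑ i, B v i ^ 2 ≤ σ ^ 2)
    (D : ℕ) (x : V N) :
    n2 (gau I) (fun a => ((osc D x (B *ᵥ a) : ℝ) : ℂ)) ≤ (2 * D + 1) ^ 2 * (2 * σ) := by
  rw [n2_congr fun a => osc_sum D x B a]
  refine (n2_sum_le (zb D) fun ζ _ => memLp_abs_dev B (x + ip N ζ) x).trans ?_
  refine (Finset.sum_le_sum fun ζ _ => n2_dev B hσ0 hσ (x + ip N ζ) x).trans (le_of_eq ?_)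
  rw [Finset.sum_const, nsmul_eq_mul, card_zb]

/-- a function bounded by a constant and the oscillation -/
lemma n2_le_osc (B : Matrix (V N) I ℝ) {σ : ℝ} (hσ0 : 0 ≤ σ) (hσ : ∀ v, ∑ i, B v i ^ 2 ≤ σ ^ 2)
    {D : ℕ} {x : V N} {u : (V N → ℝ) → ℂ} {a b : ℝ} (ha : 0 ≤ a) (hb : 0 ≤ b)
    (h : ∀ F, ‖u F‖ ≤ a + b * osc D x F) :
    n2 (gau I) (fun g => u (B *ᵥ g)) ≤ a + b * ((2 * D + 1) ^ 2 * (2 * σ)) := by
  have m0 : MemLp (fun _ : I → ℝ => (a : ℂ)) 2 (gau I) := memLp_const _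
  have m1 : MemLp (fun g : I → ℝ => (b : ℂ) * ((osc D x (B *ᵥ g) : ℝ) : ℂ)) 2 (gau I) :=
    (memLp_osc_law B D x).const_mul _
  have h1 : n2 (gau I) (fun g => u (B *ᵥ g)) ≤ n2 (gau I) (fun g =>
      (a : ℂ) + (b : ℂ) * ((osc D x (B *ᵥ g) : ℝ) : ℂ)) := by
    refine n2_mono (m0.add m1) fun g => (h _).trans (le_of_eq ?_)
    have h2 := osc_nonneg D x (B *ᵥ g)
    rw [← Complex.ofReal_mul, ← Complex.ofReal_add, Complex.norm_real, Real.norm_eq_abs,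
      abs_of_nonneg (by positivity)]
  refine h1.trans ((n2_add_le m0 m1).trans (add_le_add ?_ ?_))
  · refine n2_le_const m0.aestronglyMeasurable ha fun _ => ?_
    rw [Complex.norm_real, Real.norm_eq_abs, abs_of_nonneg ha]
  · rw [n2_const_mul, Complex.norm_real, Real.norm_eq_abs, abs_of_nonneg hb]
    exact mul_le_mul_of_nonneg_left (n2_osc_law B hσ0 hσ D x) hb

end osc

/-! ### the same functional on the second torus -/

section two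

variable {N1 N2 : ℕ} [NeZero N1] [NeZero N2] {A1 : Matrix (V N1) (V N1) ℝ}
  {A2 : Matrix (V N2) (V N2) ℝ} {ν c1 c2 s : ℝ}

/-- error of the local approximants of one torus -/
def eloc (A : Matrix (V N1) (V N1) ℝ) (s η K Lp σ : ℝ) (R0 D0 R : ℕ) : ℝ :=
  η + tl (ahat s A) R0 * K + Lp * ((2 * ((R0 + D0 : ℕ) : ℝ) + 1) ^ 2 * tl (ahat s A) R * (2 * σ))

/-- error of the transport of the functional -/
def etra (Km Lp e η σ : ℝ) (R0 D1 : ℕ) : ℝ :=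
  Km * ((2 * R0 + 1) ^ 2 * e) + 4 * η * Km + Lp * e * ((2 * D1 + 1) ^ 2 * (2 * σ))

/-- **densities on the torus `N2` against the window of the functional of the torus `N1`** -/
theorem lcl_law2 (h1 : Dom A1 ν c1) (h2 : Dom A2 ν c2) (hs : 0 < s)
    (o1 : ∀ x y, x ≠ y → A1 x y ≤ 0) (o2 : ∀ x y, x ≠ y → A2 x y ≤ 0) {R0 D0 D1 R : ℕ}
    (hD : R0 + D0 + R ≤ D1) (hN1 : 2 * D1 < N1) (hN2 : 2 * D1 < N2) {e η K Km Lp r : ℝ}
    (he : ∀ ζ ∈ zb (2 * D1), |ahat s A2 0 (ip N2 ζ) - ahat s A1 0 (ip N1 ζ)| ≤ e)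
    (hη2 : η ≤ 1 / 2) (hηe : (1 + s * ν) * (2 * D0 + 1) ^ 2 * e ≤ η)
    {A' : Matrix (V N1) (V N1) ℝ} {mu : V N1 → (V N1 → ℝ) → ℂ} (hmu : Lcl A' D0 0 Lp mu mu)
    (hKm : ∀ x F, ‖mu x F‖ ≤ Km)
    {u2 : V N2 → (V N2 → ℝ) → ℂ} (hm2 : ∀ x, Measurable (u2 x)) (hK : ∀ x F, ‖u2 x F‖ ≤ K)
    (hch2 : ∀ x, Ch (u2 x)) {I J : Type*} [Fintype I] [Fintype J]
    {B' : Matrix (V N2) I ℝ} {B : Matrix (V N2) J ℝ} {v0 : ℝ} (hv0 : 0 ≤ v0)
    (hBB : (ahat s A2 * B') * (ahat s A2 * B')ᵀ + gm s A2 * (gm s A2)ᵀ = B * Bᵀ + cst (V N2) v0)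
    {σ : ℝ} (hσ0 : 0 ≤ σ) (hσ : ∀ v, ∑ i, B' v i ^ 2 ≤ σ ^ 2)
    (hS : ∀ y, n2 (gau J) (fun g => u2 y (B *ᵥ g) - lft D0 mu y (B *ᵥ g)) ≤ r) (x : V N2) :
    n2 (gau I) (fun g => dn (ahat s A2) (gm s A2) u2 x (B' *ᵥ g)
      - lft D1 (lamw s A1 R0 D1 mu) x (B' *ᵥ g))
      ≤ eloc A2 s r K Lp σ R0 D0 R + etra Km Lp e η σ R0 D1 := by
  have hν := h1.hν
  have hLp := hmu.Lp_nonneg
  have hKm0 : 0 ≤ Km := (norm_nonneg _).trans (hKm 0 0)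
  have he0 : 0 ≤ e := (abs_nonneg _).trans (he 0 (zero_mem_zb _))
  have hη0 : 0 ≤ η := le_trans (by positivity) hηe
  have hL : Lcl (1 : Matrix (V N2) (V N2) ℝ) D0 0 Lp (lft D0 mu) (lft D0 mu) :=
    ⟨H733.Vt.measurable_lft hmu.m, ⟨Km, H733.Vt.norm_lft hKm⟩, H733.Vt.ch_lft hmu.ch,
      H733.Vt.cov_lft D0 mu, H733.Vt.loc_lft D0 mu, H733.Vt.lip_lft hmu.lip, fun x => by
        simp only [sub_self]
        exact (H733.Vt.tn2_zero _).le⟩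
  have L2 := lcl_law (x := x) h2 hs o2 hD hv0 hBB hσ0 hσ hm2 hK hch2 hL hS
  -- the window functional of the first torus
  have L1 := H889.lcl_window h1 hs o1 hD hmu.m hKm hmu.ch
    (⟨hmu.m, hmu.bd, hmu.ch, hmu.cov, hmu.loc, hmu.lip, fun x => by
        simp only [sub_self]
        exact (H733.Vt.tn2_zero _).le⟩ : Lcl A1 D0 0 Lp mu mu)
  have L2' := H889.lcl_window h2 hs o2 hD (H733.Vt.measurable_lft hmu.m) (H733.Vt.norm_lft hKm)
    (H733.Vt.ch_lft hmu.ch) (⟨hL.m, hL.bd, hL.ch, hL.cov, hL.loc, hL.lip, fun x => by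
        simp only [sub_self]
        exact (H733.Vt.tn2_zero _).le⟩ : Lcl A2 D0 0 Lp (lft D0 mu) (lft D0 mu))
  obtain ⟨Kl, hKl⟩ := L2'.bd
  obtain ⟨Kl', hKl'⟩ := L1.bd
  obtain ⟨Kd, hKd⟩ : ∃ Kd : ℝ, ∀ F, ‖dn (ahat s A2) (gm s A2) u2 x F‖ ≤ Kd :=
    ⟨_, fun F => H889.norm_dn_le hK x F⟩
  have md : Measurable (dn (ahat s A2) (gm s A2) u2 x) := H889.measurable_dn hm2 x
  have ma := L2'.m x
  have mb := H733.Vt.measurable_lft (N2 := N2) (D := D1) L1.m x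
  have l1 : MemLp (fun g => dn (ahat s A2) (gm s A2) u2 x (B' *ᵥ g)
      - lamw s A2 R0 D1 (lft D0 mu) x (B' *ᵥ g)) 2 (gau I) :=
    memLp_bdd (C := Kd + Kl) ((md.comp (measurable_mulVec _)).sub
      (ma.comp (measurable_mulVec _))).aestronglyMeasurable
      fun g => (norm_sub_le _ _).trans (add_le_add (hKd _) (hKl _ _))
  have l2 : MemLp (fun g => lamw s A2 R0 D1 (lft D0 mu) x (B' *ᵥ g)
      - lft D1 (lamw s A1 R0 D1 mu) x (B' *ᵥ g)) 2 (gau I) :=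
    memLp_bdd (C := Kl + Kl') ((ma.comp (measurable_mulVec _)).sub
      (mb.comp (measurable_mulVec _))).aestronglyMeasurable
      fun g => (norm_sub_le _ _).trans (add_le_add (hKl _ _) (H733.Vt.norm_lft hKl' _ _))
  have e1 : ∀ g : I → ℝ, dn (ahat s A2) (gm s A2) u2 x (B' *ᵥ g)
        - lft D1 (lamw s A1 R0 D1 mu) x (B' *ᵥ g)
      = (dn (ahat s A2) (gm s A2) u2 x (B' *ᵥ g) - lamw s A2 R0 D1 (lft D0 mu) x (B' *ᵥ g))
        + (lamw s A2 R0 D1 (lft D0 mu) x (B' *ᵥ g)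
          - lft D1 (lamw s A1 R0 D1 mu) x (B' *ᵥ g)) := fun g => by ring
  rw [n2_congr e1]
  refine (n2_add_le l1 l2).trans (add_le_add L2 ?_)
  refine n2_le_osc (x := x) (D := D1) B' hσ0 hσ (u := fun F =>
    lamw s A2 R0 D1 (lft D0 mu) x F - lft D1 (lamw s A1 R0 D1 mu) x F)
    (a := Km * ((2 * R0 + 1) ^ 2 * e) + 4 * η * Km) (b := Lp * e) (by positivity)
    (by positivity) fun F => ?_
  refine (H733.Vt.lamw_lft_le h1 h2 hs o1 (by omega) hN1 hN2 he hη2 hηe hmu.m hKm hmu.cov hLp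
    hmu.lip x F).trans (le_of_eq ?_)
  ring

end two

/-! ### reading on the integer window -/

section read

variable {N1 N2 : ℕ} [NeZero N1] [NeZero N2]

/-- the window points on the torus -/
def iz (N : ℕ) (D : ℕ) : Jz D → V N := fun ζ => ip N ζ.1

/-- the base point of the window -/
def jz0 (D : ℕ) : Jz D := ⟨0, zero_mem_zb D⟩

lemma iz_zero (N D : ℕ) : iz N D (jz0 D) = 0 := ip_zero N

lemma iz_inj {N D : ℕ} (h : 2 * D < N) : Function.Injective (iz N D) := by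
  have : NeZero N := ⟨by omega⟩
  intro a b hab
  have ha := mem_zb.1 a.2
  have hb := mem_zb.1 b.2
  exact Subtype.ext (H733.Torg.ip_inj h ha.1 ha.2 hb.1 hb.2 hab)

/-- the functional `lam 0` of the torus `N1` as a functional of window fields -/
def wfun (D : ℕ) (lam : V N1 → (V N1 → ℝ) → ℂ) (φ : Jz D → ℝ) : ℂ := lam 0 (rz D 0 φ)

lemma rz_sub {I : Type*} [Fintype I] (D : ℕ) (B : Matrix (V N2) I ℝ) (g : I → ℝ) :
    rz D (0 : V N1) (((B.submatrix (iz N2 D) id) : Matrix (Jz D) I ℝ) *ᵥ g)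
      = trp D (0 : V N1) (0 : V N2) (B *ᵥ g) := by
  funext v
  unfold rz trp
  rw [zero_add]
  rfl

lemma wfun_sub {I : Type*} [Fintype I] (D : ℕ) (lam : V N1 → (V N1 → ℝ) → ℂ)
    (B : Matrix (V N2) I ℝ) (g : I → ℝ) :
    wfun D lam (((B.submatrix (iz N2 D) id) : Matrix (Jz D) I ℝ) *ᵥ g)
      = lft D lam (0 : V N2) (B *ᵥ g) := by
  unfold wfun lft
  rw [rz_sub]

lemma lft_lamw {s : ℝ} {A : Matrix (V N1) (V N1) ℝ} {R0 D1 : ℕ} {mu : V N1 → (V N1 → ℝ) → ℂ}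
    (F : V N1 → ℝ) : lft D1 (lamw s A R0 D1 mu) (0 : V N1) F = lamw s A R0 D1 mu 0 F := by
  unfold lft
  rw [H733.Vt.trp_self]
  unfold lamw
  have e : cutx D1 0 (cutx D1 (0 : V N1) F) = cutx D1 0 F := by
    have h := H733.Vt.cutx_trp D1 (0 : V N1) (0 : V N1) F
    rw [H733.Vt.trp_self] at h
    exact h
  rw [e]

lemma measurable_wfun {D : ℕ} {lam : V N1 → (V N1 → ℝ) → ℂ} (h : ∀ x, Measurable (lam x)) :
    Measurable (wfun D lam) := (h 0).comp (H733.Vt.measurable_rz D 0)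

lemma ch_wfun {D : ℕ} {lam : V N1 → (V N1 → ℝ) → ℂ} (h : ∀ x, Ch (lam x)) :
    Ch (wfun D lam) := by
  intro φ t
  unfold wfun
  exact h 0 _ t

end read

end

end Vale.Agent.P159.H363
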