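import Vale.Agent.P159.H363.Cvg3

/-!
P159 / H363, assembly of VB10, part 4: the zero background activity of the big torus against the
small torus, all functional and Gaussian inputs discharged.
-/

set_option linter.unusedSectionVars false

namespace Vale.Agent.P159.H363

open Finset Matrix MeasureTheory ProbabilityTheory
open Vale.Agent.P159.TM.H764 (EE)
open Vale.Agent.P159.TM.Spec (V)
open Vale.Agent.P159.TM.SpecC (Tor wT)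
open Vale.Agent.P159.H37 (gau qf bf wt Rs)
open Vale.Agent.P159.H864 (TI sym fc cl)
open Vale.Agent.P159.H462 (Dom ahat Gam ti_ahat sym_ahat)
open Vale.Agent.P159.H767 (cst pt lT v1c cvp_fac cen)
open Vale.Agent.P159.H889 (Lcl dn cutx lamw tl tl_nonneg tl_eq uc mc)
open Vale.Agent.P159.H733.Torg (ip ip_zero ip_inj)
open Vale.Agent.P159.H733.Vt (zb mem_zb zero_mem_zb card_zb trp lft Jz)
open Vale.Agent.P159.H896 (om)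
open Vale.Agent.P159.H145 (mt)
open Vale.Agent.P159.H43 (omT)
open scoped Real

noncomputable section

section one

variable {N l : ℕ} [NeZero N] [NeZero (N / l)] {b T t t₁ : ℝ}

/-- the law of the field at `T` (noise between `T` and `t₁`, no constant mode) -/
abbrev Bfl (N l : ℕ) [NeZero N] [NeZero (N / l)] (b T t₁ : ℝ) :
    Matrix (V (N / l)) (V (N / l)) ℝ := gm0 (sn l T t₁) (acl N l b T T)

lemma laws_cl (hb : 0 ≤ b) (hl : l ∣ N) (ht₁ : 0 < t₁) (h1 : t₁ < t) (h : t < T) :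
    (ahat (sn l T t) (acl N l b T T) * Bcl N l b T t t₁)
        * (ahat (sn l T t) (acl N l b T T) * Bcl N l b T t t₁)ᵀ
      + gm (sn l T t) (acl N l b T T) * (gm (sn l T t) (acl N l b T T))ᵀ
      = Bfl N l b T t₁ * (Bfl N l b T t₁)ᵀ
        + cst (V (N / l)) (sn l T t / ((N / l : ℕ) : ℝ) ^ 2) := by
  have ht : 0 < t := ht₁.trans h1
  have hT : 0 < T := ht.trans h
  have hs10 : 0 < sn l T t := sn_pos hl ht h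
  have hs20 : 0 < sn l t t₁ := sn_pos hl ht₁ h1
  have h3 := two_steps (ti_acl (b := b) hb hl hT le_rfl) (sym_acl_nonneg hb hl hT le_rfl)
    (sym_acl_zero hl hb hT le_rfl) hs10 hs20.le
  rw [sn_add (l := l) (T := T) (t := t) (t₁ := t₁)] at h3
  exact h3

lemma sum_uc_eq (x : V (N / l)) (F : V (N / l) → ℝ) :
    psc N l b T t x F
      = dn (ahat (sn l T t) (acl N l b T T)) (gm (sn l T t) (acl N l b T T)) (uc N l b T) x F :=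
  rfl

lemma norm_mc_le (hb : 0 ≤ b) (hT : 0 < T) (hl : l ∣ N) (D0 : ℕ) (x : V (N / l))
    (F : V (N / l) → ℝ) : ‖mc N l b T D0 x F‖ ≤ (2 * π)⁻¹ * (T * (l : ℝ) ^ 2) :=
  H889.norm_uc_le hb hT hl x _

end one

/-- **VB10 on two cell tori** -/
theorem cvg {N₁ N₂ l : ℕ} [NeZero N₁] [NeZero (N₁ / l)] [NeZero N₂] [NeZero (N₂ / l)]
    {b T t t₁ : ℝ} (hb : 0 ≤ b) (hl₁ : l ∣ N₁) (hl₂ : l ∣ N₂) (ht₁ : 0 < t₁) (h1 : t₁ < t)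
    (h : t < T) (h12₁ : omT (wT b N₁) (mt N₁ T) ≤ 1 / 2) (h12₂ : omT (wT b N₂) (mt N₂ T) ≤ 1 / 2)
    -- mean weights
    {r r' : ℝ}
    (hr : 1 - (∫ g, Wcl N₁ l b T T (Bfl N₁ l b T t₁ *ᵥ g) ∂(gau (V (N₁ / l))))⁻¹ ≤ r)
    (hr' : 1 - (∫ g, Wcl N₂ l b T T (Bfl N₂ l b T t₁ *ᵥ g) ∂(gau (V (N₂ / l))))⁻¹ ≤ r')
    -- forms
    {ν c : ℝ} (d1 : Dom (acl N₁ l b T T) ν c) (d2 : Dom (acl N₂ l b T T) ν c)
    (o1 : ∀ x y, x ≠ y → acl N₁ l b T T x y ≤ 0) (o2 : ∀ x y, x ≠ y → acl N₂ l b T T x y ≤ 0)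
    -- windows
    {R0 D0 D1 R : ℕ} (hD : R0 + D0 + R ≤ D1) (h5 : 5 ≤ D1) (hN2 : 2 * D1 < N₂ / l)
    -- densities on the good sets
    {G₁ : V (N₁ / l) → Set (V (N₁ / l) → ℝ)} (mG₁ : ∀ x, MeasurableSet (G₁ x)) {r₁ p₁ : ℝ}
    (hr₁ : 0 ≤ r₁) (hp₁0 : 0 ≤ p₁)
    (loc₁ : ∀ x, ∀ F ∈ G₁ x, ‖uc N₁ l b T x F - mc N₁ l b T D0 x F‖ ≤ r₁)
    (hp₁ : ∀ x, (gau (V (N₁ / l))).real {g | Bfl N₁ l b T t₁ *ᵥ g ∉ G₁ x} ≤ p₁ ^ 2)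
    {G₂ : V (N₂ / l) → Set (V (N₂ / l) → ℝ)} (mG₂ : ∀ x, MeasurableSet (G₂ x)) {r₂ p₂ : ℝ}
    (hr₂ : 0 ≤ r₂) (hp₂0 : 0 ≤ p₂)
    (loc₂ : ∀ x, ∀ F ∈ G₂ x, ‖uc N₂ l b T x F - lft D0 (mc N₁ l b T D0) x F‖ ≤ r₂)
    (hp₂ : ∀ x, (gau (V (N₂ / l))).real {g | Bfl N₂ l b T t₁ *ᵥ g ∉ G₂ x} ≤ p₂ ^ 2)
    -- smoothing kernels on the two tori
    {e ηt σ : ℝ} (he : ∀ ζ ∈ zb (2 * D1), |ahat (sn l T t) (acl N₂ l b T T) 0 (ip (N₂ / l) ζ)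
      - ahat (sn l T t) (acl N₁ l b T T) 0 (ip (N₁ / l) ζ)| ≤ e)
    (hηt2 : ηt ≤ 1 / 2) (hηte : (1 + sn l T t * ν) * (2 * D0 + 1) ^ 2 * e ≤ ηt)
    (hσ0 : 0 ≤ σ) (hσ : vaw (ν⁻¹ + sn l T t)⁻¹ c e (tl (ahat (sn l T t) (acl N₁ l b T T)) R
      + tl (ahat (sn l T t) (acl N₂ l b T T)) R) (N₂ / l) D1 ≤ σ ^ 2)
    -- window laws
    {Tn : ℕ} (hTn : 1 ≤ Tn) {a : ℝ} (ha0 : 0 ≤ a) (ha : ∀ k, sym (acl N₁ l b T T) k ≤ a * EE k)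
    {L : ℝ} (hL : 2 ≤ L) (hLN : 2 * (L * (2 * D1) + 1) ≤ ((N₁ / l : ℕ) : ℝ)) {e1 : ℝ}
    (hlow : ∀ z : ℤ × ℤ, |z.1| ≤ 2 * D1 → |z.2| ≤ 2 * D1 →
      |fc (lT (sn l T t₁) ν Tn) (acl N₂ l b T T) 0 (pt (N₂ / l) z)
        - fc (lT (sn l T t₁) ν Tn) (acl N₁ l b T T) 0 (pt (N₁ / l) z)| ≤ e1)
    {θ μ η : ℝ} (hθ : 0 ≤ θ) (hθ1 : θ < 1)
    (hμ : (2 * (L * (2 * D1)) + 1) ^ 2 ≤ μ * ((N₁ / l : ℕ) : ℝ) ^ 2) (hμ1 : μ ≤ 1 / 2)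
    (hη : 2 * (2 * (D1 : ℝ) + 1) ^ 2 * (ν + (sn l T t₁)⁻¹)
      * H767.eps (sn l T t₁) ν c Tn D1 e1 ≤ (1 - θ) * η)
    (hη0 : 0 ≤ η) (hη2 : η ≤ 1 / 2)
    -- exponents
    {v1 w1 w2 : ℝ} (hv1 : v1 = v1c a (sn l T t₁) D1 L θ μ)
    (hw1 : w1 = (sn l t t₁ / sn l T t₁) ^ 2 * v1
      - sn l T t * sn l t t₁ / sn l T t₁ / ((N₁ / l : ℕ) : ℝ) ^ 2)
    (hw2 : w2 = (sn l t t₁ / sn l T t₁) ^ 2 * (v1
        + ((Gam (sn l T t₁) (acl N₂ l b T T) 0 0 - sn l T t₁ / ((N₂ / l : ℕ) : ℝ) ^ 2)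
          - (Gam (sn l T t₁) (acl N₁ l b T T) 0 0 - sn l T t₁ / ((N₁ / l : ℕ) : ℝ) ^ 2)))
      - sn l T t * sn l t t₁ / sn l T t₁ / ((N₂ / l : ℕ) : ℝ) ^ 2)
    (hw10 : 0 ≤ w1) (hw20 : 0 ≤ w2)
    -- errors
    {q1 q2 : ℝ}
    (hq1 : q1 = eloc (acl N₁ l b T T) (sn l T t) (r₁ + π⁻¹ * (T * (l : ℝ) ^ 2) * p₁)
      ((2 * π)⁻¹ * (T * (l : ℝ) ^ 2)) (π⁻¹ * (T * (l : ℝ) ^ 2))
      (H889.sg (acl N₁ l b T T * ahat (sn l T t) (acl N₁ l b T T))) R0 D0 R)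
    (hq2 : q2 = eloc (acl N₂ l b T T) (sn l T t) (r₂ + π⁻¹ * (T * (l : ℝ) ^ 2) * p₂)
      ((2 * π)⁻¹ * (T * (l : ℝ) ^ 2)) (π⁻¹ * (T * (l : ℝ) ^ 2))
      (H889.sg (acl N₂ l b T T * ahat (sn l T t) (acl N₂ l b T T))) R0 D0 R
      + etr2 ((2 * π)⁻¹ * (T * (l : ℝ) ^ 2)) (π⁻¹ * (T * (l : ℝ) ^ 2)) e ηt σ R0 D0) :
    om (wT b N₂) (mt N₂ t₁) 1 ≤
      ((N₂ / l : ℕ) : ℝ) ^ 2 * (q2 + Real.exp (-(2 * π ^ 2 * w2)) *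
        (Real.exp (2 * π ^ 2 * w1) *
            ((omh N₁ l b T t t₁ + Eto N₁ l b T r) / ((N₁ / l : ℕ) : ℝ) ^ 2 + q1)
          + 2 * η * (Sto N₁ l b T t + q1)))
      + Eto N₂ l b T r' := by
  have ht : 0 < t := ht₁.trans h1
  have hT : 0 < T := ht.trans h
  have hs1 : 0 < sn l T t := sn_pos hl₁ ht h
  have hs2 : 0 < sn l t t₁ := sn_pos hl₁ ht₁ h1
  have hs12 : 0 < sn l T t₁ := sn_pos hl₁ ht₁ (h1.trans h)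
  have hc := d1.hc
  have hn1 : (0 : ℝ) < ((N₁ / l : ℕ) : ℝ) := by exact_mod_cast NeZero.pos (N₁ / l)
  have hN1 : 2 * D1 < N₁ / l := by
    have h3 : (2 * (D1 : ℝ)) < ((N₁ / l : ℕ) : ℝ) := by
      have : (0 : ℝ) ≤ D1 := Nat.cast_nonneg _
      nlinarith
    exact_mod_cast h3
  have hmc := H358.lcl_mc (b := b) (t := T) hb hT hl₁ (1 : Matrix (V (N₁ / l)) (V (N₁ / l)) ℝ) D0
  have bmc : ∀ x F, ‖mc N₁ l b T D0 x F‖ ≤ (2 * π)⁻¹ * (T * (l : ℝ) ^ 2) :=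
    norm_mc_le hb hT hl₁ D0
  have hu1 : ∀ x, Measurable (uc N₁ l b T x) := fun x => (H889.continuous_uc hb hT x).measurable
  have hu2 : ∀ x, Measurable (uc N₂ l b T x) := fun x => (H889.continuous_uc hb hT x).measurable
  have bu1 := fun x F => H889.norm_uc_le (N := N₁) (l := l) (b := b) (t := T) hb hT hl₁ x F
  have bu2 := fun x F => H889.norm_uc_le (N := N₂) (l := l) (b := b) (t := T) hb hT hl₂ x F
  have e2π : (2 * π)⁻¹ * (T * (l : ℝ) ^ 2) + (2 * π)⁻¹ * (T * (l : ℝ) ^ 2)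
      = π⁻¹ * (T * (l : ℝ) ^ 2) := by
    have := Real.pi_pos
    field_simp
    ring
  -- first torus
  have near1 : ∀ y, n2 (gau (V (N₁ / l))) (fun g => uc N₁ l b T y (Bfl N₁ l b T t₁ *ᵥ g)
      - mc N₁ l b T D0 y (Bfl N₁ l b T t₁ *ᵥ g)) ≤ r₁ + π⁻¹ * (T * (l : ℝ) ^ 2) * p₁ := fun y =>
    n2_good_law (u := fun F => uc N₁ l b T y F - mc N₁ l b T D0 y F)
      ((hu1 y).sub (hmc.m y)) (fun F => (norm_sub_le _ _).trans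
        ((add_le_add (bu1 y F) (bmc y F)).trans (le_of_eq e2π))) (mG₁ y) hr₁ hp₁0 (loc₁ y) (hp₁ y)
  have Q1 := lcl_law (x := (0 : V (N₁ / l))) d1 hs1 o1 hD (by positivity)
    (laws_cl hb hl₁ ht₁ h1 h) (H889.sg_nonneg _)
    (fun v => (below_coarse d1 hs1 hs2.le).row v) hu1 bu1 (H889.ch_uc hb hT) hmc near1
  -- second torus
  have bl : ∀ x F, ‖lft (N1 := N₁ / l) (N2 := N₂ / l) D0 (mc N₁ l b T D0) x F‖
      ≤ (2 * π)⁻¹ * (T * (l : ℝ) ^ 2) := H733.Vt.norm_lft bmc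
  have near2 : ∀ y, n2 (gau (V (N₂ / l))) (fun g => uc N₂ l b T y (Bfl N₂ l b T t₁ *ᵥ g)
      - lft D0 (mc N₁ l b T D0) y (Bfl N₂ l b T t₁ *ᵥ g))
      ≤ r₂ + π⁻¹ * (T * (l : ℝ) ^ 2) * p₂ := fun y =>
    n2_good_law (u := fun F => uc N₂ l b T y F - lft D0 (mc N₁ l b T D0) y F)
      ((hu2 y).sub (H733.Vt.measurable_lft hmc.m y)) (fun F => (norm_sub_le _ _).trans
        ((add_le_add (bu2 y F) (bl y F)).trans (le_of_eq e2π))) (mG₂ y) hr₂ hp₂0 (loc₂ y) (hp₂ y)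
  have Q2 := lcl_two (x := (0 : V (N₂ / l))) d1 d2 hs1 o1 o2 hD hN1 hN2 he hηt2 hηte hmc bmc hu2
    bu2 (H889.ch_uc hb hT) (by positivity) (laws_cl hb hl₂ ht₁ h1 h) (below_coarse d2 hs1 hs2.le)
    hσ0 hσ near2
  -- the window functional
  have L1 := H889.lcl_window d1 hs1 o1 hD hmc.m bmc hmc.ch
    (⟨hmc.m, hmc.bd, hmc.ch, hmc.cov, hmc.loc, hmc.lip, fun x => by
        simp only [sub_self]
        exact (H733.Vt.tn2_zero _).le⟩ : Lcl (acl N₁ l b T T) D0 0 _ (mc N₁ l b T D0) _)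
  obtain ⟨Kl, hKl⟩ := L1.bd
  -- window laws
  have hw : ∀ x : Jz D1, |(x.1).1| ≤ (D1 : ℤ) ∧ |(x.1).2| ≤ (D1 : ℤ) := by
    intro x
    have h3 := mem_zb.1 x.2
    rw [← Int.natCast_natAbs, ← Int.natCast_natAbs]
    exact ⟨by exact_mod_cast h3.1, by exact_mod_cast h3.2⟩
  have hcard := H733.Vt.card_Jz D1
  obtain ⟨E₁, E₂, H, f1, f2, f3, f4, f5, -⟩ := cvp_fac d1 d2 hs12 hTn ha0 ha h5 hL hLN
    (w := fun x : Jz D1 => x.1) Subtype.val_injective hw hlow hθ hθ1 hμ hμ1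
    (by rw [hcard]; exact hη) hη2
  have main := two_tori1 (ι₁ := iz (N₁ / l) D1) (ι₂ := iz (N₂ / l) D1) hb hl₁ hl₂ ht₁ h1 h h12₁
    h12₂ hr hr' (iz_inj hN1) (iz_inj hN2) (jz0 D1) (ψW := wfun D1 (lamw (sn l T t)
      (acl N₁ l b T T) R0 D1 (mc N₁ l b T D0))) (ch_wfun L1.ch) (measurable_wfun L1.m)
    (C := Kl) (fun F => hKl _ _) (q1 := q1) (q2 := q2) ?_ ?_ f1 f2 f3 f4 hη0 hη2 f5 rfl rfl
    (w1 := w1) (w2 := w2) ?_ ?_ hw10 hw20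
  · exact main
  · rw [hq1]
    refine le_trans (le_of_eq (n2_congr fun g => ?_)) Q1
    rw [wfun_sub, iz_zero, lft_lamw, sum_uc_eq]
  · rw [hq2]
    refine le_trans (le_of_eq (n2_congr fun g => ?_)) Q2
    rw [wfun_sub, iz_zero, sum_uc_eq]
  · rw [hw1, hv1]
  · rw [hw2, hv1]

end

end Vale.Agent.P159.H363
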