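import Vale.Agent.P159.H363.Cvg4
import Vale.Agent.P159.H316.Zb12

/-!
P159 / H363, assembly of VB10, part 5: good fields of helper358; comparison with helper316's number.
-/

set_option linter.unusedSectionVars false

namespace Vale.Agent.P159.H363

open Finset Matrix MeasureTheory ProbabilityTheory
open Vale.Agent.P159.TM.Spec (V)
open Vale.Agent.P159.TM.SpecC (Tor wT)
open Vale.Agent.P159.H37 (gau qf bf wt Rs)
open Vale.Agent.P159.H864 (TI sym fc cl)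
open Vale.Agent.P159.H889 (uc mc cutx)
open Vale.Agent.P159.H733.Torg (ip)
open Vale.Agent.P159.H733.Vt (lft trp)
open Vale.Agent.P159.H358 (UG GdF eru erR kn rdx uc_two)
open scoped Real

noncomputable section

/-- the densities on the second torus at good fields -/
theorem gdf_near {N M l : ℕ} [NeZero N] [NeZero M] [NeZero (N / l)] [NeZero (M / l)] {b : ℝ}
    {hb : 0 ≤ b} {ξ : ℕ} {t y y' c C c4 C4 : ℝ} {r D0 D1 : ℕ} {D : ℝ}
    (H : UG N M l b hb ξ t y y' c C c4 C4 r D0 D1 D) {G τ τ₀ r₁ : ℝ} (hG0 : 0 ≤ G)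
    (hτN : τ₀ + erR ξ t c C G (kn l ξ D1) r + t * (N : ℝ) ^ 2 * H358.om N b t * (4 * G + 2) ≤ τ)
    (hτM : τ₀ + t * (M : ℝ) ^ 2 * H358.om M b t * (4 * G + 2) ≤ τ) (x : V (M / l))
    {F : V (M / l) → ℝ} (hF : GdF M l b t D0 D1 r₁ G τ₀ x F) :
    ‖uc M l b t x F - lft D0 (mc N l b t D0) x F‖
      ≤ r₁ + |eru N M l ξ t c C c4 C4 D τ G (kn l ξ D1) r| := by
  have a1 := hF.loc
  have a2 := uc_two H hG0 (0 : V (N / l)) x hF.osc hF.r0 hF.r2 hτN hτM
  have e1 : lft D0 (mc N l b t D0) x F = uc N l b t 0 (rdx (N / l) D0 x (0 : V (N / l)) F) := by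
    rw [← H358.mc_rdx, H358.rdx_trp]
    rfl
  have a3 : uc M l b t x F - lft D0 (mc N l b t D0) x F
      = (uc M l b t x F - uc M l b t x (cutx D0 x F))
        + (uc M l b t x (cutx D0 x F) - uc N l b t 0 (rdx (N / l) D0 x (0 : V (N / l)) F)) := by
    rw [e1]
    ring
  rw [a3]
  exact (norm_add_le _ _).trans (add_le_add a1 (a2.trans (le_abs_self _)))

section cmp

variable {N l : ℕ} [NeZero N] [NeZero (N / l)] {b T t t₁ : ℝ}

/-- the hat activity against the number of helper316 -/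
theorem omh_le (hb : 0 ≤ b) (hl : l ∣ N) (ht₁ : 0 < t₁) (ht : 0 < t) (h : t₁ ≤ T) :
    omh N l b T t t₁ ≤ H316.omh N l b T t₁ := by
  have hT : 0 < T := ht₁.trans_le h
  have hW := wm_MC (b := b) (N := N) hb hl ht₁ h
  have hom := H896.om_nonneg hW 1
  have hn : (0 : ℝ) < ((N / l : ℕ) : ℝ) := by exact_mod_cast NeZero.pos (N / l)
  have hlp : (0 : ℝ) < l := by exact_mod_cast H864.l_pos hl
  have hNl : (N : ℝ) = ((N / l : ℕ) : ℝ) * l := by
    rw [← Nat.cast_mul, Nat.div_mul_cancel hl]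
  have h1 := (H963.gw_wT hb).om_eq (H963.mf_MC hl ht₁ h) hW (0 : V N) 1
  have hcard : (Fintype.card (V N) : ℝ) = ((N / l : ℕ) : ℝ) ^ 2 * (l : ℝ) ^ 2 := by
    rw [TM.H764.card_V, hNl]
    ring
  have h2 : H316.omh N l b T t₁
      = Real.exp (2 * π ^ 2 / (t₁ * Fintype.card (V N))) * H896.om (wT b N) (H864.MC N l T t₁) 1 := by
    rw [h1, ← mul_assoc, H963.eq2, ← Real.exp_add, H316.omh]
    have : 2 * π ^ 2 / (t₁ * (Fintype.card (V N) : ℝ)) +
        -(2 * π ^ 2 * ((1 : ℤ) : ℝ) ^ 2 / (t₁ * (Fintype.card (V N) : ℝ))) = 0 := by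
      push_cast
      ring
    rw [this, Real.exp_zero, one_mul]
  rw [h2, omh]
  refine mul_le_mul_of_nonneg_right (Real.exp_le_exp.2 ?_) hom
  rw [hcard, sn]
  have : 2 * π ^ 2 * ((t₁⁻¹ - t⁻¹) / (l : ℝ) ^ 2 / ((N / l : ℕ) : ℝ) ^ 2)
      = 2 * π ^ 2 / (t₁ * (((N / l : ℕ) : ℝ) ^ 2 * (l : ℝ) ^ 2))
        - 2 * π ^ 2 / (t * (((N / l : ℕ) : ℝ) ^ 2 * (l : ℝ) ^ 2)) := by
    field_simp
  rw [this]
  have : 0 < 2 * π ^ 2 / (t * (((N / l : ℕ) : ℝ) ^ 2 * (l : ℝ) ^ 2)) := by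
    have := Real.pi_pos
    positivity
  linarith

end cmp

end

end Vale.Agent.P159.H363
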