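import Vale.Agent.P159.H363.Cvg5

/-!
P159 / H363, assembly of VB10, part 6: the same with any local approximants of the densities.
-/

set_option linter.unusedSectionVars false

namespace Vale.Agent.P159.H363

open Finset Matrix MeasureTheory ProbabilityTheory
open Vale.Agent.P159.TM.H764 (EE)
open Vale.Agent.P159.TM.Spec (V)
open Vale.Agent.P159.TM.SpecC (Tor wT)
open Vale.Agent.P159.H37 (gau qf bf wt Rs)
open Vale.Agent.P159.H864 (TI sym fc cl)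
open Vale.Agent.P159.H462 (Dom ahat Gam ti_ahat sym_ahat)
open Vale.Agent.P159.H767 (cst pt lT v1c cvp_fac cen)
open Vale.Agent.P159.H889 (Lcl dn cutx lamw tl tl_nonneg tl_eq uc mc)
open Vale.Agent.P159.H733.Torg (ip ip_zero ip_inj)
open Vale.Agent.P159.H733.Vt (zb mem_zb zero_mem_zb card_zb trp lft Jz)
open Vale.Agent.P159.H896 (om)
open Vale.Agent.P159.H145 (mt)
open Vale.Agent.P159.H43 (omT)
open scoped Real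

noncomputable section

/-- **VB10 on two cell tori, any local approximants** `mu` of the densities (on the first torus) -/
theorem cvgn {N₁ N₂ l : ℕ} [NeZero N₁] [NeZero (N₁ / l)] [NeZero N₂] [NeZero (N₂ / l)]
    {b T t t₁ : ℝ} (hb : 0 ≤ b) (hl₁ : l ∣ N₁) (hl₂ : l ∣ N₂) (ht₁ : 0 < t₁) (h1 : t₁ < t)
    (h : t < T) (h12₁ : omT (wT b N₁) (mt N₁ T) ≤ 1 / 2) (h12₂ : omT (wT b N₂) (mt N₂ T) ≤ 1 / 2)
    -- mean weights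
    {r r' : ℝ}
    (hr : 1 - (∫ g, Wcl N₁ l b T T (Bfl N₁ l b T t₁ *ᵥ g) ∂(gau (V (N₁ / l))))⁻¹ ≤ r)
    (hr' : 1 - (∫ g, Wcl N₂ l b T T (Bfl N₂ l b T t₁ *ᵥ g) ∂(gau (V (N₂ / l))))⁻¹ ≤ r')
    -- forms
    {ν c : ℝ} (d1 : Dom (acl N₁ l b T T) ν c) (d2 : Dom (acl N₂ l b T T) ν c)
    (o1 : ∀ x y, x ≠ y → acl N₁ l b T T x y ≤ 0) (o2 : ∀ x y, x ≠ y → acl N₂ l b T T x y ≤ 0)
    -- windows
    {R0 D0 D1 R : ℕ} (hD : R0 + D0 + R ≤ D1) (h5 : 5 ≤ D1) (hN2 : 2 * D1 < N₂ / l)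
    -- local approximants of the densities
    {mu : V (N₁ / l) → (V (N₁ / l) → ℝ) → ℂ} {Lp : ℝ} (hmu : Lcl (1 : Matrix (V (N₁ / l)) (V (N₁ / l)) ℝ) D0 0 Lp mu mu)
    (bmu : ∀ x F, ‖mu x F‖ ≤ (2 * π)⁻¹ * (T * (l : ℝ) ^ 2)) {ρ₁ ρ₂ : ℝ}
    (near1 : ∀ y, n2 (gau (V (N₁ / l))) (fun g => uc N₁ l b T y (Bfl N₁ l b T t₁ *ᵥ g)
      - mu y (Bfl N₁ l b T t₁ *ᵥ g)) ≤ ρ₁)
    (near2 : ∀ y, n2 (gau (V (N₂ / l))) (fun g => uc N₂ l b T y (Bfl N₂ l b T t₁ *ᵥ g)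
      - lft D0 mu y (Bfl N₂ l b T t₁ *ᵥ g)) ≤ ρ₂)
    -- smoothing kernels on the two tori
    {e ηt σ : ℝ} (he : ∀ ζ ∈ zb (2 * D1), |ahat (sn l T t) (acl N₂ l b T T) 0 (ip (N₂ / l) ζ)
      - ahat (sn l T t) (acl N₁ l b T T) 0 (ip (N₁ / l) ζ)| ≤ e)
    (hηt2 : ηt ≤ 1 / 2) (hηte : (1 + sn l T t * ν) * (2 * D0 + 1) ^ 2 * e ≤ ηt)
    (hσ0 : 0 ≤ σ) (hσ : vaw (ν⁻¹ + sn l T t)⁻¹ c e (tl (ahat (sn l T t) (acl N₁ l b T T)) R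
      + tl (ahat (sn l T t) (acl N₂ l b T T)) R) (N₂ / l) D1 ≤ σ ^ 2)
    -- window laws
    {Tn : ℕ} (hTn : 1 ≤ Tn) {a : ℝ} (ha0 : 0 ≤ a) (ha : ∀ k, sym (acl N₁ l b T T) k ≤ a * EE k)
    {L : ℝ} (hL : 2 ≤ L) (hLN : 2 * (L * (2 * D1) + 1) ≤ ((N₁ / l : ℕ) : ℝ)) {e1 : ℝ}
    (hlow : ∀ z : ℤ × ℤ, |z.1| ≤ 2 * D1 → |z.2| ≤ 2 * D1 →
      |fc (lT (sn l T t₁) ν Tn) (acl N₂ l b T T) 0 (pt (N₂ / l) z)
        - fc (lT (sn l T t₁) ν Tn) (acl N₁ l b T T) 0 (pt (N₁ / l) z)| ≤ e1)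
    {θ μ η : ℝ} (hθ : 0 ≤ θ) (hθ1 : θ < 1)
    (hμ : (2 * (L * (2 * D1)) + 1) ^ 2 ≤ μ * ((N₁ / l : ℕ) : ℝ) ^ 2) (hμ1 : μ ≤ 1 / 2)
    (hη : 2 * (2 * (D1 : ℝ) + 1) ^ 2 * (ν + (sn l T t₁)⁻¹)
      * H767.eps (sn l T t₁) ν c Tn D1 e1 ≤ (1 - θ) * η)
    (hη0 : 0 ≤ η) (hη2 : η ≤ 1 / 2)
    -- exponents
    {v1 w1 w2 : ℝ} (hv1 : v1 = v1c a (sn l T t₁) D1 L θ μ)
    (hw1 : w1 = (sn l t t₁ / sn l T t₁) ^ 2 * v1
      - sn l T t * sn l t t₁ / sn l T t₁ / ((N₁ / l : ℕ) : ℝ) ^ 2)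
    (hw2 : w2 = (sn l t t₁ / sn l T t₁) ^ 2 * (v1
        + ((Gam (sn l T t₁) (acl N₂ l b T T) 0 0 - sn l T t₁ / ((N₂ / l : ℕ) : ℝ) ^ 2)
          - (Gam (sn l T t₁) (acl N₁ l b T T) 0 0 - sn l T t₁ / ((N₁ / l : ℕ) : ℝ) ^ 2)))
      - sn l T t * sn l t t₁ / sn l T t₁ / ((N₂ / l : ℕ) : ℝ) ^ 2)
    (hw10 : 0 ≤ w1) (hw20 : 0 ≤ w2)
    -- errors
    {q1 q2 : ℝ}
    (hq1 : q1 = eloc (acl N₁ l b T T) (sn l T t) ρ₁
      ((2 * π)⁻¹ * (T * (l : ℝ) ^ 2)) Lp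
      (H889.sg (acl N₁ l b T T * ahat (sn l T t) (acl N₁ l b T T))) R0 D0 R)
    (hq2 : q2 = eloc (acl N₂ l b T T) (sn l T t) ρ₂
      ((2 * π)⁻¹ * (T * (l : ℝ) ^ 2)) Lp
      (H889.sg (acl N₂ l b T T * ahat (sn l T t) (acl N₂ l b T T))) R0 D0 R
      + etr2 ((2 * π)⁻¹ * (T * (l : ℝ) ^ 2)) Lp e ηt σ R0 D0) :
    om (wT b N₂) (mt N₂ t₁) 1 ≤
      ((N₂ / l : ℕ) : ℝ) ^ 2 * (q2 + Real.exp (-(2 * π ^ 2 * w2)) *
        (Real.exp (2 * π ^ 2 * w1) *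
            ((omh N₁ l b T t t₁ + Eto N₁ l b T r) / ((N₁ / l : ℕ) : ℝ) ^ 2 + q1)
          + 2 * η * (Sto N₁ l b T t + q1)))
      + Eto N₂ l b T r' := by
  have ht : 0 < t := ht₁.trans h1
  have hT : 0 < T := ht.trans h
  have hs1 : 0 < sn l T t := sn_pos hl₁ ht h
  have hs2 : 0 < sn l t t₁ := sn_pos hl₁ ht₁ h1
  have hs12 : 0 < sn l T t₁ := sn_pos hl₁ ht₁ (h1.trans h)
  have hc := d1.hc
  have hn1 : (0 : ℝ) < ((N₁ / l : ℕ) : ℝ) := by exact_mod_cast NeZero.pos (N₁ / l)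
  have hN1 : 2 * D1 < N₁ / l := by
    have h3 : (2 * (D1 : ℝ)) < ((N₁ / l : ℕ) : ℝ) := by
      have : (0 : ℝ) ≤ D1 := Nat.cast_nonneg _
      nlinarith
    exact_mod_cast h3
  have hu1 : ∀ x, Measurable (uc N₁ l b T x) := fun x => (H889.continuous_uc hb hT x).measurable
  have hu2 : ∀ x, Measurable (uc N₂ l b T x) := fun x => (H889.continuous_uc hb hT x).measurable
  have bu1 := fun x F => H889.norm_uc_le (N := N₁) (l := l) (b := b) (t := T) hb hT hl₁ x F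
  have bu2 := fun x F => H889.norm_uc_le (N := N₂) (l := l) (b := b) (t := T) hb hT hl₂ x F
  have Q1 := lcl_law (x := (0 : V (N₁ / l))) d1 hs1 o1 hD (by positivity)
    (laws_cl hb hl₁ ht₁ h1 h) (H889.sg_nonneg _)
    (fun v => (below_coarse d1 hs1 hs2.le).row v) hu1 bu1 (H889.ch_uc hb hT) hmu near1
  -- second torus
  have Q2 := lcl_two (x := (0 : V (N₂ / l))) d1 d2 hs1 o1 o2 hD hN1 hN2 he hηt2 hηte hmu bmu hu2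
    bu2 (H889.ch_uc hb hT) (by positivity) (laws_cl hb hl₂ ht₁ h1 h) (below_coarse d2 hs1 hs2.le)
    hσ0 hσ near2
  -- the window functional
  have L1 := H889.lcl_window d1 hs1 o1 hD hmu.m bmu hmu.ch
    (⟨hmu.m, hmu.bd, hmu.ch, hmu.cov, hmu.loc, hmu.lip, fun x => by
        simp only [sub_self]
        exact (H733.Vt.tn2_zero _).le⟩ : Lcl (acl N₁ l b T T) D0 0 _ mu _)
  obtain ⟨Kl, hKl⟩ := L1.bd
  -- window laws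
  have hw : ∀ x : Jz D1, |(x.1).1| ≤ (D1 : ℤ) ∧ |(x.1).2| ≤ (D1 : ℤ) := by
    intro x
    have h3 := mem_zb.1 x.2
    rw [← Int.natCast_natAbs, ← Int.natCast_natAbs]
    exact ⟨by exact_mod_cast h3.1, by exact_mod_cast h3.2⟩
  have hcard := H733.Vt.card_Jz D1
  obtain ⟨E₁, E₂, H, f1, f2, f3, f4, f5, -⟩ := cvp_fac d1 d2 hs12 hTn ha0 ha h5 hL hLN
    (w := fun x : Jz D1 => x.1) Subtype.val_injective hw hlow hθ hθ1 hμ hμ1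
    (by rw [hcard]; exact hη) hη2
  have main := two_tori1 (ι₁ := iz (N₁ / l) D1) (ι₂ := iz (N₂ / l) D1) hb hl₁ hl₂ ht₁ h1 h h12₁
    h12₂ hr hr' (iz_inj hN1) (iz_inj hN2) (jz0 D1) (ψW := wfun D1 (lamw (sn l T t)
      (acl N₁ l b T T) R0 D1 mu)) (ch_wfun L1.ch) (measurable_wfun L1.m)
    (C := Kl) (fun F => hKl _ _) (q1 := q1) (q2 := q2) ?_ ?_ f1 f2 f3 f4 hη0 hη2 f5 rfl rfl
    (w1 := w1) (w2 := w2) ?_ ?_ hw10 hw20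
  · exact main
  · rw [hq1]
    refine le_trans (le_of_eq (n2_congr fun g => ?_)) Q1
    rw [wfun_sub, iz_zero, lft_lamw, sum_uc_eq]
  · rw [hq2]
    refine le_trans (le_of_eq (n2_congr fun g => ?_)) Q2
    rw [wfun_sub, iz_zero, sum_uc_eq]
  · rw [hw1, hv1]
  · rw [hw2, hv1]


section near

variable {N l : ℕ} [NeZero N] [NeZero (N / l)] {b T : ℝ}

/-- closeness of the densities to local approximants from a good set, any law -/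
lemma near_uc (hb : 0 ≤ b) (hl : l ∣ N) (hT : 0 < T) {mu : (V (N / l) → ℝ) → ℂ}
    (hm : Measurable mu) (bm : ∀ F, ‖mu F‖ ≤ (2 * π)⁻¹ * (T * (l : ℝ) ^ 2)) (y : V (N / l))
    {I : Type*} [Fintype I] {B : Matrix (V (N / l)) I ℝ} {G : Set (V (N / l) → ℝ)}
    (mG : MeasurableSet G) {r p : ℝ} (hr : 0 ≤ r) (hp0 : 0 ≤ p)
    (loc : ∀ F ∈ G, ‖uc N l b T y F - mu F‖ ≤ r)
    (hp : (gau I).real {g | B *ᵥ g ∉ G} ≤ p ^ 2) :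
    n2 (gau I) (fun g => uc N l b T y (B *ᵥ g) - mu (B *ᵥ g))
      ≤ r + π⁻¹ * (T * (l : ℝ) ^ 2) * p := by
  have e2π : (2 * π)⁻¹ * (T * (l : ℝ) ^ 2) + (2 * π)⁻¹ * (T * (l : ℝ) ^ 2)
      = π⁻¹ * (T * (l : ℝ) ^ 2) := by
    have := Real.pi_pos
    field_simp
    ring
  exact n2_good_law (u := fun F => uc N l b T y F - mu F)
    ((H889.continuous_uc hb hT y).measurable.sub hm) (fun F => (norm_sub_le _ _).trans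
      ((add_le_add (H889.norm_uc_le hb hT hl y F) (bm F)).trans (le_of_eq e2π))) mG hr hp0 loc hp

end near

end

end Vale.Agent.P159.H363
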