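import Vale.Agent.P159.H363.Cvg6

/-!
P159 / H363, VB10 with reference forms, part 1: change of the form of the noise; one torus with a
reference form `B` in place of `acl N l b T T`.
-/

set_option linter.unusedSectionVars false

namespace Vale.Agent.P159.H363

open Finset Matrix MeasureTheory ProbabilityTheory
open Vale.Agent.P159.TM.H764 (EE)
open Vale.Agent.P159.TM.Spec (V)
open Vale.Agent.P159.TM.SpecC (Tor wT)
open Vale.Agent.P159.H37 (gau qf bf wt Rs)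
open Vale.Agent.P159.H864 (TI sym fc cl MC)
open Vale.Agent.P159.H462 (Dom ahat Gam ti_ahat sym_ahat)
open Vale.Agent.P159.H767 (cst)
open Vale.Agent.P159.H889 (Dif dn uc)
open Vale.Agent.P159.H896 (om Ph)
open Vale.Agent.P159.H145 (mt)
open Vale.Agent.P159.H43 (omT)
open scoped Real

noncomputable section

section law

variable {n : ℕ} [NeZero n] {A B : Matrix (V n) (V n) ℝ} {s η : ℝ}

/-- relative change of the noise covariance -/
def hch (s : ℝ) (A B : Matrix (V n) (V n) ℝ) : Matrix (V n) (V n) ℝ :=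
  H864.mlt fun k => if k = 0 then 0 else s * (sym A k - sym B k) / (1 + s * sym B k)

lemma ti_hch : TI (hch s A B) := H864.ti_mlt _

lemma sym_hch (k : V n) : sym (hch s A B) k
    = if k = 0 then 0 else s * (sym A k - sym B k) / (1 + s * sym B k) := by
  unfold hch
  rw [H864.sym_mlt _ fun k => ?_]
  simp only [neg_eq_zero, H864.sym_neg_arg]

lemma hch_law (hA : Nf A) (hB : Nf B) (hs : 0 ≤ s) :
    gm0 s B * (gm0 s B)ᵀ = gm0 s A * (1 + hch s A B) * (gm0 s A)ᵀ := by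
  have tA := ti_gm0 s A
  have tB := ti_gm0 s B
  have tH : TI (1 + hch s A B) := TI.one.add ti_hch
  rw [tA.transpose]
  have tBB : TI (gm0 s B * (gm0 s B)ᵀ) := by
    rw [tB.transpose]
    exact tB.mul tB
  refine H864.sym_inj tBB ((tA.mul tH).mul tA) fun k => ?_
  have hA0 := hA.nn k
  have hB0 := hB.nn k
  have e1 := sym_gm0_sq k hA0 hs
  rw [tA.transpose, H864.sym_mul tA tA] at e1
  rw [sym_gm0_sq k hB0 hs, H864.sym_mul (tA.mul tH) tA, H864.sym_mul tA tH, H864.sym_add,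
    H864.sym_one, sym_hch]
  by_cases hk : k = 0
  · simp only [if_pos hk] at e1 ⊢
    rw [add_zero, mul_one]
    exact e1.symm
  · simp only [if_neg hk] at e1 ⊢
    have h1 : 0 < 1 + s * sym A k := by positivity
    have h2 : 0 < 1 + s * sym B k := by positivity
    have e2 : sym (gm0 s A) k * (1 + s * (sym A k - sym B k) / (1 + s * sym B k)) * sym (gm0 s A) k
        = (sym (gm0 s A) k * sym (gm0 s A) k)
          * (1 + s * (sym A k - sym B k) / (1 + s * sym B k)) := by ring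
    rw [e2, e1]
    field_simp
    ring

lemma hch_HS (hA : Nf A) (hB : Nf B) (hs : 0 ≤ s) :
    ∑ x, ∑ y, hch s A B x y ^ 2 ≤ ∑ k, rel A B k ^ 2 := by
  rw [sum_sq_entries ti_hch]
  refine Finset.sum_le_sum fun k _ => ?_
  rw [sym_hch]
  by_cases hk : k = 0
  · rw [if_pos hk]
    nlinarith [sq_nonneg (rel A B k)]
  · rw [if_neg hk, rel_mul hA hB k]
    have h0 := hB.nn k
    have e1 : s * (rel A B k * sym B k) / (1 + s * sym B k)
        = rel A B k * (s * sym B k / (1 + s * sym B k)) := by ring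
    have h2 : 0 ≤ s * sym B k := by positivity
    have h3 : s * sym B k / (1 + s * sym B k) ≤ 1 := by
      rw [div_le_one (by positivity)]
      linarith
    have h4 : 0 ≤ s * sym B k / (1 + s * sym B k) := by positivity
    rw [e1, mul_pow]
    have h5 : (s * sym B k / (1 + s * sym B k)) ^ 2 ≤ 1 := pow_le_one₀ h4 h3
    nlinarith [sq_nonneg (rel A B k)]

/-- **change of the form of the noise, means** -/
theorem mean_ref (hA : Nf A) (hB : Nf B) (hs : 0 ≤ s) (hη : 0 ≤ η) (hη2 : η ≤ 1 / 2)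
    (hHS : ∑ k, rel A B k ^ 2 ≤ η ^ 2) {ψ : (V n → ℝ) → ℂ} (hm : Measurable ψ) {K : ℝ}
    (hK : ∀ F, ‖ψ F‖ ≤ K) :
    ‖∫ g, ψ (gm0 s B *ᵥ g) ∂(gau (V n)) - ∫ g, ψ (gm0 s A *ᵥ g) ∂(gau (V n))‖ ≤ 2 * η * K := by
  classical
  have hK0 : 0 ≤ K := (norm_nonneg _).trans (hK 0)
  have h1 := H767.hs_l2c (ti_hch (s := s) (A := A) (B := B)).transpose (hch_law hA hB hs) hη hη2
    ((hch_HS hA hB hs).trans hHS) hm hK
  have h2 : ∫ g, ‖ψ (gm0 s A *ᵥ g)‖ ^ 2 ∂(gau (V n)) ≤ K ^ 2 := by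
    have h3 := integral_mono_of_nonneg (μ := gau (V n))
      (f := fun g => ‖ψ (gm0 s A *ᵥ g)‖ ^ 2) (g := fun _ => K ^ 2)
      (Filter.Eventually.of_forall fun g => by positivity) (integrable_const _)
      (Filter.Eventually.of_forall fun g => pow_le_pow_left₀ (norm_nonneg _) (hK _) 2)
    simpa using h3
  refine abs_le_of_sq_le_sq' ?_ (by positivity) |>.2
  refine h1.trans ?_
  have : 4 * η ^ 2 * ∫ g, ‖ψ (gm0 s A *ᵥ g)‖ ^ 2 ∂(gau (V n)) ≤ 4 * η ^ 2 * K ^ 2 :=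
    mul_le_mul_of_nonneg_left h2 (by positivity)
  linarith

/-- scalar part of `n2_ref` -/
lemma n2_ref_aux {q a K : ℝ} (ha0 : 0 ≤ a) (hK0 : 0 ≤ K) (haK : a ≤ K)
    (h5 : (q ^ 2 - a ^ 2) ^ 2 ≤ (K * a) ^ 2) : q ≤ √(2 * K * a) := by
  have h8 : q ^ 2 - a ^ 2 ≤ K * a := (abs_le_of_sq_le_sq' h5 (mul_nonneg hK0 ha0)).2
  refine Real.le_sqrt_of_sq_le ?_
  nlinarith [mul_nonneg ha0 (sub_nonneg.2 haK)]

/-- **change of the form of the noise, `L²` norms** -/
theorem n2_ref (hA : Nf A) (hB : Nf B) (hs : 0 ≤ s) (hη : 0 ≤ η) (hη2 : η ≤ 1 / 2)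
    (hHS : ∑ k, rel A B k ^ 2 ≤ η ^ 2) {ψ : (V n → ℝ) → ℂ} (hm : Measurable ψ) {K : ℝ}
    (hK : ∀ F, ‖ψ F‖ ≤ K) :
    n2 (gau (V n)) (fun g => ψ (gm0 s B *ᵥ g))
      ≤ √(2 * K * n2 (gau (V n)) (fun g => ψ (gm0 s A *ᵥ g))) := by
  classical
  have hK0 : 0 ≤ K := (norm_nonneg _).trans (hK 0)
  have LA : MemLp (fun g => ψ (gm0 s A *ᵥ g)) 2 (gau (V n)) :=
    memLp_bdd (hm.comp (measurable_mulVec _)).aestronglyMeasurable fun g => hK _
  have LB : MemLp (fun g => ψ (gm0 s B *ᵥ g)) 2 (gau (V n)) :=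
    memLp_bdd (hm.comp (measurable_mulVec _)).aestronglyMeasurable fun g => hK _
  have haK : n2 (gau (V n)) (fun g => ψ (gm0 s A *ᵥ g)) ≤ K :=
    n2_le_const (hm.comp (measurable_mulVec _)).aestronglyMeasurable hK0 fun g => hK _
  obtain ⟨f, hf⟩ : ∃ f : (V n → ℝ) → ℝ, f = fun F => ‖ψ F‖ ^ 2 := ⟨_, rfl⟩
  have mf : Measurable f := by
    rw [hf]
    exact hm.norm.pow_const 2
  have f0 : ∀ F, 0 ≤ f F := fun F => by
    rw [hf]
    positivity
  have bf' : ∀ F, f F ≤ K ^ 2 := fun F => by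
    rw [hf]
    exact pow_le_pow_left₀ (norm_nonneg _) (hK _) 2
  have bf : ∀ F, |f F| ≤ K ^ 2 := fun F => by
    rw [abs_of_nonneg (f0 F)]
    exact bf' F
  have hf2 : Integrable (fun g => f (gm0 s A *ᵥ g) ^ 2) (gau (V n)) :=
    Integrable.of_bound (C := (K ^ 2) ^ 2)
      ((mf.comp (measurable_mulVec _)).pow_const 2).aestronglyMeasurable
      (Filter.Eventually.of_forall fun g => by
        rw [Real.norm_eq_abs, abs_pow]
        exact pow_le_pow_left₀ (abs_nonneg _) (bf _) 2)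
  obtain ⟨-, h1⟩ := H552.hs_l2 (ti_hch (s := s) (A := A) (B := B)).transpose (hch_law hA hB hs) hη
    hη2 ((hch_HS hA hB hs).trans hHS) mf hf2
  have eA : ∫ g, f (gm0 s A *ᵥ g) ∂(gau (V n))
      = n2 (gau (V n)) (fun g => ψ (gm0 s A *ᵥ g)) ^ 2 := by
    rw [n2_sq LA, hf]
  have eB : ∫ g, f (gm0 s B *ᵥ g) ∂(gau (V n))
      = n2 (gau (V n)) (fun g => ψ (gm0 s B *ᵥ g)) ^ 2 := by
    rw [n2_sq LB, hf]
  have h2 : ∫ g, f (gm0 s A *ᵥ g) ^ 2 ∂(gau (V n))
      ≤ K ^ 2 * n2 (gau (V n)) (fun g => ψ (gm0 s A *ᵥ g)) ^ 2 := by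
    rw [← eA, ← integral_const_mul]
    refine integral_mono_of_nonneg (Filter.Eventually.of_forall fun g => sq_nonneg _)
      ((Integrable.of_bound (C := K ^ 2) (mf.comp (measurable_mulVec _)).aestronglyMeasurable
        (Filter.Eventually.of_forall fun g => bf _)).const_mul _)
      (Filter.Eventually.of_forall fun g => ?_)
    simp only
    calc f (gm0 s A *ᵥ g) ^ 2 = f (gm0 s A *ᵥ g) * f (gm0 s A *ᵥ g) := by ring
      _ ≤ K ^ 2 * f (gm0 s A *ᵥ g) := mul_le_mul_of_nonneg_right (bf' _) (f0 _)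
  rw [eA, eB] at h1
  refine n2_ref_aux (n2_nonneg _) hK0 haK (h1.trans ?_)
  have h6 : 4 * η ^ 2 ≤ 1 := by nlinarith
  have h7 : 0 ≤ ∫ g, f (gm0 s A *ᵥ g) ^ 2 ∂(gau (V n)) := integral_nonneg fun g => sq_nonneg _
  have h8 := mul_le_mul_of_nonneg_right h6 h7
  rw [mul_pow]
  linarith

end law

/-! ### one torus -/

section one

variable {N l : ℕ} [NeZero N] [NeZero (N / l)] {b T t t₁ : ℝ}

/-- sup bound of the functional at the mass `T` -/
def SW (N : ℕ) [NeZero N] (b T : ℝ) : ℝ := om (wT b N) (mt N T) 1 + e1n N b T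

lemma norm_W1c_le (hb : 0 ≤ b) (hT : 0 < T) (h12 : omT (wT b N) (mt N T) ≤ 1 / 2)
    (F : V (N / l) → ℝ) : ‖W1c N l b T F‖ ≤ SW N b T := by
  have h1 := H43.e1_le (H896.wm_t (N := N) hb hT) h12 (lf N l F)
  have h2 := H896.norm_Ph_le (H896.wm_t (N := N) hb hT) 1 (lf N l F)
  have h3 : ‖W1c N l b T F‖ ≤ ‖Ph (wT b N) (mt N T) 1 (lf N l F)‖
      + ‖Ph (wT b N) (mt N T) 1 (lf N l F) - W1c N l b T F‖ := by
    have e : W1c N l b T F = Ph (wT b N) (mt N T) 1 (lf N l F)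
        - (Ph (wT b N) (mt N T) 1 (lf N l F) - W1c N l b T F) := by ring
    conv_lhs => rw [e]
    exact norm_sub_le _ _
  have h4 : ‖Ph (wT b N) (mt N T) 1 (lf N l F) - W1c N l b T F‖ ≤ e1n N b T := h1
  unfold SW
  linarith

/-- the hat activity is the mean of the functional -/
theorem omh_mean (hb : 0 ≤ b) (hl : l ∣ N) (ht₁ : 0 < t₁) (htT : t₁ < T)
    (h12 : omT (wT b N) (mt N T) ≤ 1 / 2) {r : ℝ}
    (hr : 1 - (∫ g, Wcl N l b T T (gm0 (sn l T t₁) (acl N l b T T) *ᵥ g)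
      ∂(gau (V (N / l))))⁻¹ ≤ r) :
    ‖(omh N l b T T t₁ : ℂ)
      - ∫ g, W1c N l b T (gm0 (sn l T t₁) (acl N l b T T) *ᵥ g) ∂(gau (V (N / l)))‖
      ≤ Eto N l b T r := by
  have hT : 0 < T := ht₁.trans htT
  set A := acl N l b T T with hA
  have hAz : sym A 0 = 0 := sym_acl_zero hl hb hT le_rfl
  set ω := om (wT b N) (mt N T) 1 with hω
  have hω0 : 0 ≤ ω := H896.om_nonneg (H896.wm_t (N := N) hb hT) 1
  set B := gm0 (sn l T t₁) A with hB
  have hWc := continuous_Wcl (b := b) hb hl hT (le_refl T)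
  have hPc := continuous_Phc (b := b) hb hl hT (le_refl T)
  have hWi : Integrable (fun g => Wcl N l b T T (B *ᵥ g)) (gau (V (N / l))) := by
    have hi := integrable_Wcl (b := b) hb hl ht₁ htT le_rfl (0 : V (N / l) → ℝ)
    simp only [mulVec_zero, zero_add] at hi
    have hs0 : 0 < sn l T t₁ := sn_pos hl ht₁ htT
    exact (inv_int (by positivity)
      (gm_split (A := acl N l b T T) (s := sn l T t₁) hAz hs0.le)
      hWc.stronglyMeasurable (fun F c => Wcl_const hl hT le_rfl F c) hi).1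
  obtain ⟨K, hK0, hK⟩ := (dif_W1c (N := N) (l := l) (b := b) hb hT).bd'
  have mW := (dif_W1c (N := N) (l := l) (b := b) hb hT).m
  have hT1 : om (wT b N) (MC N l T T) 1 = ω := by rw [H864.MC_self]
  have h2 := tilt_sub (μ := gau (V (N / l))) (W := fun g => Wcl N l b T T (B *ᵥ g))
    (φ := fun g => Phc N l b T T (B *ᵥ g))
    (fun g => one_le_Wcl hb hl hT le_rfl _) hWi
    (hPc.measurable.comp (measurable_mulVec _)).aestronglyMeasurable
    (M := ω) (fun g => by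
      rw [← hT1]
      exact norm_Phc_le hb hl hT le_rfl _)
  have h2' : 2 * ω * (1 - (∫ g, Wcl N l b T T (B *ᵥ g) ∂(gau (V (N / l))))⁻¹)
      ≤ 2 * ω * r := mul_le_mul_of_nonneg_left hr (by positivity)
  have hp : ∀ F : V (N / l) → ℝ, ‖Phc N l b T T F - W1c N l b T F‖ ≤ e1n N b T := by
    intro F
    unfold Phc W1c
    rw [H864.MC_self]
    exact H43.e1_le (H896.wm_t hb hT) h12 _
  have i1 : Integrable (fun g => Phc N l b T T (B *ᵥ g)) (gau (V (N / l))) :=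
    Integrable.of_bound (hPc.measurable.comp (measurable_mulVec _)).aestronglyMeasurable _
      (Filter.Eventually.of_forall fun g => norm_Phc_le hb hl hT le_rfl _)
  have i2 : Integrable (fun g => W1c N l b T (B *ᵥ g)) (gau (V (N / l))) :=
    Integrable.of_bound (mW.comp (measurable_mulVec _)).aestronglyMeasurable K
      (Filter.Eventually.of_forall fun g => hK _)
  have h3 : ‖(∫ g, Phc N l b T T (B *ᵥ g) ∂(gau (V (N / l))))
      - ∫ g, W1c N l b T (B *ᵥ g) ∂(gau (V (N / l)))‖ ≤ e1n N b T := by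
    rw [← integral_sub i1 i2]
    have h6 := norm_integral_le_of_norm_le_const (μ := gau (V (N / l))) (C := e1n N b T)
      (f := fun g => Phc N l b T T (B *ᵥ g) - W1c N l b T (B *ᵥ g))
      (Filter.Eventually.of_forall fun g => hp _)
    simpa using h6
  have h7 := norm_sub_le_norm_sub_add_norm_sub (omh N l b T T t₁ : ℂ)
    (∫ g, Phc N l b T T (B *ᵥ g) ∂(gau (V (N / l))))
    (∫ g, W1c N l b T (B *ᵥ g) ∂(gau (V (N / l))))
  have h8 := omh_eq (b := b) hb hl ht₁ htT le_rfl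
  rw [← hA, ← hB] at h8
  rw [← h8] at h2
  unfold Eto
  linarith

/-- **ONE TORUS, reference form** `B` -/
theorem one_torusB (hb : 0 ≤ b) (hl : l ∣ N) (ht₁ : 0 < t₁) (h1 : t₁ < t) (h : t < T)
    (h12 : omT (wT b N) (mt N T) ≤ 1 / 2) {r : ℝ}
    (hr : 1 - (∫ g, Wcl N l b T T (gm0 (sn l T t₁) (acl N l b T T) *ᵥ g)
      ∂(gau (V (N / l))))⁻¹ ≤ r) {B : Matrix (V (N / l)) (V (N / l)) ℝ} (hA : Nf (acl N l b T T))
    (hB : Nf B) {η : ℝ} (hη : 0 ≤ η) (hη2 : η ≤ 1 / 2)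
    (hHS : ∑ k, rel (acl N l b T T) B k ^ 2 ≤ η ^ 2) (x : V (N / l)) :
    ‖(omh N l b T t t₁ : ℂ) - ((N / l : ℕ) : ℂ) ^ 2
        * ∫ g, dn (ahat (sn l T t) B) (gm (sn l T t) B) (uc N l b T) x
          (gm0 (sn l t t₁) (apr (sn l T t) B) *ᵥ g) ∂(gau (V (N / l)))‖
      ≤ Eto N l b T r + 2 * η * SW N b T := by
  have ht : 0 < t := ht₁.trans h1
  have hT : 0 < T := ht.trans h
  set A := acl N l b T T with hAd
  set s1 := sn l T t with hs1
  set s2 := sn l t t₁ with hs2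
  have hs10 : 0 < s1 := sn_pos hl ht h
  have hs20 : 0 < s2 := sn_pos hl ht₁ h1
  have hss : sn l T t₁ = s1 + s2 := sn_add.symm
  set B' := gm0 s2 (apr s1 B) with hB'
  have tB' : TI B' := ti_gm0 _ _
  have dW := dif_W1c (N := N) (l := l) (b := b) hb hT
  obtain ⟨K, hK0, hK⟩ := dW.bd'
  obtain ⟨Kx, -, hKx⟩ := dW.bdx'
  have mW := dW.m
  have dP := dW.step (ahat s1 B) (gm s1 B)
  obtain ⟨K', -, hK'⟩ := dP.bdx'
  have hsum := int_sum_cov tB' (fun x => dP.mx x) hK'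
    (H889.cov_dn (ti_ahat _ _) (ti_gm _ _) (cov_utc hl hb hT))
    (fun F => sum_dn (fun y => ahat_row B hB.zero y) (fun x => dW.mx x) hKx
      (fun F => sum_utc hb hT F) F) x
  -- the functional over the coarse law
  have hPsi : ∫ g, Pg (ahat s1 B) (gm s1 B) (W1c N l b T) (B' *ᵥ g) ∂(gau (V (N / l)))
      = ((Real.exp (-(2 * π ^ 2 * (s1 / ((N / l : ℕ) : ℝ) ^ 2))) : ℝ) : ℂ)
        * ∫ g, W1c N l b T (gm0 (s1 + s2) B *ᵥ g) ∂(gau (V (N / l))) := by
    have e1 : ∀ g : V (N / l) → ℝ, Pg (ahat s1 B) (gm s1 B) (W1c N l b T) (B' *ᵥ g)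
        = Pg (ahat s1 B * B') (gm s1 B) (W1c N l b T) g := by
      intro g
      rw [H889.Pg_mulVec]
    simp only [e1]
    have e2 : ∫ g, Pg (ahat s1 B * B') (gm s1 B) (W1c N l b T) g ∂(gau (V (N / l)))
        = ∫ g, W1c N l b T (fromCols (ahat s1 B * B') (gm s1 B) *ᵥ g)
          ∂(gau (V (N / l) ⊕ V (N / l))) := by
      rw [integral_gau_sum]
      · refine integral_congr_ae (Filter.Eventually.of_forall fun g => ?_)
        simp only [fromCols_mulVec_sumElim]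
        rfl
      · exact Integrable.of_bound (C := K) (mW.comp (measurable_mulVec _)).aestronglyMeasurable
          (Filter.Eventually.of_forall fun g => hK _)
    rw [e2]
    refine (H767.gain_const (B := gm0 (s1 + s2) B) (τ2 := s1 / ((N / l : ℕ) : ℝ) ^ 2)
      (by positivity) ?_ (ch_W1c hb hT) mW.stronglyMeasurable hK).1
    rw [transpose_fromCols, fromCols_mul_fromRows]
    exact two_steps hB.ti hB.nn hB.zero hs10 hs20.le
  have homh : (omh N l b T t t₁ : ℂ)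
      = ((Real.exp (-(2 * π ^ 2 * (s1 / ((N / l : ℕ) : ℝ) ^ 2))) : ℝ) : ℂ)
        * (omh N l b T T t₁ : ℂ) := by
    unfold omh
    rw [← Complex.ofReal_mul, ← mul_assoc, ← Real.exp_add, hss, ← hs2]
    congr 3
    ring_nf
  have e3 : ∀ F, dn (ahat s1 B) (gm s1 B) (uc N l b T) x F
      = dn (ahat s1 B) (gm s1 B) (utc N l b T) x F := fun F => rfl
  simp only [e3]
  rw [← hsum, hPsi, homh, ← mul_sub, norm_mul, Complex.norm_real, Real.norm_eq_abs,
    abs_of_pos (Real.exp_pos _)]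
  have hle1 : Real.exp (-(2 * π ^ 2 * (s1 / ((N / l : ℕ) : ℝ) ^ 2))) ≤ 1 := by
    rw [Real.exp_le_one_iff]
    have : 0 ≤ 2 * π ^ 2 * (s1 / ((N / l : ℕ) : ℝ) ^ 2) := by positivity
    linarith
  have h9 := omh_mean hb hl ht₁ (h1.trans h) h12 hr
  have h10 := mean_ref hA hB (s := sn l T t₁) (sn_pos hl ht₁ (h1.trans h)).le hη hη2 hHS mW
    (K := SW N b T) fun F => norm_W1c_le hb hT h12 F
  rw [← hAd] at h9
  rw [← hss]
  have h11 := norm_sub_le_norm_sub_add_norm_sub (omh N l b T T t₁ : ℂ)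
    (∫ g, W1c N l b T (gm0 (sn l T t₁) A *ᵥ g) ∂(gau (V (N / l))))
    (∫ g, W1c N l b T (gm0 (sn l T t₁) B *ᵥ g) ∂(gau (V (N / l))))
  rw [norm_sub_rev] at h10
  have h12' : ‖(omh N l b T T t₁ : ℂ) - ∫ g, W1c N l b T (gm0 (sn l T t₁) B *ᵥ g)
      ∂(gau (V (N / l)))‖ ≤ Eto N l b T r + 2 * η * SW N b T := by
    linarith
  calc _ ≤ 1 * ‖(omh N l b T T t₁ : ℂ)
        - ∫ g, W1c N l b T (gm0 (sn l T t₁) B *ᵥ g) ∂(gau (V (N / l)))‖ :=
        mul_le_mul_of_nonneg_right hle1 (norm_nonneg _)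
    _ ≤ _ := by rw [one_mul]; exact h12'

end one

end

end Vale.Agent.P159.H363
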