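import Vale.Agent.P159.H363.Cvh1

/-!
P159 / H363, VB10 with reference forms, part 2: two tori.
-/

set_option linter.unusedSectionVars false

namespace Vale.Agent.P159.H363

open Finset Matrix MeasureTheory ProbabilityTheory
open Vale.Agent.P159.TM.H764 (EE)
open Vale.Agent.P159.TM.Spec (V)
open Vale.Agent.P159.TM.SpecC (Tor wT)
open Vale.Agent.P159.H37 (gau qf bf wt Rs)
open Vale.Agent.P159.H864 (TI sym fc cl)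
open Vale.Agent.P159.H462 (Dom ahat Gam ti_ahat sym_ahat)
open Vale.Agent.P159.H767 (cst pt lT v1c cvp_fac cen)
open Vale.Agent.P159.H889 (Lcl Dif dn cutx lamw tl tl_nonneg tl_eq uc mc)
open Vale.Agent.P159.H733.Torg (ip ip_zero ip_inj)
open Vale.Agent.P159.H733.Vt (zb mem_zb zero_mem_zb card_zb trp lft Jz)
open Vale.Agent.P159.H896 (om)
open Vale.Agent.P159.H145 (mt)
open Vale.Agent.P159.H43 (omT)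
open scoped Real

noncomputable section

/-- error of the one torus statement with a reference form -/
def EtB (N l : ℕ) [NeZero N] [NeZero (N / l)] (b T r η : ℝ) : ℝ :=
  Eto N l b T r + 2 * η * SW N b T

section two

variable {N₁ N₂ l : ℕ} [NeZero N₁] [NeZero (N₁ / l)] [NeZero N₂] [NeZero (N₂ / l)]
  {b T t t₁ : ℝ}

/-- **TWO TORI, reference forms** `B₁`, `B₂` -/
theorem two_toriB (hb : 0 ≤ b) (hl₁ : l ∣ N₁) (hl₂ : l ∣ N₂) (ht₁ : 0 < t₁) (h1 : t₁ < t)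
    (h : t < T) (h12₁ : omT (wT b N₁) (mt N₁ T) ≤ 1 / 2) (h12₂ : omT (wT b N₂) (mt N₂ T) ≤ 1 / 2)
    {r r' : ℝ}
    (hr : 1 - (∫ g, Wcl N₁ l b T T (Bfl N₁ l b T t₁ *ᵥ g) ∂(gau (V (N₁ / l))))⁻¹ ≤ r)
    (hr' : 1 - (∫ g, Wcl N₂ l b T T (Bfl N₂ l b T t₁ *ᵥ g) ∂(gau (V (N₂ / l))))⁻¹ ≤ r')
    {B₁ : Matrix (V (N₁ / l)) (V (N₁ / l)) ℝ} {B₂ : Matrix (V (N₂ / l)) (V (N₂ / l)) ℝ}
    (a1 : Nf (acl N₁ l b T T)) (a2 : Nf (acl N₂ l b T T)) (b1 : Nf B₁) (b2 : Nf B₂)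
    {ηB₁ ηB₂ : ℝ} (g1 : 0 ≤ ηB₁) (g1' : ηB₁ ≤ 1 / 2) (g2 : 0 ≤ ηB₂) (g2' : ηB₂ ≤ 1 / 2)
    (HS₁ : ∑ k, rel (acl N₁ l b T T) B₁ k ^ 2 ≤ ηB₁ ^ 2)
    (HS₂ : ∑ k, rel (acl N₂ l b T T) B₂ k ^ 2 ≤ ηB₂ ^ 2)
    {W J J' : Type*} [Fintype W] [DecidableEq W] [Fintype J] [DecidableEq J] [Fintype J']
    {ι₁ : W → V (N₁ / l)} {ι₂ : W → V (N₂ / l)} (i₁ : Function.Injective ι₁)
    (i₂ : Function.Injective ι₂) (b0 : W) {ψW : (W → ℝ) → ℂ} (hch : Ch ψW) (hm : Measurable ψW)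
    {C : ℝ} (hC : ∀ F, ‖ψW F‖ ≤ C) {q1 q2 : ℝ}
    (hq1 : n2 (gau (V (N₁ / l))) (fun g =>
      dn (ahat (sn l T t) B₁) (gm (sn l T t) B₁) (uc N₁ l b T) (ι₁ b0)
          (gm0 (sn l t t₁) (apr (sn l T t) B₁) *ᵥ g)
        - ψW (((gm0 (sn l t t₁) (apr (sn l T t) B₁)).submatrix ι₁ id) *ᵥ g)) ≤ q1)
    (hq2 : n2 (gau (V (N₂ / l))) (fun g =>
      dn (ahat (sn l T t) B₂) (gm (sn l T t) B₂) (uc N₂ l b T) (ι₂ b0)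
          (gm0 (sn l t t₁) (apr (sn l T t) B₂) *ᵥ g)
        - ψW (((gm0 (sn l t t₁) (apr (sn l T t) B₂)).submatrix ι₂ id) *ᵥ g)) ≤ q2)
    {D₁ : Matrix W J ℝ} {D₂ : Matrix W J' ℝ} {v1 v2 : ℝ}
    (hc1 : (gm0 (sn l T t₁) B₁).submatrix ι₁ id * ((gm0 (sn l T t₁) B₁).submatrix ι₁ id)ᵀ
      = D₁ * D₁ᵀ + cst W v1)
    (hc2 : (gm0 (sn l T t₁) B₂).submatrix ι₂ id * ((gm0 (sn l T t₁) B₂).submatrix ι₂ id)ᵀ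
      = D₂ * D₂ᵀ + cst W v2)
    {H : Matrix J J ℝ} (hH : Hᵀ = H) (hD : D₂ * D₂ᵀ = D₁ * (1 + H) * D₁ᵀ) {η : ℝ} (hη : 0 ≤ η)
    (hη2 : η ≤ 1 / 2) (hHS : ∑ x, ∑ y, H x y ^ 2 ≤ η ^ 2) {α β w1 w2 : ℝ}
    (hα : α = sn l T t * sn l t t₁ / sn l T t₁) (hβ : β = (sn l t t₁ / sn l T t₁) ^ 2)
    (hw1 : w1 = β * v1 - α / ((N₁ / l : ℕ) : ℝ) ^ 2)
    (hw2 : w2 = β * v2 - α / ((N₂ / l : ℕ) : ℝ) ^ 2) (hw10 : 0 ≤ w1) (hw20 : 0 ≤ w2) :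
    om (wT b N₂) (mt N₂ t₁) 1 ≤
      ((N₂ / l : ℕ) : ℝ) ^ 2 * (q2 + Real.exp (-(2 * π ^ 2 * w2)) *
        (Real.exp (2 * π ^ 2 * w1) *
            ((omh N₁ l b T t t₁ + EtB N₁ l b T r ηB₁) / ((N₁ / l : ℕ) : ℝ) ^ 2 + q1)
          + 2 * η * (Sto N₁ l b T t + q1)))
      + EtB N₂ l b T r' ηB₂ := by
  have ht : 0 < t := ht₁.trans h1
  have hT : 0 < T := ht.trans h
  have hs10 : 0 < sn l T t := sn_pos hl₁ ht h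
  have hs20 : 0 < sn l t t₁ := sn_pos hl₁ ht₁ h1
  have hss : sn l T t₁ = sn l T t + sn l t t₁ := sn_add.symm
  rw [hss] at hc1 hc2 hα hβ
  refine (om_le_omh hb hl₂ ht₁ h1.le h.le).trans ?_
  have o1 := one_torusB hb hl₁ ht₁ h1 h h12₁ hr a1 b1 g1 g1' HS₁ (ι₁ b0)
  have o2 := one_torusB hb hl₂ ht₁ h1 h h12₂ hr' a2 b2 g2 g2' HS₂ (ι₂ b0)
  have dW1 := dif_W1c (N := N₁) (l := l) (b := b) hb hT
  have dW2 := dif_W1c (N := N₂) (l := l) (b := b) hb hT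
  have dP1 := dW1.step (ahat (sn l T t) B₁) (gm (sn l T t) B₁)
  have dP2 := dW2.step (ahat (sn l T t) B₂) (gm (sn l T t) B₂)
  obtain ⟨K1, -, hK1⟩ := dP1.bdx'
  obtain ⟨K2, -, hK2⟩ := dP2.bdx'
  have hSn := rev_B b1.nn hs10 dW1 (cov_utc hl₁ hb hT) (B := gm0 (sn l t t₁) (apr (sn l T t) B₁))
    (ti_gm0 _ _) (fun F => norm_W1c_le hb hT h12₁ F) (ι₁ b0)
  have cw1 := coarse_window b1.ti b1.nn hs10 hs20.le i₁ hc1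
  have cw2 := coarse_window b2.ti b2.nn hs10 hs20.le i₂ hc2
  have hw1' : (sn l t t₁ / (sn l T t + sn l t t₁)) ^ 2 * v1
      - sn l T t * sn l t t₁ / (sn l T t + sn l t t₁) / ((N₁ / l : ℕ) : ℝ) ^ 2 = w1 := by
    rw [hw1, hα, hβ]
  have hw2' : (sn l t t₁ / (sn l T t + sn l t t₁)) ^ 2 * v2
      - sn l T t * sn l t t₁ / (sn l T t + sn l t t₁) / ((N₂ / l : ℕ) : ℝ) ^ 2 = w2 := by
    rw [hw2, hα, hβ]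
  rw [hw1'] at cw1
  rw [hw2'] at cw2
  have hHt : (fromBlocks H 0 0 0 : Matrix (J ⊕ W) (J ⊕ W) ℝ)ᵀ = fromBlocks H 0 0 0 := by
    rw [fromBlocks_transpose, hH, transpose_zero, transpose_zero, transpose_zero]
  refine two_core (dP1.mx (ι₁ b0)) (dP2.mx (ι₂ b0))
    (fun F => hK1 _ F) (fun F => hK2 _ F) (omh_nonneg hb hl₁ ht₁ (h1.le.trans h.le)) o1 o2 hSn
    ι₁ ι₂ hch hm hC hq1 hq2 hw10 hw20 cw1 cw2 (H := fromBlocks H 0 0 0) hHt ?_ hη hη2 ?_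
  · rw [wadd_sq, wadd_H, hD]
  · rw [HS_blocks]
    exact hHS

end two

section laws

variable {n l : ℕ} [NeZero n] {T t t₁ : ℝ} {B : Matrix (V n) (V n) ℝ}

lemma laws_ref (hB : Nf B) (hl : 0 < l) (ht₁ : 0 < t₁) (h1 : t₁ < t) (h : t < T) :
    (ahat (sn l T t) B * gm0 (sn l t t₁) (apr (sn l T t) B))
        * (ahat (sn l T t) B * gm0 (sn l t t₁) (apr (sn l T t) B))ᵀ
      + gm (sn l T t) B * (gm (sn l T t) B)ᵀ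
      = gm0 (sn l T t₁) B * (gm0 (sn l T t₁) B)ᵀ + cst (V n) (sn l T t / (n : ℝ) ^ 2) := by
  have ht : 0 < t := ht₁.trans h1
  have hlp : (0 : ℝ) < l := by exact_mod_cast hl
  have hs10 : 0 < sn l T t := by
    unfold sn
    have : T⁻¹ < t⁻¹ := inv_strictAnti₀ ht h
    have h3 : 0 < t⁻¹ - T⁻¹ := by linarith
    positivity
  have hs20 : 0 < sn l t t₁ := by
    unfold sn
    have : t⁻¹ < t₁⁻¹ := inv_strictAnti₀ ht₁ h1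
    have h3 : 0 < t₁⁻¹ - t⁻¹ := by linarith
    positivity
  have h3 := two_steps hB.ti hB.nn hB.zero hs10 hs20.le
  rw [sn_add (l := l) (T := T) (t := t) (t₁ := t₁)] at h3
  exact h3

end laws

section facs

variable {n1 n2 : ℕ} [NeZero n1] [NeZero n2] {B₁ : Matrix (V n1) (V n1) ℝ}
  {B₂ : Matrix (V n2) (V n2) ℝ}

/-- window laws of the two noises on the window `Jz D1` -/
theorem fac_Jz {ν c s : ℝ} (d1 : Dom B₁ ν c) (d2 : Dom B₂ ν c) (hs : 0 < s) {Tn : ℕ}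
    (hTn : 1 ≤ Tn) {a : ℝ} (ha0 : 0 ≤ a) (ha : ∀ k, sym B₁ k ≤ a * EE k) {D1 : ℕ} (h5 : 5 ≤ D1)
    {L : ℝ} (hL : 2 ≤ L) (hLN : 2 * (L * (2 * D1) + 1) ≤ (n1 : ℝ)) {e1 : ℝ}
    (hlow : ∀ z : ℤ × ℤ, |z.1| ≤ 2 * D1 → |z.2| ≤ 2 * D1 →
      |fc (lT s ν Tn) B₂ 0 (pt n2 z) - fc (lT s ν Tn) B₁ 0 (pt n1 z)| ≤ e1)
    {θ μ η : ℝ} (hθ : 0 ≤ θ) (hθ1 : θ < 1)
    (hμ : (2 * (L * (2 * D1)) + 1) ^ 2 ≤ μ * (n1 : ℝ) ^ 2) (hμ1 : μ ≤ 1 / 2)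
    (hη : 2 * (2 * (D1 : ℝ) + 1) ^ 2 * (ν + s⁻¹) * H767.eps s ν c Tn D1 e1 ≤ (1 - θ) * η)
    (hη2 : η ≤ 1 / 2) :
    ∃ (E₁ E₂ : Matrix (Jz D1) (Jz D1) ℝ) (H : Matrix (Jz D1) (Jz D1) ℝ),
      (gm0 s B₁).submatrix (iz n1 D1) id * ((gm0 s B₁).submatrix (iz n1 D1) id)ᵀ
        = E₁ * E₁ᵀ + cst (Jz D1) (v1c a s D1 L θ μ) ∧
      (gm0 s B₂).submatrix (iz n2 D1) id * ((gm0 s B₂).submatrix (iz n2 D1) id)ᵀ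
        = E₂ * E₂ᵀ + cst (Jz D1) (v1c a s D1 L θ μ
          + ((Gam s B₂ 0 0 - s / (n2 : ℝ) ^ 2) - (Gam s B₁ 0 0 - s / (n1 : ℝ) ^ 2))) ∧
      Hᵀ = H ∧ E₂ * E₂ᵀ = E₁ * (1 + H) * E₁ᵀ ∧ ∑ x, ∑ y, H x y ^ 2 ≤ η ^ 2 := by
  have hw : ∀ x : Jz D1, |(x.1).1| ≤ (D1 : ℤ) ∧ |(x.1).2| ≤ (D1 : ℤ) := by
    intro x
    have h3 := mem_zb.1 x.2
    rw [← Int.natCast_natAbs, ← Int.natCast_natAbs]
    exact ⟨by exact_mod_cast h3.1, by exact_mod_cast h3.2⟩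
  have hcard := H733.Vt.card_Jz D1
  obtain ⟨E₁, E₂, H, f1, f2, f3, f4, f5, -⟩ := cvp_fac d1 d2 hs hTn ha0 ha h5 hL hLN
    (w := fun x : Jz D1 => x.1) Subtype.val_injective hw hlow hθ hθ1 hμ hμ1
    (by rw [hcard]; exact hη) hη2
  exact ⟨E₁, E₂, H, f1, f2, f3, f4, f5⟩

end facs

section near

variable {N l : ℕ} [NeZero N] [NeZero (N / l)] {b T t t₁ : ℝ}

/-- densities after the window against the window functional, reference form, same torus -/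
theorem near_ref (hb : 0 ≤ b) (hl : l ∣ N) (ht₁ : 0 < t₁) (h1 : t₁ < t) (h : t < T)
    {B : Matrix (V (N / l)) (V (N / l)) ℝ} {ν c : ℝ} (d : Dom B ν c)
    (o : ∀ x y, x ≠ y → B x y ≤ 0) {R0 D0 D1 R : ℕ} (hD : R0 + D0 + R ≤ D1)
    {mu : V (N / l) → (V (N / l) → ℝ) → ℂ} {Lp : ℝ}
    (hmu : Lcl (1 : Matrix (V (N / l)) (V (N / l)) ℝ) D0 0 Lp mu mu) {ρ : ℝ}
    (near : ∀ y, n2 (gau (V (N / l))) (fun g => uc N l b T y (gm0 (sn l T t₁) B *ᵥ g)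
      - mu y (gm0 (sn l T t₁) B *ᵥ g)) ≤ ρ) (x : V (N / l)) :
    n2 (gau (V (N / l))) (fun g =>
      dn (ahat (sn l T t) B) (gm (sn l T t) B) (uc N l b T) x
          (gm0 (sn l t t₁) (apr (sn l T t) B) *ᵥ g)
        - lamw (sn l T t) B R0 D1 mu x (gm0 (sn l t t₁) (apr (sn l T t) B) *ᵥ g))
      ≤ eloc B (sn l T t) ρ ((2 * π)⁻¹ * (T * (l : ℝ) ^ 2)) Lp
        (H889.sg (B * ahat (sn l T t) B)) R0 D0 R := by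
  have ht : 0 < t := ht₁.trans h1
  have hT : 0 < T := ht.trans h
  have hs1 : 0 < sn l T t := sn_pos hl ht h
  have hs2 : 0 < sn l t t₁ := sn_pos hl ht₁ h1
  have hv : 0 ≤ sn l T t / ((N / l : ℕ) : ℝ) ^ 2 := by positivity
  exact lcl_law d hs1 o hD hv (laws_ref (Nf.of_dom d) (H864.l_pos hl) ht₁ h1 h) (H889.sg_nonneg _)
    (fun v => (below_coarse d hs1 hs2.le).row v)
    (fun x => (H889.continuous_uc hb hT x).measurable)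
    (fun x F => H889.norm_uc_le (N := N) (l := l) (b := b) (t := T) hb hT hl x F)
    (H889.ch_uc hb hT) hmu near x

/-- properties of the window functional -/
theorem win_ref (hs : 0 < sn l T t) {B : Matrix (V (N / l)) (V (N / l)) ℝ} {ν c : ℝ}
    (d : Dom B ν c) (o : ∀ x y, x ≠ y → B x y ≤ 0) {R0 D0 D1 R : ℕ} (hD : R0 + D0 + R ≤ D1)
    {mu : V (N / l) → (V (N / l) → ℝ) → ℂ} {Lp Km : ℝ}
    (hmu : Lcl (1 : Matrix (V (N / l)) (V (N / l)) ℝ) D0 0 Lp mu mu)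
    (bmu : ∀ x F, ‖mu x F‖ ≤ Km) :
    (∀ x, Measurable (lamw (sn l T t) B R0 D1 mu x)) ∧
      (∃ K : ℝ, ∀ x F, ‖lamw (sn l T t) B R0 D1 mu x F‖ ≤ K) ∧
      ∀ x, Ch (lamw (sn l T t) B R0 D1 mu x) := by
  have L1 := H889.lcl_window d hs o hD hmu.m bmu hmu.ch
    (⟨hmu.m, hmu.bd, hmu.ch, hmu.cov, hmu.loc, hmu.lip, fun x => by
        simp only [sub_self]
        exact (H733.Vt.tn2_zero _).le⟩ : Lcl B D0 0 _ mu _)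
  exact ⟨L1.m, L1.bd, L1.ch⟩

end near

/-- densities on the second torus, reference forms -/
theorem near_ref2 {N₁ N₂ l : ℕ} [NeZero N₁] [NeZero (N₁ / l)] [NeZero N₂] [NeZero (N₂ / l)]
    {b T t t₁ : ℝ} (hb : 0 ≤ b) (hl₂ : l ∣ N₂) (ht₁ : 0 < t₁) (h1 : t₁ < t) (h : t < T)
    {B₁ : Matrix (V (N₁ / l)) (V (N₁ / l)) ℝ} {B₂ : Matrix (V (N₂ / l)) (V (N₂ / l)) ℝ}
    {ν c : ℝ} (d1 : Dom B₁ ν c) (d2 : Dom B₂ ν c)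
    (o1 : ∀ x y, x ≠ y → B₁ x y ≤ 0) (o2 : ∀ x y, x ≠ y → B₂ x y ≤ 0)
    {R0 D0 D1 R : ℕ} (hD : R0 + D0 + R ≤ D1) (hN1 : 2 * D1 < N₁ / l) (hN2 : 2 * D1 < N₂ / l)
    {mu : V (N₁ / l) → (V (N₁ / l) → ℝ) → ℂ} {Lp : ℝ}
    (hmu : Lcl (1 : Matrix (V (N₁ / l)) (V (N₁ / l)) ℝ) D0 0 Lp mu mu) {Km : ℝ}
    (bmu : ∀ x F, ‖mu x F‖ ≤ Km) {ρ₂ : ℝ}
    (near2 : ∀ y, n2 (gau (V (N₂ / l))) (fun g => uc N₂ l b T y (gm0 (sn l T t₁) B₂ *ᵥ g)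
      - lft D0 mu y (gm0 (sn l T t₁) B₂ *ᵥ g)) ≤ ρ₂)
    {e ηt σ : ℝ} (he : ∀ ζ ∈ zb (2 * D1), |ahat (sn l T t) B₂ 0 (ip (N₂ / l) ζ)
      - ahat (sn l T t) B₁ 0 (ip (N₁ / l) ζ)| ≤ e)
    (hηt2 : ηt ≤ 1 / 2) (hηte : (1 + sn l T t * ν) * (2 * D0 + 1) ^ 2 * e ≤ ηt)
    (hσ0 : 0 ≤ σ) (hσ : vaw (ν⁻¹ + sn l T t)⁻¹ c e (tl (ahat (sn l T t) B₁) R
      + tl (ahat (sn l T t) B₂) R) (N₂ / l) D1 ≤ σ ^ 2) (x : V (N₂ / l)) :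
    n2 (gau (V (N₂ / l))) (fun g =>
      dn (ahat (sn l T t) B₂) (gm (sn l T t) B₂) (uc N₂ l b T) x
          (gm0 (sn l t t₁) (apr (sn l T t) B₂) *ᵥ g)
        - lft D1 (lamw (sn l T t) B₁ R0 D1 mu) x (gm0 (sn l t t₁) (apr (sn l T t) B₂) *ᵥ g))
      ≤ eloc B₂ (sn l T t) ρ₂ ((2 * π)⁻¹ * (T * (l : ℝ) ^ 2)) Lp
        (H889.sg (B₂ * ahat (sn l T t) B₂)) R0 D0 R + etr2 Km Lp e ηt σ R0 D0 := by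
  have ht : 0 < t := ht₁.trans h1
  have hT : 0 < T := ht.trans h
  have hs1 : 0 < sn l T t := sn_pos hl₂ ht h
  have hs2 : 0 < sn l t t₁ := sn_pos hl₂ ht₁ h1
  have hv : 0 ≤ sn l T t / ((N₂ / l : ℕ) : ℝ) ^ 2 := by positivity
  exact lcl_two d1 d2 hs1 o1 o2 hD hN1 hN2 he hηt2 hηte hmu bmu
    (fun x => (H889.continuous_uc hb hT x).measurable)
    (fun x F => H889.norm_uc_le (N := N₂) (l := l) (b := b) (t := T) hb hT hl₂ x F)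
    (H889.ch_uc hb hT) hv (laws_ref (Nf.of_dom d2) (H864.l_pos hl₂) ht₁ h1 h)
    (below_coarse d2 hs1 hs2.le) hσ0 hσ near2 x

/-- **VB10 on two cell tori with reference forms**, any local approximants `mu` of the densities on
the first torus -/
theorem cvh {N₁ N₂ l : ℕ} [NeZero N₁] [NeZero (N₁ / l)] [NeZero N₂] [NeZero (N₂ / l)]
    {b T t t₁ : ℝ} (hb : 0 ≤ b) (hl₁ : l ∣ N₁) (hl₂ : l ∣ N₂) (ht₁ : 0 < t₁) (h1 : t₁ < t)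
    (h : t < T) (h12₁ : omT (wT b N₁) (mt N₁ T) ≤ 1 / 2) (h12₂ : omT (wT b N₂) (mt N₂ T) ≤ 1 / 2)
    -- mean weights
    {r r' : ℝ}
    (hr : 1 - (∫ g, Wcl N₁ l b T T (Bfl N₁ l b T t₁ *ᵥ g) ∂(gau (V (N₁ / l))))⁻¹ ≤ r)
    (hr' : 1 - (∫ g, Wcl N₂ l b T T (Bfl N₂ l b T t₁ *ᵥ g) ∂(gau (V (N₂ / l))))⁻¹ ≤ r')
    -- reference forms
    {B₁ : Matrix (V (N₁ / l)) (V (N₁ / l)) ℝ} {B₂ : Matrix (V (N₂ / l)) (V (N₂ / l)) ℝ}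
    (a1 : Nf (acl N₁ l b T T)) (a2 : Nf (acl N₂ l b T T)) {ηB₁ ηB₂ : ℝ} (g1 : 0 ≤ ηB₁)
    (g1' : ηB₁ ≤ 1 / 2) (g2 : 0 ≤ ηB₂) (g2' : ηB₂ ≤ 1 / 2)
    (HS₁ : ∑ k, rel (acl N₁ l b T T) B₁ k ^ 2 ≤ ηB₁ ^ 2)
    (HS₂ : ∑ k, rel (acl N₂ l b T T) B₂ k ^ 2 ≤ ηB₂ ^ 2)
    {ν c : ℝ} (d1 : Dom B₁ ν c) (d2 : Dom B₂ ν c)
    (o1 : ∀ x y, x ≠ y → B₁ x y ≤ 0) (o2 : ∀ x y, x ≠ y → B₂ x y ≤ 0)
    -- windows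
    {R0 D0 D1 R : ℕ} (hD : R0 + D0 + R ≤ D1) (h5 : 5 ≤ D1) (hN2 : 2 * D1 < N₂ / l)
    -- local approximants of the densities
    {mu : V (N₁ / l) → (V (N₁ / l) → ℝ) → ℂ} {Lp : ℝ}
    (hmu : Lcl (1 : Matrix (V (N₁ / l)) (V (N₁ / l)) ℝ) D0 0 Lp mu mu)
    (bmu : ∀ x F, ‖mu x F‖ ≤ (2 * π)⁻¹ * (T * (l : ℝ) ^ 2)) {ρ₁ ρ₂ : ℝ}
    (near1 : ∀ y, n2 (gau (V (N₁ / l))) (fun g => uc N₁ l b T y (gm0 (sn l T t₁) B₁ *ᵥ g)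
      - mu y (gm0 (sn l T t₁) B₁ *ᵥ g)) ≤ ρ₁)
    (near2 : ∀ y, n2 (gau (V (N₂ / l))) (fun g => uc N₂ l b T y (gm0 (sn l T t₁) B₂ *ᵥ g)
      - lft D0 mu y (gm0 (sn l T t₁) B₂ *ᵥ g)) ≤ ρ₂)
    -- smoothing kernels on the two tori
    {e ηt σ : ℝ} (he : ∀ ζ ∈ zb (2 * D1), |ahat (sn l T t) B₂ 0 (ip (N₂ / l) ζ)
      - ahat (sn l T t) B₁ 0 (ip (N₁ / l) ζ)| ≤ e)
    (hηt2 : ηt ≤ 1 / 2) (hηte : (1 + sn l T t * ν) * (2 * D0 + 1) ^ 2 * e ≤ ηt)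
    (hσ0 : 0 ≤ σ) (hσ : vaw (ν⁻¹ + sn l T t)⁻¹ c e (tl (ahat (sn l T t) B₁) R
      + tl (ahat (sn l T t) B₂) R) (N₂ / l) D1 ≤ σ ^ 2)
    -- window laws
    {Tn : ℕ} (hTn : 1 ≤ Tn) {a : ℝ} (ha0 : 0 ≤ a) (ha : ∀ k, sym B₁ k ≤ a * EE k)
    {L : ℝ} (hL : 2 ≤ L) (hLN : 2 * (L * (2 * D1) + 1) ≤ ((N₁ / l : ℕ) : ℝ)) {e1 : ℝ}
    (hlow : ∀ z : ℤ × ℤ, |z.1| ≤ 2 * D1 → |z.2| ≤ 2 * D1 →
      |fc (lT (sn l T t₁) ν Tn) B₂ 0 (pt (N₂ / l) z)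
        - fc (lT (sn l T t₁) ν Tn) B₁ 0 (pt (N₁ / l) z)| ≤ e1)
    {θ μ η : ℝ} (hθ : 0 ≤ θ) (hθ1 : θ < 1)
    (hμ : (2 * (L * (2 * D1)) + 1) ^ 2 ≤ μ * ((N₁ / l : ℕ) : ℝ) ^ 2) (hμ1 : μ ≤ 1 / 2)
    (hη : 2 * (2 * (D1 : ℝ) + 1) ^ 2 * (ν + (sn l T t₁)⁻¹)
      * H767.eps (sn l T t₁) ν c Tn D1 e1 ≤ (1 - θ) * η)
    (hη0 : 0 ≤ η) (hη2 : η ≤ 1 / 2)
    -- exponents
    {v1 w1 w2 : ℝ} (hv1 : v1 = v1c a (sn l T t₁) D1 L θ μ)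
    (hw1 : w1 = (sn l t t₁ / sn l T t₁) ^ 2 * v1
      - sn l T t * sn l t t₁ / sn l T t₁ / ((N₁ / l : ℕ) : ℝ) ^ 2)
    (hw2 : w2 = (sn l t t₁ / sn l T t₁) ^ 2 * (v1
        + ((Gam (sn l T t₁) B₂ 0 0 - sn l T t₁ / ((N₂ / l : ℕ) : ℝ) ^ 2)
          - (Gam (sn l T t₁) B₁ 0 0 - sn l T t₁ / ((N₁ / l : ℕ) : ℝ) ^ 2)))
      - sn l T t * sn l t t₁ / sn l T t₁ / ((N₂ / l : ℕ) : ℝ) ^ 2)
    (hw10 : 0 ≤ w1) (hw20 : 0 ≤ w2)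
    -- errors
    {q1 q2 : ℝ}
    (hq1 : q1 = eloc B₁ (sn l T t) ρ₁ ((2 * π)⁻¹ * (T * (l : ℝ) ^ 2)) Lp
      (H889.sg (B₁ * ahat (sn l T t) B₁)) R0 D0 R)
    (hq2 : q2 = eloc B₂ (sn l T t) ρ₂ ((2 * π)⁻¹ * (T * (l : ℝ) ^ 2)) Lp
      (H889.sg (B₂ * ahat (sn l T t) B₂)) R0 D0 R
      + etr2 ((2 * π)⁻¹ * (T * (l : ℝ) ^ 2)) Lp e ηt σ R0 D0) :
    om (wT b N₂) (mt N₂ t₁) 1 ≤
      ((N₂ / l : ℕ) : ℝ) ^ 2 * (q2 + Real.exp (-(2 * π ^ 2 * w2)) *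
        (Real.exp (2 * π ^ 2 * w1) *
            ((omh N₁ l b T t t₁ + EtB N₁ l b T r ηB₁) / ((N₁ / l : ℕ) : ℝ) ^ 2 + q1)
          + 2 * η * (Sto N₁ l b T t + q1)))
      + EtB N₂ l b T r' ηB₂ := by
  have ht : 0 < t := ht₁.trans h1
  have hT : 0 < T := ht.trans h
  have hs1 : 0 < sn l T t := sn_pos hl₁ ht h
  have hs2 : 0 < sn l t t₁ := sn_pos hl₁ ht₁ h1
  have hs12 : 0 < sn l T t₁ := sn_pos hl₁ ht₁ (h1.trans h)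
  have n1 := Nf.of_dom d1
  have n2' := Nf.of_dom d2
  have hN1 : 2 * D1 < N₁ / l := by
    have h3 : (2 * (D1 : ℝ)) < ((N₁ / l : ℕ) : ℝ) := by
      have : (0 : ℝ) ≤ D1 := Nat.cast_nonneg _
      nlinarith
    exact_mod_cast h3
  have Q1 := near_ref hb hl₁ ht₁ h1 h d1 o1 hD hmu near1 (0 : V (N₁ / l))
  have Q2 := near_ref2 hb hl₂ ht₁ h1 h d1 d2 o1 o2 hD hN1 hN2 hmu bmu near2 he hηt2 hηte hσ0 hσ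
    (0 : V (N₂ / l))
  obtain ⟨mL, ⟨Kl, hKl⟩, cL⟩ := win_ref hs1 d1 o1 hD hmu bmu
  -- window laws
  obtain ⟨E₁, E₂, H, f1, f2, f3, f4, f5⟩ := fac_Jz d1 d2 hs12 hTn ha0 ha h5 hL hLN hlow hθ hθ1 hμ
    hμ1 hη hη2
  have main := two_toriB (ι₁ := iz (N₁ / l) D1) (ι₂ := iz (N₂ / l) D1) hb hl₁ hl₂ ht₁ h1 h h12₁
    h12₂ hr hr' a1 a2 n1 n2' g1 g1' g2 g2' HS₁ HS₂ (iz_inj hN1) (iz_inj hN2) (jz0 D1)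
    (ψW := wfun D1 (lamw (sn l T t) B₁ R0 D1 mu)) (ch_wfun cL) (measurable_wfun mL)
    (C := Kl) (fun F => hKl _ _) (q1 := q1) (q2 := q2) ?_ ?_ f1 f2 f3 f4 hη0 hη2 f5 rfl rfl
    (w1 := w1) (w2 := w2) ?_ ?_ hw10 hw20
  · exact main
  · rw [hq1]
    refine le_trans (le_of_eq (n2_congr fun g => ?_)) Q1
    rw [wfun_sub, iz_zero, lft_lamw]
  · rw [hq2]
    refine le_trans (le_of_eq (n2_congr fun g => ?_)) Q2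
    rw [wfun_sub, iz_zero]
  · rw [hw1, hv1]
  · rw [hw2, hv1]

end

end Vale.Agent.P159.H363
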