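import Vale.Agent.P159.H363.Cvh2
import Vale.Agent.P159.H733.Vt8

/-!
P159 / H363, VB10 numbers, part 1: the local errors `q1`, `q2` for exact periodizations
(`s ν = 3`, everything exponentially small in `L`).
-/

set_option linter.unusedSectionVars false

namespace Vale.Agent.P159.H363

open Finset Matrix MeasureTheory ProbabilityTheory
open Vale.Agent.P159.TM.Spec (V)
open Vale.Agent.P159.H864 (TI sym fc cl)
open Vale.Agent.P159.H462 (Dom ahat Gam ti_ahat sym_ahat)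
open Vale.Agent.P159.H889 (tl tl_nonneg)
open Vale.Agent.P159.H733.Torg (ip Two)
open Vale.Agent.P159.H733.Vt (zb eA)

noncomputable section

/-! ### scalars -/

lemma log_one_add_sq_le (x : ℝ) : Real.log (1 + x ^ 2) ≤ x ^ 2 := by
  have := Real.log_le_sub_one_of_pos (by positivity : 0 < 1 + x ^ 2)
  linarith

/-- size of the noise -/
lemma sg_num {n : ℕ} [NeZero n] {A : Matrix (V n) (V n) ℝ} {ν c s U : ℝ} (h : Dom A ν c)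
    (hs : 0 < s) (hsν : s * ν = 3) (hU : 1 ≤ U) (hν : ν⁻¹ ≤ U) (hc : c⁻¹ ≤ U) (hn : (n : ℝ) ≤ U) :
    H889.sg (A * ahat s A) ≤ 11 * U ^ 2 := by
  have hν0 := h.hν
  have hc0 := h.hc
  have h1 := H733.Vt.sg_sq_le (dom_ahat h hs)
  have hs3 : s = 3 * ν⁻¹ := by field_simp; linarith
  rw [inv_inv] at h1
  have h2 : ν⁻¹ + s ≤ 4 * U := by rw [hs3]; linarith
  have h3 := log_one_add_sq_le (n : ℝ)
  have h4 : (n : ℝ) ^ 2 ≤ U ^ 2 := pow_le_pow_left₀ (Nat.cast_nonneg _) hn 2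
  have hU2 : 1 ≤ U ^ 2 := one_le_pow₀ hU
  have h5 : c⁻¹ * (50 * (1 + Real.log (1 + (n : ℝ) ^ 2))) ≤ U * (50 * (2 * U ^ 2)) := by
    have h6 : 0 ≤ Real.log (1 + (n : ℝ) ^ 2) := Real.log_nonneg (by nlinarith [sq_nonneg (n : ℝ)])
    refine mul_le_mul hc ?_ (by positivity) (by linarith)
    linarith
  have h7 : H889.sg (A * ahat s A) ^ 2 ≤ (11 * U ^ 2) ^ 2 := by
    have h8 : U * (50 * (2 * U ^ 2)) = 100 * (U * U ^ 2) := by ring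
    have h9 : U * U ^ 2 ≤ U ^ 2 * U ^ 2 := by
      have : U ≤ U ^ 2 := by nlinarith
      exact mul_le_mul_of_nonneg_right this (by positivity)
    have h10 : U ≤ U ^ 2 * U ^ 2 := by nlinarith
    nlinarith
  exact abs_le_of_sq_le_sq' h7 (by positivity) |>.2

/-- the number `vaw` -/
lemma vaw_num {ν c e τ U : ℝ} {N D : ℕ} (hν0 : 0 < ν) (hc0 : 0 < c) (hU : 1 ≤ U)
    (hν : ν⁻¹ ≤ 4 * U) (hc : c⁻¹ ≤ U) (hN : (N : ℝ) ≤ U) (hD : (D : ℝ) + 1 ≤ U) {u : ℝ}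
    (hu : 0 ≤ u) (he0 : 0 ≤ e) (he : e ≤ 6 * u) (hτ0 : 0 ≤ τ) (hτ : τ ≤ 10 * u) :
    vaw ν c e τ N D ≤ (500 * U ^ 4 * u) ^ 2 := by
  have h1 : (2 * (D : ℝ) + 1) ^ 2 ≤ 4 * U ^ 2 := by
    have : 2 * (D : ℝ) + 1 ≤ 2 * U := by linarith
    nlinarith [Nat.cast_nonneg (α := ℝ) D]
  have h2 : e ^ 2 ≤ 36 * u ^ 2 := by nlinarith
  have h3 : τ ^ 2 ≤ 100 * u ^ 2 := by nlinarith
  have hU2 : 1 ≤ U ^ 2 := one_le_pow₀ hU
  have h4 : (2 * (D : ℝ) + 1) ^ 2 * e ^ 2 + τ ^ 2 ≤ 244 * (U ^ 2 * u ^ 2) := by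
    have h5 := mul_le_mul h1 h2 (by positivity) (by positivity)
    nlinarith [sq_nonneg u, mul_nonneg (sub_nonneg.2 hU2) (sq_nonneg u)]
  have h6 : 2 / ν ≤ 8 * U := by
    rw [div_eq_mul_inv]
    linarith
  have h7 : 2 / ν * ((2 * (D : ℝ) + 1) ^ 2 * e ^ 2 + τ ^ 2) ≤ 8 * U * (244 * (U ^ 2 * u ^ 2)) :=
    mul_le_mul h6 h4 (by positivity) (by positivity)
  have h8 := log_one_add_sq_le (N : ℝ)
  have h9 : (N : ℝ) ^ 2 ≤ U ^ 2 := pow_le_pow_left₀ (Nat.cast_nonneg _) hN 2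
  have h10 : 0 ≤ Real.log (1 + (N : ℝ) ^ 2) := Real.log_nonneg (by nlinarith [sq_nonneg (N : ℝ)])
  have h11 : 200 / c ≤ 200 * U := by
    rw [div_eq_mul_inv]
    linarith
  have h12 : (2 * (D : ℝ) + 1) ^ 2 * e ≤ 24 * (U ^ 2 * u) := by
    have h13 := mul_le_mul h1 he he0 (by positivity)
    linarith
  have h13 : ((2 * (D : ℝ) + 1) ^ 2 * e) ^ 2 ≤ 576 * (U ^ 4 * u ^ 2) := by
    have h14 := pow_le_pow_left₀ (by positivity) h12 2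
    calc _ ≤ _ := h14
      _ = _ := by ring
  have h15 : 200 / c * (1 + Real.log (1 + (N : ℝ) ^ 2)) ≤ 200 * U * (2 * U ^ 2) :=
    mul_le_mul h11 (by linarith) (by positivity) (by positivity)
  have h16 : 200 / c * (1 + Real.log (1 + (N : ℝ) ^ 2)) * ((2 * (D : ℝ) + 1) ^ 2 * e) ^ 2
      ≤ 200 * U * (2 * U ^ 2) * (576 * (U ^ 4 * u ^ 2)) :=
    mul_le_mul h15 h13 (by positivity) (by positivity)
  have h17 : 8 * U * (244 * (U ^ 2 * u ^ 2)) = 1952 * (U ^ 3 * u ^ 2) := by ring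
  have h18 : 200 * U * (2 * U ^ 2) * (576 * (U ^ 4 * u ^ 2)) = 230400 * (U ^ 7 * u ^ 2) := by ring
  have h19 : U ^ 3 * u ^ 2 ≤ U ^ 8 * u ^ 2 :=
    mul_le_mul_of_nonneg_right (pow_le_pow_right₀ hU (by norm_num)) (by positivity)
  have h20 : U ^ 7 * u ^ 2 ≤ U ^ 8 * u ^ 2 :=
    mul_le_mul_of_nonneg_right (pow_le_pow_right₀ hU (by norm_num)) (by positivity)
  have h21 : (500 * U ^ 4 * u) ^ 2 = 250000 * (U ^ 8 * u ^ 2) := by ring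
  have h22 : 0 ≤ U ^ 8 * u ^ 2 := by positivity
  unfold vaw
  rw [h21]
  linarith

lemma eloc_num {n : ℕ} [NeZero n] {A : Matrix (V n) (V n) ℝ} {s ρ K Lp σ U u : ℝ} {R0 D0 R D : ℕ}
    (hU : 1 ≤ U) (hu : 0 ≤ u) (hK0 : 0 ≤ K) (hK : K ≤ 1) (hL0 : 0 ≤ Lp) (hL : Lp ≤ 1)
    (hσ0 : 0 ≤ σ) (hσ : σ ≤ 11 * U ^ 2) (hR : R0 + D0 + R ≤ D) (hD : (D : ℝ) + 1 ≤ U)
    (h1 : tl (ahat s A) R0 ≤ 5 * u) (h2 : tl (ahat s A) R ≤ 5 * u) :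
    eloc A s ρ K Lp σ R0 D0 R ≤ ρ + 445 * (U ^ 4 * u) := by
  have a1 : tl (ahat s A) R0 * K ≤ 5 * u * 1 :=
    mul_le_mul h1 hK hK0 (by positivity)
  have a2 : (2 * ((R0 + D0 : ℕ) : ℝ) + 1) ^ 2 ≤ 4 * U ^ 2 := by
    have h3 : ((R0 + D0 : ℕ) : ℝ) ≤ D := by exact_mod_cast (by omega : R0 + D0 ≤ D)
    have h4 : 2 * ((R0 + D0 : ℕ) : ℝ) + 1 ≤ 2 * U := by linarith
    nlinarith [Nat.cast_nonneg (α := ℝ) (R0 + D0)]
  have a3 : (2 * ((R0 + D0 : ℕ) : ℝ) + 1) ^ 2 * tl (ahat s A) R ≤ 4 * U ^ 2 * (5 * u) :=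
    mul_le_mul a2 h2 (tl_nonneg _ _) (by positivity)
  have a4 : (2 * ((R0 + D0 : ℕ) : ℝ) + 1) ^ 2 * tl (ahat s A) R * (2 * σ)
      ≤ 4 * U ^ 2 * (5 * u) * (2 * (11 * U ^ 2)) :=
    mul_le_mul a3 (by linarith) (by positivity) (by positivity)
  have a5 : Lp * ((2 * ((R0 + D0 : ℕ) : ℝ) + 1) ^ 2 * tl (ahat s A) R * (2 * σ))
      ≤ 1 * (4 * U ^ 2 * (5 * u) * (2 * (11 * U ^ 2))) := by
    refine mul_le_mul hL a4 ?_ (by norm_num)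
    have := tl_nonneg (ahat s A) R
    positivity
  have a6 : 1 * (4 * U ^ 2 * (5 * u) * (2 * (11 * U ^ 2))) = 440 * (U ^ 4 * u) := by ring
  have a7 : u ≤ U ^ 4 * u := by
    have : 1 ≤ U ^ 4 := one_le_pow₀ hU
    nlinarith
  unfold eloc
  linarith

lemma sqrt_log_num {x U : ℝ} (hU : 1 ≤ U) (h0 : 0 < x) (h : x ≤ 8 * U ^ 2) :
    √(Real.log x) ≤ 3 * U := by
  refine Real.sqrt_le_iff.2 ⟨by linarith, ?_⟩
  have h1 := Real.log_le_sub_one_of_pos h0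
  nlinarith

lemma etr2_num {K Lp e η σ U u : ℝ} {R0 D0 R D : ℕ} (hU : 1 ≤ U) (hu : 0 ≤ u) (hK0 : 0 ≤ K)
    (hK : K ≤ 1) (hL0 : 0 ≤ Lp) (hL : Lp ≤ 1) (hR : R0 + D0 + R ≤ D) (hD : (D : ℝ) + 1 ≤ U)
    (he0 : 0 ≤ e) (he : e ≤ 6 * u) (hη0 : 0 ≤ η) (hη : η ≤ 96 * (U ^ 2 * u)) (hσ0 : 0 ≤ σ)
    (hσ : σ ≤ 500 * U ^ 4 * u) : etr2 K Lp e η σ R0 D0 ≤ 3408 * (U ^ 5 * u) := by
  have h3 : ((R0 + D0 : ℕ) : ℝ) ≤ D := by exact_mod_cast (by omega : R0 + D0 ≤ D)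
  have h3' : (R0 : ℝ) ≤ D := by exact_mod_cast (by omega : R0 ≤ D)
  have a1 : (2 * (R0 : ℝ) + 1) ^ 2 ≤ 4 * U ^ 2 := by
    have h4 : 2 * (R0 : ℝ) + 1 ≤ 2 * U := by linarith
    nlinarith [Nat.cast_nonneg (α := ℝ) R0]
  have a2 : (2 * ((R0 + D0 : ℕ) : ℝ) + 1) ^ 2 ≤ 4 * U ^ 2 := by
    have h4 : 2 * ((R0 + D0 : ℕ) : ℝ) + 1 ≤ 2 * U := by linarith
    nlinarith [Nat.cast_nonneg (α := ℝ) (R0 + D0)]
  have a3 : (2 * (R0 : ℝ) + 1) ^ 2 * e ≤ 4 * U ^ 2 * (6 * u) := mul_le_mul a1 he he0 (by positivity)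
  have a4 : K * ((2 * (R0 : ℝ) + 1) ^ 2 * e) ≤ 1 * (4 * U ^ 2 * (6 * u)) :=
    mul_le_mul hK a3 (by positivity) (by norm_num)
  have a5 : 4 * η * K ≤ 4 * (96 * (U ^ 2 * u)) * 1 :=
    mul_le_mul (by linarith) hK hK0 (by positivity)
  have a6 : √(Real.log (2 * (2 * ((R0 + D0 : ℕ) : ℝ) + 1) ^ 2)) ≤ 3 * U :=
    sqrt_log_num hU (by positivity) (by linarith)
  have a7 : 2 * σ * √(Real.log (2 * (2 * ((R0 + D0 : ℕ) : ℝ) + 1) ^ 2))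
      ≤ 2 * (500 * U ^ 4 * u) * (3 * U) :=
    mul_le_mul (by linarith) a6 (Real.sqrt_nonneg _) (by positivity)
  have a8 : Lp * (2 * σ * √(Real.log (2 * (2 * ((R0 + D0 : ℕ) : ℝ) + 1) ^ 2)))
      ≤ 1 * (2 * (500 * U ^ 4 * u) * (3 * U)) :=
    mul_le_mul hL a7 (by positivity) (by norm_num)
  have a9 : U ^ 2 * u ≤ U ^ 5 * u :=
    mul_le_mul_of_nonneg_right (pow_le_pow_right₀ hU (by norm_num)) hu
  have a10 : 1 * (2 * (500 * U ^ 4 * u) * (3 * U)) = 3000 * (U ^ 5 * u) := by ring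
  have a11 : 1 * (4 * U ^ 2 * (6 * u)) = 24 * (U ^ 2 * u) := by ring
  unfold etr2
  linarith

/-- the number of the entries -/
lemma entry_num {a L C1 : ℝ} (ha : 1 ≤ a) (hC1 : 0 ≤ C1)
    (hL : 12 * (a + 1) + 16 * a * Real.exp C1 + 9 ≤ L) :
    2 * (2 * Real.exp (-(a * L)) + 8 * a * L * Real.exp C1 * Real.exp (-(L ^ 2 / 12)))
      ≤ 6 * Real.exp (-(a * L)) := by
  have hE : 1 ≤ Real.exp C1 := Real.one_le_exp hC1
  have hL1 : 12 * (a + 1) ≤ L := by nlinarith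
  have hL2 : 16 * a * Real.exp C1 ≤ L := by nlinarith
  have hL0 : 0 < L := by nlinarith
  have h1 : Real.exp (-(L ^ 2 / 12)) ≤ Real.exp (-(a * L)) * Real.exp (-L) := by
    rw [← Real.exp_add]
    refine Real.exp_le_exp.2 ?_
    nlinarith
  have h2 : 8 * a * L * Real.exp C1 ≤ Real.exp L := by
    have h3 := Real.quadratic_le_exp_of_nonneg hL0.le
    nlinarith
  have h3 : 8 * a * L * Real.exp C1 * Real.exp (-L) ≤ 1 := by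
    calc 8 * a * L * Real.exp C1 * Real.exp (-L) ≤ Real.exp L * Real.exp (-L) :=
          mul_le_mul_of_nonneg_right h2 (Real.exp_pos _).le
      _ = 1 := by rw [← Real.exp_add]; simp
  have h4 : 8 * a * L * Real.exp C1 * Real.exp (-(L ^ 2 / 12)) ≤ Real.exp (-(a * L)) := by
    have h5 : 0 ≤ 8 * a * L * Real.exp C1 := by positivity
    calc 8 * a * L * Real.exp C1 * Real.exp (-(L ^ 2 / 12))
        ≤ 8 * a * L * Real.exp C1 * (Real.exp (-(a * L)) * Real.exp (-L)) :=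
          mul_le_mul_of_nonneg_left h1 h5
      _ = (8 * a * L * Real.exp C1 * Real.exp (-L)) * Real.exp (-(a * L)) := by ring
      _ ≤ 1 * Real.exp (-(a * L)) := mul_le_mul_of_nonneg_right h3 (Real.exp_pos _).le
      _ = _ := one_mul _
  linarith

/-- **the local errors of `cvh`**, exact periodizations, `s ν = 3` -/
theorem cvn_q {B p C1 : ℝ} (hB : 0 ≤ B) (hp : 1 ≤ p) (hC1 : 0 ≤ C1) :
    ∃ Λ L0 : ℝ, 1 ≤ Λ ∧ 1 ≤ L0 ∧ ∀ (N1 N2 N3 : ℕ) [NeZero N1] [NeZero N2] [NeZero N3]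
      (h1 : N1 ∣ N3) (h2 : N2 ∣ N3) (A1 : Matrix (V N1) (V N1) ℝ) (A2 : Matrix (V N2) (V N2) ℝ)
      (A3 : Matrix (V N3) (V N3) ℝ) (ν c κ s L : ℝ), Two h1 A1 A3 ν c κ C1 →
      Two h2 A2 A3 ν c κ C1 → 0 < s → s * ν = 3 → L0 ≤ L → ν⁻¹ ≤ Real.exp (p * L) →
      c⁻¹ ≤ Real.exp (p * L) → ∀ R0 D0 D1 R : ℕ, Λ * L * (2 / κ) ≤ R0 → Λ * L * (2 / κ) ≤ R →
      R0 + D0 + R ≤ D1 → (D1 : ℝ) + 1 ≤ Real.exp (p * L) → (N1 : ℝ) ≤ Real.exp (p * L) →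
      (N2 : ℝ) ≤ Real.exp (p * L) → 4 * D1 ≤ N1 → 4 * D1 ≤ N2 → L ^ 5 * 2 ≤ κ * N1 →
      L ^ 5 * 2 ≤ κ * N2 → ∃ e ηt σ : ℝ,
        (∀ ζ ∈ zb (2 * D1), |ahat s A2 0 (ip N2 ζ) - ahat s A1 0 (ip N1 ζ)| ≤ e) ∧
        ηt ≤ 1 / 2 ∧ (1 + s * ν) * (2 * D0 + 1) ^ 2 * e ≤ ηt ∧ 0 ≤ σ ∧
        vaw (ν⁻¹ + s)⁻¹ c e (tl (ahat s A1) R + tl (ahat s A2) R) N2 D1 ≤ σ ^ 2 ∧
        ∀ ρ₁ ρ₂ K Lp : ℝ, 0 ≤ K → K ≤ 1 → 0 ≤ Lp → Lp ≤ 1 →
          eloc A1 s ρ₁ K Lp (H889.sg (A1 * ahat s A1)) R0 D0 R ≤ ρ₁ + Real.exp (-(B * L)) ∧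
          eloc A2 s ρ₂ K Lp (H889.sg (A2 * ahat s A2)) R0 D0 R + etr2 K Lp e ηt σ R0 D0
            ≤ ρ₂ + Real.exp (-(B * L)) := by
  set a : ℝ := B + 5 * p + 1 with ha
  have ha1 : 1 ≤ a := by rw [ha]; linarith
  refine ⟨4 * a * C1 + 2 * a, 12 * (a + 1) + 16 * a * Real.exp C1 + 9, by nlinarith, by
    have := Real.exp_pos C1
    nlinarith, ?_⟩
  intro N1 N2 N3 _ _ _ h1 h2 A1 A2 A3 ν c κ s L T1 T2 hs hsν hL hν hc R0 D0 D1 R hR0 hR hD hD1 hN1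
    hN2 h4 h4' h5 h5'
  have hν0 := T1.dom.hν
  have hc0 := T1.dom.hc
  have hE : 1 ≤ Real.exp C1 := Real.one_le_exp hC1
  have hL9 : 9 ≤ L := by nlinarith
  have hLa : a ≤ L := by nlinarith
  have hL1 : 1 ≤ L := by linarith
  set U : ℝ := Real.exp (p * L) with hU
  set u : ℝ := Real.exp (-(a * L)) with hu
  have hU1 : 1 ≤ U := Real.one_le_exp (by positivity)
  have hu0 : 0 < u := Real.exp_pos _
  have hg : √(1 + s * ν) = 2 := by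
    rw [hsν, show (1 : ℝ) + 3 = 2 ^ 2 by norm_num]
    exact Real.sqrt_sq (by norm_num)
  -- tails
  have ht : ∀ {n : ℕ} [NeZero n] {h : n ∣ N3} {A : Matrix (V n) (V n) ℝ},
      Two h A A3 ν c κ C1 → ∀ r : ℕ, (4 * a * C1 + 2 * a) * L * (2 / κ) ≤ r →
      tl (ahat s A) r ≤ 5 * u := by
    intro n _ h A hT r hr
    have h6 := H733.Vt.tl_ahat_pz hT hs ha1 hL1 (Λ := 4 * a * C1 + 2 * a) (R := r)
      (by rw [hg]; exact hr)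
    have h7 : (2 * a * C1 - (4 * a * C1 + 2 * a) / 2) * L = -(a * L) := by ring
    rw [h7] at h6
    linarith
  -- entries
  have hLa5 : 2 * a ≤ 9 * L ^ 5 := by
    have : L ≤ L ^ 5 := le_self_pow₀ hL1 (by norm_num)
    linarith
  have hTn : 1 ≤ ⌈a * (1 + s * ν) * L⌉₊ := by
    rw [Nat.one_le_ceil_iff]
    positivity
  have hent : ∀ ζ ∈ zb (2 * D1), |ahat s A2 0 (ip N2 ζ) - ahat s A1 0 (ip N1 ζ)| ≤ 6 * u := by
    intro ζ hζ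
    have p1 : H733.Vt.Pr h1 h2 A1 A2 A3 ν c κ C1 0 1 0 1 := ⟨T1.near, T2.near⟩
    have h6 := p1.ahat_ent hs hTn (D := 2 * D1) (by omega) (by omega) hζ
    have h7 := H733.Vt.eA_le (C1 := C1) hs hν0 ha1 hL1 (N := N1) (κ := κ) (by rw [hg]; exact h5) hLa5
    have h8 := H733.Vt.eA_le (C1 := C1) hs hν0 ha1 hL1 (N := N2) (κ := κ) (by rw [hg]; exact h5') hLa5
    have h9 := entry_num ha1 hC1 hL
    linarith
  have hD0 : (2 * (D0 : ℝ) + 1) ^ 2 ≤ 4 * U ^ 2 := by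
    have h3 : (D0 : ℝ) ≤ D1 := by exact_mod_cast (by omega : D0 ≤ D1)
    have h6 : 2 * (D0 : ℝ) + 1 ≤ 2 * U := by linarith
    nlinarith [Nat.cast_nonneg (α := ℝ) D0]
  have hη : (1 + s * ν) * (2 * (D0 : ℝ) + 1) ^ 2 * (6 * u) ≤ 96 * (U ^ 2 * u) := by
    rw [hsν]
    have h6 := mul_le_mul_of_nonneg_right hD0 (by positivity : 0 ≤ 24 * u)
    nlinarith
  -- the final exponential
  have hfin : 4000 * (U ^ 5 * u) ≤ Real.exp (-(B * L)) := by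
    have e1 : U ^ 5 * u = Real.exp (-(B * L)) * Real.exp (-L) := by
      rw [hU, hu, ← Real.exp_nat_mul, ← Real.exp_add, ← Real.exp_add]
      congr 1
      push_cast
      rw [ha]
      ring
    have e2 : 4000 * Real.exp (-L) ≤ 1 := by
      have e3 : (4000 : ℝ) ≤ Real.exp 9 := by
        have h6 := Real.exp_one_gt_d9
        have h7 : Real.exp 9 = Real.exp 1 ^ 9 := by rw [← Real.exp_nat_mul]; norm_num
        rw [h7]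
        calc (4000 : ℝ) ≤ 2.7182818283 ^ 9 := by norm_num
          _ ≤ Real.exp 1 ^ 9 := by gcongr
      have e4 : (4000 : ℝ) ≤ Real.exp L := e3.trans (Real.exp_le_exp.2 hL9)
      rw [Real.exp_neg, mul_inv_le_iff₀ (Real.exp_pos _)]
      linarith
    rw [e1]
    have := mul_le_mul_of_nonneg_left e2 (Real.exp_pos (-(B * L))).le
    linarith
  have hUu : 0 ≤ U ^ 5 * u := by positivity
  have h45 : U ^ 4 * u ≤ U ^ 5 * u :=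
    mul_le_mul_of_nonneg_right (pow_le_pow_right₀ hU1 (by norm_num)) hu0.le
  have h25 : U ^ 2 * u ≤ U ^ 5 * u :=
    mul_le_mul_of_nonneg_right (pow_le_pow_right₀ hU1 (by norm_num)) hu0.le
  have hB1 : Real.exp (-(B * L)) ≤ 1 := Real.exp_le_one_iff.2 (by
    have : 0 ≤ B * L := by positivity
    linarith)
  have hν4 : ((ν⁻¹ + s)⁻¹)⁻¹ ≤ 4 * U := by
    rw [inv_inv]
    have hs3 : s = 3 * ν⁻¹ := by field_simp; linarith
    rw [hs3]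
    linarith
  refine ⟨6 * u, 96 * (U ^ 2 * u), 500 * U ^ 4 * u, hent, by linarith, hη, by positivity,
    vaw_num (by positivity) hc0 hU1 hν4 hc hN2 hD1 hu0.le (by positivity) le_rfl
      (add_nonneg (tl_nonneg _ _) (tl_nonneg _ _)) (by linarith [ht T1 R hR, ht T2 R hR]), ?_⟩
  intro ρ₁ ρ₂ K Lp hK0 hK hLp0 hLp
  have q1 := eloc_num (A := A1) (ρ := ρ₁) hU1 hu0.le hK0 hK hLp0 hLp (H889.sg_nonneg _)
    (sg_num T1.dom hs hsν hU1 hν hc hN1) hD hD1 (ht T1 R0 hR0) (ht T1 R hR)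
  have q2 := eloc_num (A := A2) (ρ := ρ₂) hU1 hu0.le hK0 hK hLp0 hLp (H889.sg_nonneg _)
    (sg_num T2.dom hs hsν hU1 hν hc hN2) hD hD1 (ht T2 R0 hR0) (ht T2 R hR)
  have q3 := etr2_num (K := K) (Lp := Lp) hU1 hu0.le hK0 hK hLp0 hLp hD hD1 (e := 6 * u)
    (by positivity) le_rfl (η := 96 * (U ^ 2 * u)) (by positivity) le_rfl (σ := 500 * U ^ 4 * u)
    (by positivity) le_rfl
  exact ⟨by linarith, by linarith⟩

end

end Vale.Agent.P159.H363
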