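import Vale.Agent.P159.H363.Cvn1
import Vale.Agent.P159.H767.Cvp7

/-!
P159 / H363, VB10 numbers, part 2: the window laws of the noise (numbers of `cvp_fac` and the
difference of the variances, `cvp_num`) for exact periodizations.
-/

set_option linter.unusedSectionVars false

namespace Vale.Agent.P159.H363

open Finset Matrix MeasureTheory ProbabilityTheory
open Vale.Agent.P159.TM.H764 (EE)
open Vale.Agent.P159.TM.Spec (V)
open Vale.Agent.P159.H864 (TI sym fc cl)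
open Vale.Agent.P159.H462 (Dom ahat Gam)
open Vale.Agent.P159.H733.Torg (ip Two)
open Vale.Agent.P159.H767 (lT pt RT eps v1c cen gT)
open scoped Real

noncomputable section

section two

variable {n1 n2 n3 : ℕ} [NeZero n1] [NeZero n2] [NeZero n3] {h1 : n1 ∣ n3} {h2 : n2 ∣ n3}
  {A1 : Matrix (V n1) (V n1) ℝ} {A2 : Matrix (V n2) (V n2) ℝ} {A3 : Matrix (V n3) (V n3) ℝ}
  {ν c κ C1 s : ℝ}

lemma tau_anti (hκ : 0 < κ) {T : ℕ} (h12 : n1 ≤ n2) : H733.Torg.tau κ C1 n2 T ≤ H733.Torg.tau κ C1 n1 T := by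
  unfold H733.Torg.tau
  refine mul_le_mul_of_nonneg_left (Real.exp_le_exp.2 ?_) (by positivity)
  have h3 : (n1 : ℝ) ≤ n2 := by exact_mod_cast h12
  have h4 : κ * n1 / (4 * √T) ≤ κ * n2 / (4 * √T) :=
    div_le_div_of_nonneg_right (mul_le_mul_of_nonneg_left h3 hκ.le) (by positivity)
  linarith

/-- the low part of the series on two tori -/
lemma low_two (T1 : Two h1 A1 A3 ν c κ C1) (T2 : Two h2 A2 A3 ν c κ C1) (hs : 0 < s) {T : ℕ}
    (hT : 1 ≤ T) (h12 : n1 ≤ n2) {z : ℤ × ℤ} (hz1 : 2 * z.1.natAbs ≤ n1)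
    (hz2 : 2 * z.2.natAbs ≤ n1) :
    |fc (lT s ν T) A2 0 (pt n2 z) - fc (lT s ν T) A1 0 (pt n1 z)| ≤
      (ν + s⁻¹)⁻¹ * (T * (2 * H733.Torg.tau κ C1 n1 T)) := by
  have h := H767.e0_of_pow (T := T) T1.dom T2.dom hs (z := z) (δ := fun _ => 2 * H733.Torg.tau κ C1 n1 T)
    fun m hm => ?_
  · refine h.trans (le_of_eq ?_)
    rw [Finset.sum_const, Finset.card_range, nsmul_eq_mul]
  · have p1 := T1.pow_diff hT hm.le hz1 hz2
    have p2 := T2.pow_diff hT hm.le (hz1.trans h12) (hz2.trans h12)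
    have p3 := tau_anti (C1 := C1) (n1 := n1) (n2 := n2) T1.kp (T := T) h12
    have e1 : pt n1 z = ip n1 z := rfl
    have e2 : pt n2 z = ip n2 z := rfl
    rw [e1, e2, abs_le]
    have p4 := p1.1.trans p1.2
    constructor <;> linarith [p1.1, p1.2, p2.1, p2.2]

end two

/-! ### scalars -/

/-- floor of a number which is at least two -/
lemma floor_num {X : ℝ} (hX : 2 ≤ X) : 1 ≤ ⌊X⌋₊ ∧ X / 2 ≤ (⌊X⌋₊ : ℝ) ∧ ((⌊X⌋₊ : ℕ) : ℝ) ≤ X := by
  have h0 : 0 ≤ X := by linarith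
  have h1 := Nat.lt_floor_add_one X
  refine ⟨Nat.one_le_iff_ne_zero.2 fun h => ?_, by linarith, Nat.floor_le h0⟩
  rw [h] at h1
  norm_num at h1
  linarith

lemma half_pow_le {T : ℕ} : ((1 : ℝ) / 2) ^ T ≤ Real.exp (-((T : ℝ) / 2)) := by
  have h1 : (1 : ℝ) / 2 ≤ Real.exp (-(1 / 2)) := by
    have h2 := Real.add_one_le_exp (-(1 / 2 : ℝ))
    linarith
  calc ((1 : ℝ) / 2) ^ T ≤ Real.exp (-(1 / 2)) ^ T := pow_le_pow_left₀ (by norm_num) h1 T
    _ = Real.exp (-((T : ℝ) / 2)) := by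
      rw [← Real.exp_nat_mul]
      congr 1
      ring

lemma frac_num {x y : ℝ} (hx0 : 0 < x) (hx : x ≤ 1 / 5) (hy0 : 0 < y) :
    (1 - 4 * x - 34 * y) * (1 + 34 * y + x) ≤ (1 - x) * (1 - x ^ 2) ^ 2 := by
  have h1 : x ^ 2 ≤ x / 5 := by nlinarith
  have h2 : 1 - 2 * x ^ 2 ≤ (1 - x ^ 2) ^ 2 := by
    have : (1 - x ^ 2) ^ 2 = 1 - 2 * x ^ 2 + (x ^ 2) ^ 2 := by ring
    rw [this]
    have := sq_nonneg (x ^ 2)
    linarith
  have h3 : (1 - x) * (1 - 2 * x ^ 2) ≤ (1 - x) * (1 - x ^ 2) ^ 2 :=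
    mul_le_mul_of_nonneg_left h2 (by linarith)
  have h4 : 1 - 3 * x ≤ (1 - x) * (1 - 2 * x ^ 2) := by nlinarith [mul_pos hx0 hx0]
  refine le_trans ?_ (h4.trans h3)
  nlinarith [mul_pos hx0 hy0, mul_pos hx0 hx0, mul_pos hy0 hy0]

/-- the cut-off energy with the numbers of the window -/
lemma cen_num {a s n q : ℝ} {D : ℕ} (ha : 1 ≤ a) (hs : 0 < s) (hns : n ^ 2 ≤ s) (hD : 5 ≤ D)
    (hq : 5 ≤ q) (hDn : 16 * (D * q) ≤ n) (hL2 : 2 ≤ n / (8 * (D * q)))
    (hLD : Real.log (n / (8 * (D * q))) ≤ q) :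
    cen a s D (n / (8 * (D * q))) ≤
      2 * π * a / Real.log (n / (8 * (D * q))) * (1 + 34 * (1 / D) + 1 / q) := by
  have hD' : (5 : ℝ) ≤ D := by exact_mod_cast hD
  have hD0 : (0 : ℝ) < D := by linarith
  have hq0 : 0 < q := by linarith
  have hDq : 0 < (D : ℝ) * q := by positivity
  have hn : 0 < n := by nlinarith
  set L' : ℝ := n / (8 * (D * q)) with hL'
  have hπ := Real.pi_gt_three
  have hlL : 0 < Real.log L' := Real.log_pos (by linarith)
  unfold cen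
  have e1 : (2 * (L' * (2 * (D : ℝ))) + 1) ^ 2 ≤ n ^ 2 / q ^ 2 := by
    have e2 : 2 * (L' * (2 * (D : ℝ))) + 1 ≤ n / q := by
      rw [hL', le_div_iff₀ hq0]
      have e3 : (2 * (n / (8 * (D * q)) * (2 * D)) + 1) * q = n / 2 + q := by
        field_simp
        ring
      rw [e3]
      nlinarith
    calc (2 * (L' * (2 * (D : ℝ))) + 1) ^ 2 ≤ (n / q) ^ 2 :=
          pow_le_pow_left₀ (by positivity) e2 2
      _ = _ := by rw [div_pow]
  have e4 : s⁻¹ * (2 * (L' * (2 * (D : ℝ))) + 1) ^ 2 ≤ 1 / q ^ 2 := by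
    calc s⁻¹ * (2 * (L' * (2 * (D : ℝ))) + 1) ^ 2 ≤ s⁻¹ * (n ^ 2 / q ^ 2) :=
          mul_le_mul_of_nonneg_left e1 (by positivity)
      _ = (s⁻¹ * n ^ 2) / q ^ 2 := by ring
      _ ≤ 1 / q ^ 2 := by
          refine div_le_div_of_nonneg_right ?_ (by positivity)
          rw [inv_mul_le_iff₀ hs]
          linarith
  have e5 : 1 / q ^ 2 ≤ 2 * π * a / Real.log L' * (1 / q) := by
    rw [div_mul_div_comm, div_le_div_iff₀ (by positivity) (by positivity)]
    have e7 : 1 ≤ 2 * π * a := by nlinarith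
    have e10 : Real.log L' * q ≤ q ^ 2 := by nlinarith
    calc 1 * (Real.log L' * q) ≤ q ^ 2 := by linarith
      _ ≤ 2 * π * a * 1 * q ^ 2 := by
        have : 0 < q ^ 2 := by positivity
        nlinarith
  have e8 : a * ((1 + 68 / (2 * (D : ℝ))) * (2 * π / Real.log L')) =
      2 * π * a / Real.log L' * (1 + 34 * (1 / D)) := by
    field_simp
    ring
  rw [e8]
  have e9 : 2 * π * a / Real.log L' * (1 + 34 * (1 / D) + 1 / q) =
      2 * π * a / Real.log L' * (1 + 34 * (1 / D)) + 2 * π * a / Real.log L' * (1 / q) := by ring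
  rw [e9]
  linarith

lemma log_three : Real.log 8 ≤ 3 := by
  have h1 : Real.log 8 = 3 * Real.log 2 := by
    rw [show (8 : ℝ) = 2 ^ 3 by norm_num, Real.log_pow]
    norm_num
  have h2 := Real.log_two_lt_d9
  linarith

lemma key_num {X Y Q x y : ℝ} (hX : 0 < X) (hY : 0 < Y) (hQ : 0 < Q) (hx0 : 0 < x)
    (hx : x ≤ 1 / 5) (hy0 : 0 < y) (hcen : Y ≤ Q / X * (1 + 34 * y + x)) :
    X / Q * (1 - 4 * x - 34 * y) ≤ (1 - x) * (1 - x ^ 2) ^ 2 / Y := by
  have hfrac := frac_num hx0 hx hy0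
  rw [le_div_iff₀ hY]
  by_cases h38 : 0 ≤ 1 - 4 * x - 34 * y
  · calc X / Q * (1 - 4 * x - 34 * y) * Y
        ≤ X / Q * (1 - 4 * x - 34 * y) * (Q / X * (1 + 34 * y + x)) :=
          mul_le_mul_of_nonneg_left hcen (by positivity)
      _ = (1 - 4 * x - 34 * y) * (1 + 34 * y + x) := by field_simp
      _ ≤ _ := hfrac
  · have h39 : X / Q * (1 - 4 * x - 34 * y) * Y ≤ 0 := by
      have h40 : 0 ≤ X / Q * Y := by positivity
      have h41 : X / Q * (1 - 4 * x - 34 * y) * Y = X / Q * Y * (1 - 4 * x - 34 * y) := by ring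
      rw [h41]
      exact mul_nonpos_of_nonneg_of_nonpos h40 (by linarith)
    refine h39.trans ?_
    have : 0 ≤ 1 - x := by linarith
    positivity

/-- the number `v1c` -/
lemma v1c_num {a s n q : ℝ} {D : ℕ} (ha : 1 ≤ a) (hs : 0 < s) (hns : n ^ 2 ≤ s) (hD : 5 ≤ D)
    (hq : 5 ≤ q) (hDn : 16 * (D * q) ≤ n) (hlD : Real.log n ≤ D) (hlq : Real.log n ≤ q) :
    (Real.log n - Real.log D - Real.log q) / (2 * π * a) - 50 ≤
      v1c a s D (n / (8 * (D * q))) (1 - 1 / q) (1 / q ^ 2) := by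
  have hD' : (5 : ℝ) ≤ D := by exact_mod_cast hD
  have hD0 : (0 : ℝ) < D := by linarith
  have hq0 : 0 < q := by linarith
  have hDq : 0 < (D : ℝ) * q := by positivity
  have hn : 0 < n := by nlinarith
  have hL2 : 2 ≤ n / (8 * (D * q)) := by
    rw [le_div_iff₀ (by positivity)]
    linarith
  have elog : Real.log (n / (8 * (D * q))) =
      Real.log n - (Real.log 8 + (Real.log D + Real.log q)) := by
    rw [Real.log_div hn.ne' (by positivity), Real.log_mul (by norm_num) (by positivity),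
      Real.log_mul (by positivity) (by positivity)]
  have hl8 := log_three
  have hl80 : 0 ≤ Real.log 8 := Real.log_nonneg (by norm_num)
  have hlD0 : 0 ≤ Real.log D := Real.log_nonneg (by linarith)
  have hlq0 : 0 ≤ Real.log q := Real.log_nonneg (by linarith)
  have hLD : Real.log (n / (8 * (D * q))) ≤ D := by linarith
  have hLq : Real.log (n / (8 * (D * q))) ≤ q := by linarith
  have hcen := cen_num ha hs hns hD hq hDn hL2 hLq
  have hc0 : 0 < cen a s D (n / (8 * (D * q))) :=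
    H767.cen_pos (by linarith) hs hD0 (by linarith)
  have hlL : 0 < Real.log (n / (8 * (D * q))) := Real.log_pos (by linarith)
  have hπ := Real.pi_gt_three
  have hpa : 6 ≤ 2 * π * a := by nlinarith
  have q4 : Real.log (n / (8 * (D * q))) / (2 * π * a) =
      (Real.log n - Real.log D - Real.log q) / (2 * π * a) - Real.log 8 / (2 * π * a) := by
    rw [elog]
    ring
  have hx : (1 : ℝ) / q ≤ 1 / 5 := by
    rw [div_le_div_iff₀ hq0 (by norm_num)]
    linarith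
  have hx0 : 0 < 1 / q := by positivity
  have hy0 : (0 : ℝ) < 1 / D := by positivity
  have key := key_num (y := 1 / (D : ℝ)) hlL hc0 (by linarith) hx0 hx hy0 hcen
  unfold v1c
  have hx2 : 1 / q ^ 2 = (1 / q) ^ 2 := by ring
  rw [hx2]
  refine le_trans ?_ key
  set X : ℝ := Real.log (n / (8 * (D * q))) with hX
  have a1 : X * (1 / q) ≤ 1 := by
    rw [mul_one_div, div_le_one hq0]
    exact hLq
  have a2 : X * (1 / D) ≤ 1 := by
    rw [mul_one_div, div_le_one hD0]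
    exact hLD
  have q1 : X / (2 * π * a) * (1 - 4 * (1 / q) - 34 * (1 / D)) =
      X / (2 * π * a) - (4 * (X * (1 / q)) + 34 * (X * (1 / D))) / (2 * π * a) := by ring
  have q3 : (4 * (X * (1 / q)) + 34 * (X * (1 / D))) / (2 * π * a) ≤ 38 := by
    rw [div_le_iff₀ (by positivity)]
    nlinarith
  have q5 : Real.log 8 / (2 * π * a) ≤ 3 := by
    rw [div_le_iff₀ (by positivity)]
    nlinarith
  rw [q1, q4]
  linarith

end

end Vale.Agent.P159.H363
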