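import Vale.Agent.P159.H363.Cvn2

/-!
P159 / H363, VB10 numbers, part 3: `cvn_f`, the window laws of the noise for exact periodizations:
the numbers of `cvp_fac` and the difference of the variances.
-/

set_option linter.unusedSectionVars false

namespace Vale.Agent.P159.H363

open Finset Matrix MeasureTheory ProbabilityTheory
open Vale.Agent.P159.TM.H764 (EE)
open Vale.Agent.P159.TM.Spec (V)
open Vale.Agent.P159.H864 (TI sym fc cl)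
open Vale.Agent.P159.H462 (Dom ahat Gam EE_nonneg)
open Vale.Agent.P159.H733.Torg (ip Two)
open Vale.Agent.P159.H767 (lT pt RT eps v1c cen gT)
open scoped Real

noncomputable section

/-- the number of steps -/
def nX (β k0 ν L n : ℝ) : ℝ := ν * (k0 * n / (4 * β * L)) ^ 2

section nx

variable {β k0 ν L n s κ C1 c p : ℝ}

lemma nX_eq : nX β k0 ν L n = ν * n ^ 2 * (k0 ^ 2 / (16 * β ^ 2 * L ^ 2)) := by
  unfold nX
  rw [div_pow, mul_pow, mul_pow, mul_pow]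
  ring

lemma nX_ge (hβ : 1 ≤ β) (hk : 0 < k0) (hL : 1 ≤ L)
    (h : 64 * β ^ 2 * (β + 1) / k0 ^ 2 * L ^ 3 ≤ ν * n ^ 2) :
    4 * (β + 1) * L ≤ nX β k0 ν L n := by
  rw [nX_eq]
  have h1 : 64 * β ^ 2 * (β + 1) / k0 ^ 2 * L ^ 3 * (k0 ^ 2 / (16 * β ^ 2 * L ^ 2)) =
      4 * (β + 1) * L := by
    field_simp
    ring
  rw [← h1]
  exact mul_le_mul_of_nonneg_right h (by positivity)

lemma nX_le (hβ : 1 ≤ β) (hk : 0 < k0) (hk1 : k0 ≤ 1) (hL : 1 ≤ L) (hν : 0 < ν)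
    (hν1 : ν ≤ 1) : nX β k0 ν L n ≤ n ^ 2 := by
  rw [nX_eq]
  have h1 : k0 ^ 2 / (16 * β ^ 2 * L ^ 2) ≤ 1 := by
    rw [div_le_one (by positivity)]
    have h2 : k0 ^ 2 ≤ 1 := pow_le_one₀ hk.le hk1
    have h3 : 1 ≤ β ^ 2 := one_le_pow₀ hβ
    have h4 : 1 ≤ L ^ 2 := one_le_pow₀ hL
    nlinarith [mul_le_mul h3 h4 (by norm_num) (by positivity)]
  have h5 : ν * n ^ 2 ≤ n ^ 2 := by nlinarith [sq_nonneg n]
  have h6 : 0 ≤ ν * n ^ 2 := by positivity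
  calc ν * n ^ 2 * (k0 ^ 2 / (16 * β ^ 2 * L ^ 2)) ≤ ν * n ^ 2 * 1 :=
        mul_le_mul_of_nonneg_left h1 h6
    _ ≤ n ^ 2 := by linarith

/-- the rate of the tails -/
lemma nX_rate {N T : ℕ} (hβ : 1 ≤ β) (hk : 0 < k0) (hL : 1 ≤ L) (hν : 0 < ν) (hN : 0 < N)
    (hκ : k0 * √ν ≤ κ) (hT : 1 ≤ T) (hX : (T : ℝ) ≤ nX β k0 ν L N) :
    H733.Torg.tau κ C1 N T ≤ 4 * Real.exp C1 * Real.exp (-(β * L)) := by
  unfold H733.Torg.tau
  refine mul_le_mul_of_nonneg_left (Real.exp_le_exp.2 (neg_le_neg ?_)) (by positivity)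
  have hT0 : (0 : ℝ) < √T := Real.sqrt_pos.2 (by exact_mod_cast hT)
  have hN0 : (0 : ℝ) < N := by exact_mod_cast hN
  have hν0 : 0 < √ν := Real.sqrt_pos.2 hν
  have h1 : √T ≤ √ν * (k0 * N / (4 * β * L)) := by
    have h2 : √(T : ℝ) ≤ √(nX β k0 ν L N) := Real.sqrt_le_sqrt hX
    refine h2.trans (le_of_eq ?_)
    unfold nX
    rw [Real.sqrt_mul hν.le, Real.sqrt_sq (by positivity)]
  rw [le_div_iff₀ (by positivity)]
  have h3 : β * L * (4 * √T) ≤ β * L * (4 * (√ν * (k0 * N / (4 * β * L)))) :=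
    mul_le_mul_of_nonneg_left (by linarith) (by positivity)
  have h4 : β * L * (4 * (√ν * (k0 * N / (4 * β * L)))) = k0 * √ν * N := by
    field_simp
  rw [h4] at h3
  exact h3.trans (mul_le_mul_of_nonneg_right hκ hN0.le)

/-- `R` -/
lemma RT_num {T : ℕ} (hβ : 1 ≤ β) (hk : 0 < k0) (hL : 1 ≤ L) (hν : 0 < ν) (hs : 0 < s)
    (hsν : 1 ≤ s * ν) (hn : 0 < n) (hT1 : nX β k0 ν L n / 2 ≤ T) (hT2 : (T : ℝ) ≤ nX β k0 ν L n)
    (hT : 1 ≤ T) :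
    RT s ν T ≤ 2 * ν / T ∧ RT s ν T * n ^ 2 ≤ 64 * β ^ 2 / k0 ^ 2 * L ^ 2 ∧
      16 * β ^ 2 / k0 ^ 2 * L ^ 2 ≤ RT s ν T * n ^ 2 := by
  have hT0 : (0 : ℝ) < T := by exact_mod_cast hT
  have hs1 : s⁻¹ ≤ ν := by
    rw [inv_le_iff_one_le_mul₀ hs]
    linarith
  have hs0 : 0 < s⁻¹ := by positivity
  have hX : 0 < nX β k0 ν L n := by
    unfold nX
    positivity
  have h1 : RT s ν T ≤ 2 * ν / T := by
    unfold RT
    exact div_le_div_of_nonneg_right (by linarith) hT0.le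
  refine ⟨h1, ?_, ?_⟩
  · have h2 : 2 * ν / T ≤ 4 * ν / nX β k0 ν L n := by
      rw [div_le_div_iff₀ hT0 hX]
      nlinarith
    have h3 : 4 * ν / nX β k0 ν L n * n ^ 2 = 64 * β ^ 2 / k0 ^ 2 * L ^ 2 := by
      rw [nX_eq]
      field_simp
      ring
    rw [← h3]
    exact mul_le_mul_of_nonneg_right (h1.trans h2) (by positivity)
  · have h2 : ν / nX β k0 ν L n ≤ RT s ν T := by
      unfold RT
      rw [div_le_div_iff₀ hX hT0]
      nlinarith [mul_pos hs0 hX]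
    have h3 : ν / nX β k0 ν L n * n ^ 2 = 16 * β ^ 2 / k0 ^ 2 * L ^ 2 := by
      rw [nX_eq]
      field_simp
    rw [← h3]
    exact mul_le_mul_of_nonneg_right h2 (by positivity)

end nx

/-- exponentials: `(288 e^{C1} + 2304) e^{5 p L} e^{-β L} ≤ e^{-B L}` -/
lemma exp_fin {B p C1 L : ℝ} (hC1 : 0 ≤ C1) (hL : C1 + 8 ≤ L) :
    2592 * Real.exp C1 * (Real.exp (p * L) ^ 5 * Real.exp (-((B + 5 * p + 2) * L)))
      ≤ Real.exp (-(B * L)) := by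
  have e1 : Real.exp (p * L) ^ 5 * Real.exp (-((B + 5 * p + 2) * L)) =
      Real.exp (-(B * L)) * (Real.exp (-L) * Real.exp (-L)) := by
    rw [← Real.exp_nat_mul, ← Real.exp_add, ← Real.exp_add, ← Real.exp_add]
    congr 1
    push_cast
    ring
  have e2 : 2592 * Real.exp (-L) ≤ 1 := by
    have e3 : (2592 : ℝ) ≤ Real.exp 8 := by
      have h6 := Real.exp_one_gt_d9
      have h7 : Real.exp 8 = Real.exp 1 ^ 8 := by rw [← Real.exp_nat_mul]; norm_num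
      rw [h7]
      calc (2592 : ℝ) ≤ 2.7182818283 ^ 8 := by norm_num
        _ ≤ Real.exp 1 ^ 8 := by gcongr
    have e4 : (2592 : ℝ) ≤ Real.exp L := e3.trans (Real.exp_le_exp.2 (by linarith))
    rw [Real.exp_neg, mul_inv_le_iff₀ (Real.exp_pos _)]
    linarith
  have e5 : Real.exp C1 * Real.exp (-L) ≤ 1 := by
    rw [← Real.exp_add]
    exact Real.exp_le_one_iff.2 (by linarith)
  rw [e1]
  have e6 : 2592 * Real.exp C1 * (Real.exp (-(B * L)) * (Real.exp (-L) * Real.exp (-L))) =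
      Real.exp (-(B * L)) * ((2592 * Real.exp (-L)) * (Real.exp C1 * Real.exp (-L))) := by ring
  rw [e6]
  have e7 : (2592 * Real.exp (-L)) * (Real.exp C1 * Real.exp (-L)) ≤ 1 * 1 :=
    mul_le_mul e2 e5 (by positivity) (by norm_num)
  have := mul_le_mul_of_nonneg_left e7 (Real.exp_pos (-(B * L))).le
  linarith

/-- the Hilbert-Schmidt number of the window law -/
lemma eta_num {ν c s U E1 u X2 R n q : ℝ} {T D : ℕ} (hν : 0 < ν)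
    (hs : 0 < s) (hsν : 1 ≤ s * ν) (hc : 0 < c) (hD : 5 ≤ D) (hDU : (D : ℝ) ≤ U) (hU : 1 ≤ U)
    (hq : 5 ≤ q) (hqU : q ≤ U) (hE1 : 1 ≤ E1) {τ : ℝ} (hτ0 : 0 ≤ τ) (hτ : τ ≤ 4 * E1 * u)
    (hu : 0 ≤ u) (hTU : (T : ℝ) ≤ U ^ 2) (hR : R = RT s ν T) (hR0 : 0 ≤ R)
    (hX2 : R * n ^ 2 ≤ X2) (hn : 0 < n) (h2T : ((1 : ℝ) / 2) ^ T ≤ u) :
    q * (2 * (2 * (D : ℝ) + 1) ^ 2 * (ν + s⁻¹) * eps s ν c T D ((ν + s⁻¹)⁻¹ * (T * (2 * τ)))) ≤
      5760 / c ^ 2 * X2 * (q * ν * D ^ 4 / n ^ 2) + 2592 * E1 * (U ^ 5 * u) := by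
  have hD' : (5 : ℝ) ≤ D := by exact_mod_cast hD
  have hs1 : s⁻¹ ≤ ν := by
    rw [inv_le_iff_one_le_mul₀ hs]
    linarith
  have hs0 : 0 < s⁻¹ := by positivity
  have hw0 : 0 < ν + s⁻¹ := by positivity
  have hq0 : 0 < q := by linarith
  have e0 : q * (2 * (2 * (D : ℝ) + 1) ^ 2 * (ν + s⁻¹) *
      eps s ν c T D ((ν + s⁻¹)⁻¹ * (T * (2 * τ)))) =
      8 * (q * (2 * (D : ℝ) + 1) ^ 2) * (T * τ) +
      320 * (q * (2 * (D : ℝ) + 1) ^ 2 * D ^ 2) * ((ν + s⁻¹) * (R / c ^ 2)) +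
      128 * (q * (2 * (D : ℝ) + 1) ^ 2 * D ^ 2) * (((ν + s⁻¹) / ν) * (1 / 2) ^ T) := by
    unfold eps
    rw [← hR]
    field_simp
    ring
  have h2 : (2 * (D : ℝ) + 1) ^ 2 ≤ 9 * (D : ℝ) ^ 2 := by
    calc (2 * (D : ℝ) + 1) ^ 2 ≤ (3 * D) ^ 2 :=
          pow_le_pow_left₀ (by linarith) (by linarith) 2
      _ = _ := by ring
  have h1 : q * (2 * (D : ℝ) + 1) ^ 2 ≤ 9 * (q * (D : ℝ) ^ 2) := by
    have := mul_le_mul_of_nonneg_left h2 hq0.le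
    linarith
  have h3 : q * (2 * (D : ℝ) + 1) ^ 2 * D ^ 2 ≤ 9 * (q * (D : ℝ) ^ 4) := by
    calc q * (2 * (D : ℝ) + 1) ^ 2 * D ^ 2 ≤ 9 * (q * (D : ℝ) ^ 2) * D ^ 2 :=
          mul_le_mul_of_nonneg_right h1 (by positivity)
      _ = _ := by ring
  have hD3 : q * (D : ℝ) ^ 2 ≤ U ^ 3 := by
    have a1 : (D : ℝ) ^ 2 ≤ U ^ 2 := pow_le_pow_left₀ (by linarith) hDU 2
    calc q * (D : ℝ) ^ 2 ≤ U * U ^ 2 := mul_le_mul hqU a1 (by positivity) (by linarith)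
      _ = _ := by ring
  have hD5 : q * (D : ℝ) ^ 4 ≤ U ^ 5 := by
    have a1 : (D : ℝ) ^ 4 ≤ U ^ 4 := pow_le_pow_left₀ (by linarith) hDU 4
    calc q * (D : ℝ) ^ 4 ≤ U * U ^ 4 := mul_le_mul hqU a1 (by positivity) (by linarith)
      _ = _ := by ring
  -- A
  have hA : 8 * (q * (2 * (D : ℝ) + 1) ^ 2) * (T * τ) ≤ 288 * E1 * (U ^ 5 * u) := by
    have h4 : (T : ℝ) * τ ≤ U ^ 2 * (4 * E1 * u) :=
      mul_le_mul hTU hτ hτ0 (by positivity)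
    have h5 : 8 * (q * (2 * (D : ℝ) + 1) ^ 2) ≤ 72 * U ^ 3 := by linarith
    calc 8 * (q * (2 * (D : ℝ) + 1) ^ 2) * (T * τ) ≤ 72 * U ^ 3 * (U ^ 2 * (4 * E1 * u)) :=
          mul_le_mul h5 h4 (by positivity) (by positivity)
      _ = _ := by ring
  -- B
  have hB : 320 * (q * (2 * (D : ℝ) + 1) ^ 2 * D ^ 2) * ((ν + s⁻¹) * (R / c ^ 2)) ≤
      5760 / c ^ 2 * X2 * (q * ν * D ^ 4 / n ^ 2) := by
    have h6 : R ≤ X2 / n ^ 2 := by
      rw [le_div_iff₀ (by positivity)]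
      exact hX2
    have h7 : (ν + s⁻¹) * (R / c ^ 2) ≤ 2 * ν * (X2 / n ^ 2 / c ^ 2) := by
      refine mul_le_mul (by linarith) (div_le_div_of_nonneg_right h6 (by positivity))
        (by positivity) (by positivity)
    calc 320 * (q * (2 * (D : ℝ) + 1) ^ 2 * D ^ 2) * ((ν + s⁻¹) * (R / c ^ 2))
        ≤ 320 * (9 * (q * (D : ℝ) ^ 4)) * (2 * ν * (X2 / n ^ 2 / c ^ 2)) :=
          mul_le_mul (by linarith) h7 (by positivity) (by positivity)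
      _ = _ := by ring
  -- C
  have hC : 128 * (q * (2 * (D : ℝ) + 1) ^ 2 * D ^ 2) * (((ν + s⁻¹) / ν) * (1 / 2) ^ T) ≤
      2304 * (U ^ 5 * u) := by
    have h8 : (ν + s⁻¹) / ν ≤ 2 := by
      rw [div_le_iff₀ hν]
      linarith
    have h9 : ((ν + s⁻¹) / ν) * (1 / 2 : ℝ) ^ T ≤ 2 * u :=
      mul_le_mul h8 h2T (by positivity) (by norm_num)
    have h10 : 128 * (q * (2 * (D : ℝ) + 1) ^ 2 * D ^ 2) ≤ 1152 * U ^ 5 := by linarith
    calc 128 * (q * (2 * (D : ℝ) + 1) ^ 2 * D ^ 2) * (((ν + s⁻¹) / ν) * (1 / 2) ^ T)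
        ≤ 1152 * U ^ 5 * (2 * u) := mul_le_mul h10 h9 (by positivity) (by positivity)
      _ = _ := by ring
  have hUu : 0 ≤ U ^ 5 * u := by positivity
  rw [e0]
  nlinarith

end

end Vale.Agent.P159.H363
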