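import Vale.Agent.P159.H363.Cvn3

/-!
P159 / H363, VB10 numbers, part 4: `cvn_f`, the window laws of the noise for exact periodizations:
the numbers of `cvp_fac` and the difference of the variances.
-/

set_option linter.unusedSectionVars false

namespace Vale.Agent.P159.H363

open Finset Matrix MeasureTheory ProbabilityTheory
open Vale.Agent.P159.TM.H764 (EE)
open Vale.Agent.P159.TM.Spec (V)
open Vale.Agent.P159.H864 (TI sym fc cl)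
open Vale.Agent.P159.H462 (Dom ahat Gam EE_nonneg)
open Vale.Agent.P159.H733.Torg (ip Two)
open Vale.Agent.P159.H767 (lT pt RT eps v1c cen gT)
open scoped Real

noncomputable section

/-- lower end of the symbol at low momenta -/
lemma dom_low {n : ℕ} [NeZero n] {A : Matrix (V n) (V n) ℝ} {ν c R : ℝ} (h : Dom A ν c)
    (hc1 : c ≤ 1) (hR : R ≤ ν) (k : V n) (hk : EE k ≤ R) : c / 2 * EE k ≤ sym A k := by
  refine le_trans ?_ (h.ge k)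
  have hν := h.hν
  have hc := h.hc
  have hE := EE_nonneg k
  rw [le_div_iff₀ (by positivity)]
  have h1 : c * EE k ≤ ν := by nlinarith
  have h2 : c / 2 * EE k * (ν + c * EE k) ≤ c / 2 * EE k * (2 * ν) :=
    mul_le_mul_of_nonneg_left (by linarith) (by positivity)
  linarith

/-- the difference of the variances -/
lemma var_num {n1 n2 : ℕ} [NeZero n1] [NeZero n2] {A1 : Matrix (V n1) (V n1) ℝ}
    {A2 : Matrix (V n2) (V n2) ℝ} {ν c s a e1 X1 : ℝ} {T : ℕ} (d1 : Dom A1 ν c) (d2 : Dom A2 ν c)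
    (hc1 : c ≤ 1) (hs : 0 < s) (hT : 1 ≤ T) (ha : 1 ≤ a) (ha2 : ∀ k, sym A2 k ≤ a * EE k)
    (hlow : |fc (lT s ν T) A2 0 0 - fc (lT s ν T) A1 0 0| ≤ e1) (he1 : e1 ≤ 1)
    (hR1 : s⁻¹ + RT s ν T ≤ 1) (hRν : RT s ν T ≤ ν) (hRc : RT s ν T ≤ c / 2)
    (hn2 : 2 * s ≤ (n2 : ℝ) ^ 2) (ha3 : a ≤ 2) (hX0 : 1 ≤ RT s ν T * (n1 : ℝ) ^ 2)
    (hX1 : RT s ν T * (n1 : ℝ) ^ 2 ≤ X1) (h2T : 2 / ν * (1 / 2) ^ T ≤ 1) :
    Real.log (s / (n1 : ℝ) ^ 2) / (4 * π * a) - (Real.log (X1 * (2 / c)) / (2 * π * c)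
      + (1220 + 2406 / c + 80 / c ^ 2)) ≤
      (Gam s A2 0 0 - s / (n2 : ℝ) ^ 2) - (Gam s A1 0 0 - s / (n1 : ℝ) ^ 2) := by
  have hν := d1.hν
  have hc := d1.hc
  have hn1 : (0 : ℝ) < n1 := by exact_mod_cast NeZero.pos n1
  have hn2' : (0 : ℝ) < n2 := by exact_mod_cast NeZero.pos n2
  have hRp := H767.RT_pos hs hν hT
  have hN2 : 1 ≤ (n2 : ℝ) * √(s⁻¹ / a) := by
    have h1 : (1 : ℝ) / n2 ≤ √(s⁻¹ / a) := by
      refine Real.le_sqrt_of_sq_le ?_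
      rw [div_pow, one_pow, div_le_div_iff₀ (by positivity) (by positivity)]
      have h2 : s⁻¹ * (n2 : ℝ) ^ 2 ≥ 2 := by
        rw [ge_iff_le, le_inv_mul_iff₀ hs]
        linarith
      linarith
    calc (1 : ℝ) = n2 * (1 / n2) := by field_simp
      _ ≤ _ := mul_le_mul_of_nonneg_left h1 hn2'.le
  have key := H767.cvp_num (n1 := n1) (n2 := n2) (T := T) (a := a) (a' := c / 2) (e1 := e1) d1 d2 hs
    hT hlow (by linarith) ha2 (hR1.trans ha) hN2 (by positivity)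
    (fun k hk => dom_low d1 hc1 hRν k hk) hRc (by linarith)
  have hπ := Real.pi_gt_three
  -- first logarithm
  have l1 : Real.log (s / (n1 : ℝ) ^ 2) ≤ Real.log (1 + s * RT s ν T) := by
    refine Real.log_le_log (by positivity) ?_
    rw [div_le_iff₀ (by positivity)]
    nlinarith [mul_le_mul_of_nonneg_left hX0 hs.le, sq_nonneg (n1 : ℝ)]
  have l1' : Real.log (s / (n1 : ℝ) ^ 2) / (4 * π * a) ≤
      Real.log (1 + s * RT s ν T) / (4 * π * a) :=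
    div_le_div_of_nonneg_right l1 (by positivity)
  -- second logarithm
  have l2 : Real.log (RT s ν T * (n1 : ℝ) ^ 2 / (c / 2)) ≤ Real.log (X1 * (2 / c)) := by
    refine Real.log_le_log (by positivity) ?_
    have h1 : RT s ν T * (n1 : ℝ) ^ 2 / (c / 2) = RT s ν T * (n1 : ℝ) ^ 2 * (2 / c) := by
      field_simp
    rw [h1]
    exact mul_le_mul_of_nonneg_right hX1 (by positivity)
  have l2' : Real.log (RT s ν T * (n1 : ℝ) ^ 2 / (c / 2)) / (4 * π * (c / 2)) ≤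
      Real.log (X1 * (2 / c)) / (2 * π * c) := by
    have h1 : 4 * π * (c / 2) = 2 * π * c := by ring
    rw [h1]
    exact div_le_div_of_nonneg_right l2 (by positivity)
  have e3 : 1217 / a ≤ 1217 := div_le_self (by norm_num) ha
  have e4 : 1203 / (c / 2) = 2406 / c := by
    field_simp
    ring
  have e5 : s / (n2 : ℝ) ^ 2 ≤ 1 := by
    rw [div_le_one (by positivity)]
    linarith
  rw [e4] at key
  linarith

/-- the number of steps, all its properties -/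
lemma f_steps {β k0 c C1 κ ν L s p : ℝ} {n1 : ℕ} (hβ : 1 ≤ β) (hp : 1 ≤ p) (hk0 : 0 < k0)
    (hk1 : k0 ≤ 1) (hc : 0 < c) (hL1 : 1 ≤ L) (hν : 0 < ν) (hν8 : ν ≤ 1 / 8) (hn : 0 < n1)
    (hκ : k0 * √ν ≤ κ) (hs : 0 < s) (hsν : 1 ≤ s * ν) (hnU : (n1 : ℝ) ≤ Real.exp (p * L))
    (hX1 : 64 * β ^ 2 * (β + 1) / k0 ^ 2 * L ^ 3 ≤ ν * (n1 : ℝ) ^ 2)
    (hX2 : 16 * β ^ 2 / (k0 ^ 2 * c) * L ^ 3 ≤ ν * (n1 : ℝ) ^ 2) :
    ∃ Tn : ℕ, 1 ≤ Tn ∧ (Tn : ℝ) ≤ Real.exp (p * L) ^ 2 ∧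
      H733.Torg.tau κ C1 n1 Tn ≤ 4 * Real.exp C1 * Real.exp (-(β * L)) ∧
      ((1 : ℝ) / 2) ^ Tn ≤ Real.exp (-(β * L)) ∧ RT s ν Tn ≤ ν ∧ RT s ν Tn ≤ c / 2 ∧
      RT s ν Tn * (n1 : ℝ) ^ 2 ≤ 64 * β ^ 2 / k0 ^ 2 * L ^ 2 ∧
      1 ≤ RT s ν Tn * (n1 : ℝ) ^ 2 ∧ s⁻¹ + RT s ν Tn ≤ 1 := by
  have hn1 : (0 : ℝ) < n1 := by exact_mod_cast hn
  have hL3 : 0 < L ^ 3 := by positivity
  have hXge : 4 * (β + 1) * L ≤ nX β k0 ν L n1 := nX_ge hβ hk0 hL1 hX1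
  have hXc : 1 / c ≤ nX β k0 ν L n1 := by
    rw [nX_eq]
    have q1 : 16 * β ^ 2 / (k0 ^ 2 * c) * L ^ 3 * (k0 ^ 2 / (16 * β ^ 2 * L ^ 2)) = L / c := by
      field_simp
    refine le_trans ?_ (mul_le_mul_of_nonneg_right hX2 (by positivity))
    rw [q1]
    exact div_le_div_of_nonneg_right hL1 hc.le
  have hβL : 1 ≤ β * L := by nlinarith
  have hX8 : 8 ≤ nX β k0 ν L n1 := by nlinarith
  obtain ⟨t1, t2, t3⟩ := floor_num (X := nX β k0 ν L n1) (by linarith)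
  set Tn : ℕ := ⌊nX β k0 ν L n1⌋₊ with hTn
  have hT0 : (0 : ℝ) < Tn := by exact_mod_cast t1
  obtain ⟨r1, r2, r3⟩ := RT_num hβ hk0 hL1 hν hs hsν hn1 t2 t3 t1
  have hs1 : s⁻¹ ≤ ν := by
    rw [inv_le_iff_one_le_mul₀ hs]
    linarith
  have r4 : RT s ν Tn ≤ ν := by
    refine r1.trans ?_
    rw [div_le_iff₀ hT0]
    nlinarith
  refine ⟨Tn, t1, ?_, nX_rate hβ hk0 hL1 hν hn hκ t1 t3, ?_, r4, ?_, r2, ?_, by linarith⟩
  · refine t3.trans ((nX_le hβ hk0 hk1 hL1 hν (by linarith)).trans ?_)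
    exact pow_le_pow_left₀ hn1.le hnU 2
  · refine half_pow_le.trans (Real.exp_le_exp.2 ?_)
    nlinarith
  · refine r1.trans ?_
    rw [div_le_iff₀ hT0]
    have q1 : 1 / c * c = 1 := by field_simp
    have q2 : 1 ≤ c * nX β k0 ν L n1 := by
      have := mul_le_mul_of_nonneg_right hXc hc.le
      rw [q1] at this
      linarith
    have q3 : c / 2 * (nX β k0 ν L n1 / 2) ≤ c / 2 * Tn :=
      mul_le_mul_of_nonneg_left t2 (by positivity)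
    linarith
  · refine le_trans ?_ r3
    have q1 : 1 ≤ β ^ 2 := one_le_pow₀ hβ
    have q2 : k0 ^ 2 ≤ 1 := pow_le_one₀ hk0.le hk1
    have q3 : 1 ≤ 16 * β ^ 2 / k0 ^ 2 := by
      rw [le_div_iff₀ (by positivity)]
      linarith
    have q4 : 1 ≤ L ^ 2 := one_le_pow₀ hL1
    nlinarith

/-- the size of the error of the low part -/
lemma e1_num {ν s U E1 u τ : ℝ} {T : ℕ} (hν : 0 < ν) (hs : 0 < s) (hU1 : 1 ≤ U) (hE1 : 1 ≤ E1)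
    (hu : 0 ≤ u) (hνU : ν⁻¹ ≤ U) (hTU : (T : ℝ) ≤ U ^ 2) (hτ0 : 0 ≤ τ) (hτ : τ ≤ 4 * E1 * u)
    (h : 2592 * E1 * (U ^ 5 * u) ≤ 1) : (ν + s⁻¹)⁻¹ * (T * (2 * τ)) ≤ 1 := by
  have hs0 : 0 < s⁻¹ := by positivity
  have q1 : (ν + s⁻¹)⁻¹ ≤ U := by
    refine le_trans ?_ hνU
    exact inv_anti₀ hν (by linarith)
  have q2 : (T : ℝ) * (2 * τ) ≤ U ^ 2 * (2 * (4 * E1 * u)) :=
    mul_le_mul hTU (by linarith) (by positivity) (by positivity)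
  have q3 : (ν + s⁻¹)⁻¹ * (T * (2 * τ)) ≤ U * (U ^ 2 * (2 * (4 * E1 * u))) :=
    mul_le_mul q1 q2 (by positivity) (by positivity)
  have q4 : U * (U ^ 2 * (2 * (4 * E1 * u))) = 8 * E1 * (U ^ 3 * u) := by ring
  have q5 : U ^ 3 * u ≤ U ^ 5 * u :=
    mul_le_mul_of_nonneg_right (pow_le_pow_right₀ hU1 (by norm_num)) hu
  have q6 : 8 * E1 * (U ^ 3 * u) ≤ 8 * E1 * (U ^ 5 * u) :=
    mul_le_mul_of_nonneg_left q5 (by positivity)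
  have q7 : 0 ≤ E1 * (U ^ 5 * u) := by positivity
  linarith

lemma two_num {ν U E1 u : ℝ} {T : ℕ} (hν : 0 < ν) (hU1 : 1 ≤ U) (hE1 : 1 ≤ E1) (hu : 0 ≤ u)
    (hνU : ν⁻¹ ≤ U) (h2T : ((1 : ℝ) / 2) ^ T ≤ u) (h : 2592 * E1 * (U ^ 5 * u) ≤ 1) :
    2 / ν * (1 / 2) ^ T ≤ 1 := by
  have a1 : 2 / ν * (1 / 2 : ℝ) ^ T ≤ 2 * U * u := by
    rw [div_eq_mul_inv]
    exact mul_le_mul (by linarith) h2T (by positivity) (by positivity)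
  have a3 : U ≤ U ^ 5 := le_self_pow₀ hU1 (by norm_num)
  have a4 := mul_le_mul_of_nonneg_right a3 hu
  have a5 : 0 ≤ U ^ 5 * u := by positivity
  have a6 : U ^ 5 * u ≤ E1 * (U ^ 5 * u) := by nlinarith
  linarith

lemma natAbs_two {x : ℤ} {D n : ℕ} (h : |x| ≤ 2 * D) (hn : 4 * D ≤ n) : 2 * x.natAbs ≤ n := by
  rw [abs_le] at h
  omega

/-- the numbers of the cut-off function -/
lemma win_num {n q : ℝ} {D : ℕ} (hD : 5 ≤ D) (hq : 5 ≤ q) (hDn : 16 * (D * q) ≤ n) :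
    2 ≤ n / (8 * (D * q)) ∧ 2 * (n / (8 * (D * q)) * (2 * D) + 1) ≤ n ∧
      0 ≤ 1 - 1 / q ∧ 1 - 1 / q < 1 ∧
      (2 * (n / (8 * (D * q)) * (2 * (D : ℝ))) + 1) ^ 2 ≤ 1 / q ^ 2 * n ^ 2 ∧
      1 / q ^ 2 ≤ 1 / 2 := by
  have hD' : (5 : ℝ) ≤ D := by exact_mod_cast hD
  have hD0 : (0 : ℝ) < D := by linarith
  have hq0 : 0 < q := by linarith
  have hDq : 0 < (D : ℝ) * q := by positivity
  have hn : 0 < n := by nlinarith
  have h1D : 0 < 1 / q := by positivity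
  have h1D' : 1 / q ≤ 1 := by
    rw [div_le_one hq0]
    linarith
  refine ⟨?_, ?_, by linarith, by linarith, ?_, ?_⟩
  · rw [le_div_iff₀ (by positivity)]
    linarith
  · have q1 : 2 * (n / (8 * (D * q)) * (2 * D) + 1) = n / (2 * q) + 2 := by
      field_simp
      ring
    rw [q1]
    have q2 : n / (2 * q) ≤ n / 2 :=
      div_le_div_of_nonneg_left hn.le (by norm_num) (by linarith)
    nlinarith
  · have e2 : 2 * (n / (8 * (D * q)) * (2 * (D : ℝ))) + 1 ≤ n / q := by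
      rw [le_div_iff₀ hq0]
      have e3 : (2 * (n / (8 * (D * q)) * (2 * D)) + 1) * q = n / 2 + q := by
        field_simp
        ring
      rw [e3]
      nlinarith
    calc (2 * (n / (8 * (D * q)) * (2 * (D : ℝ))) + 1) ^ 2 ≤ (n / q) ^ 2 :=
          pow_le_pow_left₀ (by positivity) e2 2
      _ = _ := by ring
  · rw [div_le_div_iff₀ (by positivity) (by norm_num)]
    nlinarith

lemma le_num {n : ℕ} {q : ℝ} {D : ℕ} (hD : 5 ≤ D) (hq : 5 ≤ q) (hDn : 16 * (D * q) ≤ (n : ℝ)) :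
    (D : ℝ) ≤ n ∧ q ≤ n ∧ 4 * D ≤ n := by
  have hD' : (5 : ℝ) ≤ D := by exact_mod_cast hD
  have h1 : (D : ℝ) * 5 ≤ D * q := mul_le_mul_of_nonneg_left hq (by linarith)
  have h2 : 5 * q ≤ (D : ℝ) * q := mul_le_mul_of_nonneg_right hD' (by linarith)
  have h3 : 4 * (D : ℝ) ≤ n := by linarith
  exact ⟨by linarith, by linarith, by exact_mod_cast h3⟩

lemma qinv_num {q X : ℝ} (hq : 0 < q) : X ≤ (1 - (1 - 1 / q)) * (q * X) := by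
  rw [show (1 - (1 - 1 / q)) = 1 / q by ring, one_div, inv_mul_cancel_left₀ hq.ne']

lemma eps_nonneg' {s ν c e : ℝ} {T D : ℕ} (hs : 0 < s) (hν : 0 < ν) (he : 0 ≤ e)
    (hR : 0 ≤ RT s ν T) : 0 ≤ eps s ν c T D e := by
  unfold eps
  positivity

/-- **the window laws of the noise**, exact periodizations, explicit constants -/
theorem cvn_f {B p C1 k0 c β L : ℝ} (hB : 0 ≤ B) (hp : 1 ≤ p) (hC1 : 0 ≤ C1) (hk0 : 0 < k0)
    (hk1 : k0 ≤ 1) (hc : 0 < c) (hc1 : c ≤ 1) (hβ : β = B + 5 * p + 2) (hL0 : C1 + 8 ≤ L)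
    {n1 n2 n3 : ℕ} [NeZero n1] [NeZero n2] [NeZero n3]
    {h1 : n1 ∣ n3} {h2 : n2 ∣ n3} {A1 : Matrix (V n1) (V n1) ℝ} {A2 : Matrix (V n2) (V n2) ℝ}
    {A3 : Matrix (V n3) (V n3) ℝ} {ν κ s a : ℝ} (T1 : Two h1 A1 A3 ν c κ C1)
    (T2 : Two h2 A2 A3 ν c κ C1) (hκ : k0 * √ν ≤ κ) (hν8 : ν ≤ 1 / 8) (hs : 0 < s)
    (hsν : 1 ≤ s * ν) (ha : 1 ≤ a) (ha2 : a ≤ 2) (hA2 : ∀ k, sym A2 k ≤ a * EE k)
    (hνU : ν⁻¹ ≤ Real.exp (p * L)) (hnU : (n1 : ℝ) ≤ Real.exp (p * L)) (h12 : n1 ≤ n2)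
    (hX1 : 64 * β ^ 2 * (β + 1) / k0 ^ 2 * L ^ 3 ≤ ν * (n1 : ℝ) ^ 2)
    (hX2 : 16 * β ^ 2 / (k0 ^ 2 * c) * L ^ 3 ≤ ν * (n1 : ℝ) ^ 2)
    (hns : (n1 : ℝ) ^ 2 ≤ s) (hs2 : 2 * s ≤ (n2 : ℝ) ^ 2) {D : ℕ} (hD : 5 ≤ D) {q : ℝ}
    (hq : 5 ≤ q) (hlD : Real.log n1 ≤ D) (hlq : Real.log n1 ≤ q) (hD16 : 16 * (D * q) ≤ n1) :
    ∃ (Tn : ℕ) (L' e1 θ μ η : ℝ), 1 ≤ Tn ∧ 2 ≤ L' ∧
      2 * (L' * (2 * D) + 1) ≤ (n1 : ℝ) ∧
      (∀ z : ℤ × ℤ, |z.1| ≤ 2 * D → |z.2| ≤ 2 * D →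
        |fc (lT s ν Tn) A2 0 (pt n2 z) - fc (lT s ν Tn) A1 0 (pt n1 z)| ≤ e1) ∧
      0 ≤ θ ∧ θ < 1 ∧ (2 * (L' * (2 * D)) + 1) ^ 2 ≤ μ * (n1 : ℝ) ^ 2 ∧ μ ≤ 1 / 2 ∧
      2 * (2 * (D : ℝ) + 1) ^ 2 * (ν + s⁻¹) * eps s ν c Tn D e1 ≤ (1 - θ) * η ∧ 0 ≤ η ∧
      η ≤ 5760 / c ^ 2 * (64 * β ^ 2 / k0 ^ 2 * L ^ 2) * (q * ν * D ^ 4 / (n1 : ℝ) ^ 2)
        + Real.exp (-(B * L)) ∧
      (Real.log n1 - Real.log D - Real.log q) / (2 * π * a) - 50 ≤ v1c a s D L' θ μ ∧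
      Real.log (s / (n1 : ℝ) ^ 2) / (4 * π * a)
        - (Real.log (64 * β ^ 2 / k0 ^ 2 * L ^ 2 * (2 / c)) / (2 * π * c)
          + (1220 + 2406 / c + 80 / c ^ 2)) ≤
        (Gam s A2 0 0 - s / (n2 : ℝ) ^ 2) - (Gam s A1 0 0 - s / (n1 : ℝ) ^ 2) := by
  have hβ1 : 1 ≤ β := by rw [hβ]; linarith
  have hν := T1.dom.hν
  have hL1 : 1 ≤ L := by linarith
  have hn1 : (0 : ℝ) < n1 := by exact_mod_cast NeZero.pos n1
  have hD' : (5 : ℝ) ≤ D := by exact_mod_cast hD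
  have hU1 : 1 ≤ Real.exp (p * L) := Real.one_le_exp (by positivity)
  have hE1 : 1 ≤ Real.exp C1 := Real.one_le_exp hC1
  obtain ⟨Tn, t1, hTU, hτ, h2T, r4, r5, r2, r6, r7⟩ := f_steps (C1 := C1) (κ := κ) hβ1 hp hk0 hk1
    hc hL1 hν hν8 (NeZero.pos n1) hκ hs hsν hnU hX1 hX2
  have hτ0 := H733.Torg.tau_nonneg κ C1 n1 Tn
  have hR0 := (H767.RT_pos hs hν t1).le
  have hfin := exp_fin (B := B) (p := p) hC1 hL0
  rw [← hβ] at hfin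
  have hB1 : Real.exp (-(B * L)) ≤ 1 := Real.exp_le_one_iff.2 (by
    have : 0 ≤ B * L := by positivity
    linarith)
  obtain ⟨hD16', hq16, hD4⟩ := le_num hD hq hD16
  have he1le := e1_num hν hs hU1 hE1 (Real.exp_pos (-(β * L))).le hνU hTU hτ0 hτ
    (hfin.trans hB1)
  have hlow : ∀ z : ℤ × ℤ, |z.1| ≤ 2 * D → |z.2| ≤ 2 * D →
      |fc (lT s ν Tn) A2 0 (pt n2 z) - fc (lT s ν Tn) A1 0 (pt n1 z)|
        ≤ (ν + s⁻¹)⁻¹ * (Tn * (2 * H733.Torg.tau κ C1 n1 Tn)) := by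
    intro z hz1 hz2
    exact low_two T1 T2 hs t1 h12 (natAbs_two hz1 hD4) (natAbs_two hz2 hD4)
  obtain ⟨w1, w2, w3, w4, w5, w6⟩ := win_num (n := n1) hD hq hD16
  have q1 := eta_num (U := Real.exp (p * L)) (u := Real.exp (-(β * L))) (E1 := Real.exp C1)
    (X2 := 64 * β ^ 2 / k0 ^ 2 * L ^ 2) (q := q)
    (R := RT s ν Tn) (n := n1) (τ := H733.Torg.tau κ C1 n1 Tn) hν
    hs hsν hc hD (hD16'.trans hnU) hU1 hq (hq16.trans hnU) hE1 hτ0 hτ (Real.exp_pos _).le hTU rfl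
    hR0 r2 hn1 h2T
  have q2 := v1c_num (a := a) (s := s) ha hs hns hD hq hD16 hlD hlq
  have h2ν := two_num hν hU1 hE1 (Real.exp_pos (-(β * L))).le hνU h2T (hfin.trans hB1)
  have q3 := var_num (n1 := n1) (n2 := n2) (a := a) (T := Tn)
    (e1 := (ν + s⁻¹)⁻¹ * (Tn * (2 * H733.Torg.tau κ C1 n1 Tn))) T1.dom T2.dom hc1 hs t1 ha hA2
    (by
      have := hlow 0 (by simp) (by simp)
      rwa [H767.pt_zero, H767.pt_zero] at this) he1le r7 r4 r5 hs2 ha2 r6 r2 h2ν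
  have hq0 : 0 < q := by linarith
  refine ⟨Tn, n1 / (8 * (D * q)), _, 1 - 1 / q, 1 / q ^ 2,
    q * (2 * (2 * (D : ℝ) + 1) ^ 2 * (ν + s⁻¹) * eps s ν c Tn D
      ((ν + s⁻¹)⁻¹ * (Tn * (2 * H733.Torg.tau κ C1 n1 Tn)))), t1, w1, w2, hlow, w3, w4, w5, w6,
      qinv_num hq0, ?_, ?_, q2, q3⟩
  · have hs0 : 0 < s⁻¹ := inv_pos.2 hs
    have h0 : 0 ≤ (ν + s⁻¹)⁻¹ * (Tn * (2 * H733.Torg.tau κ C1 n1 Tn)) := by positivity
    have h1 := eps_nonneg' (c := c) (T := Tn) (D := D) hs hν h0 hR0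
    positivity
  · exact q1.trans (add_le_add le_rfl hfin)

end

end Vale.Agent.P159.H363
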