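import Vale.Agent.P159.H363.Cvn4

/-!
P159 / H363, VB10 numbers, part 5: the scalar combination.
-/

set_option linter.unusedSectionVars false

namespace Vale.Agent.P159.H363

open scoped Real

noncomputable section

/-- `x log (1/x) ≤ 1` -/
lemma mul_log_le {x y : ℝ} (hx : 0 < x) (hy : 0 < y) : x / y * Real.log (y / x) ≤ 1 := by
  have h1 := Real.log_le_sub_one_of_pos (div_pos hy hx)
  have h2 : 0 < x / y := div_pos hx hy
  have h3 : x / y * Real.log (y / x) ≤ x / y * (y / x - 1) := mul_le_mul_of_nonneg_left h1 h2.le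
  have h4 : x / y * (y / x - 1) = 1 - x / y := by field_simp
  linarith

/-- the square of the ratio of the noises -/
lemma ratio_sq {s s2 s12 : ℝ} (hs : 0 < s) (hs2 : 0 < s2) (h : s12 = s + s2) :
    0 ≤ (s2 / s12) ^ 2 ∧ (s2 / s12) ^ 2 ≤ 1 ∧ 1 - 2 * (s / s12) ≤ (s2 / s12) ^ 2 := by
  have h12 : 0 < s12 := by linarith
  have h1 : s2 / s12 = 1 - s / s12 := by
    rw [h]
    field_simp
    ring
  have h2 : 0 < s2 / s12 := by positivity
  have h3 : s2 / s12 ≤ 1 := by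
    rw [div_le_one h12]
    linarith
  refine ⟨by positivity, pow_le_one₀ h2.le h3, ?_⟩
  rw [h1]
  nlinarith [sq_nonneg (s / s12)]

/-- a scaled lower bound -/
lemma scale_low {r2 x X E y : ℝ} (h0 : 0 ≤ r2) (h1 : r2 ≤ 1) (h2 : 1 - 2 * x ≤ r2) (hX : 0 ≤ X)
    (hE : 0 ≤ E) (hxX : 2 * (x * X) ≤ 1) (hy : X - E ≤ y) : X - E - 1 ≤ r2 * y := by
  have h3 : r2 * (X - E) ≤ r2 * y := mul_le_mul_of_nonneg_left hy h0
  have h4 : (1 - 2 * x) * X ≤ r2 * X := mul_le_mul_of_nonneg_right h2 hX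
  have h5 : r2 * E ≤ 1 * E := mul_le_mul_of_nonneg_right h1 hE
  nlinarith

/-- a power as an exponential -/
lemma exp_log_num {A a X x1 : ℝ} (hA : 0 < A) (ha : 1 ≤ a)
    (hx : (1 - π / (2 * a)) * Real.log A ≤ x1) :
    A * Real.exp (-(2 * π ^ 2 * (Real.log A / (4 * π * a) - X))) ≤
      Real.exp (2 * π ^ 2 * X + x1) := by
  have hπ := Real.pi_pos
  have h1 : A * Real.exp (-(2 * π ^ 2 * (Real.log A / (4 * π * a) - X))) =
      Real.exp (Real.log A + -(2 * π ^ 2 * (Real.log A / (4 * π * a) - X))) := by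
    rw [Real.exp_add, Real.exp_log hA]
  rw [h1]
  refine Real.exp_le_exp.2 ?_
  have h2 : Real.log A + -(2 * π ^ 2 * (Real.log A / (4 * π * a) - X)) =
      (1 - π / (2 * a)) * Real.log A + 2 * π ^ 2 * X := by
    field_simp
    ring
  rw [h2]
  linarith

/-- the difference of the exponents -/
lemma expo_d {s s2 s12 n1 n2 a v1 Vd w1 w2 E : ℝ} (hs : 0 < s) (hs2 : 0 < s2)
    (h12 : s12 = s + s2) (hn1 : 0 < n1) (hn12 : n1 ≤ n2) (ha : 1 ≤ a)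
    (hsn1 : s ≤ n1 ^ 2) (hns : n1 ^ 2 ≤ s12) (hE : 0 ≤ E)
    (hVd : Real.log (s12 / n1 ^ 2) / (4 * π * a) - E ≤ Vd)
    (hw1 : w1 = (s2 / s12) ^ 2 * v1 - s * s2 / s12 / n1 ^ 2)
    (hw2 : w2 = (s2 / s12) ^ 2 * (v1 + Vd) - s * s2 / s12 / n2 ^ 2) :
    Real.log (s12 / n1 ^ 2) / (4 * π * a) - (E + 1) ≤ w2 - w1 ∧
      0 ≤ Real.log (s12 / n1 ^ 2) ∧ Real.log (s12 / n1 ^ 2) ≤ Real.log (s12 / s) := by
  have hπ3 := Real.pi_gt_three
  have hs12 : 0 < s12 := by linarith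
  have hn2 : 0 < n2 := by linarith
  obtain ⟨r0, r1, r2⟩ := ratio_sq hs hs2 h12
  have hss : 0 < s / s12 := by positivity
  have hpa : 12 ≤ 4 * π * a := by nlinarith
  have hxl := mul_log_le hs hs12
  have hX00 : 0 ≤ Real.log (s12 / n1 ^ 2) := by
    refine Real.log_nonneg ?_
    rw [le_div_iff₀ (by positivity)]
    linarith
  have hX01 : Real.log (s12 / n1 ^ 2) ≤ Real.log (s12 / s) :=
    Real.log_le_log (by positivity) (div_le_div_of_nonneg_left hs12.le hs hsn1)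
  refine ⟨?_, hX00, hX01⟩
  have hX0a : 2 * (s / s12 * (Real.log (s12 / n1 ^ 2) / (4 * π * a))) ≤ 1 := by
    have e1 : s / s12 * Real.log (s12 / n1 ^ 2) ≤ 1 :=
      (mul_le_mul_of_nonneg_left hX01 hss.le).trans hxl
    have e2 : 2 * (s / s12 * (Real.log (s12 / n1 ^ 2) / (4 * π * a))) =
        2 * (s / s12 * Real.log (s12 / n1 ^ 2)) / (4 * π * a) := by ring
    rw [e2, div_le_one (by linarith)]
    linarith
  have hX0 : 0 ≤ Real.log (s12 / n1 ^ 2) / (4 * π * a) := div_nonneg hX00 (by linarith)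
  have k1 := scale_low r0 r1 r2 hX0 hE hX0a hVd
  have e1 : w2 - w1 = (s2 / s12) ^ 2 * Vd + s * s2 / s12 * (1 / n1 ^ 2 - 1 / n2 ^ 2) := by
    rw [hw1, hw2]
    ring
  have e2 : 1 / n2 ^ 2 ≤ 1 / n1 ^ 2 :=
    one_div_le_one_div_of_le (by positivity) (pow_le_pow_left₀ hn1.le hn12 2)
  have e3 : 0 ≤ s * s2 / s12 * (1 / n1 ^ 2 - 1 / n2 ^ 2) :=
    mul_nonneg (by positivity) (by linarith)
  linarith

/-- the first exponent; `A = D q` -/
lemma expo_w {s s2 s12 n1 A a v1 w1 : ℝ} (hs : 0 < s) (hs2 : 0 < s2)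
    (h12 : s12 = s + s2) (hn1 : 0 < n1) (ha : 1 ≤ a) (hA0 : 0 < A) (hA : A ≤ n1)
    (hsA : s ≤ A ^ 2) (hsn1 : s ≤ n1 ^ 2) (hns : n1 ^ 2 ≤ s12)
    (hv1 : Real.log (n1 / A) / (2 * π * a) - 50 ≤ v1)
    (hw1 : w1 = (s2 / s12) ^ 2 * v1 - s * s2 / s12 / n1 ^ 2) :
    Real.log (n1 / A) / (2 * π * a) - 52 ≤ w1 ∧ 0 ≤ Real.log (n1 / A) ∧
      2 * Real.log (n1 / A) = Real.log (n1 ^ 2 / A ^ 2) := by
  have hπ3 := Real.pi_gt_three
  have hs12 : 0 < s12 := by linarith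
  obtain ⟨r0, r1, r2⟩ := ratio_sq hs hs2 h12
  have hss : 0 < s / s12 := by positivity
  have hpa : 6 ≤ 2 * π * a := by nlinarith
  have hxl := mul_log_le hs hs12
  have hY00 : 0 ≤ Real.log (n1 / A) := by
    refine Real.log_nonneg ?_
    rw [le_div_iff₀ (by positivity)]
    linarith
  have hlA : 2 * Real.log (n1 / A) = Real.log (n1 ^ 2 / A ^ 2) := by
    rw [← div_pow, Real.log_pow]
    push_cast
    ring
  refine ⟨?_, hY00, hlA⟩
  have hY01 : 2 * Real.log (n1 / A) ≤ Real.log (s12 / s) := by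
    rw [hlA]
    exact Real.log_le_log (by positivity) (div_le_div₀ hs12.le hns hs hsA)
  have hY0a : 2 * (s / s12 * (Real.log (n1 / A) / (2 * π * a))) ≤ 1 := by
    have e1 : s / s12 * (2 * Real.log (n1 / A)) ≤ 1 :=
      (mul_le_mul_of_nonneg_left hY01 hss.le).trans hxl
    have e2 : 2 * (s / s12 * (Real.log (n1 / A) / (2 * π * a))) =
        s / s12 * (2 * Real.log (n1 / A)) / (2 * π * a) := by ring
    rw [e2, div_le_one (by linarith)]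
    linarith
  have hY0 : 0 ≤ Real.log (n1 / A) / (2 * π * a) := div_nonneg hY00 (by linarith)
  have k2 := scale_low r0 r1 r2 hY0 (by norm_num) hY0a hv1
  have e1 : s * s2 / s12 / n1 ^ 2 ≤ 1 := by
    rw [div_div, div_le_one (by positivity)]
    have e2 : s * s2 ≤ s12 * s := by nlinarith
    have e3 : s12 * s ≤ s12 * n1 ^ 2 := mul_le_mul_of_nonneg_left hsn1 hs12.le
    linarith
  rw [hw1]
  linarith

/-- the main term -/
lemma expo_main {s s12 n1 a w1 w2 E x1 : ℝ} (hs12 : 0 < s12) (hn1 : 0 < n1) (ha : 1 ≤ a)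
    (hd : Real.log (s12 / n1 ^ 2) / (4 * π * a) - (E + 1) ≤ w2 - w1)
    (h0 : 0 ≤ Real.log (s12 / n1 ^ 2)) (h1 : Real.log (s12 / n1 ^ 2) ≤ Real.log (s12 / s))
    (hx : |1 - π / (2 * a)| * Real.log (s12 / s) ≤ x1) :
    s12 / n1 ^ 2 * (Real.exp (-(2 * π ^ 2 * w2)) * Real.exp (2 * π ^ 2 * w1)) ≤
        Real.exp (2 * π ^ 2 * (E + 1) + x1) := by
  have hπ := Real.pi_pos
  have e1 : Real.exp (-(2 * π ^ 2 * w2)) * Real.exp (2 * π ^ 2 * w1) =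
      Real.exp (-(2 * π ^ 2 * (w2 - w1))) := by
    rw [← Real.exp_add]
    congr 1
    ring
  rw [e1]
  refine le_trans ?_ (exp_log_num (A := s12 / n1 ^ 2) (a := a) (X := E + 1) (x1 := x1)
    (by positivity) ha ?_)
  · refine mul_le_mul_of_nonneg_left (Real.exp_le_exp.2 ?_) (by positivity)
    have e2 : 0 < 2 * π ^ 2 := by positivity
    have := mul_le_mul_of_nonneg_left hd e2.le
    linarith
  · refine le_trans ?_ hx
    exact mul_le_mul (le_abs_self _) h1 h0 (abs_nonneg _)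

/-- the other term; `A = D q` -/
lemma expo_rest {s s12 n1 A a w1 w2 E x1 : ℝ} (hs : 0 < s) (hs12 : 0 < s12) (hn1 : 0 < n1)
    (ha : 1 ≤ a) (hA0 : 0 < A) (hsA : s ≤ A ^ 2)
    (hd : Real.log (s12 / n1 ^ 2) / (4 * π * a) - (E + 1) ≤ w2 - w1)
    (h0 : 0 ≤ Real.log (s12 / n1 ^ 2))
    (hw : Real.log (n1 / A) / (2 * π * a) - 52 ≤ w1) (hY : 0 ≤ Real.log (n1 / A))
    (hlA : 2 * Real.log (n1 / A) = Real.log (n1 ^ 2 / A ^ 2))
    (hx : |1 - π / (2 * a)| * Real.log (s12 / s) ≤ x1) :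
    s12 / A ^ 2 * Real.exp (-(2 * π ^ 2 * w2)) ≤ Real.exp (2 * π ^ 2 * (E + 53) + x1) := by
  have hπ := Real.pi_pos
  have e0 : Real.log (s12 / A ^ 2) = Real.log (s12 / n1 ^ 2) + 2 * Real.log (n1 / A) := by
    rw [hlA, ← Real.log_mul (by positivity) (by positivity)]
    congr 1
    field_simp
  have hZ0 : 0 ≤ Real.log (s12 / A ^ 2) := by rw [e0]; linarith
  have hZ1 : Real.log (s12 / A ^ 2) ≤ Real.log (s12 / s) :=
    Real.log_le_log (by positivity) (div_le_div_of_nonneg_left hs12.le hs hsA)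
  refine le_trans ?_ (exp_log_num (A := s12 / A ^ 2) (a := a) (X := E + 53) (x1 := x1)
    (by positivity) ha ?_)
  · refine mul_le_mul_of_nonneg_left (Real.exp_le_exp.2 ?_) (by positivity)
    have e2 : 0 < 2 * π ^ 2 := by positivity
    have e3 : Real.log (s12 / A ^ 2) / (4 * π * a) - (E + 53) ≤ w2 := by
      rw [e0]
      have e4 : (Real.log (s12 / n1 ^ 2) + 2 * Real.log (n1 / A)) / (4 * π * a) =
          Real.log (s12 / n1 ^ 2) / (4 * π * a) + Real.log (n1 / A) / (2 * π * a) := by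
        field_simp
        ring
      rw [e4]
      linarith
    have := mul_le_mul_of_nonneg_left e3 e2.le
    linarith
  · refine le_trans ?_ hx
    exact mul_le_mul (le_abs_self _) hZ1 hZ0 (abs_nonneg _)

/-- **the exponents**, `A = D q` -/
lemma expo_num {s s2 s12 n1 n2 A a v1 Vd w1 w2 E x1 : ℝ} (hs : 0 < s) (hs2 : 0 < s2)
    (h12 : s12 = s + s2) (hn1 : 0 < n1) (hn12 : n1 ≤ n2) (ha : 1 ≤ a) (hA0 : 0 < A)
    (hA : A ≤ n1) (hsA : s ≤ A ^ 2) (hns : n1 ^ 2 ≤ s12) (hE : 0 ≤ E)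
    (hv1 : Real.log (n1 / A) / (2 * π * a) - 50 ≤ v1)
    (hVd : Real.log (s12 / n1 ^ 2) / (4 * π * a) - E ≤ Vd)
    (hw1 : w1 = (s2 / s12) ^ 2 * v1 - s * s2 / s12 / n1 ^ 2)
    (hw2 : w2 = (s2 / s12) ^ 2 * (v1 + Vd) - s * s2 / s12 / n2 ^ 2)
    (hx : |1 - π / (2 * a)| * Real.log (s12 / s) ≤ x1) :
    s12 / n1 ^ 2 * (Real.exp (-(2 * π ^ 2 * w2)) * Real.exp (2 * π ^ 2 * w1)) ≤
        Real.exp (2 * π ^ 2 * (E + 1) + x1) ∧
      s12 / A ^ 2 * Real.exp (-(2 * π ^ 2 * w2)) ≤ Real.exp (2 * π ^ 2 * (E + 53) + x1) ∧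
      Real.log (s12 / n1 ^ 2) / (4 * π * a) - (E + 1) ≤ w2 - w1 ∧
      Real.log (n1 / A) / (2 * π * a) - 52 ≤ w1 := by
  have hs12 : 0 < s12 := by linarith
  have hsn1 : s ≤ n1 ^ 2 := hsA.trans (pow_le_pow_left₀ hA0.le hA 2)
  obtain ⟨k1, k2, k3⟩ := expo_d hs hs2 h12 hn1 hn12 ha hsn1 hns hE hVd hw1 hw2
  obtain ⟨k4, k5, k6⟩ := expo_w hs hs2 h12 hn1 ha hA0 hA hsA hsn1 hns hv1 hw1
  exact ⟨expo_main hs12 hn1 ha k1 k2 k3 hx,
    expo_rest hs hs12 hn1 ha hA0 hsA k1 k2 k4 k5 k6 hx, k1, k4⟩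

/-- **the combination**: from the conclusion of `cvh` -/
lemma comb_num {om2 n2 n1 s12 A Λ q1 q2 w1 w2 H S η G1 G2 Et2 iN : ℝ} (hΛ0 : 0 ≤ Λ)
    (hΛ : Λ ≤ 8 * s12) (hn1 : 0 < n1) (hA : 0 < A) (hiN0 : 0 ≤ iN) (hiN : iN * n2 ^ 2 = Λ)
    (hq1 : 0 ≤ q1) (hq2 : 0 ≤ q2) (hH : 0 ≤ H) (hS : 0 ≤ S) (hη : 0 ≤ η)
    (h1 : s12 / n1 ^ 2 * (Real.exp (-(2 * π ^ 2 * w2)) * Real.exp (2 * π ^ 2 * w1)) ≤ G1)
    (h2 : s12 / A ^ 2 * Real.exp (-(2 * π ^ 2 * w2)) ≤ G2)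
    (h : om2 ≤ n2 ^ 2 * (q2 + Real.exp (-(2 * π ^ 2 * w2)) *
        (Real.exp (2 * π ^ 2 * w1) * (H / n1 ^ 2 + q1) + 2 * η * (S + q1))) + Et2) :
    iN * om2 ≤ 8 * G1 * H + 16 * G2 * (A ^ 2 * η * S) + iN * Et2
      + (8 * s12 * q2 + 8 * G1 * n1 ^ 2 * q1 + 16 * G2 * (A ^ 2 * η * q1)) := by
  have h3 := mul_le_mul_of_nonneg_left h hiN0
  have e1 : iN * (n2 ^ 2 * (q2 + Real.exp (-(2 * π ^ 2 * w2)) *
        (Real.exp (2 * π ^ 2 * w1) * (H / n1 ^ 2 + q1) + 2 * η * (S + q1))) + Et2) =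
      Λ * q2 + Λ / n1 ^ 2 * (Real.exp (-(2 * π ^ 2 * w2)) * Real.exp (2 * π ^ 2 * w1))
        * (H + n1 ^ 2 * q1)
        + Λ / A ^ 2 * Real.exp (-(2 * π ^ 2 * w2)) * (2 * (A ^ 2 * η * (S + q1)))
        + iN * Et2 := by
    rw [← hiN]
    field_simp
    ring
  rw [e1] at h3
  set X1 : ℝ := Real.exp (-(2 * π ^ 2 * w2)) * Real.exp (2 * π ^ 2 * w1) with hX1
  set X2 : ℝ := Real.exp (-(2 * π ^ 2 * w2)) with hX2
  have x1 : 0 ≤ X1 := by positivity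
  have x2 : 0 ≤ X2 := by positivity
  have g1 : Λ / n1 ^ 2 * X1 ≤ 8 * G1 := by
    have : Λ / n1 ^ 2 * X1 ≤ 8 * s12 / n1 ^ 2 * X1 :=
      mul_le_mul_of_nonneg_right (div_le_div_of_nonneg_right hΛ (by positivity)) x1
    have e : 8 * s12 / n1 ^ 2 * X1 = 8 * (s12 / n1 ^ 2 * X1) := by ring
    linarith
  have g2 : Λ / A ^ 2 * X2 ≤ 8 * G2 := by
    have : Λ / A ^ 2 * X2 ≤ 8 * s12 / A ^ 2 * X2 :=
      mul_le_mul_of_nonneg_right (div_le_div_of_nonneg_right hΛ (by positivity)) x2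
    have e : 8 * s12 / A ^ 2 * X2 = 8 * (s12 / A ^ 2 * X2) := by ring
    linarith
  have t1 : Λ * q2 ≤ 8 * s12 * q2 := mul_le_mul_of_nonneg_right hΛ hq2
  have t2 := mul_le_mul_of_nonneg_right g1 (by positivity : 0 ≤ H + n1 ^ 2 * q1)
  have t3 := mul_le_mul_of_nonneg_right g2 (by positivity : 0 ≤ 2 * (A ^ 2 * η * (S + q1)))
  have e2 : 8 * G1 * (H + n1 ^ 2 * q1) = 8 * G1 * H + 8 * G1 * n1 ^ 2 * q1 := by ring
  have e3 : 8 * G2 * (2 * (A ^ 2 * η * (S + q1))) =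
      16 * G2 * (A ^ 2 * η * S) + 16 * G2 * (A ^ 2 * η * q1) := by ring
  linarith

end

end Vale.Agent.P159.H363
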