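import Vale.Agent.P159.H363.Cvn5
import Vale.Agent.P159.H363.Cvg5

/-!
P159 / H363, VB10 numbers, part 6: `cvn` = VB10 with numbers, exact periodizations as reference
forms, `t = T / 4`.
-/

set_option linter.unusedSectionVars false

namespace Vale.Agent.P159.H363

open Finset Matrix MeasureTheory ProbabilityTheory
open Vale.Agent.P159.TM.H764 (EE)
open Vale.Agent.P159.TM.Spec (V)
open Vale.Agent.P159.TM.SpecC (Tor wT)
open Vale.Agent.P159.H37 (gau)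
open Vale.Agent.P159.H864 (TI sym fc cl)
open Vale.Agent.P159.H462 (Dom ahat Gam)
open Vale.Agent.P159.H767 (lT pt RT eps v1c cen gT)
open Vale.Agent.P159.H889 (Lcl tl uc)
open Vale.Agent.P159.H733.Torg (ip Two)
open Vale.Agent.P159.H733.Vt (zb lft)
open Vale.Agent.P159.H896 (om)
open Vale.Agent.P159.H145 (mt)
open Vale.Agent.P159.H43 (omT)
open scoped Real

noncomputable section

lemma e1n_nonneg {N l : ℕ} [NeZero N] [NeZero (N / l)] {b T : ℝ} (hb : 0 ≤ b) (hT : 0 < T)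
    (h12 : omT (wT b N) (mt N T) ≤ 1 / 2) : 0 ≤ e1n N b T :=
  (norm_nonneg _).trans
    (H43.e1_le (H896.wm_t (N := N) hb hT) h12 (lf N l (0 : V (N / l) → ℝ)))

lemma SW_nonneg {N l : ℕ} [NeZero N] [NeZero (N / l)] {b T : ℝ} (hb : 0 ≤ b) (hT : 0 < T)
    (h12 : omT (wT b N) (mt N T) ≤ 1 / 2) : 0 ≤ SW N b T :=
  add_nonneg (H896.om_nonneg (H896.wm_t (N := N) hb hT) 1) (e1n_nonneg (l := l) hb hT h12)

lemma EtB_nonneg {N l : ℕ} [NeZero N] [NeZero (N / l)] {b T r η : ℝ} (hb : 0 ≤ b) (hT : 0 < T)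
    (h12 : omT (wT b N) (mt N T) ≤ 1 / 2) (hr : 0 ≤ r) (hη : 0 ≤ η) : 0 ≤ EtB N l b T r η := by
  have h1 := H896.om_nonneg (H896.wm_t (N := N) hb hT) 1
  have h2 := e1n_nonneg (N := N) (l := l) hb hT h12
  have h3 := SW_nonneg (N := N) (l := l) hb hT h12
  unfold EtB Eto
  positivity

/-- the constant `E` -/
lemma E_num {X0 K3 c L : ℝ} (hX0 : 1 ≤ X0) (hK3 : 0 ≤ K3) (hc : 0 < c) (hL : 1 ≤ L) :
    0 ≤ Real.log (X0 * L ^ 2) / (2 * π * c) + K3 ∧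
    2 * π ^ 2 * (Real.log (X0 * L ^ 2) / (2 * π * c) + K3 + 53) ≤
      (2 * π ^ 2 * ((Real.log X0 + 2) / (2 * π * c) + K3 + 53)) * (1 + Real.log L) := by
  have hπ := Real.pi_pos
  have hlL : 0 ≤ Real.log L := Real.log_nonneg hL
  have hlX : 0 ≤ Real.log X0 := Real.log_nonneg hX0
  have e1 : Real.log (X0 * L ^ 2) = Real.log X0 + 2 * Real.log L := by
    rw [Real.log_mul (by positivity) (by positivity), Real.log_pow]
    push_cast
    ring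
  rw [e1]
  refine ⟨by positivity, ?_⟩
  have e2 : (Real.log X0 + 2 * Real.log L) / (2 * π * c) ≤
      (Real.log X0 + 2) / (2 * π * c) * (1 + Real.log L) := by
    rw [div_mul_eq_mul_div]
    refine div_le_div_of_nonneg_right ?_ (by positivity)
    nlinarith
  have e3 : K3 + 53 ≤ (K3 + 53) * (1 + Real.log L) := by nlinarith
  have e4 : (Real.log X0 + 2 * Real.log L) / (2 * π * c) + K3 + 53 ≤
      ((Real.log X0 + 2) / (2 * π * c) + K3 + 53) * (1 + Real.log L) := by linarith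
  have e5 := mul_le_mul_of_nonneg_left e4 (by positivity : 0 ≤ 2 * π ^ 2)
  linarith

/-- the term with the window law -/
lemma term_num {Cη L q ν D n sw u s : ℝ} {S η : ℝ} (hν : 0 < ν) (hsν : s * ν = 3) (hD : 0 ≤ D)
    (hn : 0 < n) (hq : 0 ≤ q) (hsw : 0 ≤ sw) (hη0 : 0 ≤ η)
    (hη : η ≤ Cη * L ^ 2 * (q * ν * D ^ 4 / n ^ 2) + u)
    (hS : S = (2 * π)⁻¹ * (√(s * n ^ 2))⁻¹ * sw) :
    (D * q) ^ 2 * η * S ≤
      Cη * L ^ 2 * q ^ 3 * (√ν * D) ^ 6 / (√ν * n) ^ 3 * sw + (D * q) ^ 2 * u * (√ν / n) * sw := by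
  have hπ := Real.pi_gt_three
  have hs : 0 < s := by
    by_contra h
    push Not at h
    nlinarith
  have hr : 0 < √ν := Real.sqrt_pos.2 hν
  have hrs : √ν ^ 2 = ν := Real.sq_sqrt hν.le
  have h1 : √(s * n ^ 2) = √s * n := by
    rw [Real.sqrt_mul hs.le, Real.sqrt_sq hn.le]
  have h2 : 1 ≤ √s * √ν := by
    rw [← Real.sqrt_mul hs.le, hsν]
    exact Real.one_le_sqrt.2 (by norm_num)
  have hss : 0 < √s := Real.sqrt_pos.2 hs
  have h3 : (2 * π)⁻¹ * (√(s * n ^ 2))⁻¹ ≤ √ν / n := by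
    rw [h1, mul_inv (√s) n, ← mul_assoc, div_eq_mul_inv]
    refine mul_le_mul_of_nonneg_right ?_ (by positivity)
    have h4 : (√s)⁻¹ ≤ √ν := by
      rw [inv_le_iff_one_le_mul₀ hss]
      linarith
    have h5 : (2 * π)⁻¹ ≤ 1 := inv_le_one_of_one_le₀ (by linarith)
    calc (2 * π)⁻¹ * (√s)⁻¹ ≤ 1 * √ν := mul_le_mul h5 h4 (by positivity) (by norm_num)
      _ = _ := one_mul _
  have h6 : S ≤ √ν / n * sw := by
    rw [hS]
    exact mul_le_mul_of_nonneg_right h3 hsw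
  have h7 : (D * q) ^ 2 * η * S ≤ (D * q) ^ 2 * η * (√ν / n * sw) :=
    mul_le_mul_of_nonneg_left h6 (by positivity)
  have h8 : (D * q) ^ 2 * η * (√ν / n * sw) ≤
      (D * q) ^ 2 * (Cη * L ^ 2 * (q * ν * D ^ 4 / n ^ 2) + u) * (√ν / n * sw) :=
    mul_le_mul_of_nonneg_right (mul_le_mul_of_nonneg_left hη (by positivity)) (by positivity)
  refine (h7.trans h8).trans (le_of_eq ?_)
  have h9 : (√ν * D) ^ 6 / (√ν * n) ^ 3 = D ^ 6 * (ν * √ν) / n ^ 3 := by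
    have h10 : √ν ^ 6 = √ν ^ 3 * (ν * √ν) := by
      calc √ν ^ 6 = √ν ^ 3 * (√ν ^ 2 * √ν) := by ring
        _ = _ := by rw [hrs]
    rw [mul_pow, mul_pow, h10]
    field_simp
  have h11 : Cη * L ^ 2 * q ^ 3 * (√ν * D) ^ 6 / (√ν * n) ^ 3 =
      Cη * L ^ 2 * q ^ 3 * ((√ν * D) ^ 6 / (√ν * n) ^ 3) := by ring
  rw [h11, h9]
  field_simp

/-- the small terms -/
lemma small_num {B p L U G s12 n A η q1 q2 S' sw : ℝ} (hp : 1 ≤ p) (hL : 6 ≤ L)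
    (hU : U = Real.exp (p * L)) (hs : s12 ≤ U ^ 2) (hG : G ≤ U) (hn0 : 0 ≤ n)
    (hn : n ≤ U) (hA0 : 0 ≤ A) (hA : A ≤ U) (hη0 : 0 ≤ η) (hη : η ≤ 1 / 2) (hq10 : 0 ≤ q1)
    (hq20 : 0 ≤ q2) (hS0 : 0 ≤ S') (hS : S' ≤ 1) (hsw : 0 ≤ sw)
    (h1 : q1 ≤ 2 * Real.exp (-((B + 5 * p + 1) * L)))
    (h2 : q2 ≤ 2 * Real.exp (-((B + 5 * p + 1) * L))) :
    8 * s12 * q2 + 8 * G * n ^ 2 * q1 + 16 * G * (A ^ 2 * η * q1)
      + 16 * G * (A ^ 2 * Real.exp (-((B + 5 * p + 1) * L)) * S' * sw)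
      ≤ Real.exp (-(B * L)) * (1 + sw) := by
  have hL0 : 0 ≤ L := by linarith
  have hU1 : 1 ≤ U := by
    rw [hU]
    exact Real.one_le_exp (by positivity)
  set u : ℝ := Real.exp (-((B + 5 * p + 1) * L)) with hu
  have hu0 : 0 < u := Real.exp_pos _
  have e1 : U ^ 5 * u = Real.exp (-(B * L)) * Real.exp (-L) := by
    rw [hU, hu, ← Real.exp_nat_mul, ← Real.exp_add, ← Real.exp_add]
    congr 1
    push_cast
    ring
  have e2 : 48 * Real.exp (-L) ≤ 1 := by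
    have e3 : (48 : ℝ) ≤ Real.exp 6 := by
      have h6 := Real.exp_one_gt_d9
      have h7 : Real.exp 6 = Real.exp 1 ^ 6 := by rw [← Real.exp_nat_mul]; norm_num
      rw [h7]
      calc (48 : ℝ) ≤ 2.7182818283 ^ 6 := by norm_num
        _ ≤ Real.exp 1 ^ 6 := by gcongr
    have e4 : (48 : ℝ) ≤ Real.exp L := e3.trans (Real.exp_le_exp.2 hL)
    rw [Real.exp_neg, mul_inv_le_iff₀ (Real.exp_pos _)]
    linarith
  have hn2 : n ^ 2 ≤ U ^ 2 := pow_le_pow_left₀ hn0 hn 2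
  have hA2 : A ^ 2 ≤ U ^ 2 := pow_le_pow_left₀ hA0 hA 2
  have p25 : U ^ 2 ≤ U ^ 5 := pow_le_pow_right₀ hU1 (by norm_num)
  have p35 : U ^ 3 ≤ U ^ 5 := pow_le_pow_right₀ hU1 (by norm_num)
  have t1 : 8 * s12 * q2 ≤ 16 * (U ^ 5 * u) := by
    have a1 : s12 * q2 ≤ U ^ 5 * (2 * u) := by
      have a2 : s12 ≤ U ^ 5 := hs.trans p25
      exact mul_le_mul a2 h2 hq20 (by positivity)
    linarith
  have t2 : 8 * G * n ^ 2 * q1 ≤ 16 * (U ^ 5 * u) := by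
    have a1 : G * n ^ 2 ≤ U ^ 5 := by
      calc G * n ^ 2 ≤ U * U ^ 2 := mul_le_mul hG hn2 (by positivity) (by linarith)
        _ = U ^ 3 := by ring
        _ ≤ _ := p35
    have a2 : G * n ^ 2 * q1 ≤ U ^ 5 * (2 * u) := mul_le_mul a1 h1 hq10 (by positivity)
    linarith
  have t3 : 16 * G * (A ^ 2 * η * q1) ≤ 16 * (U ^ 5 * u) := by
    have a1 : G * A ^ 2 ≤ U ^ 5 := by
      calc G * A ^ 2 ≤ U * U ^ 2 := mul_le_mul hG hA2 (by positivity) (by linarith)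
        _ = U ^ 3 := by ring
        _ ≤ _ := p35
    have a2 : η * q1 ≤ 1 / 2 * (2 * u) := mul_le_mul hη h1 hq10 (by norm_num)
    have a3 : G * A ^ 2 * (η * q1) ≤ U ^ 5 * (1 / 2 * (2 * u)) :=
      mul_le_mul a1 a2 (by positivity) (by positivity)
    nlinarith
  have t4 : 16 * G * (A ^ 2 * u * S' * sw) ≤ 48 * (U ^ 5 * u) * sw := by
    have a1 : G * A ^ 2 ≤ U ^ 5 := by
      calc G * A ^ 2 ≤ U * U ^ 2 := mul_le_mul hG hA2 (by positivity) (by linarith)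
        _ = U ^ 3 := by ring
        _ ≤ _ := p35
    have a2 : S' * sw ≤ 1 * sw := mul_le_mul_of_nonneg_right hS hsw
    have a3 : G * A ^ 2 * (u * (S' * sw)) ≤ U ^ 5 * (u * (1 * sw)) :=
      mul_le_mul a1 (mul_le_mul_of_nonneg_left a2 hu0.le) (by positivity) (by positivity)
    have a4 : 0 ≤ U ^ 5 * u * sw := by positivity
    nlinarith
  have hfin : 48 * (U ^ 5 * u) ≤ Real.exp (-(B * L)) := by
    rw [e1]
    have := mul_le_mul_of_nonneg_left e2 (Real.exp_pos (-(B * L))).le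
    linarith
  have hfin2 := mul_le_mul_of_nonneg_right hfin hsw
  linarith

/-- the conclusion of `cvn` -/
def CvnOut (N₁ N₂ l : ℕ) [NeZero N₁] [NeZero (N₁ / l)] [NeZero N₂] [NeZero (N₂ / l)]
    (b T t₁ B C L x1 q r r' ηB₁ ηB₂ : ℝ) (D : ℕ) : Prop :=
  4 / (t₁ * (N₂ : ℝ) ^ 2) * om (wT b N₂) (mt N₂ t₁) 1 ≤
    Real.exp (C * (1 + Real.log L) + x1) * (H316.omh N₁ l b T t₁ + EtB N₁ l b T r ηB₁) +
    Real.exp (C * (1 + Real.log L) + x1) * (q ^ 3 * (√(T * (l : ℝ) ^ 2) * D) ^ 6 /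
      (√(T * (l : ℝ) ^ 2) * ((N₁ / l : ℕ) : ℝ)) ^ 3 * SW N₁ b T) +
    4 / (t₁ * (N₂ : ℝ) ^ 2) * EtB N₂ l b T r' ηB₂ + Real.exp (-(B * L)) * (1 + SW N₁ b T)

end

end Vale.Agent.P159.H363
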