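import Vale.Agent.P159.H363.Cvn6

/-!
P159 / H363, VB10 numbers, part 7: theorem `cvn`.
-/

set_option linter.unusedSectionVars false

namespace Vale.Agent.P159.H363

open Finset Matrix MeasureTheory ProbabilityTheory
open Vale.Agent.P159.TM.H764 (EE)
open Vale.Agent.P159.TM.Spec (V)
open Vale.Agent.P159.TM.SpecC (Tor wT)
open Vale.Agent.P159.H37 (gau)
open Vale.Agent.P159.H864 (TI sym fc cl)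
open Vale.Agent.P159.H462 (Dom ahat Gam)
open Vale.Agent.P159.H767 (lT pt RT eps v1c cen gT)
open Vale.Agent.P159.H889 (Lcl tl uc)
open Vale.Agent.P159.H733.Torg (ip Two)
open Vale.Agent.P159.H733.Vt (zb lft)
open Vale.Agent.P159.H896 (om)
open Vale.Agent.P159.H145 (mt)
open Vale.Agent.P159.H43 (omT)
open scoped Real

noncomputable section

/-- the numeric hypotheses of `cvn` -/
structure CvNum (n1 n2 : ℕ) (ν κ s12 L p Λ C a q x1 : ℝ) (R0 D0 D1 R : ℕ) : Prop where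
  ν8 : ν ≤ 1 / 8
  νU : ν⁻¹ ≤ Real.exp (p * L)
  R0l : Λ * L * (2 / κ) ≤ R0
  Rl : Λ * L * (2 / κ) ≤ R
  sum : R0 + D0 + R ≤ D1
  D1U : (D1 : ℝ) + 1 ≤ Real.exp (p * L)
  n2U : (n2 : ℝ) ≤ Real.exp (p * L)
  n12 : n1 ≤ n2
  D4 : 4 * D1 ≤ n1
  κn : L ^ 5 * 2 ≤ κ * n1
  νn : C * L ^ 3 ≤ ν * (n1 : ℝ) ^ 2
  ns : (n1 : ℝ) ^ 2 ≤ s12
  s2 : 2 * s12 ≤ (n2 : ℝ) ^ 2
  D5 : 5 ≤ D1
  lD : Real.log n1 ≤ D1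
  q5 : 5 ≤ q
  lq : Real.log n1 ≤ q
  Dq : 16 * (D1 * q) ≤ (n1 : ℝ)
  sD : 3 / ν ≤ (D1 * q) ^ 2
  x : |1 - π / (2 * a)| * Real.log (s12 / (3 / ν)) ≤ x1
  eta : C * L ^ 2 * (q * ν * D1 ^ 4 / (n1 : ℝ) ^ 2) ≤ 1 / 4
  w : C * (1 + Real.log L) ≤ Real.log (n1 / (D1 * q))
  G : C * (1 + Real.log L) + x1 ≤ p * L

/-- the reference forms on the two tori -/
structure CvRef (N₁ N₂ l n3 : ℕ) [NeZero N₁] [NeZero (N₁ / l)] [NeZero N₂] [NeZero (N₂ / l)]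
    [NeZero n3] (h1 : N₁ / l ∣ n3) (h2 : N₂ / l ∣ n3) (b T κ c C1 a ηB₁ ηB₂ : ℝ)
    (B₁ : Matrix (V (N₁ / l)) (V (N₁ / l)) ℝ) (B₂ : Matrix (V (N₂ / l)) (V (N₂ / l)) ℝ)
    (A3 : Matrix (V n3) (V n3) ℝ) : Prop where
  T1 : Two h1 B₁ A3 (T * (l : ℝ) ^ 2) c κ C1
  T2 : Two h2 B₂ A3 (T * (l : ℝ) ^ 2) c κ C1
  a1 : Nf (acl N₁ l b T T)
  a2 : Nf (acl N₂ l b T T)
  g1 : 0 ≤ ηB₁
  g1' : ηB₁ ≤ 1 / 2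
  g2 : 0 ≤ ηB₂
  g2' : ηB₂ ≤ 1 / 2
  HS₁ : ∑ k, rel (acl N₁ l b T T) B₁ k ^ 2 ≤ ηB₁ ^ 2
  HS₂ : ∑ k, rel (acl N₂ l b T T) B₂ k ^ 2 ≤ ηB₂ ^ 2
  ha : 1 ≤ a
  ha2 : a ≤ 2
  hA1 : ∀ k, sym B₁ k ≤ a * EE k
  hA2 : ∀ k, sym B₂ k ≤ a * EE k

/-- the local functional and the weights on the two tori -/
structure CvLoc (N₁ N₂ l : ℕ) [NeZero N₁] [NeZero (N₁ / l)] [NeZero N₂] [NeZero (N₂ / l)]
    (b T t₁ Lp ρ r r' : ℝ) (D0 : ℕ)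
    (B₁ : Matrix (V (N₁ / l)) (V (N₁ / l)) ℝ) (B₂ : Matrix (V (N₂ / l)) (V (N₂ / l)) ℝ)
    (mu : V (N₁ / l) → (V (N₁ / l) → ℝ) → ℂ) : Prop where
  h12₁ : omT (wT b N₁) (mt N₁ T) ≤ 1 / 2
  h12₂ : omT (wT b N₂) (mt N₂ T) ≤ 1 / 2
  hr : 1 - (∫ g, Wcl N₁ l b T T (Bfl N₁ l b T t₁ *ᵥ g) ∂(gau (V (N₁ / l))))⁻¹ ≤ r
  hr' : 1 - (∫ g, Wcl N₂ l b T T (Bfl N₂ l b T t₁ *ᵥ g) ∂(gau (V (N₂ / l))))⁻¹ ≤ r'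
  r0 : 0 ≤ r
  r0' : 0 ≤ r'
  hmu : Lcl (1 : Matrix (V (N₁ / l)) (V (N₁ / l)) ℝ) D0 0 Lp mu mu
  bmu : ∀ x F, ‖mu x F‖ ≤ (2 * π)⁻¹ * (T * (l : ℝ) ^ 2)
  Lp0 : 0 ≤ Lp
  Lp1 : Lp ≤ 1
  near1 : ∀ y, n2 (gau (V (N₁ / l))) (fun g => uc N₁ l b T y (gm0 (sn l T t₁) B₁ *ᵥ g)
      - mu y (gm0 (sn l T t₁) B₁ *ᵥ g)) ≤ ρ
  near2 : ∀ y, n2 (gau (V (N₂ / l))) (fun g => uc N₂ l b T y (gm0 (sn l T t₁) B₂ *ᵥ g)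
      - lft D0 mu y (gm0 (sn l T t₁) B₂ *ᵥ g)) ≤ ρ

lemma off_of_two {n1 n3 : ℕ} [NeZero n1] [NeZero n3] {h1 : n1 ∣ n3}
    {A1 : Matrix (V n1) (V n1) ℝ} {A3 : Matrix (V n3) (V n3) ℝ} {ν c κ C1 : ℝ}
    (T1 : Two h1 A1 A3 ν c κ C1) (x y : V n1) (hxy : x ≠ y) : A1 x y ≤ 0 :=
  H733.Vt.off_of_nn T1.dom.hν T1.h0 x y hxy

lemma sn_quarter {l : ℕ} {T : ℝ} (hl : 0 < l) (hT : 0 < T) :
    sn l T (T / 4) * (T * (l : ℝ) ^ 2) = 3 ∧ sn l T (T / 4) = 3 / (T * (l : ℝ) ^ 2) := by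
  have hl' : (0 : ℝ) < l := by exact_mod_cast hl
  unfold sn
  constructor
  · field_simp
    norm_num
  · field_simp
    norm_num

/-- the mass of the coarse scale against the noise -/
lemma lam_num {N₂ l : ℕ} [NeZero N₂] [NeZero (N₂ / l)] (hl : l ∣ N₂) {T t₁ : ℝ} (ht₁ : 0 < t₁)
    (h : 4 * t₁ < T) :
    4 / (t₁ * (N₂ : ℝ) ^ 2) * ((N₂ / l : ℕ) : ℝ) ^ 2 = 4 / (t₁ * (l : ℝ) ^ 2) ∧
      4 / (t₁ * (l : ℝ) ^ 2) ≤ 8 * sn l T t₁ := by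
  have hlp : (0 : ℝ) < l := by exact_mod_cast H864.l_pos hl
  have hn : (0 : ℝ) < ((N₂ / l : ℕ) : ℝ) := by exact_mod_cast NeZero.pos (N₂ / l)
  have hNl : (N₂ : ℝ) = ((N₂ / l : ℕ) : ℝ) * l := by
    rw [← Nat.cast_mul, Nat.div_mul_cancel hl]
  have hT : 0 < T := by linarith
  constructor
  · rw [hNl]
    field_simp
  · unfold sn
    have h1 : T⁻¹ ≤ (2 * t₁)⁻¹ := inv_anti₀ (by positivity) (by linarith)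
    have h2 : (2 * t₁)⁻¹ = t₁⁻¹ / 2 := by
      rw [mul_inv]
      ring
    have h3 : 4 / (t₁ * (l : ℝ) ^ 2) = 4 * t₁⁻¹ / (l : ℝ) ^ 2 := by
      field_simp
    have h4 : 8 * ((t₁⁻¹ - T⁻¹) / (l : ℝ) ^ 2) = 8 * (t₁⁻¹ - T⁻¹) / (l : ℝ) ^ 2 := by ring
    rw [h3, h4]
    refine div_le_div_of_nonneg_right ?_ (by positivity)
    linarith

end

end Vale.Agent.P159.H363
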