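import Vale.Agent.P159.H363.Cvn7

/-!
P159 / H363, VB10 numbers, part 8: theorem `cvn`.
-/

set_option linter.unusedSectionVars false

namespace Vale.Agent.P159.H363

open Finset Matrix MeasureTheory ProbabilityTheory
open Vale.Agent.P159.TM.H764 (EE)
open Vale.Agent.P159.TM.Spec (V)
open Vale.Agent.P159.TM.SpecC (Tor wT)
open Vale.Agent.P159.H37 (gau)
open Vale.Agent.P159.H864 (TI sym fc cl)
open Vale.Agent.P159.H462 (Dom ahat Gam)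
open Vale.Agent.P159.H767 (lT pt RT eps v1c cen gT)
open Vale.Agent.P159.H889 (Lcl tl uc)
open Vale.Agent.P159.H733.Torg (ip Two)
open Vale.Agent.P159.H733.Vt (zb lft)
open Vale.Agent.P159.H896 (om)
open Vale.Agent.P159.H145 (mt)
open Vale.Agent.P159.H43 (omT)
open scoped Real

noncomputable section

/-- the exponents of `cvn` -/
lemma cvn_expo {n1 n2 : ℕ} {ν κ s12 s s2 L p Λ C a q x1 v1 Vd E w1 w2 C' : ℝ} {R0 D0 D1 R : ℕ}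
    (hn : 0 < n1) (hν : 0 < ν) (hN : CvNum n1 n2 ν κ s12 L p Λ C a q x1 R0 D0 D1 R)
    (hs : s = 3 / ν) (hs2 : 0 < s2) (h12 : s12 = s + s2) (ha : 1 ≤ a) (ha2 : a ≤ 2) (hL : 1 ≤ L)
    (hE : 0 ≤ E) (hC' : 2 * π ^ 2 * (E + 53) ≤ C' * (1 + Real.log L)) (hCC : C' ≤ C)
    (hv1 : (Real.log n1 - Real.log D1 - Real.log q) / (2 * π * a) - 50 ≤ v1)
    (hVd : Real.log (s12 / (n1 : ℝ) ^ 2) / (4 * π * a) - E ≤ Vd)
    (hw1 : w1 = (s2 / s12) ^ 2 * v1 - s * s2 / s12 / (n1 : ℝ) ^ 2)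
    (hw2 : w2 = (s2 / s12) ^ 2 * (v1 + Vd) - s * s2 / s12 / (n2 : ℝ) ^ 2) :
    s12 / (n1 : ℝ) ^ 2 * (Real.exp (-(2 * π ^ 2 * w2)) * Real.exp (2 * π ^ 2 * w1)) ≤
        Real.exp (C' * (1 + Real.log L) + x1) ∧
      s12 / (D1 * q) ^ 2 * Real.exp (-(2 * π ^ 2 * w2)) ≤
        Real.exp (C' * (1 + Real.log L) + x1) ∧ 0 ≤ w1 ∧ 0 ≤ w2 := by
  have hπ := Real.pi_gt_three
  have hn1 : (0 : ℝ) < n1 := by exact_mod_cast hn
  have hD : (5 : ℝ) ≤ D1 := by exact_mod_cast hN.D5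
  have hq := hN.q5
  have hD0 : (0 : ℝ) < D1 := by linarith
  have hq0 : 0 < q := by linarith
  have hA0 : 0 < (D1 : ℝ) * q := by positivity
  have hDq := hN.Dq
  have hA : (D1 : ℝ) * q ≤ n1 := by linarith
  have hs0 : 0 < s := by rw [hs]; positivity
  have hlog : Real.log n1 - Real.log D1 - Real.log q = Real.log (n1 / (D1 * q)) := by
    rw [Real.log_div hn1.ne' hA0.ne', Real.log_mul hD0.ne' hq0.ne']
    ring
  rw [hlog] at hv1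
  have hsA := hN.sD
  rw [← hs] at hsA
  have hx := hN.x
  rw [← hs] at hx
  have hn12 : (n1 : ℝ) ≤ n2 := by exact_mod_cast hN.n12
  obtain ⟨k1, k2, k3, k4⟩ := expo_num hs0 hs2 h12 hn1 hn12 ha hA0 hA hsA hN.ns hE hv1 hVd hw1 hw2 hx
  have hlL : 0 ≤ Real.log L := Real.log_nonneg hL
  have hE1 : 2 * π ^ 2 * (E + 1) ≤ 2 * π ^ 2 * (E + 53) :=
    mul_le_mul_of_nonneg_left (by linarith) (by positivity)
  have hX : 0 ≤ Real.log (s12 / (n1 : ℝ) ^ 2) / (4 * π * a) := by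
    refine div_nonneg (Real.log_nonneg ?_) (by positivity)
    rw [le_div_iff₀ (by positivity)]
    linarith [hN.ns]
  have hw := hN.w
  have hY : E + 53 ≤ Real.log (n1 / (D1 * q)) / (2 * π * a) := by
    rw [le_div_iff₀ (by positivity)]
    have e1 : (E + 53) * (2 * π * a) ≤ (E + 53) * (2 * π ^ 2) := by
      refine mul_le_mul_of_nonneg_left ?_ (by linarith)
      nlinarith
    have e2 : C' * (1 + Real.log L) ≤ C * (1 + Real.log L) :=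
      mul_le_mul_of_nonneg_right hCC (by linarith)
    linarith
  refine ⟨k1.trans (Real.exp_le_exp.2 (by linarith)), k2.trans (Real.exp_le_exp.2 (by linarith)),
    by linarith, by linarith⟩

/-- **final scalar step** -/
lemma cvn_fin {om2 n2 n1 s12 A Λ q1 q2 w1 w2 H H' S η G' G Et2 iN Cη L q ν D sw u B p U : ℝ}
    (hΛ0 : 0 ≤ Λ) (hΛ : Λ ≤ 8 * s12) (hn1 : 0 < n1) (hAd : A = D * q) (hA : 0 < A)
    (hiN0 : 0 ≤ iN) (hiN : iN * n2 ^ 2 = Λ) (hq1 : 0 ≤ q1) (hq2 : 0 ≤ q2) (hH : 0 ≤ H)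
    (hHH : H ≤ H') (hS : 0 ≤ S) (hη : 0 ≤ η) (hη2 : η ≤ 1 / 2)
    (h1 : s12 / n1 ^ 2 * (Real.exp (-(2 * π ^ 2 * w2)) * Real.exp (2 * π ^ 2 * w1)) ≤ G')
    (h2 : s12 / A ^ 2 * Real.exp (-(2 * π ^ 2 * w2)) ≤ G')
    (h : om2 ≤ n2 ^ 2 * (q2 + Real.exp (-(2 * π ^ 2 * w2)) *
        (Real.exp (2 * π ^ 2 * w1) * (H / n1 ^ 2 + q1) + 2 * η * (S + q1))) + Et2)
    (hν : 0 < ν) (hD : 0 ≤ D) (hq : 0 ≤ q) (hsw : 0 ≤ sw)
    (hu : u = Real.exp (-((B + 5 * p + 1) * L)))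
    (hSS : (D * q) ^ 2 * η * S ≤
      Cη * L ^ 2 * q ^ 3 * (√ν * D) ^ 6 / (√ν * n1) ^ 3 * sw + (D * q) ^ 2 * u * (√ν / n1) * sw)
    (hS1 : √ν / n1 ≤ 1) (hG0 : 0 ≤ G') (hG1 : 8 * G' ≤ G) (hG2 : 16 * G' * (Cη * L ^ 2) ≤ G)
    (hp : 1 ≤ p) (hL : 6 ≤ L) (hU : U = Real.exp (p * L)) (hs : s12 ≤ U ^ 2) (hGU : G' ≤ U)
    (hn : n1 ≤ U) (hAU : A ≤ U) (g1 : q1 ≤ 2 * u) (g2 : q2 ≤ 2 * u) :
    iN * om2 ≤ G * H' + G * (q ^ 3 * (√ν * D) ^ 6 / (√ν * n1) ^ 3 * sw) + iN * Et2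
      + Real.exp (-(B * L)) * (1 + sw) := by
  have main := comb_num (S := S) hΛ0 hΛ hn1 hA hiN0 hiN hq1 hq2 hH hS hη h1 h2 h
  have sm := small_num (B := B) (p := p) (L := L) (U := U) (G := G') (s12 := s12) (n := n1)
    (A := A) (η := η) (q1 := q1) (q2 := q2) (S' := √ν / n1) (sw := sw) hp hL hU hs hGU hn1.le hn
    hA.le hAU hη hη2 hq1 hq2 (by positivity) hS1 hsw (by rw [← hu]; exact g1)
    (by rw [← hu]; exact g2)
  rw [← hu] at sm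
  rw [hAd] at main sm
  have e1 : 8 * G' * H ≤ G * H' := by
    have hH' : 0 ≤ H' := hH.trans hHH
    calc 8 * G' * H ≤ 8 * G' * H' := mul_le_mul_of_nonneg_left hHH (by positivity)
      _ ≤ G * H' := mul_le_mul_of_nonneg_right hG1 hH'
  have hz : 0 < √ν * n1 := mul_pos (Real.sqrt_pos.2 hν) hn1
  have hX : 0 ≤ q ^ 3 * (√ν * D) ^ 6 / (√ν * n1) ^ 3 * sw := by positivity
  have e2 : 16 * G' * (Cη * L ^ 2 * q ^ 3 * (√ν * D) ^ 6 / (√ν * n1) ^ 3 * sw) ≤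
      G * (q ^ 3 * (√ν * D) ^ 6 / (√ν * n1) ^ 3 * sw) := by
    have e3 : 16 * G' * (Cη * L ^ 2 * q ^ 3 * (√ν * D) ^ 6 / (√ν * n1) ^ 3 * sw) =
        16 * G' * (Cη * L ^ 2) * (q ^ 3 * (√ν * D) ^ 6 / (√ν * n1) ^ 3 * sw) := by ring
    rw [e3]
    exact mul_le_mul_of_nonneg_right hG2 hX
  have e4 := mul_le_mul_of_nonneg_left hSS (by positivity : 0 ≤ 16 * G')
  have e5 : 16 * G' * (Cη * L ^ 2 * q ^ 3 * (√ν * D) ^ 6 / (√ν * n1) ^ 3 * sw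
      + (D * q) ^ 2 * u * (√ν / n1) * sw) =
      16 * G' * (Cη * L ^ 2 * q ^ 3 * (√ν * D) ^ 6 / (√ν * n1) ^ 3 * sw)
      + 16 * G' * ((D * q) ^ 2 * u * (√ν / n1) * sw) := by ring
  rw [e5] at e4
  linarith

end

end Vale.Agent.P159.H363
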