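import Vale.Agent.P159.H363.Cvn8

/-!
P159 / H363, VB10 numbers, part 9: theorem `cvn` = VB10 with numbers.
-/

set_option linter.unusedSectionVars false

namespace Vale.Agent.P159.H363

open Finset Matrix MeasureTheory ProbabilityTheory
open Vale.Agent.P159.TM.H764 (EE)
open Vale.Agent.P159.TM.Spec (V)
open Vale.Agent.P159.TM.SpecC (Tor wT)
open Vale.Agent.P159.H37 (gau)
open Vale.Agent.P159.H864 (TI sym fc cl)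
open Vale.Agent.P159.H462 (Dom ahat Gam)
open Vale.Agent.P159.H767 (lT pt RT eps v1c cen gT)
open Vale.Agent.P159.H889 (Lcl tl uc)
open Vale.Agent.P159.H733.Torg (ip Two)
open Vale.Agent.P159.H733.Vt (zb lft)
open Vale.Agent.P159.H896 (om)
open Vale.Agent.P159.H145 (mt)
open Vale.Agent.P159.H43 (omT)
open scoped Real

noncomputable section

/-- the constants of the powers of `L` -/
lemma G_num {C' C Cη L x1 : ℝ} (hCη : 1 ≤ Cη) (hL : 1 ≤ L)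
    (hC : C' + Real.log (16 * Cη) + 3 ≤ C) :
    8 * Real.exp (C' * (1 + Real.log L) + x1) ≤ Real.exp (C * (1 + Real.log L) + x1) ∧
      16 * Real.exp (C' * (1 + Real.log L) + x1) * (Cη * L ^ 2) ≤
        Real.exp (C * (1 + Real.log L) + x1) := by
  have hlL : 0 ≤ Real.log L := Real.log_nonneg hL
  have hl16 : 0 ≤ Real.log (16 * Cη) := Real.log_nonneg (by linarith)
  have hL0 : 0 < L := by linarith
  have k1 : C' * (1 + Real.log L) + x1 + (Real.log (16 * Cη) + 2 * Real.log L) ≤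
      C * (1 + Real.log L) + x1 := by nlinarith
  have k2 : C' * (1 + Real.log L) + x1 + Real.log 8 ≤ C * (1 + Real.log L) + x1 := by
    have := log_three
    nlinarith
  constructor
  · have e1 : 8 * Real.exp (C' * (1 + Real.log L) + x1) =
        Real.exp (C' * (1 + Real.log L) + x1 + Real.log 8) := by
      rw [Real.exp_add _ (Real.log 8), Real.exp_log (by norm_num)]
      ring
    rw [e1]
    exact Real.exp_le_exp.2 k2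
  · have e1 : 16 * Real.exp (C' * (1 + Real.log L) + x1) * (Cη * L ^ 2) =
        Real.exp (C' * (1 + Real.log L) + x1 + (Real.log (16 * Cη) + 2 * Real.log L)) := by
      have e2 : Real.exp (Real.log (16 * Cη) + 2 * Real.log L) = 16 * Cη * L ^ 2 := by
        rw [Real.exp_add, Real.exp_log (by linarith), show 2 * Real.log L = Real.log (L ^ 2) by
          rw [Real.log_pow]; push_cast; ring, Real.exp_log (by positivity)]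
      rw [Real.exp_add _ (Real.log (16 * Cη) + 2 * Real.log L), e2]
      ring
    rw [e1]
    exact Real.exp_le_exp.2 k1

lemma eta_half {C Cη L X B' : ℝ} {η : ℝ} (hX : 0 ≤ X) (hC : Cη ≤ C) (h1 : C * L ^ 2 * X ≤ 1 / 4)
    (hB : 6 ≤ B') (hL : 1 ≤ L) (h : η ≤ Cη * L ^ 2 * X + Real.exp (-(B' * L))) : η ≤ 1 / 2 := by
  have e1 : Cη * L ^ 2 * X ≤ C * L ^ 2 * X :=
    mul_le_mul_of_nonneg_right (mul_le_mul_of_nonneg_right hC (by positivity)) hX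
  have e2 : Real.exp (-(B' * L)) ≤ 1 / 4 := by
    have e3 : 4 ≤ Real.exp (B' * L) := by
      have e4 := Real.add_one_le_exp (B' * L)
      nlinarith
    rw [Real.exp_neg, one_div]
    exact inv_anti₀ (by norm_num) e3
  linarith

/-- nonnegativity of the local errors -/
lemma q_nonneg {n1 : ℕ} [NeZero n1] {A : Matrix (V n1) (V n1) ℝ} {s ρ K Lp : ℝ} {R0 D0 R : ℕ}
    (hρ : 0 ≤ ρ) (hK : 0 ≤ K) (hLp : 0 ≤ Lp) :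
    0 ≤ eloc A s ρ K Lp (H889.sg (A * ahat s A)) R0 D0 R := by
  have h1 := H889.tl_nonneg (ahat s A) R0
  have h2 := H889.tl_nonneg (ahat s A) R
  have h3 := H889.sg_nonneg (A * ahat s A)
  unfold eloc
  positivity

lemma etr2_nonneg {K Lp e η σ : ℝ} {R0 D0 : ℕ} (hK : 0 ≤ K) (hLp : 0 ≤ Lp) (he : 0 ≤ e)
    (hη : 0 ≤ η) (hσ : 0 ≤ σ) : 0 ≤ etr2 K Lp e η σ R0 D0 := by
  unfold etr2
  positivity

/-- `cvh` followed by the scalar steps -/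
theorem cvn_post {N₁ N₂ l n3 : ℕ} [NeZero N₁] [NeZero (N₁ / l)] [NeZero N₂] [NeZero (N₂ / l)]
    [NeZero n3] {h1 : N₁ / l ∣ n3} {h2 : N₂ / l ∣ n3}
    {b T t₁ κ c C1 L a q x1 ηB₁ ηB₂ Lp ρ r r' B p Λ C C' Cη E : ℝ}
    {R0 D0 D1 R : ℕ} {B₁ : Matrix (V (N₁ / l)) (V (N₁ / l)) ℝ}
    {B₂ : Matrix (V (N₂ / l)) (V (N₂ / l)) ℝ} {A3 : Matrix (V n3) (V n3) ℝ}
    {mu : V (N₁ / l) → (V (N₁ / l) → ℝ) → ℂ} (hb : 0 ≤ b) (hl₁ : l ∣ N₁) (hl₂ : l ∣ N₂)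
    (ht₁ : 0 < t₁) (h4 : 4 * t₁ < T) (hL : 6 ≤ L) (hB : 0 ≤ B) (hp : 1 ≤ p)
    (hN : CvNum (N₁ / l) (N₂ / l) (T * (l : ℝ) ^ 2) κ (sn l T t₁) L p Λ C a q x1 R0 D0 D1 R)
    (hR : CvRef N₁ N₂ l n3 h1 h2 b T κ c C1 a ηB₁ ηB₂ B₁ B₂ A3)
    (hF : CvLoc N₁ N₂ l b T t₁ Lp ρ r r' D0 B₁ B₂ mu)
    (hρ : ρ ≤ Real.exp (-((B + 5 * p + 1) * L)))
    -- local errors
    {e ηt σ : ℝ} (he : ∀ ζ ∈ zb (2 * D1), |ahat (sn l T (T / 4)) B₂ 0 (ip (N₂ / l) ζ)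
      - ahat (sn l T (T / 4)) B₁ 0 (ip (N₁ / l) ζ)| ≤ e)
    (hηt2 : ηt ≤ 1 / 2)
    (hηte : (1 + sn l T (T / 4) * (T * (l : ℝ) ^ 2)) * (2 * D0 + 1) ^ 2 * e ≤ ηt)
    (hσ0 : 0 ≤ σ)
    (hσ : vaw ((T * (l : ℝ) ^ 2)⁻¹ + sn l T (T / 4))⁻¹ c e (tl (ahat (sn l T (T / 4)) B₁) R
      + tl (ahat (sn l T (T / 4)) B₂) R) (N₂ / l) D1 ≤ σ ^ 2)
    (g1 : eloc B₁ (sn l T (T / 4)) ρ ((2 * π)⁻¹ * (T * (l : ℝ) ^ 2)) Lp
      (H889.sg (B₁ * ahat (sn l T (T / 4)) B₁)) R0 D0 R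
        ≤ ρ + Real.exp (-((B + 5 * p + 1) * L)))
    (g2 : eloc B₂ (sn l T (T / 4)) ρ ((2 * π)⁻¹ * (T * (l : ℝ) ^ 2)) Lp
      (H889.sg (B₂ * ahat (sn l T (T / 4)) B₂)) R0 D0 R
        + etr2 ((2 * π)⁻¹ * (T * (l : ℝ) ^ 2)) Lp e ηt σ R0 D0
        ≤ ρ + Real.exp (-((B + 5 * p + 1) * L)))
    -- window laws
    {Tn : ℕ} {L' e1 θ μ η : ℝ} (f1 : 1 ≤ Tn) (f2 : 2 ≤ L')
    (f3 : 2 * (L' * (2 * D1) + 1) ≤ ((N₁ / l : ℕ) : ℝ))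
    (f4 : ∀ z : ℤ × ℤ, |z.1| ≤ 2 * D1 → |z.2| ≤ 2 * D1 →
      |fc (lT (sn l T t₁) (T * (l : ℝ) ^ 2) Tn) B₂ 0 (pt (N₂ / l) z)
        - fc (lT (sn l T t₁) (T * (l : ℝ) ^ 2) Tn) B₁ 0 (pt (N₁ / l) z)| ≤ e1)
    (f5 : 0 ≤ θ) (f6 : θ < 1)
    (f7 : (2 * (L' * (2 * D1)) + 1) ^ 2 ≤ μ * ((N₁ / l : ℕ) : ℝ) ^ 2) (f8 : μ ≤ 1 / 2)
    (f9 : 2 * (2 * (D1 : ℝ) + 1) ^ 2 * (T * (l : ℝ) ^ 2 + (sn l T t₁)⁻¹)
      * eps (sn l T t₁) (T * (l : ℝ) ^ 2) c Tn D1 e1 ≤ (1 - θ) * η) (f10 : 0 ≤ η)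
    (f10' : η ≤ 1 / 2)
    (f11 : η ≤ Cη * L ^ 2 * (q * (T * (l : ℝ) ^ 2) * D1 ^ 4 / ((N₁ / l : ℕ) : ℝ) ^ 2)
      + Real.exp (-((B + 5 * p + 1) * L)))
    (f12 : (Real.log ((N₁ / l : ℕ) : ℝ) - Real.log D1 - Real.log q) / (2 * π * a) - 50
      ≤ v1c a (sn l T t₁) D1 L' θ μ)
    (f13 : Real.log (sn l T t₁ / ((N₁ / l : ℕ) : ℝ) ^ 2) / (4 * π * a) - E ≤
        (Gam (sn l T t₁) B₂ 0 0 - sn l T t₁ / ((N₂ / l : ℕ) : ℝ) ^ 2)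
          - (Gam (sn l T t₁) B₁ 0 0 - sn l T t₁ / ((N₁ / l : ℕ) : ℝ) ^ 2))
    -- constants
    (hE : 0 ≤ E) (hC' : 2 * π ^ 2 * (E + 53) ≤ C' * (1 + Real.log L)) (hCC : C' ≤ C)
    (hG1 : 8 * Real.exp (C' * (1 + Real.log L) + x1) ≤ Real.exp (C * (1 + Real.log L) + x1))
    (hG2 : 16 * Real.exp (C' * (1 + Real.log L) + x1) * (Cη * L ^ 2) ≤
        Real.exp (C * (1 + Real.log L) + x1)) :
    CvnOut N₁ N₂ l b T t₁ B C L x1 q r r' ηB₁ ηB₂ D1 := by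
  have hπ := Real.pi_gt_three
  have hT : 0 < T := by linarith
  have hl0 := H864.l_pos hl₁
  have hlp : (0 : ℝ) < l := by exact_mod_cast hl0
  have hν := hR.T1.dom.hν
  have hL1 : 1 ≤ L := by linarith
  obtain ⟨hsν, hs3⟩ := sn_quarter (l := l) hl0 hT
  have hs : 0 < sn l T (T / 4) := by rw [hs3]; positivity
  have hs2 : 0 < sn l (T / 4) t₁ := sn_pos hl₁ ht₁ (by linarith)
  have hadd : sn l T t₁ = sn l T (T / 4) + sn l (T / 4) t₁ := sn_add.symm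
  have hn1 : 0 < N₁ / l := NeZero.pos _
  have hn1' : (0 : ℝ) < ((N₁ / l : ℕ) : ℝ) := by exact_mod_cast hn1
  obtain ⟨k1, k2, k3, k4⟩ := cvn_expo hn1 hν hN hs3 hs2 hadd hR.ha hR.ha2 hL1 hE hC' hCC f12 f13
    rfl rfl
  have hN2 : 2 * D1 < N₂ / l := by
    have e1 := hN.D4
    have e2 := hN.n12
    have e3 := hN.D5
    omega
  have main := cvh (B₁ := B₁) (B₂ := B₂) hb hl₁ hl₂ ht₁ (by linarith : t₁ < T / 4)
    (by linarith : T / 4 < T) hF.h12₁ hF.h12₂ hF.hr hF.hr' hR.a1 hR.a2 hR.g1 hR.g1' hR.g2 hR.g2'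
    hR.HS₁ hR.HS₂ hR.T1.dom hR.T2.dom (off_of_two hR.T1) (off_of_two hR.T2) hN.sum hN.D5 hN2
    hF.hmu hF.bmu hF.near1 hF.near2 he hηt2 hηte hσ0 hσ f1 (by linarith [hR.ha]) hR.hA1 f2 f3 f4 f5
    f6 f7 f8 f9 f10 f10' rfl rfl rfl k3 k4 rfl rfl
  have hK0 : 0 ≤ (2 * π)⁻¹ * (T * (l : ℝ) ^ 2) := by positivity
  have hρ0 : 0 ≤ ρ := (n2_nonneg _).trans (hF.near1 0)
  have he0 : 0 ≤ e := (abs_nonneg _).trans (he 0 (H733.Vt.zero_mem_zb _))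
  have hηt0 : 0 ≤ ηt := le_trans (by positivity) hηte
  have hq10 := q_nonneg (A := B₁) (s := sn l T (T / 4)) (R0 := R0) (D0 := D0) (R := R) hρ0 hK0
    hF.Lp0
  have hq20 := add_nonneg (q_nonneg (A := B₂) (s := sn l T (T / 4)) (R0 := R0) (D0 := D0) (R := R)
    hρ0 hK0 hF.Lp0) (etr2_nonneg (R0 := R0) (D0 := D0) hK0 hF.Lp0 he0 hηt0 hσ0)
  have hsw := SW_nonneg (N := N₁) (l := l) hb hT hF.h12₁
  have hEt := EtB_nonneg (N := N₁) (l := l) hb hT hF.h12₁ hF.r0 hR.g1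
  have homh := omh_nonneg (N := N₁) (l := l) (b := b) (T := T) (t := T / 4) hb hl₁ ht₁
    (by linarith : t₁ ≤ T)
  have hmine := omh_le (N := N₁) (l := l) (b := b) (T := T) (t := T / 4) hb hl₁ ht₁ (by linarith)
    (by linarith : t₁ ≤ T)
  obtain ⟨m1, m2⟩ := lam_num (N₂ := N₂) hl₂ ht₁ h4
  have hD5 : (5 : ℝ) ≤ D1 := by exact_mod_cast hN.D5
  have hq5 := hN.q5
  have hA0 : 0 < (D1 : ℝ) * q := by positivity
  have hSto : 0 ≤ Sto N₁ l b T (T / 4) := by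
    unfold Sto
    have : 0 ≤ om (wT b N₁) (mt N₁ T) 1 + e1n N₁ b T := hsw
    positivity
  have hU1 : ((N₁ / l : ℕ) : ℝ) ≤ Real.exp (p * L) :=
    le_trans (by exact_mod_cast hN.n12) hN.n2U
  have hT3 := term_num (S := Sto N₁ l b T (T / 4)) (s := sn l T (T / 4)) (D := (D1 : ℝ)) hν hsν
    (by linarith) hn1' (by linarith) hsw f10 f11 rfl
  refine cvn_fin (Λ := 4 / (t₁ * (l : ℝ) ^ 2)) (D := (D1 : ℝ)) (q := q) (B := B) (p := p)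
    (U := Real.exp (p * L)) (L := L) (ν := T * (l : ℝ) ^ 2)
    (by positivity) m2 hn1' rfl hA0 (by positivity) m1 hq10 hq20 (add_nonneg homh hEt)
    (add_le_add hmine le_rfl) hSto f10 f10' k1 k2 main hν (by linarith) (by linarith) hsw rfl hT3
    ?_ (Real.exp_pos _).le hG1 hG2 hp hL rfl ?_ ?_ hU1 ?_ ?_ ?_
  · rw [div_le_one hn1']
    have e1 : √(T * (l : ℝ) ^ 2) ≤ 1 := Real.sqrt_le_one.2 (by linarith [hN.ν8])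
    have e2 : (1 : ℝ) ≤ ((N₁ / l : ℕ) : ℝ) := by exact_mod_cast hn1
    linarith
  · have e1 := hN.s2
    have e2 : ((N₂ / l : ℕ) : ℝ) ^ 2 ≤ Real.exp (p * L) ^ 2 :=
      pow_le_pow_left₀ (Nat.cast_nonneg _) hN.n2U 2
    have e3 : 0 < sn l T t₁ := sn_pos hl₁ ht₁ (by linarith)
    linarith
  · refine Real.exp_le_exp.2 (le_trans ?_ hN.G)
    have := mul_le_mul_of_nonneg_right hCC (by
      have := Real.log_nonneg hL1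
      linarith : 0 ≤ 1 + Real.log L)
    linarith
  · have := hN.Dq
    linarith
  · linarith
  · linarith

/-- **VB10 with numbers** -/
theorem cvn {B p C1 k0 c : ℝ} (hB : 0 ≤ B) (hp : 1 ≤ p) (hC1 : 0 ≤ C1) (hk0 : 0 < k0)
    (hk1 : k0 ≤ 1) (hc : 0 < c) (hc1 : c ≤ 1) :
    ∃ Λ C L0 : ℝ, 1 ≤ Λ ∧ 1 ≤ C ∧ 1 ≤ L0 ∧
      ∀ (N₁ N₂ l n3 : ℕ) [NeZero N₁] [NeZero (N₁ / l)] [NeZero N₂] [NeZero (N₂ / l)] [NeZero n3]
        (h1 : N₁ / l ∣ n3) (h2 : N₂ / l ∣ n3) (b T t₁ κ L a q x1 ηB₁ ηB₂ Lp ρ r r' : ℝ)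
        (R0 D0 D1 R : ℕ) (B₁ : Matrix (V (N₁ / l)) (V (N₁ / l)) ℝ)
        (B₂ : Matrix (V (N₂ / l)) (V (N₂ / l)) ℝ) (A3 : Matrix (V n3) (V n3) ℝ)
        (mu : V (N₁ / l) → (V (N₁ / l) → ℝ) → ℂ), 0 ≤ b → l ∣ N₁ → l ∣ N₂ → 0 < t₁ →
        4 * t₁ < T → L0 ≤ L → k0 * √(T * (l : ℝ) ^ 2) ≤ κ →
        CvNum (N₁ / l) (N₂ / l) (T * (l : ℝ) ^ 2) κ (sn l T t₁) L p Λ C a q x1 R0 D0 D1 R →
        CvRef N₁ N₂ l n3 h1 h2 b T κ c C1 a ηB₁ ηB₂ B₁ B₂ A3 →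
        CvLoc N₁ N₂ l b T t₁ Lp ρ r r' D0 B₁ B₂ mu →
        ρ ≤ Real.exp (-((B + 5 * p + 1) * L)) →
        CvnOut N₁ N₂ l b T t₁ B C L x1 q r r' ηB₁ ηB₂ D1 := by
  have hπ := Real.pi_gt_three
  obtain ⟨B', hB'⟩ : ∃ B' : ℝ, B' = B + 5 * p + 1 := ⟨_, rfl⟩
  have hB'0 : 6 ≤ B' := by rw [hB']; linarith
  obtain ⟨β, hβ⟩ : ∃ β : ℝ, β = B' + 5 * p + 2 := ⟨_, rfl⟩
  have hβ1 : 1 ≤ β := by rw [hβ]; linarith
  obtain ⟨Λ, L0, hΛ1, hL01, Q⟩ := cvn_q (B := B') (p := p) (C1 := C1) (by linarith) hp hC1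
  obtain ⟨K1, hK1⟩ : ∃ K1 : ℝ, K1 = 64 * β ^ 2 * (β + 1) / k0 ^ 2 := ⟨_, rfl⟩
  obtain ⟨K6, hK6⟩ : ∃ K6 : ℝ, K6 = 16 * β ^ 2 / (k0 ^ 2 * c) := ⟨_, rfl⟩
  obtain ⟨Cη, hCη⟩ : ∃ Cη : ℝ, Cη = 5760 / c ^ 2 * (64 * β ^ 2 / k0 ^ 2) := ⟨_, rfl⟩
  obtain ⟨X0, hX0⟩ : ∃ X0 : ℝ, X0 = 64 * β ^ 2 / k0 ^ 2 * (2 / c) := ⟨_, rfl⟩
  obtain ⟨K3, hK3⟩ : ∃ K3 : ℝ, K3 = 1220 + 2406 / c + 80 / c ^ 2 := ⟨_, rfl⟩
  obtain ⟨C', hC'⟩ : ∃ C' : ℝ, C' = 2 * π ^ 2 * ((Real.log X0 + 2) / (2 * π * c) + K3 + 53) :=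
    ⟨_, rfl⟩
  have hK10 : 0 < K1 := by rw [hK1]; positivity
  have hK60 : 0 < K6 := by rw [hK6]; positivity
  have hK30 : 0 < K3 := by rw [hK3]; positivity
  have hβk : 1 ≤ 64 * β ^ 2 / k0 ^ 2 := by
    have q1 : 1 ≤ β ^ 2 := one_le_pow₀ hβ1
    have q2 : k0 ^ 2 ≤ 1 := pow_le_one₀ hk0.le hk1
    rw [le_div_iff₀ (by positivity)]
    linarith
  have hCη1 : 1 ≤ Cη := by
    have q1 : 1 ≤ 5760 / c ^ 2 := by
      rw [le_div_iff₀ (by positivity)]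
      have : c ^ 2 ≤ 1 := pow_le_one₀ hc.le hc1
      linarith
    rw [hCη]
    nlinarith
  have hX01 : 1 ≤ X0 := by
    have q1 : 1 ≤ 2 / c := by
      rw [le_div_iff₀ hc]
      linarith
    rw [hX0]
    nlinarith
  have hC'0 : 0 < C' := by
    have := Real.log_nonneg hX01
    rw [hC']
    positivity
  have hlC : 0 ≤ Real.log (16 * Cη) := Real.log_nonneg (by linarith)
  refine ⟨Λ, C' + K1 + K6 + Cη + Real.log (16 * Cη) + 3, L0 + (C1 + 8) + c⁻¹, hΛ1, by linarith, by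
    have : 0 < c⁻¹ := by positivity
    linarith, ?_⟩
  intro N₁ N₂ l n3 _ _ _ _ _ h1 h2 b T t₁ κ L a q x1 ηB₁ ηB₂ Lp ρ r r' R0 D0 D1 R B₁ B₂ A3 mu hb
    hl₁ hl₂ ht₁ h4 hL hκ hN hR hF hρ
  set C : ℝ := C' + K1 + K6 + Cη + Real.log (16 * Cη) + 3 with hC
  have hcinv : 0 < c⁻¹ := by positivity
  have hT : 0 < T := by linarith
  have hl0 := H864.l_pos hl₁
  have hlp : (0 : ℝ) < l := by exact_mod_cast hl0
  have hν := hR.T1.dom.hν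
  have hκ0 := hR.T1.kp
  have hL0 : L0 ≤ L := by linarith
  have hL8 : C1 + 8 ≤ L := by linarith
  have hL1 : 1 ≤ L := by linarith
  have hcU : c⁻¹ ≤ Real.exp (p * L) := by
    have e1 := Real.add_one_le_exp (p * L)
    nlinarith
  obtain ⟨hsν, hs3⟩ := sn_quarter (l := l) hl0 hT
  have hs : 0 < sn l T (T / 4) := by rw [hs3]; positivity
  have hs2 : 0 < sn l (T / 4) t₁ := sn_pos hl₁ ht₁ (by linarith)
  have hadd : sn l T (T / 4) + sn l (T / 4) t₁ = sn l T t₁ := sn_add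
  have hs12 : 0 < sn l T t₁ := by linarith
  have hn1 : 0 < N₁ / l := NeZero.pos _
  have hn1' : (0 : ℝ) < ((N₁ / l : ℕ) : ℝ) := by exact_mod_cast hn1
  have hn12 : ((N₁ / l : ℕ) : ℝ) ≤ ((N₂ / l : ℕ) : ℝ) := by exact_mod_cast hN.n12
  -- local errors
  obtain ⟨e, ηt, σ, he, hηt2, hηte, hσ0, hσ, hq⟩ := Q (N₁ / l) (N₂ / l) n3 h1 h2 B₁ B₂ A3
    (T * (l : ℝ) ^ 2) c κ (sn l T (T / 4)) L hR.T1 hR.T2 hs hsν hL0 hN.νU hcU R0 D0 D1 R hN.R0l hN.Rl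
    hN.sum hN.D1U (hn12.trans hN.n2U) hN.n2U hN.D4 (hN.D4.trans hN.n12) hN.κn
    (hN.κn.trans (mul_le_mul_of_nonneg_left hn12 hκ0.le))
  have hK1' : (2 * π)⁻¹ * (T * (l : ℝ) ^ 2) ≤ 1 := by
    have e1 : (2 * π)⁻¹ ≤ 1 := inv_le_one_of_one_le₀ (by linarith)
    have e2 := hN.ν8
    calc (2 * π)⁻¹ * (T * (l : ℝ) ^ 2) ≤ 1 * 1 :=
          mul_le_mul e1 (by linarith) hν.le (by norm_num)
      _ = 1 := by norm_num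
  obtain ⟨g1, g2⟩ := hq ρ ρ ((2 * π)⁻¹ * (T * (l : ℝ) ^ 2)) Lp (by positivity) hK1' hF.Lp0 hF.Lp1
  rw [← hB'] at hρ
  -- window laws
  have hL3 : 0 ≤ L ^ 3 := by positivity
  have x1' : K1 * L ^ 3 ≤ T * (l : ℝ) ^ 2 * ((N₁ / l : ℕ) : ℝ) ^ 2 :=
    (mul_le_mul_of_nonneg_right (by linarith) hL3).trans hN.νn
  have x6' : K6 * L ^ 3 ≤ T * (l : ℝ) ^ 2 * ((N₁ / l : ℕ) : ℝ) ^ 2 :=
    (mul_le_mul_of_nonneg_right (by linarith) hL3).trans hN.νn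
  rw [hK1] at x1'
  rw [hK6] at x6'
  obtain ⟨Tn, L', e1, θ, μ, η, f1, f2, f3, f4, f5, f6, f7, f8, f9, f10, f11, f12, f13⟩ :=
    cvn_f (B := B') (p := p) (C1 := C1) (k0 := k0) (c := c) (β := β) (L := L) (by linarith) hp hC1
      hk0 hk1 hc hc1 hβ hL8 hR.T1 hR.T2 hκ hN.ν8 hs12 (by
        have e2 := mul_le_mul_of_nonneg_right (by linarith : sn l T (T / 4) ≤ sn l T t₁) hν.le
        linarith) hR.ha hR.ha2 hR.hA2 hN.νU (hn12.trans hN.n2U) hN.n12 x1' x6' hN.ns hN.s2 hN.D5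
      (q := q) hN.q5 hN.lD hN.lq hN.Dq
  obtain ⟨y1, y2⟩ := E_num (X0 := X0) (K3 := K3) (c := c) (L := L) hX01 hK30.le hc hL1
  rw [← hC'] at y2
  have eX : 64 * β ^ 2 / k0 ^ 2 * L ^ 2 * (2 / c) = X0 * L ^ 2 := by rw [hX0]; ring
  rw [eX, ← hK3] at f13
  have eη : 5760 / c ^ 2 * (64 * β ^ 2 / k0 ^ 2 * L ^ 2) = Cη * L ^ 2 := by rw [hCη]; ring
  rw [eη] at f11
  obtain ⟨z1, z2⟩ := G_num (C' := C') (C := C) (Cη := Cη) (L := L) (x1 := x1) hCη1 hL1 (by linarith)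
  have hη2 := eta_half (C := C) (Cη := Cη) (L := L)
    (X := q * (T * (l : ℝ) ^ 2) * (D1 : ℝ) ^ 4 / ((N₁ / l : ℕ) : ℝ) ^ 2) (B' := B') (η := η) (by
      have := hN.q5
      positivity) (by linarith) hN.eta hB'0 hL1 f11
  rw [hB'] at hρ g1 g2 f11
  exact cvn_post hb hl₁ hl₂ ht₁ h4 (by linarith) hB hp hN hR hF hρ he hηt2 hηte hσ0 hσ g1 g2 f1 f2
    f3 f4 f5 f6 f7 f8 f9 f10 hη2 f11 f12 f13 y1 y2 (by linarith) z1 z2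

end

end Vale.Agent.P159.H363
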