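import Vale.Agent.P159.H363.Vb8

/-!
P159 / H363: VB10, Gaussian part: mean of a charge one functional under two window laws which agree
up to constants and a Hilbert-Schmidt small factor.
-/

namespace Vale.Agent.P159.H363

open MeasureTheory Finset Matrix
open Vale.Agent.P159.H37 (gau gau_sum)
open scoped Real

noncomputable section

variable {W I J : Type*} [Fintype W] [Fintype I] [Fintype J]

/-- all ones -/
def ones (W : Type*) : Matrix W W ℝ := Matrix.of fun _ _ => 1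

/-- complex version of `hs_l2` -/
theorem hs_mean [DecidableEq I] {B₁ : Matrix W I ℝ} {B₂ : Matrix W J ℝ} {H : Matrix I I ℝ}
    (hH : Hᵀ = H) (h : B₂ * B₂ᵀ = B₁ * (1 + H) * B₁ᵀ) {η : ℝ} (hη : 0 ≤ η) (hη2 : η ≤ 1 / 2)
    (hHS : ∑ x, ∑ y, H x y ^ 2 ≤ η ^ 2) {ψ : (W → ℝ) → ℂ} (hm : Measurable ψ) {C : ℝ}
    (hC : ∀ F, ‖ψ F‖ ≤ C) :
    ‖∫ g, ψ (B₂ *ᵥ g) ∂(gau J) - ∫ g, ψ (B₁ *ᵥ g) ∂(gau I)‖
      ≤ 2 * η * n2 (gau I) (fun g => ψ (B₁ *ᵥ g)) := by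
  have mR : Measurable fun F => (ψ F).re := Complex.measurable_re.comp hm
  have mI : Measurable fun F => (ψ F).im := Complex.measurable_im.comp hm
  have hψ1 : Measurable fun g : I → ℝ => ψ (B₁ *ᵥ g) := hm.comp (measurable_mulVec _)
  have hψ2 : Measurable fun g : J → ℝ => ψ (B₂ *ᵥ g) := hm.comp (measurable_mulVec _)
  have mem1 : MemLp (fun g : I → ℝ => ψ (B₁ *ᵥ g)) 2 (gau I) :=
    memLp_bdd hψ1.aestronglyMeasurable fun g => hC _
  have i1 : Integrable (fun g : I → ℝ => ψ (B₁ *ᵥ g)) (gau I) := mem1.integrable (by norm_num)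
  have i2 : Integrable (fun g : J → ℝ => ψ (B₂ *ᵥ g)) (gau J) :=
    (memLp_bdd hψ2.aestronglyMeasurable fun g => hC _).integrable (q := 2) (by norm_num)
  have sqint : ∀ f : (W → ℝ) → ℝ, Measurable f → (∀ F, |f F| ≤ C) →
      Integrable (fun g => f (B₁ *ᵥ g) ^ 2) (gau I) := by
    intro f hf hfC
    refine Integrable.of_bound (C := C ^ 2)
      ((hf.comp (measurable_mulVec _)).pow_const 2).aestronglyMeasurable
      (Filter.Eventually.of_forall fun g => ?_)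
    rw [Real.norm_eq_abs, abs_pow]
    exact pow_le_pow_left₀ (abs_nonneg _) (hfC _) 2
  have hR := (H552.hs_l2 hH h hη hη2 hHS mR
    (sqint _ mR fun F => (Complex.abs_re_le_norm _).trans (hC F))).2
  have hI := (H552.hs_l2 hH h hη hη2 hHS mI
    (sqint _ mI fun F => (Complex.abs_im_le_norm _).trans (hC F))).2
  have e1 : (∫ g, ψ (B₂ *ᵥ g) ∂(gau J) - ∫ g, ψ (B₁ *ᵥ g) ∂(gau I)).re
      = ∫ g, (ψ (B₂ *ᵥ g)).re ∂(gau J) - ∫ g, (ψ (B₁ *ᵥ g)).re ∂(gau I) := by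
    rw [Complex.sub_re]
    congr 1
    · exact (integral_re i2).symm
    · exact (integral_re i1).symm
  have e2 : (∫ g, ψ (B₂ *ᵥ g) ∂(gau J) - ∫ g, ψ (B₁ *ᵥ g) ∂(gau I)).im
      = ∫ g, (ψ (B₂ *ᵥ g)).im ∂(gau J) - ∫ g, (ψ (B₁ *ᵥ g)).im ∂(gau I) := by
    rw [Complex.sub_im]
    congr 1
    · exact (integral_im i2).symm
    · exact (integral_im i1).symm
  have hn : ∀ z : ℂ, ‖z‖ ^ 2 = z.re ^ 2 + z.im ^ 2 := by
    intro z
    rw [Complex.sq_norm, Complex.normSq_apply]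
    ring
  have h3 : ∫ g, ‖ψ (B₁ *ᵥ g)‖ ^ 2 ∂(gau I)
      = ∫ g, (ψ (B₁ *ᵥ g)).re ^ 2 ∂(gau I) + ∫ g, (ψ (B₁ *ᵥ g)).im ^ 2 ∂(gau I) := by
    rw [← integral_add (sqint _ mR fun F => (Complex.abs_re_le_norm _).trans (hC F))
      (sqint _ mI fun F => (Complex.abs_im_le_norm _).trans (hC F))]
    refine integral_congr_ae (Filter.Eventually.of_forall fun g => ?_)
    simp only
    exact hn _
  refine le_of_sq_le_sq ?_ (mul_nonneg (by positivity) (n2_nonneg _))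
  rw [hn, e1, e2, mul_pow, n2_sq mem1, h3]
  nlinarith [hR, hI]

/-- a constant mode of the law is integrated out exactly -/
lemma const_out {M : Matrix W I ℝ} {B₂ : Matrix W J ℝ} {c : ℝ} (hc : 0 ≤ c)
    (h : B₂ * B₂ᵀ = M * Mᵀ + c • ones W) {ψ : (W → ℝ) → ℂ} (hch : Ch ψ) (hm : Measurable ψ) {C : ℝ}
    (hC : ∀ F, ‖ψ F‖ ≤ C) :
    ∫ g, ψ (B₂ *ᵥ g) ∂(gau J)
      = ((Real.exp (-(2 * π ^ 2 * c)) : ℝ) : ℂ) * ∫ g, ψ (M *ᵥ g) ∂(gau I) := by
  classical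
  set q : Matrix W Unit ℝ := Matrix.of fun _ _ => √c with hq
  have hqq : q * qᵀ = c • ones W := by
    ext x y
    rw [mul_apply, Finset.univ_unique, Finset.sum_singleton, transpose_apply]
    simp only [hq, of_apply, Matrix.smul_apply, ones, smul_eq_mul, mul_one]
    exact Real.mul_self_sqrt hc
  have h2 : B₂ * B₂ᵀ = fromCols M q * (fromCols M q)ᵀ := by
    rw [transpose_fromCols, fromCols_mul_fromRows, hqq, h]
  rw [law_integral_eq B₂ _ h2 _ hm.stronglyMeasurable]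
  rw [integral_gau_sum]
  · have e1 : ∀ (g : I → ℝ) (b : Unit → ℝ), ψ (fromCols M q *ᵥ Sum.elim g b)
        = ee (√c * b ()) * ψ (M *ᵥ g) := by
      intro g b
      rw [fromCols_mulVec_sumElim]
      have h3 : M *ᵥ g + q *ᵥ b = fun x => (M *ᵥ g) x + √c * b () := by
        funext x
        rw [Pi.add_apply]
        congr 1
        simp [hq, mulVec, dotProduct]
      rw [h3, hch]
      rfl
    simp only [e1]
    have e2 : ∀ g : I → ℝ, ∫ b, ee (√c * b ()) * ψ (M *ᵥ g) ∂(gau Unit)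
        = ((Real.exp (-(2 * π ^ 2 * c)) : ℝ) : ℂ) * ψ (M *ᵥ g) := by
      intro g
      rw [integral_mul_const]
      congr 1
      have h4 := gau_ee (I := Unit) (fun _ => √c)
      have e3 : ∀ b : Unit → ℝ, (fun _ : Unit => √c) ⬝ᵥ b = √c * b () := by
        intro b
        simp [dotProduct]
      simp only [e3] at h4
      rw [h4]
      simp only [Finset.univ_unique, Finset.sum_singleton, Real.sq_sqrt hc]
    simp only [e2]
    rw [integral_const_mul]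
  · exact Integrable.of_bound (C := C) (hm.comp (measurable_mulVec _)).aestronglyMeasurable
      (Filter.Eventually.of_forall fun g => hC _)

/-- inverse of the mode reduction -/
lemma sc_mul_sc [DecidableEq I] {e : I → ℝ} (he : e ⬝ᵥ e = 1) (r s : ℝ) :
    sc e r * sc e s = sc e (r * s) := by
  have hm : vecMulVec e e * vecMulVec e e = vecMulVec e e := by
    rw [vecMulVec_mul_vecMulVec, he, one_smul]
  unfold sc
  rw [Matrix.sub_mul, Matrix.mul_sub, Matrix.mul_sub, Matrix.one_mul, Matrix.mul_one,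
    Matrix.one_mul, Matrix.smul_mul, Matrix.mul_smul, hm, smul_smul]
  module

lemma sc_one [DecidableEq I] (e : I → ℝ) : sc e 1 = 1 := by
  simp [sc]

lemma sc_transpose [DecidableEq I] (e : I → ℝ) (r : ℝ) : (sc e r)ᵀ = sc e r := by
  unfold sc
  rw [transpose_sub, transpose_smul, transpose_one, transpose_vecMulVec]

lemma sc_mulVec_sq [DecidableEq I] {e : I → ℝ} (he : e ⬝ᵥ e = 1) {r : ℝ} (hr : 1 ≤ r)
    (v : I → ℝ) : ∑ i, (sc e r *ᵥ v) i ^ 2 ≤ r ^ 2 * ∑ i, v i ^ 2 := by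
  have h1 : sc e r *ᵥ v = v - ((1 - r) * (e ⬝ᵥ v)) • e := by
    unfold sc
    rw [sub_mulVec, one_mulVec, smul_mulVec, vecMulVec_mulVec]
    congr 1
    ext i
    simp [Pi.smul_apply, smul_eq_mul]
    ring
  have h2 : ∑ i, (sc e r *ᵥ v) i ^ 2 = ∑ i, v i ^ 2 + (r ^ 2 - 1) * (e ⬝ᵥ v) ^ 2 := by
    have h3 : ∑ i, (sc e r *ᵥ v) i ^ 2 = (sc e r *ᵥ v) ⬝ᵥ (sc e r *ᵥ v) := by
      simp only [dotProduct, sq]
    have h4 : ∑ i, v i ^ 2 = v ⬝ᵥ v := by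
      simp only [dotProduct, sq]
    rw [h3, h4, h1]
    simp only [sub_dotProduct, dotProduct_sub, smul_dotProduct, dotProduct_smul, smul_eq_mul, he,
      dotProduct_comm v e]
    ring
  have h5 : (e ⬝ᵥ v) ^ 2 ≤ ∑ i, v i ^ 2 := by
    have h6 := Finset.sum_mul_sq_le_sq_mul_sq Finset.univ e v
    have h7 : ∑ i, e i ^ 2 = 1 := by
      rw [← he]
      simp only [dotProduct, sq]
    rw [h7, one_mul] at h6
    exact h6
  rw [h2]
  have h8 : 0 ≤ r ^ 2 - 1 := by nlinarith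
  nlinarith [mul_le_mul_of_nonneg_left h5 h8]

/-- Hilbert-Schmidt norm after conjugation with `sc e r` -/
lemma sc_HS [DecidableEq I] {e : I → ℝ} (he : e ⬝ᵥ e = 1) {r : ℝ} (hr : 1 ≤ r)
    (H : Matrix I I ℝ) :
    ∑ x, ∑ y, (sc e r * H * sc e r) x y ^ 2 ≤ r ^ 4 * ∑ x, ∑ y, H x y ^ 2 := by
  have key : ∀ M : Matrix I I ℝ, ∑ x, ∑ y, (sc e r * M) x y ^ 2 ≤ r ^ 2 * ∑ x, ∑ y, M x y ^ 2 := by
    intro M
    rw [Finset.sum_comm]
    have h1 : ∀ y, ∑ x, (sc e r * M) x y ^ 2 ≤ r ^ 2 * ∑ x, M x y ^ 2 := by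
      intro y
      exact sc_mulVec_sq he hr (fun x => M x y)
    refine (Finset.sum_le_sum fun y _ => h1 y).trans (le_of_eq ?_)
    rw [← Finset.mul_sum, Finset.sum_comm]
  have tr : ∀ M : Matrix I I ℝ, ∑ x, ∑ y, Mᵀ x y ^ 2 = ∑ x, ∑ y, M x y ^ 2 := by
    intro M
    rw [Finset.sum_comm]
    rfl
  have h2 : (sc e r * H * sc e r)ᵀ = sc e r * (Hᵀ * sc e r) := by
    rw [transpose_mul, transpose_mul, sc_transpose]
  rw [← tr, h2]
  refine (key _).trans ?_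
  have h3 : (Hᵀ * sc e r)ᵀ = sc e r * H := by
    rw [transpose_mul, transpose_transpose, sc_transpose]
  rw [← tr (Hᵀ * sc e r), h3]
  have h4 := key H
  have h5 : 0 ≤ r ^ 2 := sq_nonneg r
  nlinarith [mul_le_mul_of_nonneg_left h4 h5]

/-- **VB10, Gaussian part.** -/
theorem cvp [DecidableEq I] {B₁ : Matrix W I ℝ} {B₂ : Matrix W J ℝ} {H : Matrix I I ℝ}
    (hH : Hᵀ = H) {σ2 : ℝ} (hσ : 0 ≤ σ2)
    (h : B₂ * B₂ᵀ = B₁ * (1 + H) * B₁ᵀ + σ2 • ones W) {η : ℝ} (hη : 0 ≤ η)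
    (hHS : ∑ x, ∑ y, H x y ^ 2 ≤ η ^ 2) {e : I → ℝ} (he : e ⬝ᵥ e = 1) {τ r : ℝ} (hr0 : 0 < r)
    (hr1 : r ≤ 1) (hηr : η / r ^ 2 ≤ 1 / 2) (hA : ∀ y, (B₁ *ᵥ e) y = τ) {ψ : (W → ℝ) → ℂ}
    (hch : Ch ψ) (hm : Measurable ψ) {C : ℝ} (hC : ∀ F, ‖ψ F‖ ≤ C) :
    ‖∫ g, ψ (B₂ *ᵥ g) ∂(gau J)‖
      ≤ Real.exp (-(2 * π ^ 2 * σ2)) * ‖∫ g, ψ (B₁ *ᵥ g) ∂(gau I)‖
        + Real.exp (-(2 * π ^ 2 * (σ2 + τ ^ 2 * (1 - r ^ 2))))
          * (2 * (η / r ^ 2) * n2 (gau I) (fun g => ψ (B₁ *ᵥ g))) := by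
  classical
  set c1 : ℝ := τ ^ 2 * (1 - r ^ 2) with hc1
  have hr2 : r ^ 2 ≤ 1 := pow_le_one₀ hr0.le hr1
  have hc10 : 0 ≤ c1 := mul_nonneg (sq_nonneg _) (by linarith)
  set S : Matrix I I ℝ := sc e r with hS
  set T : Matrix I I ℝ := sc e r⁻¹ with hT
  have hST : S * T = 1 := by rw [hS, hT, sc_mul_sc he, mul_inv_cancel₀ hr0.ne', sc_one]
  have hTS : T * S = 1 := by rw [hS, hT, sc_mul_sc he, inv_mul_cancel₀ hr0.ne', sc_one]
  have hSt : Sᵀ = S := sc_transpose e r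
  have hTt : Tᵀ = T := sc_transpose e _
  set H' : Matrix I I ℝ := T * H * T with hH'
  have hHt : H'ᵀ = H' := by
    rw [hH', transpose_mul, transpose_mul, hTt, hH, Matrix.mul_assoc]
  -- the Hilbert-Schmidt norm
  have hrinv : 1 ≤ r⁻¹ := (one_le_inv₀ hr0).2 hr1
  have hHS' : ∑ x, ∑ y, H' x y ^ 2 ≤ (η / r ^ 2) ^ 2 := by
    refine (sc_HS he hrinv H).trans ?_
    calc (r⁻¹) ^ 4 * ∑ x, ∑ y, H x y ^ 2 ≤ (r⁻¹) ^ 4 * η ^ 2 :=
          mul_le_mul_of_nonneg_left hHS (by positivity)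
      _ = (η / r ^ 2) ^ 2 := by field_simp
  have hη' : 0 ≤ η / r ^ 2 := by positivity
  -- covariance
  have hone : (B₁ *ᵥ e) = fun _ => τ := funext hA
  have hB1 : B₁ * B₁ᵀ = (B₁ * S) * (B₁ * S)ᵀ + c1 • ones W := by
    have h1 : S * Sᵀ = 1 - (1 - r ^ 2) • vecMulVec e e := by
      rw [hSt, hS, sc_mul_sc he]
      unfold sc
      rw [← sq]
    have h2 : (B₁ * S) * (B₁ * S)ᵀ = B₁ * (S * Sᵀ) * B₁ᵀ := by
      rw [transpose_mul, Matrix.mul_assoc, Matrix.mul_assoc, ← Matrix.mul_assoc S]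
    have h3 : B₁ * vecMulVec e e * B₁ᵀ = τ ^ 2 • ones W := by
      rw [mul_vecMulVec, vecMulVec_mul, vecMul_transpose, hone]
      ext x y
      simp [vecMulVec_apply, ones, sq]
    rw [h2, h1, Matrix.mul_sub, Matrix.mul_one, Matrix.mul_smul, Matrix.sub_mul, Matrix.smul_mul,
      h3, hc1, smul_smul]
    have : (1 - r ^ 2) * τ ^ 2 = τ ^ 2 * (1 - r ^ 2) := by ring
    rw [this, sub_add_cancel]
  have hB2 : B₂ * B₂ᵀ = (B₁ * S) * (1 + H') * (B₁ * S)ᵀ + (σ2 + c1) • ones W := by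
    have h1 : (B₁ * S) * H' * (B₁ * S)ᵀ = B₁ * H * B₁ᵀ := by
      rw [hH', transpose_mul, hSt]
      calc B₁ * S * (T * H * T) * (S * B₁ᵀ) = B₁ * (S * T) * H * (T * S) * B₁ᵀ := by
            simp only [Matrix.mul_assoc]
        _ = B₁ * H * B₁ᵀ := by rw [hST, hTS, Matrix.mul_one, Matrix.mul_one]
    rw [Matrix.mul_add, Matrix.mul_one, Matrix.add_mul, h1, add_smul, h, Matrix.mul_add,
      Matrix.mul_one, Matrix.add_mul, hB1]
    abel
  -- the matrix M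
  obtain ⟨O, a, hO1, _, hHO, hsum⟩ := H552.spec_real hHt
  have hai : ∀ i, |a i| ≤ 1 / 2 := fun i => by
    have h1 : a i ^ 2 ≤ (η / r ^ 2) ^ 2 :=
      (Finset.single_le_sum (f := fun i => a i ^ 2) (fun j _ => sq_nonneg _)
        (Finset.mem_univ i)).trans (hsum.le.trans hHS')
    exact (abs_le_of_sq_le_sq h1 hη').trans hηr
  have ha1 : ∀ i, 0 < 1 + a i := fun i => by
    have := (abs_le.1 (hai i)).1
    linarith
  set M : Matrix W I ℝ := B₁ * S * O * diagonal fun i => √(1 + a i) with hM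
  have hMM : M * Mᵀ = (B₁ * S) * (1 + H') * (B₁ * S)ᵀ := by
    have h1 : (1 : Matrix I I ℝ) + H'
        = O * diagonal (fun i => √(1 + a i)) * diagonal (fun i => √(1 + a i)) * Oᵀ := by
      rw [Matrix.mul_assoc O, diagonal_mul_diagonal]
      have e : (diagonal fun i => √(1 + a i) * √(1 + a i)) = 1 + diagonal a := by
        rw [← diagonal_one, diagonal_add]
        congr 1
        funext i
        rw [Real.mul_self_sqrt (ha1 i).le]
      rw [e, Matrix.mul_add, Matrix.mul_one, Matrix.add_mul, hO1, hHO]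
    rw [h1, hM]
    rw [transpose_mul, transpose_mul, diagonal_transpose]
    simp only [Matrix.mul_assoc]
  have hfin := const_out (M := M) (B₂ := B₂) (c := σ2 + c1) (by positivity) (by rw [hMM]; exact hB2)
    hch hm hC
  have hmean := hs_mean hHt hMM hη' hηr hHS' hm hC
  -- the gain mode on the first torus
  have hloc : Loc (Finset.univ : Finset W) ψ := by
    intro F F' hF
    congr 1
    funext x
    exact hF x (Finset.mem_univ x)
  have hgain := gain B₁ e he r τ 0 hch hloc hm.stronglyMeasurable hC fun y _ => hA y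
  have hnorm := norm_mode B₁ e he r τ 0 hch hloc hm.stronglyMeasurable hC (fun y _ => hA y) 2
  simp only [zero_add] at hgain hnorm
  have hn2 : n2 (gau I) (fun g => ψ ((B₁ * S) *ᵥ g)) = n2 (gau I) (fun g => ψ (B₁ *ᵥ g)) := by
    have m1 : MemLp (fun g : I → ℝ => ψ ((B₁ * S) *ᵥ g)) 2 (gau I) :=
      memLp_bdd (hm.comp (measurable_mulVec _)).aestronglyMeasurable fun g => hC _
    have m2 : MemLp (fun g : I → ℝ => ψ (B₁ *ᵥ g)) 2 (gau I) :=
      memLp_bdd (hm.comp (measurable_mulVec _)).aestronglyMeasurable fun g => hC _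
    have h1 := n2_sq m1
    have h2 := n2_sq m2
    rw [hnorm, ← h2] at h1
    exact (pow_left_inj₀ (n2_nonneg _) (n2_nonneg _) two_ne_zero).1 h1
  rw [hn2] at hmean
  have hexp : 0 < Real.exp (-(2 * π ^ 2 * (σ2 + c1))) := Real.exp_pos _
  rw [hfin, norm_mul, Complex.norm_real, Real.norm_eq_abs, abs_of_pos hexp]
  have h5 : ‖∫ g, ψ (M *ᵥ g) ∂(gau I)‖ ≤ ‖∫ g, ψ ((B₁ * S) *ᵥ g) ∂(gau I)‖
      + 2 * (η / r ^ 2) * n2 (gau I) (fun g => ψ (B₁ *ᵥ g)) := by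
    have h6 := norm_sub_norm_le (∫ g, ψ (M *ᵥ g) ∂(gau I)) (∫ g, ψ ((B₁ * S) *ᵥ g) ∂(gau I))
    linarith
  have h7 : Real.exp (-(2 * π ^ 2 * (σ2 + c1))) * ‖∫ g, ψ ((B₁ * S) *ᵥ g) ∂(gau I)‖
      = Real.exp (-(2 * π ^ 2 * σ2)) * ‖∫ g, ψ (B₁ *ᵥ g) ∂(gau I)‖ := by
    rw [hgain, norm_mul, Complex.norm_real, Real.norm_eq_abs, abs_of_pos (Real.exp_pos _),
      ← mul_assoc, ← Real.exp_add]
    congr 2
    rw [hc1]
    ring
  calc Real.exp (-(2 * π ^ 2 * (σ2 + c1))) * ‖∫ g, ψ (M *ᵥ g) ∂(gau I)‖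
      ≤ Real.exp (-(2 * π ^ 2 * (σ2 + c1))) * (‖∫ g, ψ ((B₁ * S) *ᵥ g) ∂(gau I)‖
        + 2 * (η / r ^ 2) * n2 (gau I) (fun g => ψ (B₁ *ᵥ g))) :=
        mul_le_mul_of_nonneg_left h5 hexp.le
    _ = _ := by rw [mul_add, h7]

end

end Vale.Agent.P159.H363
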