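import Vale.Agent.P159.H363.Pob3
import Vale.Agent.P159.H363.L2

/-!
P159 / H363: the DEVIATION lemma (V4) for local charge-one functionals.

`f = a` (standard Gaussian on `J`), `F = F0 a + A g` (`F0 a = ahat f`, `A g = ζ`), `c` the linear
functional `a ↦ (S' f)_w`. `P ψ (a) = E_g ψ (F0 a + A g)`.
-/

namespace Vale.Agent.P159.H363

open MeasureTheory ProbabilityTheory Finset Matrix
open Vale.Agent.P159.H37 (gau gau_sum gau_shift integrable_exp_norm)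
open scoped Real

variable {I J Λ : Type*} [Fintype I] [Fintype J] [Fintype Λ]

/-- the unit complex number `exp (2π i t)` -/
noncomputable def ee (t : ℝ) : ℂ := Complex.exp (((2 * π * t : ℝ) : ℂ) * Complex.I)

lemma norm_ee (t : ℝ) : ‖ee t‖ = 1 := Complex.norm_exp_ofReal_mul_I _

lemma ee_add (s t : ℝ) : ee (s + t) = ee s * ee t := by
  unfold ee
  rw [← Complex.exp_add]
  congr 1
  push_cast
  ring

lemma ee_zero : ee 0 = 1 := by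
  simp [ee]

lemma ee_neg_mul (t : ℝ) : ee (-t) * ee t = 1 := by
  rw [← ee_add]
  simp [ee_zero]

lemma ee_mul_neg (t : ℝ) : ee t * ee (-t) = 1 := by
  rw [← ee_add]
  simp [ee_zero]

lemma continuous_ee : Continuous ee := by
  unfold ee
  fun_prop

lemma measurable_ee : Measurable ee := continuous_ee.measurable

/-- the Gaussian operator -/
noncomputable def Pg (F0 : Matrix Λ J ℝ) (A : Matrix Λ I ℝ) (ψ : (Λ → ℝ) → ℂ) (a : J → ℝ) : ℂ :=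
  ∫ g, ψ (F0 *ᵥ a + A *ᵥ g) ∂(gau I)

section complexpob

variable {Ψ : (I → ℝ) → ℂ} {C : ℝ}

lemma measurable_int (hΨ : Measurable Ψ) (T : Matrix I J ℝ) :
    Measurable fun a : J → ℝ => ∫ g, Ψ (g + T *ᵥ a) ∂(gau I) := by
  apply StronglyMeasurable.measurable
  apply StronglyMeasurable.integral_prod_right'
    (f := fun q : (J → ℝ) × (I → ℝ) => Ψ (q.2 + T *ᵥ q.1))
  apply Measurable.stronglyMeasurable
  exact hΨ.comp (measurable_snd.add ((measurable_mulVec T).comp measurable_fst))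

/-- complex POINCARE + BESSEL -/
theorem pob_complex (hΨ : Measurable Ψ) (hC : ∀ g, ‖Ψ g‖ ≤ C) (T : Matrix I J ℝ) {ρ : ℝ}
    (hT : ∀ v : I → ℝ, ∑ j, (v ᵥ* T) j ^ 2 ≤ ρ ^ 2 * ∑ i, v i ^ 2) :
    ∫ a, ‖(∫ g, Ψ (g + T *ᵥ a) ∂(gau I)) - ∫ b, ∫ g, Ψ (g + T *ᵥ b) ∂(gau I) ∂(gau J)‖ ^ 2 ∂(gau J)
      ≤ (π ^ 2 / 8) * ρ ^ 2 * ∫ a, ∫ g, ‖Ψ (g + T *ᵥ a)‖ ^ 2 ∂(gau I) ∂(gau J) := by
  have hre : Measurable fun g => (Ψ g).re := Complex.measurable_re.comp hΨ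
  have him : Measurable fun g => (Ψ g).im := Complex.measurable_im.comp hΨ
  have hCre : ∀ g, |(Ψ g).re| ≤ C := fun g => (Complex.abs_re_le_norm _).trans (hC g)
  have hCim : ∀ g, |(Ψ g).im| ≤ C := fun g => (Complex.abs_im_le_norm _).trans (hC g)
  have h1 := pob_var hre hCre T hT
  have h2 := pob_var him hCim T hT
  have hC0 : 0 ≤ C := (norm_nonneg _).trans (hC 0)
  have hint : ∀ a : J → ℝ, Integrable (fun g => Ψ (g + T *ᵥ a)) (gau I) := fun a =>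
    Integrable.of_bound (C := C) (hΨ.comp (measurable_id.add_const _)).aestronglyMeasurable
      (Filter.Eventually.of_forall fun g => hC _)
  have hcre : ∀ a : J → ℝ, (∫ g, Ψ (g + T *ᵥ a) ∂(gau I)).re = Hs (fun g => (Ψ g).re) (T *ᵥ a) := by
    intro a
    unfold Hs
    exact (integral_re (hint a)).symm
  have hcim : ∀ a : J → ℝ, (∫ g, Ψ (g + T *ᵥ a) ∂(gau I)).im = Hs (fun g => (Ψ g).im) (T *ᵥ a) := by
    intro a
    unfold Hs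
    exact (integral_im (hint a)).symm
  have hHb : ∀ a : J → ℝ, ‖∫ g, Ψ (g + T *ᵥ a) ∂(gau I)‖ ≤ C := by
    intro a
    have := norm_integral_le_of_norm_le_const (μ := gau I) (f := fun g => Ψ (g + T *ᵥ a)) (C := C)
      (Filter.Eventually.of_forall fun g => hC _)
    simpa using this
  have hHi : Integrable (fun a : J → ℝ => ∫ g, Ψ (g + T *ᵥ a) ∂(gau I)) (gau J) :=
    Integrable.of_bound (C := C) (measurable_int hΨ T).aestronglyMeasurable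
      (Filter.Eventually.of_forall hHb)
  set M := ∫ b, ∫ g, Ψ (g + T *ᵥ b) ∂(gau I) ∂(gau J) with hM
  have hMre : M.re = ∫ b, Hs (fun g => (Ψ g).re) (T *ᵥ b) ∂(gau J) := by
    rw [hM]
    have := (integral_re hHi).symm
    refine (this : _ = _).trans ?_
    exact integral_congr_ae (Filter.Eventually.of_forall fun a => hcre a)
  have hMim : M.im = ∫ b, Hs (fun g => (Ψ g).im) (T *ᵥ b) ∂(gau J) := by
    rw [hM]
    have := (integral_im hHi).symm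
    refine (this : _ = _).trans ?_
    exact integral_congr_ae (Filter.Eventually.of_forall fun a => hcim a)
  have hnorm : ∀ z : ℂ, ‖z‖ ^ 2 = z.re ^ 2 + z.im ^ 2 := by
    intro z
    rw [Complex.sq_norm, Complex.normSq_apply]
    ring
  have e1 : ∀ a : J → ℝ, ‖(∫ g, Ψ (g + T *ᵥ a) ∂(gau I)) - M‖ ^ 2
      = (Hs (fun g => (Ψ g).re) (T *ᵥ a) - ∫ b, Hs (fun g => (Ψ g).re) (T *ᵥ b) ∂(gau J)) ^ 2
        + (Hs (fun g => (Ψ g).im) (T *ᵥ a) - ∫ b, Hs (fun g => (Ψ g).im) (T *ᵥ b) ∂(gau J)) ^ 2 := by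
    intro a
    rw [hnorm, Complex.sub_re, Complex.sub_im, hcre, hcim, hMre, hMim]
  simp only [e1]
  have hsq : ∀ (u : (I → ℝ) → ℝ) (hu : Measurable u) (hb : ∀ g, |u g| ≤ C) (m : ℝ),
      Integrable (fun a : J → ℝ => (Hs u (T *ᵥ a) - m) ^ 2) (gau J) := by
    intro u hu hb m
    refine Integrable.of_bound (C := (C + |m|) ^ 2)
      (((measurable_Hs hu T).sub_const m).pow_const 2).aestronglyMeasurable
      (Filter.Eventually.of_forall fun a => ?_)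
    rw [Real.norm_eq_abs, abs_pow]
    refine pow_le_pow_left₀ (abs_nonneg _) ?_ 2
    exact (abs_sub _ _).trans (add_le_add (abs_Hs_le hb _) le_rfl)
  rw [integral_add (hsq _ hre hCre _) (hsq _ him hCim _)]
  have hin : ∀ (u : (I → ℝ) → ℝ) (hu : Measurable u) (hb : ∀ g, |u g| ≤ C) (a : J → ℝ),
      Integrable (fun g => u (g + T *ᵥ a) ^ 2) (gau I) := fun u hu hb a => integrable_sq hu hb _
  have hout : ∀ (u : (I → ℝ) → ℝ) (hu : Measurable u) (hb : ∀ g, |u g| ≤ C),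
      Integrable (fun a : J → ℝ => ∫ g, u (g + T *ᵥ a) ^ 2 ∂(gau I)) (gau J) := by
    intro u hu hb
    refine Integrable.of_bound (C := C ^ 2) ?_ (Filter.Eventually.of_forall fun a => ?_)
    · apply StronglyMeasurable.aestronglyMeasurable
      apply StronglyMeasurable.integral_prod_right'
        (f := fun q : (J → ℝ) × (I → ℝ) => u (q.2 + T *ᵥ q.1) ^ 2)
      exact ((hu.comp (measurable_snd.add
        ((measurable_mulVec T).comp measurable_fst))).pow_const 2).stronglyMeasurable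
    · have := norm_integral_le_of_norm_le_const (μ := gau I)
        (f := fun g => u (g + T *ᵥ a) ^ 2) (C := C ^ 2)
        (Filter.Eventually.of_forall fun g => by
          rw [Real.norm_eq_abs, abs_pow]
          exact pow_le_pow_left₀ (abs_nonneg _) (hb _) 2)
      simpa using this
  have e2 : ∫ a, ∫ g, ‖Ψ (g + T *ᵥ a)‖ ^ 2 ∂(gau I) ∂(gau J)
      = ∫ a, ∫ g, (Ψ (g + T *ᵥ a)).re ^ 2 ∂(gau I) ∂(gau J)
        + ∫ a, ∫ g, (Ψ (g + T *ᵥ a)).im ^ 2 ∂(gau I) ∂(gau J) := by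
    rw [← integral_add (hout _ hre hCre) (hout _ him hCim)]
    refine integral_congr_ae (Filter.Eventually.of_forall fun a => ?_)
    simp only
    rw [← integral_add (hin _ hre hCre a) (hin _ him hCim a)]
    refine integral_congr_ae (Filter.Eventually.of_forall fun g => ?_)
    exact hnorm _
  rw [e2]
  linarith

end complexpob

section dev

variable [DecidableEq I]

/-- the mean of the deviation: `κ = E e^{-2π i c(a)} (P ψ)(a)` -/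
noncomputable def kap (F0 : Matrix Λ J ℝ) (A : Matrix Λ I ℝ) (c : J → ℝ) (ψ : (Λ → ℝ) → ℂ) : ℂ :=
  ∫ a, ee (-(c ⬝ᵥ a)) * Pg F0 A ψ a ∂(gau J)

variable {F0 : Matrix Λ J ℝ} {A : Matrix Λ I ℝ} {c : J → ℝ} {ψ : (Λ → ℝ) → ℂ} {B : Finset Λ}
  {e : I → ℝ} {τ r ρ C : ℝ} {T : Matrix I J ℝ}

lemma Pg_eq (hch : Ch ψ) (hloc : Loc B ψ) (hψ : Measurable ψ) (hC : ∀ F, ‖ψ F‖ ≤ C)
    (he : e ⬝ᵥ e = 1) (hA : ∀ y ∈ B, (A *ᵥ e) y = τ)
    (hT : ∀ a : J → ℝ, ∀ y ∈ B, (F0 *ᵥ a) y - c ⬝ᵥ a = ((A * sc e r) *ᵥ (T *ᵥ a)) y) (a : J → ℝ) :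
    Pg F0 A ψ a = ((Real.exp (-(2 * π ^ 2 * τ ^ 2 * (1 - r ^ 2))) : ℝ) : ℂ)
      * (ee (c ⬝ᵥ a) * ∫ g, ψ ((A * sc e r) *ᵥ (g + T *ᵥ a)) ∂(gau I)) := by
  unfold Pg
  have h2 : ee (c ⬝ᵥ a) * ∫ g, ψ ((A * sc e r) *ᵥ (g + T *ᵥ a)) ∂(gau I)
      = ∫ g, ee (c ⬝ᵥ a) * ψ ((A * sc e r) *ᵥ (g + T *ᵥ a)) ∂(gau I) :=
    (integral_const_mul _ _).symm
  rw [gain A e he r τ (F0 *ᵥ a) hch hloc hψ.stronglyMeasurable hC hA, h2]
  congr 1
  refine integral_congr_ae (Filter.Eventually.of_forall fun g => ?_)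
  simp only
  have : ψ (F0 *ᵥ a + (A * sc e r) *ᵥ g)
      = ψ ((A * sc e r) *ᵥ (g + T *ᵥ a) + fun _ => c ⬝ᵥ a) := by
    apply hloc
    intro y hy
    have h := hT a y hy
    rw [mulVec_add]
    simp only [Pi.add_apply]
    linarith
  rw [this]
  exact ch_loc_add hch hloc _ _ _ fun y _ => rfl

lemma norm_Pg_aux (hch : Ch ψ) (hloc : Loc B ψ)
    (hT : ∀ a : J → ℝ, ∀ y ∈ B, (F0 *ᵥ a) y - c ⬝ᵥ a = ((A * sc e r) *ᵥ (T *ᵥ a)) y) (a : J → ℝ)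
    (g : I → ℝ) :
    ‖ψ ((A * sc e r) *ᵥ (g + T *ᵥ a))‖ = ‖ψ (F0 *ᵥ a + (A * sc e r) *ᵥ g)‖ := by
  have : ψ (F0 *ᵥ a + (A * sc e r) *ᵥ g)
      = ψ ((A * sc e r) *ᵥ (g + T *ᵥ a) + fun _ => c ⬝ᵥ a) := by
    apply hloc
    intro y hy
    have h := hT a y hy
    rw [mulVec_add]
    simp only [Pi.add_apply]
    linarith
  rw [this, ch_loc_add hch hloc _ _ _ fun y _ => rfl, norm_mul, Complex.norm_exp_ofReal_mul_I,
    one_mul]

/-- the total `L²` mass -/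
lemma mass_eq (hch : Ch ψ) (hloc : Loc B ψ) (hψ : Measurable ψ) (hC : ∀ F, ‖ψ F‖ ≤ C)
    (he : e ⬝ᵥ e = 1) (hA : ∀ y ∈ B, (A *ᵥ e) y = τ)
    (hT : ∀ a : J → ℝ, ∀ y ∈ B, (F0 *ᵥ a) y - c ⬝ᵥ a = ((A * sc e r) *ᵥ (T *ᵥ a)) y) :
    ∫ a, ∫ g, ‖ψ ((A * sc e r) *ᵥ (g + T *ᵥ a))‖ ^ 2 ∂(gau I) ∂(gau J)
      = ∫ a, ∫ g, ‖ψ (F0 *ᵥ a + A *ᵥ g)‖ ^ 2 ∂(gau I) ∂(gau J) := by
  refine integral_congr_ae (Filter.Eventually.of_forall fun a => ?_)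
  simp only
  rw [← norm_mode A e he r τ (F0 *ᵥ a) hch hloc hψ.stronglyMeasurable hC hA 2]
  refine integral_congr_ae (Filter.Eventually.of_forall fun g => ?_)
  simp only
  rw [norm_Pg_aux hch hloc hT a g]

/-- **(V4)** the deviation lemma -/
theorem dev (hch : Ch ψ) (hloc : Loc B ψ) (hψ : Measurable ψ) (hC : ∀ F, ‖ψ F‖ ≤ C)
    (he : e ⬝ᵥ e = 1) (hA : ∀ y ∈ B, (A *ᵥ e) y = τ)
    (hT : ∀ a : J → ℝ, ∀ y ∈ B, (F0 *ᵥ a) y - c ⬝ᵥ a = ((A * sc e r) *ᵥ (T *ᵥ a)) y)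
    (hρ : ∀ v : I → ℝ, ∑ j, (v ᵥ* T) j ^ 2 ≤ ρ ^ 2 * ∑ i, v i ^ 2) :
    ∫ a, ‖Pg F0 A ψ a - kap F0 A c ψ * ee (c ⬝ᵥ a)‖ ^ 2 ∂(gau J)
      ≤ Real.exp (-(2 * π ^ 2 * τ ^ 2 * (1 - r ^ 2))) ^ 2 * ((π ^ 2 / 8) * ρ ^ 2
        * ∫ a, ∫ g, ‖ψ (F0 *ᵥ a + A *ᵥ g)‖ ^ 2 ∂(gau I) ∂(gau J)) := by
  set γ : ℝ := Real.exp (-(2 * π ^ 2 * τ ^ 2 * (1 - r ^ 2))) with hγ
  set Ψ : (I → ℝ) → ℂ := fun g => ψ ((A * sc e r) *ᵥ g) with hΨdef
  have hΨ : Measurable Ψ := hψ.comp (measurable_mulVec _)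
  have hΨC : ∀ g, ‖Ψ g‖ ≤ C := fun g => hC _
  have key := pob_complex hΨ hΨC T hρ
  have hP := fun a => Pg_eq (c := c) hch hloc hψ hC he hA hT a
  have hk : kap F0 A c ψ = (γ : ℂ) * ∫ b, ∫ g, Ψ (g + T *ᵥ b) ∂(gau I) ∂(gau J) := by
    unfold kap
    rw [← integral_const_mul]
    refine integral_congr_ae (Filter.Eventually.of_forall fun a => ?_)
    simp only
    rw [hP a]
    calc ee (-(c ⬝ᵥ a)) * ((γ : ℂ) * (ee (c ⬝ᵥ a) * ∫ g, ψ ((A * sc e r) *ᵥ (g + T *ᵥ a)) ∂(gau I)))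
        = (γ : ℂ) * ((ee (-(c ⬝ᵥ a)) * ee (c ⬝ᵥ a))
          * ∫ g, ψ ((A * sc e r) *ᵥ (g + T *ᵥ a)) ∂(gau I)) := by ring
      _ = _ := by rw [ee_neg_mul, one_mul]
  have e1 : ∀ a : J → ℝ, ‖Pg F0 A ψ a - kap F0 A c ψ * ee (c ⬝ᵥ a)‖ ^ 2
      = γ ^ 2 * ‖(∫ g, Ψ (g + T *ᵥ a) ∂(gau I))
        - ∫ b, ∫ g, Ψ (g + T *ᵥ b) ∂(gau I) ∂(gau J)‖ ^ 2 := by
    intro a
    rw [hP a, hk]
    have : (γ : ℂ) * (ee (c ⬝ᵥ a) * ∫ g, ψ ((A * sc e r) *ᵥ (g + T *ᵥ a)) ∂(gau I))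
        - (γ : ℂ) * (∫ b, ∫ g, Ψ (g + T *ᵥ b) ∂(gau I) ∂(gau J)) * ee (c ⬝ᵥ a)
        = ((γ : ℂ) * ee (c ⬝ᵥ a)) * ((∫ g, Ψ (g + T *ᵥ a) ∂(gau I))
          - ∫ b, ∫ g, Ψ (g + T *ᵥ b) ∂(gau I) ∂(gau J)) := by
      simp only [hΨdef]
      ring
    rw [this, norm_mul, norm_mul, norm_ee, mul_one, mul_pow, Complex.norm_real, Real.norm_eq_abs,
      sq_abs]
  simp only [e1]
  rw [integral_const_mul]
  refine mul_le_mul_of_nonneg_left ?_ (sq_nonneg _)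
  refine key.trans (le_of_eq ?_)
  congr 1
  exact mass_eq hch hloc hψ hC he hA hT

/-- the mean of the deviation is small by the gain -/
theorem kap_le (hch : Ch ψ) (hloc : Loc B ψ) (hψ : Measurable ψ) (hC : ∀ F, ‖ψ F‖ ≤ C)
    (he : e ⬝ᵥ e = 1) (hA : ∀ y ∈ B, (A *ᵥ e) y = τ)
    (hT : ∀ a : J → ℝ, ∀ y ∈ B, (F0 *ᵥ a) y - c ⬝ᵥ a = ((A * sc e r) *ᵥ (T *ᵥ a)) y) :
    ‖kap F0 A c ψ‖ ^ 2 ≤ Real.exp (-(2 * π ^ 2 * τ ^ 2 * (1 - r ^ 2))) ^ 2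
        * ∫ a, ∫ g, ‖ψ (F0 *ᵥ a + A *ᵥ g)‖ ^ 2 ∂(gau I) ∂(gau J) := by
  set γ : ℝ := Real.exp (-(2 * π ^ 2 * τ ^ 2 * (1 - r ^ 2))) with hγ
  set Ψ : (I → ℝ) → ℂ := fun g => ψ ((A * sc e r) *ᵥ g) with hΨdef
  have hΨ : Measurable Ψ := hψ.comp (measurable_mulVec _)
  have hP := fun a => Pg_eq (c := c) hch hloc hψ hC he hA hT a
  have hk : kap F0 A c ψ = (γ : ℂ) * ∫ b, ∫ g, Ψ (g + T *ᵥ b) ∂(gau I) ∂(gau J) := by
    unfold kap
    rw [← integral_const_mul]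
    refine integral_congr_ae (Filter.Eventually.of_forall fun a => ?_)
    simp only
    rw [hP a]
    calc ee (-(c ⬝ᵥ a)) * ((γ : ℂ) * (ee (c ⬝ᵥ a) * ∫ g, ψ ((A * sc e r) *ᵥ (g + T *ᵥ a)) ∂(gau I)))
        = (γ : ℂ) * ((ee (-(c ⬝ᵥ a)) * ee (c ⬝ᵥ a))
          * ∫ g, ψ ((A * sc e r) *ᵥ (g + T *ᵥ a)) ∂(gau I)) := by ring
      _ = _ := by rw [ee_neg_mul, one_mul]
  rw [hk, norm_mul, mul_pow, Complex.norm_real, Real.norm_eq_abs, sq_abs]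
  refine mul_le_mul_of_nonneg_left ?_ (sq_nonneg _)
  have hb : ∀ a : J → ℝ, ‖∫ g, Ψ (g + T *ᵥ a) ∂(gau I)‖ ≤ C := by
    intro a
    have := norm_integral_le_of_norm_le_const (μ := gau I) (f := fun g => Ψ (g + T *ᵥ a)) (C := C)
      (Filter.Eventually.of_forall fun g => hC _)
    simpa using this
  have hm1 : MemLp (fun a : J → ℝ => ∫ g, Ψ (g + T *ᵥ a) ∂(gau I)) 2 (gau J) :=
    memLp_bdd (measurable_int hΨ T).aestronglyMeasurable hb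
  refine (norm_integral_sq_le hm1).trans ?_
  rw [← mass_eq (c := c) hch hloc hψ hC he hA hT]
  have hC0 : 0 ≤ C := (norm_nonneg _).trans (hC 0)
  refine integral_mono_of_nonneg (Filter.Eventually.of_forall fun a => by positivity) ?_
    (Filter.Eventually.of_forall fun a => ?_)
  · refine Integrable.of_bound (C := C ^ 2) ?_ (Filter.Eventually.of_forall fun a => ?_)
    · apply StronglyMeasurable.aestronglyMeasurable
      apply StronglyMeasurable.integral_prod_right'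
        (f := fun q : (J → ℝ) × (I → ℝ) => ‖ψ ((A * sc e r) *ᵥ (q.2 + T *ᵥ q.1))‖ ^ 2)
      exact ((hΨ.comp (measurable_snd.add
        ((measurable_mulVec T).comp measurable_fst))).norm.pow_const 2).stronglyMeasurable
    · have := norm_integral_le_of_norm_le_const (μ := gau I)
        (f := fun g => ‖ψ ((A * sc e r) *ᵥ (g + T *ᵥ a))‖ ^ 2) (C := C ^ 2)
        (Filter.Eventually.of_forall fun g => by
          rw [norm_pow, norm_norm]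
          exact pow_le_pow_left₀ (norm_nonneg _) (hC _) 2)
      simpa using this
  · have hm2 : MemLp (fun g : I → ℝ => Ψ (g + T *ᵥ a)) 2 (gau I) :=
      memLp_bdd (hΨ.comp (measurable_id.add_const _)).aestronglyMeasurable (fun g => hC _)
    exact norm_integral_sq_le hm2

end dev

end Vale.Agent.P159.H363
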