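import Vale.Agent.P159.H363.Stein

/-!
P159 / H363: (V1), the exact flow of the gradient of `Φ = X / Z` under Gaussian averaging.
`Z > 0` (written as a complex function), `X` complex, `N(f) = ∫ X(f+σg)`, `D(f) = ∫ Z(f+σg)`,
`Φ' = N / D`, `E_f ψ = ∫ ψ Z / D`, `r_x = ∂_x Z / Z + (A F)_x`:
`∂_xΦ' + σ² ∑_y A_xy ∂_yΦ' = E_f ∂_xΦ + E_f[Φ r_x] - E_f[Φ] E_f[r_x]`.
-/

namespace Vale.Agent.P159.H363

open MeasureTheory ProbabilityTheory Finset Matrix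
open Vale.Agent.P159.H37 (gau integrable_exp_norm)

variable {Λ : Type*} [Fintype Λ] [DecidableEq Λ]

lemma BC1.ofReal {Z : (Λ → ℝ) → ℝ} {D : Λ → (Λ → ℝ) → ℝ} {K : ℝ} (h : BC1 Z D K) :
    BC1 (fun F => (Z F : ℂ)) (fun x F => (D x F : ℂ)) K where
  cont := Complex.continuous_ofReal.comp h.cont
  dcont x := Complex.continuous_ofReal.comp (h.dcont x)
  bd F := by rw [Complex.norm_real]; exact h.bd F
  dbd x F := by rw [Complex.norm_real]; exact h.dbd x F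
  der x F s := (h.der x F s).ofReal_comp

/-- conditional expectation at `f` with weight `Z` -/
noncomputable def Ef (Z : (Λ → ℝ) → ℂ) (σ : ℝ) (f : Λ → ℝ) (ψ : (Λ → ℝ) → ℂ) : ℂ :=
  (∫ g, ψ (f + σ • g) * Z (f + σ • g) ∂(gau Λ)) / ∫ g, Z (f + σ • g) ∂(gau Λ)

/-- gradient of the averaged quotient -/
noncomputable def gradq (Z X : (Λ → ℝ) → ℂ) (DZ DX : Λ → (Λ → ℝ) → ℂ) (σ : ℝ) (x : Λ)
    (f : Λ → ℝ) : ℂ :=
  ((∫ g, DX x (f + σ • g) ∂(gau Λ)) - (∫ g, X (f + σ • g) ∂(gau Λ))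
    / (∫ g, Z (f + σ • g) ∂(gau Λ)) * ∫ g, DZ x (f + σ • g) ∂(gau Λ))
    / ∫ g, Z (f + σ • g) ∂(gau Λ)

variable {Z X : (Λ → ℝ) → ℂ} {DZ DX : Λ → (Λ → ℝ) → ℂ} {K : ℝ}

/-- it is the derivative of the quotient -/
theorem hasDerivAt_gradq (hZ : BC1 Z DZ K) (hX : BC1 X DX K) (σ : ℝ) (x : Λ) (f : Λ → ℝ)
    (h0 : ∫ g, Z (f + σ • g) ∂(gau Λ) ≠ 0) :
    HasDerivAt (fun s : ℝ => (∫ g, X (f + s • Pi.single x 1 + σ • g) ∂(gau Λ))
      / ∫ g, Z (f + s • Pi.single x 1 + σ • g) ∂(gau Λ)) (gradq Z X DZ DX σ x f) 0 := by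
  have h1 := hX.hasDerivAt f σ x
  have h2 := hZ.hasDerivAt f σ x
  have e0 : ∀ W : (Λ → ℝ) → ℂ, ∫ g, W (f + (0 : ℝ) • Pi.single x 1 + σ • g) ∂(gau Λ)
      = ∫ g, W (f + σ • g) ∂(gau Λ) := by
    intro W; simp
  have h3 := h1.div h2 (by rw [e0]; exact h0)
  refine h3.congr_deriv ?_
  unfold gradq
  rw [e0, e0]
  field_simp

/-- linear growth times bounded is integrable -/
lemma int_lin (hX : BC1 X DX K) (A : Matrix Λ Λ ℝ) {σ : ℝ} (f : Λ → ℝ) (x : Λ) :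
    Integrable (fun g : Λ → ℝ => (((A *ᵥ (f + σ • g)) x : ℝ) : ℂ) * X (f + σ • g)) (gau Λ) := by
  have e : ∀ g : Λ → ℝ, (((A *ᵥ (f + σ • g)) x : ℝ) : ℂ) * X (f + σ • g)
      = (((A *ᵥ f) x : ℝ) : ℂ) * X (f + σ • g)
        + ∑ y, ((σ * A x y : ℝ) : ℂ) * (g y • X (f + σ • g)) := by
    intro g
    rw [mulVec_add, mulVec_smul, Pi.add_apply, Pi.smul_apply, smul_eq_mul]
    have : (A *ᵥ g) x = ∑ y, A x y * g y := rfl
    rw [this]
    push_cast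
    rw [add_mul, Finset.mul_sum, Finset.sum_mul]
    congr 1
    refine Finset.sum_congr rfl fun y _ => ?_
    rw [Complex.real_smul]
    ring
  simp only [e]
  refine ((hX.integrable f σ).const_mul _).add (integrable_finset_sum _ fun y _ => ?_)
  exact (integrable_coord_smul (hX.cont.comp (by fun_prop)).aestronglyMeasurable
    (fun g => hX.bd _) y).const_mul _

/-- Stein for a linear form -/
lemma stein_lin (hX : BC1 X DX K) (A : Matrix Λ Λ ℝ) {σ : ℝ} (hσ : σ ≠ 0) (f : Λ → ℝ) (x : Λ) :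
    ∫ g, (((A *ᵥ (f + σ • g)) x : ℝ) : ℂ) * X (f + σ • g) ∂(gau Λ)
      = (((A *ᵥ f) x : ℝ) : ℂ) * ∫ g, X (f + σ • g) ∂(gau Λ)
        + ∑ y, ((σ ^ 2 * A x y : ℝ) : ℂ) * ∫ g, DX y (f + σ • g) ∂(gau Λ) := by
  have e : ∀ g : Λ → ℝ, (((A *ᵥ (f + σ • g)) x : ℝ) : ℂ) * X (f + σ • g)
      = (((A *ᵥ f) x : ℝ) : ℂ) * X (f + σ • g)
        + ∑ y, ((σ * A x y : ℝ) : ℂ) * (g y • X (f + σ • g)) := by
    intro g
    rw [mulVec_add, mulVec_smul, Pi.add_apply, Pi.smul_apply, smul_eq_mul]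
    have : (A *ᵥ g) x = ∑ y, A x y * g y := rfl
    rw [this]
    push_cast
    rw [add_mul, Finset.mul_sum, Finset.sum_mul]
    congr 1
    refine Finset.sum_congr rfl fun y _ => ?_
    rw [Complex.real_smul]
    ring
  have hi : ∀ y, Integrable (fun g : Λ → ℝ => g y • X (f + σ • g)) (gau Λ) := fun y =>
    integrable_coord_smul (hX.cont.comp (by fun_prop)).aestronglyMeasurable (fun g => hX.bd _) y
  simp only [e]
  rw [integral_add ((hX.integrable f σ).const_mul _)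
    (integrable_finset_sum _ fun y _ => (hi y).const_mul _), integral_const_mul,
    integral_finset_sum _ fun y _ => (hi y).const_mul _]
  congr 1
  refine Finset.sum_congr rfl fun y _ => ?_
  rw [integral_const_mul, hX.stein f hσ y, Complex.real_smul]
  push_cast
  ring

/-- **(V1) the exact flow of the gradient** -/
theorem flow1 (hZ : BC1 Z DZ K) (hX : BC1 X DX K) (hZ0 : ∀ F, Z F ≠ 0)
    {ω : ℝ} (hXZ : ∀ F, ‖X F / Z F‖ ≤ ω) (A : Matrix Λ Λ ℝ) {σ : ℝ} (hσ : σ ≠ 0) (f : Λ → ℝ)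
    (h0 : ∫ g, Z (f + σ • g) ∂(gau Λ) ≠ 0) (x : Λ) :
    gradq Z X DZ DX σ x f + ∑ y, ((σ ^ 2 * A x y : ℝ) : ℂ) * gradq Z X DZ DX σ y f
      = Ef Z σ f (fun F => (DX x F - X F / Z F * DZ x F) / Z F)
        + (Ef Z σ f (fun F => X F / Z F * (DZ x F / Z F + (((A *ᵥ F) x : ℝ) : ℂ)))
          - Ef Z σ f (fun F => X F / Z F)
            * Ef Z σ f (fun F => DZ x F / Z F + (((A *ᵥ F) x : ℝ) : ℂ))) := by
  have hω : 0 ≤ ω := (norm_nonneg _).trans (hXZ 0)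
  set D : ℂ := ∫ g, Z (f + σ • g) ∂(gau Λ) with hD
  set N : ℂ := ∫ g, X (f + σ • g) ∂(gau Λ) with hN
  -- the integral of Φ ∂Z
  have iP : Integrable (fun g : Λ → ℝ => X (f + σ • g) / Z (f + σ • g) * DZ x (f + σ • g))
      (gau Λ) := by
    refine Integrable.of_bound (C := ω * K) ?_ (Filter.Eventually.of_forall fun g => ?_)
    · exact (((hX.cont.div hZ.cont hZ0).mul (hZ.dcont x)).comp
        (by fun_prop : Continuous fun g : Λ → ℝ => f + σ • g)).aestronglyMeasurable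
    · rw [norm_mul]
      exact mul_le_mul (hXZ _) (hZ.dbd _ _) (norm_nonneg _) hω
  set P : ℂ := ∫ g, X (f + σ • g) / Z (f + σ • g) * DZ x (f + σ • g) ∂(gau Λ) with hP
  have e1 : Ef Z σ f (fun F => (DX x F - X F / Z F * DZ x F) / Z F)
      = ((∫ g, DX x (f + σ • g) ∂(gau Λ)) - P) / D := by
    unfold Ef
    rw [← hD, hP, ← integral_sub (hX.dintegrable x f σ) iP]
    congr 2
    funext g
    exact div_mul_cancel₀ _ (hZ0 _)
  have e2 : Ef Z σ f (fun F => X F / Z F) = N / D := by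
    unfold Ef
    rw [← hD, hN]
    congr 2
    funext g
    exact div_mul_cancel₀ _ (hZ0 _)
  have e3 : Ef Z σ f (fun F => X F / Z F * (DZ x F / Z F + (((A *ᵥ F) x : ℝ) : ℂ)))
      = (P + ((((A *ᵥ f) x : ℝ) : ℂ) * N
        + ∑ y, ((σ ^ 2 * A x y : ℝ) : ℂ) * ∫ g, DX y (f + σ • g) ∂(gau Λ))) / D := by
    unfold Ef
    rw [← hD, hP, hN, ← stein_lin hX A hσ f x, ← integral_add iP (int_lin hX A f x)]
    congr 2
    funext g
    have := hZ0 (f + σ • g)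
    field_simp
  have e4 : Ef Z σ f (fun F => DZ x F / Z F + (((A *ᵥ F) x : ℝ) : ℂ))
      = ((∫ g, DZ x (f + σ • g) ∂(gau Λ)) + ((((A *ᵥ f) x : ℝ) : ℂ) * D
        + ∑ y, ((σ ^ 2 * A x y : ℝ) : ℂ) * ∫ g, DZ y (f + σ • g) ∂(gau Λ))) / D := by
    unfold Ef
    rw [← hD]
    conv_rhs => rw [hD]
    rw [← stein_lin hZ A hσ f x, ← integral_add (hZ.dintegrable x f σ) (int_lin hZ A f x)]
    congr 2
    funext g
    have := hZ0 (f + σ • g)
    field_simp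
  rw [e1, e2, e3, e4]
  have e5 : ∑ y, ((σ ^ 2 * A x y : ℝ) : ℂ) * gradq Z X DZ DX σ y f
      = ((∑ y, ((σ ^ 2 * A x y : ℝ) : ℂ) * ∫ g, DX y (f + σ • g) ∂(gau Λ))
        - N / D * ∑ y, ((σ ^ 2 * A x y : ℝ) : ℂ) * ∫ g, DZ y (f + σ • g) ∂(gau Λ)) / D := by
    rw [Finset.mul_sum, ← Finset.sum_sub_distrib, Finset.sum_div]
    refine Finset.sum_congr rfl fun y _ => ?_
    unfold gradq
    rw [← hD, ← hN]
    ring
  rw [e5]
  unfold gradq
  rw [← hD, ← hN]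
  field_simp
  ring

/-- solved form: `∂Φ' = ahat (E_f ∂Φ + Cov_f)` -/
theorem flow1_solved (hZ : BC1 Z DZ K) (hX : BC1 X DX K) (hZ0 : ∀ F, Z F ≠ 0)
    {ω : ℝ} (hXZ : ∀ F, ‖X F / Z F‖ ≤ ω) (A : Matrix Λ Λ ℝ) {σ : ℝ} (hσ : σ ≠ 0) (f : Λ → ℝ)
    (h0 : ∫ g, Z (f + σ • g) ∂(gau Λ) ≠ 0) {ah : Matrix Λ Λ ℝ}
    (hah : ah * (1 + σ ^ 2 • A) = 1) (x : Λ) :
    gradq Z X DZ DX σ x f = ∑ y, (ah x y : ℂ)
      * (Ef Z σ f (fun F => (DX y F - X F / Z F * DZ y F) / Z F)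
        + (Ef Z σ f (fun F => X F / Z F * (DZ y F / Z F + (((A *ᵥ F) y : ℝ) : ℂ)))
          - Ef Z σ f (fun F => X F / Z F)
            * Ef Z σ f (fun F => DZ y F / Z F + (((A *ᵥ F) y : ℝ) : ℂ)))) := by
  simp only [← flow1 hZ hX hZ0 hXZ A hσ f h0]
  have h1 : ∀ z, ∑ y, (ah x y : ℂ) * ((if y = z then 1 else 0) + ((σ ^ 2 * A y z : ℝ) : ℂ))
      = if x = z then 1 else 0 := by
    intro z
    have h2 := congrFun (congrFun hah x) z
    rw [Matrix.mul_apply, Matrix.one_apply] at h2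
    have h3 := congrArg (fun t : ℝ => (t : ℂ)) h2
    simp only [Matrix.add_apply, Matrix.one_apply, Matrix.smul_apply, smul_eq_mul] at h3
    simpa only [Complex.ofReal_sum, Complex.ofReal_mul, Complex.ofReal_add, apply_ite Complex.ofReal,
      Complex.ofReal_one, Complex.ofReal_zero] using h3
  have h4 : ∀ y, gradq Z X DZ DX σ y f + ∑ z, ((σ ^ 2 * A y z : ℝ) : ℂ) * gradq Z X DZ DX σ z f
      = ∑ z, ((if y = z then 1 else 0) + ((σ ^ 2 * A y z : ℝ) : ℂ)) * gradq Z X DZ DX σ z f := by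
    intro y
    simp only [add_mul, Finset.sum_add_distrib, ite_mul, one_mul, zero_mul, Finset.sum_ite_eq,
      Finset.mem_univ, if_true]
  simp only [h4, Finset.mul_sum]
  rw [Finset.sum_comm]
  have h5 : ∀ z, ∑ y, (ah x y : ℂ) * (((if y = z then 1 else 0) + ((σ ^ 2 * A y z : ℝ) : ℂ))
      * gradq Z X DZ DX σ z f) = (if x = z then 1 else 0) * gradq Z X DZ DX σ z f := by
    intro z
    rw [← h1 z, Finset.sum_mul]
    refine Finset.sum_congr rfl fun y _ => ?_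
    ring
  simp only [h5, ite_mul, one_mul, zero_mul, Finset.sum_ite_eq, Finset.mem_univ, if_true]

end Vale.Agent.P159.H363
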