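import Vale.Agent.P159.H363.Inst

/-!
P159 / H363: translation covariance: `kap` does not depend on the site; the one-window theorem on
the cell torus.
-/

namespace Vale.Agent.P159.H363

open MeasureTheory Finset Matrix
open Vale.Agent.P159.TM.H859 (dirE)
open Vale.Agent.P159.TM.Spec (V)
open Vale.Agent.P159.H37 (qf gau)
open Vale.Agent.P159.H864 (TI sym fc mlt)
open Vale.Agent.P159.H462 (Dom ahat Gam Spr Cpr ti_ahat)
open scoped Real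

noncomputable section

/-- the Gaussian measure is invariant under permutations of the coordinates, any target -/
lemma gau_permE {I : Type*} [Fintype I] {E : Type*} [NormedAddCommGroup E] [NormedSpace ℝ E]
    (e' : Equiv.Perm I) (F : (I → ℝ) → E) :
    ∫ g, F (g ∘ e') ∂(gau I) = ∫ g, F g ∂(gau I) := by
  have h : MeasurePreserving (MeasurableEquiv.arrowCongr' e'.symm (MeasurableEquiv.refl ℝ))
      (gau I) (gau I) := by
    unfold gau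
    exact measurePreserving_arrowCongr' (fun _ : I => ProbabilityTheory.gaussianReal 0 1)
      (fun _ : I => ProbabilityTheory.gaussianReal 0 1) e'.symm (MeasurableEquiv.refl ℝ)
      (fun _ => MeasurePreserving.id _)
  have h1 := h.integral_comp (MeasurableEquiv.measurableEmbedding _) F
  rw [← h1]
  rfl

variable {N : ℕ} [NeZero N]

/-- translation of a field -/
def sh (a : V N) (F : V N → ℝ) : V N → ℝ := fun z => F (z + a)

lemma sh_eq (a : V N) (F : V N → ℝ) : sh a F = F ∘ Equiv.addRight a := rfl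

/-- translation covariant family of functionals -/
def Cov (ψ : V N → (V N → ℝ) → ℂ) : Prop := ∀ a x F, ψ (x + a) F = ψ x (sh a F)

lemma sh_mulVec {M : Matrix (V N) (V N) ℝ} (hM : TI M) (a : V N) (u : V N → ℝ) :
    sh a (M *ᵥ u) = M *ᵥ sh a u := by
  funext z
  unfold sh
  simp only [mulVec, dotProduct]
  rw [← Equiv.sum_comp (Equiv.addRight a)]
  refine Finset.sum_congr rfl fun y _ => ?_
  rw [Equiv.coe_addRight, hM.tr]

lemma sh_add (a : V N) (u v : V N → ℝ) : sh a (u + v) = sh a u + sh a v := rfl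

lemma Pg_sh {F0 A : Matrix (V N) (V N) ℝ} (hF : TI F0) (hA : TI A) {ψ : V N → (V N → ℝ) → ℂ}
    (hψ : Cov ψ) (a x : V N) (b : V N → ℝ) :
    Pg F0 A (ψ (x + a)) b = Pg F0 A (ψ x) (sh a b) := by
  unfold Pg
  rw [← gau_permE (Equiv.addRight a) fun g : V N → ℝ => ψ x (F0 *ᵥ sh a b + A *ᵥ g)]
  refine integral_congr_ae (Filter.Eventually.of_forall fun g => ?_)
  simp only
  rw [hψ, ← sh_eq, sh_add, sh_mulVec hF, sh_mulVec hA]

lemma dot_sh (a x : V N) {M : Matrix (V N) (V N) ℝ} (hM : TI M) (b : V N → ℝ) :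
    M (x + a) ⬝ᵥ b = M x ⬝ᵥ sh a b := by
  have h := congrFun (sh_mulVec hM a b) x
  exact h

/-- `kap` does not depend on the site -/
theorem kap_const {F0 A M : Matrix (V N) (V N) ℝ} (hF : TI F0) (hA : TI A) (hM : TI M)
    {ψ : V N → (V N → ℝ) → ℂ} (hψ : Cov ψ) (x : V N) :
    kap F0 A (M x) (ψ x) = kap F0 A (M 0) (ψ 0) := by
  unfold kap
  rw [← gau_permE (Equiv.addRight x) fun b : V N → ℝ => ee (-(M 0 ⬝ᵥ b)) * Pg F0 A (ψ 0) b]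
  refine integral_congr_ae (Filter.Eventually.of_forall fun b => ?_)
  simp only
  have h1 := Pg_sh hF hA hψ x 0 b
  have h2 := dot_sh x 0 hM b
  rw [zero_add] at h1 h2
  rw [h1, h2, ← sh_eq]

/-- the parameters of one window on the cell torus -/
structure Par (N : ℕ) [NeZero N] (A : Matrix (V N) (V N) ℝ) (ν c s a : ℝ) (D : ℕ)
    (r₀ L r γr ρ : ℝ) : Prop where
  dom : Dom A ν c
  off : ∀ x y, x ≠ y → A x y ≤ 0
  hs : 1 ≤ s * ν
  ha0 : 0 ≤ a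
  ha : ∀ u, (A *ᵥ u) ⬝ᵥ u ≤ a * dirE u
  hD : 1 ≤ D
  hr₀ : 10 ≤ r₀
  hDr : √2 * D ≤ r₀
  hL : 2 ≤ L
  hN : 2 * (L * r₀ + 1) ≤ N
  hr0 : 0 < r
  hr1 : r ≤ 1
  hγ : Real.exp (-(2 * π ^ 2 * ((1 - r ^ 2) / (a * ((1 + 68 / r₀) * (2 * π / Real.log L))
      + s⁻¹ * (2 * (L * r₀) + 1) ^ 2)))) ≤ γr
  hρ0 : 0 ≤ ρ
  hρ : 5100 * ((1 + c) / c) ^ 2 * (1 + (D : ℝ) ^ 4 * ν ^ 2) * (1 + Real.log (s * ν)) / (s * ν)
      ≤ (ρ * r) ^ 2

lemma Par.s_pos {A : Matrix (V N) (V N) ℝ} {ν c s a : ℝ} {D : ℕ} {r₀ L r γr ρ : ℝ}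
    (h : Par N A ν c s a D r₀ L r γr ρ) : 0 < s := by
  have hν := h.dom.hν
  by_contra hc
  have : s * ν ≤ 0 := mul_nonpos_of_nonpos_of_nonneg (not_lt.mp hc) hν.le
  linarith [h.hs]

/-- **ONE WINDOW ON THE CELL TORUS** -/
theorem one_window_torus {A : Matrix (V N) (V N) ℝ} {ν c s a : ℝ} {D : ℕ} {r₀ L r γr ρ : ℝ}
    (hP : Par N A ν c s a D r₀ L r γr ρ)
    (phi phi' : V N → (V N → ℝ) → ℂ) (z : ℂ) (dl er rr : V N → (V N → ℝ) → ℂ)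
    (hphi : ∀ x F, phi x F = z * (mainf (1 - ν⁻¹ • A) x F + dl x F + er x F))
    (hflow : ∀ x b, phi' x (cgm s A *ᵥ b)
      = ∑ y, (ahat s A x y : ℂ) * (Pg (ahat s A * cgm s A) (gm s A) (phi y) b + z * rr y b))
    {K : ℝ} (hdm : ∀ x, Measurable (dl x)) (hdK : ∀ x F, ‖dl x F‖ ≤ K)
    (hem : ∀ x, Measurable (er x)) (heK : ∀ x F, ‖er x F‖ ≤ K)
    (hrm : ∀ x, Measurable (rr x)) (hrK : ∀ x b, ‖rr x b‖ ≤ K)
    (hch : ∀ x, Ch (dl x)) (hloc : ∀ x, Loc (H462.box x D) (dl x)) (hcov : Cov dl)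
    {d η₁ η₂ : ℝ} (hd0 : 0 ≤ d) (hη₁ : 0 ≤ η₁) (hη₂ : 0 ≤ η₂)
    (hd : ∀ x, ∫ b, ∫ g, ‖dl x ((ahat s A * cgm s A) *ᵥ b + gm s A *ᵥ g)‖ ^ 2
      ∂(gau (V N)) ∂(gau (V N)) ≤ d ^ 2)
    (he1 : ∀ x, ∫ b, ∫ g, ‖er x ((ahat s A * cgm s A) *ᵥ b + gm s A *ᵥ g)‖ ^ 2
      ∂(gau (V N)) ∂(gau (V N)) ≤ η₁ ^ 2)
    (he2 : ∀ x, ∫ b, ‖rr x b‖ ^ 2 ∂(gau (V N)) ≤ η₂ ^ 2) :
    ∃ κ : ℂ, ‖κ‖ ≤ γr * d ∧
      ∀ x, n2 (gau (V N)) (fun b => phi' x (cgm s A *ᵥ b)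
          - z * ((Real.exp (-(2 * π ^ 2 * vv s ν A)) : ℝ) + κ)
            * mainf ((1 - ν⁻¹ • A) * ahat s A) x (cgm s A *ᵥ b))
        ≤ ‖z‖ * (γr * (π * ρ + 2 / (s * ν)) * d + η₁ + η₂) := by
  classical
  have hs0 := hP.s_pos
  have hν := hP.dom.hν
  have hW := win_torus hP.dom hs0 hP.off (γr := γr) (ρ := ρ)
  have hG : ∀ x, Geo (ahat s A) (1 - ν⁻¹ • A) (cgm s A) (gm s A) γr ρ x (H462.box x D) :=
    fun x => geo_torus hP.dom hP.hs hP.ha0 hP.ha hP.hD hP.hr₀ hP.hDr hP.hL hP.hN hP.hr0 hP.hr1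
      hP.hγ hP.hρ x
  have hκ : ∀ x, kap (ahat s A * cgm s A) (gm s A) (((1 - ν⁻¹ • A) * ahat s A * cgm s A) x) (dl x)
      = kap (ahat s A * cgm s A) (gm s A) (((1 - ν⁻¹ • A) * ahat s A * cgm s A) 0) (dl 0) :=
    fun x => kap_const ((ti_ahat s A).mul (ti_cgm s A)) (ti_gm s A)
      (((ti_S hP.dom).mul (ti_ahat s A)).mul (ti_cgm s A)) hcov x
  obtain ⟨h1, h2⟩ := one_window hW hP.hρ0 (by positivity) phi phi' z dl er rr
    (fun x => H462.box x D) hphi hflow hG hdm hdK hem heK hrm hrK hch hloc hd0 hη₁ hη₂ hd he1 he2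
    _ hκ
  exact ⟨_, h1 ⟨0⟩, h2⟩

end

end Vale.Agent.P159.H363
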