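import Vale.Agent.P159.H363.Devl
import Vale.Agent.P159.H363.Cvg2

/-!
P159 / H363: the window of a local functional on two tori, compared in `L²` without loss of the
white noise part (any law below the typical law).
-/

set_option linter.unusedSectionVars false

namespace Vale.Agent.P159.H363

open Finset Matrix MeasureTheory ProbabilityTheory
open Vale.Agent.P159.TM.H764 (EE)
open Vale.Agent.P159.TM.Spec (V)
open Vale.Agent.P159.H37 (gau qf bf)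
open Vale.Agent.P159.H864 (TI sym)
open Vale.Agent.P159.H462 (Dom ahat ti_ahat)
open Vale.Agent.P159.H767 (cst)
open Vale.Agent.P159.H889 (Lcl dn cutx lamw tl tl_nonneg tl_eq)
open Vale.Agent.P159.H733.Torg (ip ip_zero ip_inj)
open Vale.Agent.P159.H733.Vt (zb mem_zb zero_mem_zb card_zb sum_box ip_mem_box zz zz_mem add_ip_zz
  trp lft lft_base trp_self cutx_trp cutx_eq measurable_trp mul_trp sum_box_ker sum_ker_le
  noise_two zb_mono add_mem_zb ip_add norm_lft)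
open scoped Real

noncomputable section

variable {N1 N2 : ℕ} [NeZero N1] [NeZero N2] {A1 : Matrix (V N1) (V N1) ℝ}
  {A2 : Matrix (V N2) (V N2) ℝ} {ν c1 c2 s : ℝ}

/-- coefficients of the difference of the smoothed window fields at the point `ω` -/
def aw (s : ℝ) (A1 : Matrix (V N1) (V N1) ℝ) (A2 : Matrix (V N2) (V N2) ℝ) (ω ζ : ℤ × ℤ) : ℝ :=
  ahat s A2 0 (ip N2 (ζ - ω)) - ahat s A1 0 (ip N1 (ζ - ω))

/-- difference of the smoothed window fields -/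
lemma smooth_diff (z1 : sym A1 0 = 0) (z2 : sym A2 0 = 0) {D : ℕ} (hD1 : 2 * D < N1)
    (hD2 : 2 * D < N2) (b1 : V N1) (x : V N2) (F : V N2 → ℝ) (ω : ℤ × ℤ) :
    (ahat s A2 *ᵥ cutx D x F) (x + ip N2 ω) - (ahat s A1 *ᵥ trp D b1 x F) (b1 + ip N1 ω)
      = ∑ ζ ∈ zb D, aw s A1 A2 ω ζ * (F (x + ip N2 ζ) - F x) := by
  rw [← trp_self, mul_trp (ti_ahat s A2) (ahat_row A2 z2) hD2,
    mul_trp (ti_ahat s A1) (ahat_row A1 z1) hD1, add_sub_add_left_eq_sub,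
    ← Finset.sum_sub_distrib]
  exact Finset.sum_congr rfl fun ζ _ => by
    unfold aw
    ring

/-- **the windows of one functional on two tori, pointwise** -/
theorem lamw_max (h1 : Dom A1 ν c1) (h2 : Dom A2 ν c2) (hs : 0 < s)
    (o1 : ∀ x y, x ≠ y → A1 x y ≤ 0) {R0 D0 D1 : ℕ}
    (hD : R0 + D0 ≤ D1) (hN1 : 2 * D1 < N1) (hN2 : 2 * D1 < N2) {e η K Lp : ℝ}
    (he : ∀ ζ ∈ zb (2 * D1), |ahat s A2 0 (ip N2 ζ) - ahat s A1 0 (ip N1 ζ)| ≤ e)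
    (hη2 : η ≤ 1 / 2) (hηe : (1 + s * ν) * (2 * D0 + 1) ^ 2 * e ≤ η)
    {mu : V N1 → (V N1 → ℝ) → ℂ} (hm : ∀ x, Measurable (mu x)) (hK : ∀ x F, ‖mu x F‖ ≤ K)
    (hc : Cov mu) (hLp : 0 ≤ Lp) (hl : ∀ (x : V N1) (F F' : V N1 → ℝ) (r : ℝ),
      (∀ y ∈ H462.box x D0, |F y - F' y| ≤ r) → ‖mu x F - mu x F'‖ ≤ Lp * r)
    (x : V N2) (f : V N2 → ℝ) {r : ℝ} (hr0 : 0 ≤ r)
    (hr : ∀ ω ∈ zb (R0 + D0), |∑ ζ ∈ zb D1, aw s A1 A2 ω ζ * (f (x + ip N2 ζ) - f x)| ≤ r) :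
    ‖lamw s A2 R0 D1 (lft D0 mu) x f - lft D1 (lamw s A1 R0 D1 mu) x f‖
      ≤ K * ((2 * R0 + 1) ^ 2 * e) + 4 * η * K + Lp * r := by
  have hK0 : 0 ≤ K := (norm_nonneg _).trans (hK 0 0)
  have he0 : 0 ≤ e := (abs_nonneg _).trans (he 0 (zero_mem_zb _))
  have hν := h1.hν
  have hη0 : 0 ≤ η := le_trans (by positivity) hηe
  have n1 : ∀ x y, 0 ≤ ahat s A1 x y := ahat_nonneg h1 hs o1
  have r1 : ∀ x, ∑ y, ahat s A1 x y = 1 := ahat_row A1 h1.zero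
  have r2 : ∀ x, ∑ y, ahat s A2 x y = 1 := ahat_row A2 h2.zero
  have t1 := ti_ahat s A1
  have t2 := ti_ahat s A2
  set P2 : ℤ × ℤ → ℂ := fun ζ =>
    Pg (ahat s A2) (gm s A2) (lft D0 mu (x + ip N2 ζ)) (cutx D1 x f) with hP2
  set P1 : ℤ × ℤ → ℂ := fun ζ =>
    Pg (ahat s A1) (gm s A1) (mu (0 + ip N1 ζ)) (trp D1 0 x f) with hP1
  have e2 : lamw s A2 R0 D1 (lft D0 mu) x f = ∑ ζ ∈ zb R0, (ahat s A2 0 (ip N2 ζ) : ℂ) * P2 ζ := by
    unfold lamw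
    exact sum_box_ker t2 (by omega) x fun y =>
      Pg (ahat s A2) (gm s A2) (lft D0 mu y) (cutx D1 x f)
  have e1 : lft D1 (lamw s A1 R0 D1 mu) x f = ∑ ζ ∈ zb R0, (ahat s A1 0 (ip N1 ζ) : ℂ) * P1 ζ := by
    unfold lft lamw
    rw [cutx_trp]
    exact sum_box_ker t1 (by omega) 0 fun y => Pg (ahat s A1) (gm s A1) (mu y) (trp D1 0 x f)
  have b2 : ∀ ζ, ‖P2 ζ‖ ≤ K := fun ζ => norm_Pg_le (norm_lft hK _) _
  -- one cell
  have cell : ∀ ζ ∈ zb R0, ‖P2 ζ - P1 ζ‖ ≤ 4 * η * K + Lp * r := by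
    intro ζ hζ
    set y2 : V N2 := x + ip N2 ζ with hy2
    set y1 : V N1 := 0 + ip N1 ζ with hy1
    set f2 : V N2 → ℝ := ahat s A2 *ᵥ cutx D1 x f with hf2
    set f1 : V N1 → ℝ := ahat s A1 *ᵥ trp D1 0 x f with hf1
    set Q : ℂ := ∫ a, mu y1 (trp D0 y1 y2 f2 + trp D0 y1 y1 (gm s A1 *ᵥ a)) ∂(gau (V N1)) with hQ
    have s1 : ‖P2 ζ - Q‖ ≤ 4 * η * K := by
      have h := noise_two h1 h2 hs (D := D0) (by omega) (e := e) (η := η)
        (fun ζ' hζ' => he ζ' (zb_mono (by omega) hζ')) hη2 hηe (hm y1) (hK y1)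
        (trp D0 y1 y2 f2) y1 y1 y2
      have e3 : P2 ζ = ∫ a, mu y1 (trp D0 y1 y2 f2 + trp D0 y1 y2 (gm s A2 *ᵥ a))
          ∂(gau (V N2)) := by
        rw [hP2]
        unfold Pg
        refine integral_congr_ae (Filter.Eventually.of_forall fun a => ?_)
        simp only
        rw [← lft_base hc y1]
        rfl
      rw [e3]
      exact h
    have s2 : ‖Q - P1 ζ‖ ≤ Lp * r := by
      have m1 : Measurable fun a : V N1 → ℝ =>
          mu y1 (trp D0 y1 y2 f2 + trp D0 y1 y1 (gm s A1 *ᵥ a)) :=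
        (hm y1).comp (((measurable_trp D0 y1 y1).comp (measurable_mulVec _)).const_add _)
      have m2 : Measurable fun a : V N1 → ℝ => mu y1 (f1 + gm s A1 *ᵥ a) :=
        (hm y1).comp ((measurable_mulVec _).const_add _)
      have i1 : Integrable (fun a : V N1 → ℝ =>
          mu y1 (trp D0 y1 y2 f2 + trp D0 y1 y1 (gm s A1 *ᵥ a))) (gau (V N1)) :=
        Integrable.of_bound (C := K) m1.aestronglyMeasurable
          (Filter.Eventually.of_forall fun a => hK _ _)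
      have i2 : Integrable (fun a : V N1 → ℝ => mu y1 (f1 + gm s A1 *ᵥ a)) (gau (V N1)) :=
        Integrable.of_bound (C := K) m2.aestronglyMeasurable
          (Filter.Eventually.of_forall fun a => hK _ _)
      have e3 : P1 ζ = ∫ a, mu y1 (f1 + gm s A1 *ᵥ a) ∂(gau (V N1)) := rfl
      rw [hQ, e3, ← integral_sub i1 i2]
      refine (norm_integral_le_of_norm_le_const (C := Lp * r)
        (Filter.Eventually.of_forall fun a => ?_)).trans (by simp)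
      refine hl y1 _ _ _ fun v hv => ?_
      have hz : v = y1 + ip N1 (zz D0 y1 v) := (add_ip_zz hv).symm
      have hzm := zz_mem D0 y1 v
      have e4 : (trp D0 y1 y2 f2 + trp D0 y1 y1 (gm s A1 *ᵥ a)) v - (f1 + gm s A1 *ᵥ a) v
          = (ahat s A2 *ᵥ cutx D1 x f) (x + ip N2 (ζ + zz D0 y1 v))
            - (ahat s A1 *ᵥ trp D1 0 x f) (0 + ip N1 (ζ + zz D0 y1 v)) := by
        rw [Pi.add_apply, Pi.add_apply, trp_self, cutx_eq, add_ip_zz hv]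
        have e5 : trp D0 y1 y2 f2 v = (ahat s A2 *ᵥ cutx D1 x f) (x + ip N2 (ζ + zz D0 y1 v)) := by
          unfold trp
          rw [hf2, hy2, ip_add, add_assoc]
        have e6 : f1 v = (ahat s A1 *ᵥ trp D1 0 x f) (0 + ip N1 (ζ + zz D0 y1 v)) := by
          rw [ip_add, ← add_assoc, ← hy1, ← hz]
        rw [e5, e6]
        ring
      rw [e4, smooth_diff h1.zero h2.zero hN1 hN2]
      exact hr _ (add_mem_zb hζ hzm)
    calc ‖P2 ζ - P1 ζ‖ = ‖(P2 ζ - Q) + (Q - P1 ζ)‖ := by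
          congr 1
          ring
      _ ≤ ‖P2 ζ - Q‖ + ‖Q - P1 ζ‖ := norm_add_le _ _
      _ ≤ _ := add_le_add s1 s2
  rw [e2, e1, ← Finset.sum_sub_distrib]
  have e3 : ∀ ζ, (ahat s A2 0 (ip N2 ζ) : ℂ) * P2 ζ - (ahat s A1 0 (ip N1 ζ) : ℂ) * P1 ζ
      = ((ahat s A2 0 (ip N2 ζ) - ahat s A1 0 (ip N1 ζ) : ℝ) : ℂ) * P2 ζ
        + (ahat s A1 0 (ip N1 ζ) : ℂ) * (P2 ζ - P1 ζ) := by
    intro ζ
    push_cast
    ring
  simp only [e3]
  refine (norm_sum_le _ _).trans ?_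
  have hcell0 : 0 ≤ 4 * η * K + Lp * r := by positivity
  calc ∑ ζ ∈ zb R0, ‖((ahat s A2 0 (ip N2 ζ) - ahat s A1 0 (ip N1 ζ) : ℝ) : ℂ) * P2 ζ
        + (ahat s A1 0 (ip N1 ζ) : ℂ) * (P2 ζ - P1 ζ)‖
      ≤ ∑ ζ ∈ zb R0, (e * K + ahat s A1 0 (ip N1 ζ) * (4 * η * K + Lp * r)) := by
        refine Finset.sum_le_sum fun ζ hζ => ?_
        refine (norm_add_le _ _).trans (add_le_add ?_ ?_)
        · rw [norm_mul, Complex.norm_real, Real.norm_eq_abs]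
          exact mul_le_mul (he ζ (zb_mono (by omega) hζ)) (b2 ζ) (norm_nonneg _) he0
        · rw [norm_mul, Complex.norm_real, Real.norm_eq_abs, abs_of_nonneg (n1 _ _)]
          exact mul_le_mul_of_nonneg_left (cell ζ hζ) (n1 _ _)
    _ = (2 * (R0 : ℝ) + 1) ^ 2 * (e * K)
        + (∑ ζ ∈ zb R0, ahat s A1 0 (ip N1 ζ)) * (4 * η * K + Lp * r) := by
        rw [Finset.sum_add_distrib, Finset.sum_const, nsmul_eq_mul, card_zb, ← Finset.sum_mul]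
    _ ≤ (2 * (R0 : ℝ) + 1) ^ 2 * (e * K) + 1 * (4 * η * K + Lp * r) := by
        refine add_le_add le_rfl (mul_le_mul_of_nonneg_right ?_ hcell0)
        exact sum_ker_le n1 r1 (by omega)
    _ = _ := by ring

/-! ### numbers of the coefficients -/

/-- the sum of the kernel over a shifted window -/
lemma sum_ker_shift {M : Matrix (V N2) (V N2) ℝ} (hM : TI M) (h1 : ∀ x, ∑ y, M x y = 1)
    {R1 R D : ℕ} (hR : R1 + R ≤ D) (hD : 2 * D < N2) {ω : ℤ × ℤ} (hω : ω ∈ zb R1) :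
    |1 - ∑ ζ ∈ zb D, M 0 (ip N2 (ζ - ω))| ≤ tl M R := by
  have e1 : ∑ ζ ∈ zb D, M 0 (ip N2 (ζ - ω)) = ∑ v ∈ H462.box (0 : V N2) D, M (ip N2 ω) v := by
    rw [sum_box hD]
    refine Finset.sum_congr rfl fun ζ _ => ?_
    have : M (ip N2 ω) (0 + ip N2 ζ) = M 0 (ip N2 (ζ - ω)) := by
      rw [hM.eq (ip N2 ω), H733.Torg.ip_sub, zero_add]
    exact this.symm
  rw [e1, ← h1 (ip N2 ω), ← Finset.sum_add_sum_compl (H462.box (0 : V N2) D), add_sub_cancel_left]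
  refine (Finset.abs_sum_le_sum_abs _ _).trans ?_
  refine H889.sum_compl_le hM ?_ hR
  have := ip_mem_box hω (0 : V N2)
  rwa [zero_add] at this

/-- variance of the difference of the smoothed window fields -/
def vaw (ν c e τ : ℝ) (N D : ℕ) : ℝ :=
  2 / ν * ((2 * (D : ℝ) + 1) ^ 2 * e ^ 2 + τ ^ 2)
    + 200 / c * (1 + Real.log (1 + (N : ℝ) ^ 2)) * ((2 * (D : ℝ) + 1) ^ 2 * e) ^ 2

theorem var_aw (z1 : sym A1 0 = 0) (z2 : sym A2 0 = 0) {A' : Matrix (V N2) (V N2) ℝ} {ν' c' : ℝ}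
    (h' : Dom A' ν' c') {I : Type*} [Fintype I] {B : Matrix (V N2) I ℝ} (hB : Below A' B)
    {R1 R D : ℕ} (hR : R1 + R ≤ D) (hN1 : 2 * D < N1) (hN2 : 2 * D < N2) {e : ℝ}
    (he : ∀ ζ ∈ zb (2 * D), |ahat s A2 0 (ip N2 ζ) - ahat s A1 0 (ip N1 ζ)| ≤ e)
    {ω : ℤ × ℤ} (hω : ω ∈ zb R1) (x : V N2) :
    ∑ i, (incv D (aw s A1 A2 ω) x ᵥ* B) i ^ 2
      ≤ vaw ν' c' e (tl (ahat s A1) R + tl (ahat s A2) R) N2 D := by
  have hν := h'.hν
  have hc := h'.hc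
  have he0 : 0 ≤ e := (abs_nonneg _).trans (he 0 (zero_mem_zb _))
  have hω' : ω ∈ zb D := zb_mono (by omega) hω
  have ha : ∀ ζ ∈ zb D, |aw s A1 A2 ω ζ| ≤ e := by
    intro ζ hζ
    refine he _ ?_
    rw [two_mul]
    exact H733.Vt.sub_mem_zb hζ hω'
  have s1 := sum_ker_shift (ti_ahat s A1) (ahat_row A1 z1) hR hN1 hω
  have s2 := sum_ker_shift (ti_ahat s A2) (ahat_row A2 z2) hR hN2 hω
  have hsum : |∑ ζ ∈ zb D, aw s A1 A2 ω ζ| ≤ tl (ahat s A1) R + tl (ahat s A2) R := by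
    unfold aw
    rw [Finset.sum_sub_distrib]
    have e1 : (∑ ζ ∈ zb D, ahat s A2 0 (ip N2 (ζ - ω))) - ∑ ζ ∈ zb D, ahat s A1 0 (ip N1 (ζ - ω))
        = (1 - ∑ ζ ∈ zb D, ahat s A1 0 (ip N1 (ζ - ω)))
          - (1 - ∑ ζ ∈ zb D, ahat s A2 0 (ip N2 (ζ - ω))) := by ring
    rw [e1]
    exact (abs_sub _ _).trans (add_le_add s1 s2)
  have hL1 : ∑ ζ ∈ zb D, |aw s A1 A2 ω ζ| ≤ (2 * (D : ℝ) + 1) ^ 2 * e := by
    refine (Finset.sum_le_card_nsmul _ _ e ha).trans (le_of_eq ?_)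
    rw [nsmul_eq_mul, card_zb]
  have hL2 : ∑ ζ ∈ zb D, aw s A1 A2 ω ζ ^ 2 ≤ (2 * (D : ℝ) + 1) ^ 2 * e ^ 2 := by
    refine (Finset.sum_le_card_nsmul _ _ (e ^ 2) fun ζ hζ => ?_).trans (le_of_eq ?_)
    · rw [← sq_abs]
      exact pow_le_pow_left₀ (abs_nonneg _) (ha ζ hζ) 2
    · rw [nsmul_eq_mul, card_zb]
  refine (dev_var h' hB hN2 (aw s A1 A2 ω) x).trans ?_
  unfold vaw
  have hlog : 0 ≤ Real.log (1 + (N2 : ℝ) ^ 2) := Real.log_nonneg (by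
    have : (0 : ℝ) ≤ (N2 : ℝ) ^ 2 := by positivity
    linarith)
  refine add_le_add (mul_le_mul_of_nonneg_left (add_le_add hL2 ?_) (by positivity))
    (mul_le_mul_of_nonneg_left ?_ (by positivity))
  · rw [← sq_abs]
    exact pow_le_pow_left₀ (abs_nonneg _) hsum 2
  · exact pow_le_pow_left₀ (Finset.sum_nonneg fun _ _ => abs_nonneg _) hL1 2

/-- **LAMW2**: the windows of one functional on two tori in `L²`, any law below the typical law -/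
theorem lamw_two_n2 (h1 : Dom A1 ν c1) (h2 : Dom A2 ν c2) (hs : 0 < s)
    (o1 : ∀ x y, x ≠ y → A1 x y ≤ 0) (o2 : ∀ x y, x ≠ y → A2 x y ≤ 0) {R0 D0 D1 R : ℕ}
    (hD : R0 + D0 + R ≤ D1) (hN1 : 2 * D1 < N1) (hN2 : 2 * D1 < N2) {e η K Lp : ℝ}
    (he : ∀ ζ ∈ zb (2 * D1), |ahat s A2 0 (ip N2 ζ) - ahat s A1 0 (ip N1 ζ)| ≤ e)
    (hη2 : η ≤ 1 / 2) (hηe : (1 + s * ν) * (2 * D0 + 1) ^ 2 * e ≤ η)
    {A' : Matrix (V N1) (V N1) ℝ} {mu : V N1 → (V N1 → ℝ) → ℂ} (hmu : Lcl A' D0 0 Lp mu mu)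
    (hK : ∀ x F, ‖mu x F‖ ≤ K) {A₂' : Matrix (V N2) (V N2) ℝ} {ν' c' : ℝ} (h' : Dom A₂' ν' c')
    {I : Type*} [Fintype I] {B : Matrix (V N2) I ℝ} (hB : Below A₂' B) {σ : ℝ} (hσ0 : 0 ≤ σ)
    (hσ : vaw ν' c' e (tl (ahat s A1) R + tl (ahat s A2) R) N2 D1 ≤ σ ^ 2) (x : V N2) :
    n2 (gau I) (fun g => lamw s A2 R0 D1 (lft D0 mu) x (B *ᵥ g)
        - lft D1 (lamw s A1 R0 D1 mu) x (B *ᵥ g))
      ≤ K * ((2 * R0 + 1) ^ 2 * e) + 4 * η * K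
        + Lp * (2 * σ * √(Real.log (2 * (2 * ((R0 + D0 : ℕ) : ℝ) + 1) ^ 2))) := by
  have hν := h1.hν
  have hLp := hmu.Lp_nonneg
  have hK0 : 0 ≤ K := (norm_nonneg _).trans (hK 0 0)
  have he0 : 0 ≤ e := (abs_nonneg _).trans (he 0 (zero_mem_zb _))
  have hη0 : 0 ≤ η := le_trans (by positivity) hηe
  set Z := zb (R0 + D0) with hZ
  have hZne : Z.Nonempty := ⟨0, zero_mem_zb _⟩
  set M : Matrix (ℤ × ℤ) I ℝ := Matrix.of fun ω => incv D1 (aw s A1 A2 ω) x ᵥ* B with hM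
  set w : (I → ℝ) → ℝ := fun g => Z.sup' hZne fun ω => |M ω ⬝ᵥ g| with hw
  have mdot : ∀ ω, Measurable fun g : I → ℝ => |M ω ⬝ᵥ g| := fun ω => by
    refine Measurable.abs ?_
    unfold dotProduct
    exact Finset.measurable_fun_sum _ fun i _ => (measurable_pi_apply i).const_mul _
  have mw : Measurable w := by
    have h := Finset.measurable_sup' (s := Z) hZne (f := fun ω (g : I → ℝ) => |M ω ⬝ᵥ g|)
      fun ω _ => mdot ω
    have e0 : w = Z.sup' hZne fun ω (g : I → ℝ) => |M ω ⬝ᵥ g| := by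
      funext g
      rw [Finset.sup'_apply]
    rw [e0]
    exact h
  have hw0 : ∀ g, 0 ≤ w g := fun g =>
    (abs_nonneg _).trans (Finset.le_sup' (fun ω => |M ω ⬝ᵥ g|) (zero_mem_zb (R0 + D0)))
  have hvar : ∀ ω ∈ Z, ∑ i, M ω i ^ 2 ≤ σ ^ 2 := fun ω hω =>
    (var_aw h1.zero h2.zero h' hB hD hN1 hN2 he hω x).trans hσ
  have hmax := max_log hZne hσ0 hvar (u := fun g => ((w g : ℝ) : ℂ))
    (Complex.measurable_ofReal.comp mw).aestronglyMeasurable fun g => by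
      obtain ⟨ω, hω, e0⟩ := Finset.exists_mem_eq_sup' hZne fun ω => |M ω ⬝ᵥ g|
      refine ⟨ω, hω, ?_⟩
      rw [Complex.norm_real, Real.norm_eq_abs, abs_of_nonneg (hw0 g)]
      exact e0.le
  have hcard : (Z.card : ℝ) = (2 * ((R0 + D0 : ℕ) : ℝ) + 1) ^ 2 := card_zb _
  rw [hcard] at hmax
  have hL : Lcl (1 : Matrix (V N2) (V N2) ℝ) D0 0 Lp (lft D0 mu) (lft D0 mu) :=
    ⟨H733.Vt.measurable_lft hmu.m, ⟨K, H733.Vt.norm_lft hK⟩, H733.Vt.ch_lft hmu.ch,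
      H733.Vt.cov_lft D0 mu, H733.Vt.loc_lft D0 mu, H733.Vt.lip_lft hmu.lip, fun x => by
        simp only [sub_self]
        exact (H733.Vt.tn2_zero _).le⟩
  set a : ℝ := K * ((2 * R0 + 1) ^ 2 * e) + 4 * η * K with ha
  have ha0 : 0 ≤ a := by positivity
  have m0 : MemLp (fun _ : I → ℝ => (a : ℂ)) 2 (gau I) := memLp_const _
  have m1 : MemLp (fun g : I → ℝ => (Lp : ℂ) * ((w g : ℝ) : ℂ)) 2 (gau I) := hmax.1.const_mul _
  have hpt : ∀ g : I → ℝ, ‖lamw s A2 R0 D1 (lft D0 mu) x (B *ᵥ g)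
      - lft D1 (lamw s A1 R0 D1 mu) x (B *ᵥ g)‖ ≤ ‖(a : ℂ) + (Lp : ℂ) * ((w g : ℝ) : ℂ)‖ := by
    intro g
    have h3 := lamw_max (R0 := R0) (D0 := D0) h1 h2 hs o1 (by omega) hN1 hN2 he hη2 hηe hmu.m hK hmu.cov hLp hmu.lip x
      (B *ᵥ g) (hw0 g) fun ω hω => by
        have e1 : ∑ ζ ∈ zb D1, aw s A1 A2 ω ζ * ((B *ᵥ g) (x + ip N2 ζ) - (B *ᵥ g) x)
            = M ω ⬝ᵥ g := by
          rw [← incv_dot, dotProduct_mulVec]
          rfl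
        rw [e1]
        exact Finset.le_sup' (fun ω => |M ω ⬝ᵥ g|) hω
    refine h3.trans (le_of_eq ?_)
    have h4 := hw0 g
    rw [← Complex.ofReal_mul, ← Complex.ofReal_add, Complex.norm_real, Real.norm_eq_abs,
      abs_of_nonneg (by positivity)]
  refine (n2_mono (m0.add m1) hpt).trans ((n2_add_le m0 m1).trans (add_le_add ?_ ?_))
  · refine n2_le_const m0.aestronglyMeasurable ha0 fun _ => ?_
    rw [Complex.norm_real, Real.norm_eq_abs, abs_of_nonneg ha0]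
  · rw [n2_const_mul, Complex.norm_real, Real.norm_eq_abs, abs_of_nonneg hLp]
    exact mul_le_mul_of_nonneg_left hmax.2 hLp

end

end Vale.Agent.P159.H363
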