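import Vale.Agent.P159.H363.Cvf1
import Vale.Agent.P159.H552.GauHS

/-!
P159 / H363: the maximum of finitely many Gaussian variables in `L²`, logarithmic version.
-/

namespace Vale.Agent.P159.H363

open Finset Matrix MeasureTheory ProbabilityTheory
open Vale.Agent.P159.H37 (gau)
open scoped Real

noncomputable section

variable {I Λ : Type*} [Fintype I]

/-- exponential square moment of one Gaussian variable -/
lemma int_exp_dot {v : I → ℝ} {σ : ℝ} (hσ : 0 < σ) (h : ∑ i, v i ^ 2 ≤ σ ^ 2) :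
    Integrable (fun g : I → ℝ => Real.exp ((v ⬝ᵥ g) ^ 2 / (4 * σ ^ 2))) (gau I) ∧
      ∫ g : I → ℝ, Real.exp ((v ⬝ᵥ g) ^ 2 / (4 * σ ^ 2)) ∂(gau I) ≤ 2 := by
  set q : ℝ := ∑ i, v i ^ 2 with hq
  have hq0 : 0 ≤ q := Finset.sum_nonneg fun _ _ => sq_nonneg _
  set A : Matrix Unit I ℝ := Matrix.of fun _ i => v i with hA
  set B : Matrix Unit Unit ℝ := Matrix.of fun _ _ => √q with hB
  have hcov : A * Aᵀ = B * Bᵀ := by
    ext i j
    simp only [hA, hB, Matrix.mul_apply, Matrix.transpose_apply, Matrix.of_apply,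
      Finset.univ_unique, Finset.sum_singleton]
    rw [Real.mul_self_sqrt hq0, hq]
    simp only [pow_two]
  set f : (Unit → ℝ) → ℝ := fun φ => Real.exp (φ () ^ 2 / (4 * σ ^ 2)) with hf
  have mf : StronglyMeasurable f := by
    apply Measurable.stronglyMeasurable
    have : Measurable fun φ : Unit → ℝ => φ () := measurable_pi_apply ()
    exact ((this.pow_const 2).div_const _).exp
  have eA : ∀ g : I → ℝ, f (A *ᵥ g) = Real.exp ((v ⬝ᵥ g) ^ 2 / (4 * σ ^ 2)) := by
    intro g
    simp only [hf, hA, Matrix.mulVec, Matrix.of_apply]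
  set c : ℝ := q / (2 * σ ^ 2) with hc
  have hc2 : c ≤ 1 / 2 := by
    rw [hc, div_le_iff₀ (by positivity)]
    linarith
  have eB : ∀ g : Unit → ℝ, f (B *ᵥ g) = Real.exp (c * ((g ()) ^ 2 / 2)) := by
    intro g
    have e1 : (B *ᵥ g) () = √q * g () := by
      simp only [hB, Matrix.mulVec, dotProduct, Matrix.of_apply, Finset.univ_unique,
        Finset.sum_singleton]
    simp only [hf]
    rw [e1, mul_pow, Real.sq_sqrt hq0, hc]
    congr 1
    field_simp
    ring
  have mp := measurePreserving_eval (fun _ : Unit => gaussianReal 0 1) ()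
  have i1 : Integrable (fun g : Unit → ℝ => Real.exp (c * ((g ()) ^ 2 / 2))) (gau Unit) := by
    have h1 := H552.integrable_exp_sq (c := c) (by linarith)
    exact mp.integrable_comp_of_integrable h1
  have v1 : ∫ g : Unit → ℝ, Real.exp (c * ((g ()) ^ 2 / 2)) ∂(gau Unit) = (√(1 - c))⁻¹ := by
    rw [← H552.int_exp_sq (c := c) (by linarith)]
    have h1 := H552.integrable_exp_sq (c := c) (by linarith)
    have h2 := mp.map_eq
    have h3 : ∫ x, Real.exp (c * (x ^ 2 / 2)) ∂(gaussianReal 0 1)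
        = ∫ g : Unit → ℝ, Real.exp (c * ((g ()) ^ 2 / 2)) ∂(gau Unit) := by
      rw [← h2, integral_map (measurable_pi_apply ()).aemeasurable]
      · rfl
      · rw [h2]
        exact h1.aestronglyMeasurable
    exact h3.symm
  have i2 : Integrable (fun g : Unit → ℝ => f (B *ᵥ g)) (gau Unit) :=
    i1.congr (Filter.Eventually.of_forall fun g => (eB g).symm)
  have i3 : Integrable (fun g : I → ℝ => f (A *ᵥ g)) (gau I) :=
    law_integrable hcov.symm mf i2
  constructor
  · exact i3.congr (Filter.Eventually.of_forall fun g => eA g)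
  · have e1 : ∫ g : I → ℝ, Real.exp ((v ⬝ᵥ g) ^ 2 / (4 * σ ^ 2)) ∂(gau I)
        = ∫ g : I → ℝ, f (A *ᵥ g) ∂(gau I) := by simp only [eA]
    rw [e1, law_integral_eq A B hcov f mf]
    simp only [eB]
    rw [v1]
    have h5 : (1 / 2 : ℝ) ≤ √(1 - c) := by
      refine Real.le_sqrt_of_sq_le ?_
      linarith
    have h6 : (√(1 - c))⁻¹ ≤ (1 / 2 : ℝ)⁻¹ := inv_anti₀ (by norm_num) h5
    linarith

/-- a random variable dominated by the maximum of Gaussian variables -/
theorem max_log {B : Finset Λ} (hB : B.Nonempty) {M : Matrix Λ I ℝ} {σ : ℝ} (hσ0 : 0 ≤ σ)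
    (hσ : ∀ v ∈ B, ∑ i, M v i ^ 2 ≤ σ ^ 2) {u : (I → ℝ) → ℂ}
    (hu : AEStronglyMeasurable u (gau I)) (h : ∀ g, ∃ v ∈ B, ‖u g‖ ≤ |M v ⬝ᵥ g|) :
    MemLp u 2 (gau I) ∧ n2 (gau I) u ≤ 2 * σ * √(Real.log (2 * (B.card : ℝ))) := by
  have hcard : (1 : ℝ) ≤ (B.card : ℝ) := by exact_mod_cast hB.card_pos
  have hlog : 0 ≤ Real.log (2 * (B.card : ℝ)) := Real.log_nonneg (by linarith)
  rcases hσ0.eq_or_lt with h0 | hpos
  · -- degenerate
    have hz : ∀ g, ‖u g‖ ≤ 0 := by
      intro g
      obtain ⟨v, hv, hvg⟩ := h g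
      have h1 := hσ v hv
      rw [← h0] at h1
      have h2 : ∀ i, M v i = 0 := by
        intro i
        have h3 : M v i ^ 2 ≤ 0 := by
          refine (Finset.single_le_sum (f := fun i => M v i ^ 2) (fun _ _ => sq_nonneg _)
            (Finset.mem_univ i)).trans ?_
          simpa using h1
        exact pow_eq_zero_iff (two_ne_zero) |>.1 (le_antisymm h3 (sq_nonneg _))
      have h3 : M v ⬝ᵥ g = 0 := by
        unfold dotProduct
        exact Finset.sum_eq_zero fun i _ => by rw [h2 i, zero_mul]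
      rw [h3, abs_zero] at hvg
      exact hvg
    have m0 : MemLp u 2 (gau I) := memLp_bdd hu hz
    refine ⟨m0, ?_⟩
    rw [← h0, mul_zero, zero_mul]
    exact n2_le_const hu le_rfl hz
  · set a : ℝ := 2 * (B.card : ℝ) with ha
    have ha0 : 0 < a := by rw [ha]; linarith
    set S : (I → ℝ) → ℝ := fun g => ∑ v ∈ B, Real.exp ((M v ⬝ᵥ g) ^ 2 / (4 * σ ^ 2)) with hS
    have iS : Integrable S (gau I) :=
      integrable_finsetSum _ fun v hv => (int_exp_dot hpos (hσ v hv)).1
    have bS : ∫ g, S g ∂(gau I) ≤ a := by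
      rw [hS, integral_finsetSum _ fun v hv => (int_exp_dot hpos (hσ v hv)).1]
      refine (Finset.sum_le_card_nsmul _ _ 2 fun v hv => (int_exp_dot hpos (hσ v hv)).2).trans
        (le_of_eq ?_)
      rw [nsmul_eq_mul, ha]
      ring
    have hpt : ∀ g, ‖u g‖ ^ 2 ≤ 4 * σ ^ 2 * (Real.log a + S g / a - 1) := by
      intro g
      obtain ⟨v, hv, hvg⟩ := h g
      set X : ℝ := (M v ⬝ᵥ g) ^ 2 / (4 * σ ^ 2) with hX
      have h1 : X ≤ Real.log a + S g / a - 1 := by
        have h2 : Real.exp X ≤ S g :=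
          Finset.single_le_sum (f := fun v => Real.exp ((M v ⬝ᵥ g) ^ 2 / (4 * σ ^ 2)))
            (fun _ _ => (Real.exp_pos _).le) hv
        have h3 : X - Real.log a + 1 ≤ Real.exp (X - Real.log a) := Real.add_one_le_exp _
        rw [Real.exp_sub, Real.exp_log ha0] at h3
        have h4 : Real.exp X / a ≤ S g / a := div_le_div_of_nonneg_right h2 ha0.le
        linarith
      have h5 : ‖u g‖ ^ 2 ≤ (M v ⬝ᵥ g) ^ 2 := by
        rw [← sq_abs (M v ⬝ᵥ g)]
        exact pow_le_pow_left₀ (norm_nonneg _) hvg 2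
      have h6 : (M v ⬝ᵥ g) ^ 2 = 4 * σ ^ 2 * X := by
        rw [hX]
        field_simp
      rw [h6] at h5
      exact h5.trans (mul_le_mul_of_nonneg_left h1 (by positivity))
    have iR : Integrable (fun g => 4 * σ ^ 2 * (Real.log a + S g / a - 1)) (gau I) :=
      (((integrable_const _).add (iS.div_const a)).sub (integrable_const _)).const_mul _
    have iU : Integrable (fun g => ‖u g‖ ^ 2) (gau I) :=
      iR.mono' (hu.norm.pow 2) (Filter.Eventually.of_forall fun g => by
        rw [Real.norm_eq_abs, abs_of_nonneg (by positivity)]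
        exact hpt g)
    have mu : MemLp u 2 (gau I) := (memLp_two_iff_integrable_sq_norm hu).2 iU
    refine ⟨mu, ?_⟩
    rw [n2_le mu (by positivity)]
    have h7 : ∫ g, ‖u g‖ ^ 2 ∂(gau I) ≤ ∫ g, 4 * σ ^ 2 * (Real.log a + S g / a - 1) ∂(gau I) :=
      integral_mono iU iR hpt
    have h8 : ∫ g, 4 * σ ^ 2 * (Real.log a + S g / a - 1) ∂(gau I)
        = 4 * σ ^ 2 * (Real.log a + (∫ g, S g ∂(gau I)) / a - 1) := by
      have i1 : Integrable (fun _ : I → ℝ => Real.log a) (gau I) := integrable_const _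
      have i2 : Integrable (fun g => S g / a) (gau I) := iS.div_const a
      have i3 : Integrable (fun g => Real.log a + S g / a) (gau I) := i1.add i2
      have i4 : Integrable (fun _ : I → ℝ => (1 : ℝ)) (gau I) := integrable_const _
      rw [integral_const_mul, integral_sub i3 i4, integral_add i1 i2, integral_div]
      simp
    have h9 : (∫ g, S g ∂(gau I)) / a ≤ 1 := by rwa [div_le_one ha0]
    rw [h8] at h7
    refine h7.trans ?_
    rw [mul_pow, mul_pow, Real.sq_sqrt hlog]
    have h10 : 4 * σ ^ 2 * (Real.log a + (∫ g, S g ∂(gau I)) / a - 1) ≤ 4 * σ ^ 2 * Real.log a :=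
      mul_le_mul_of_nonneg_left (by linarith) (by positivity)
    linarith

end

end Vale.Agent.P159.H363
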