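import Vale.Agent.P159.H363.Gain

/-!
P159 / H363: POINCARE + BESSEL. `H(y) = E Ψ(g + y)`, `T` of operator norm `≤ ρ`: then
`E (H(T a) - H(T b))² ≤ (π/2)² ρ² E Ψ(g + T a)²`. No dimension, no counting of modes.
-/

namespace Vale.Agent.P159.H363

open MeasureTheory ProbabilityTheory Finset Matrix
open Vale.Agent.P159.H37 (gau gau_sum gau_shift integrable_exp_norm)
open scoped Real

variable {I J : Type*} [Fintype I] [Fintype J]

/-- Gaussian smoothing -/
noncomputable def Hs (Ψ : (I → ℝ) → ℝ) (y : I → ℝ) : ℝ := ∫ g, Ψ (g + y) ∂(gau I)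

/-- its derivative in direction `w` -/
noncomputable def Ds (Ψ : (I → ℝ) → ℝ) (y w : I → ℝ) : ℝ := ∫ g, (w ⬝ᵥ g) * Ψ (g + y) ∂(gau I)

/-- the Cameron-Martin density -/
noncomputable def cm (y g : I → ℝ) : ℝ := Real.exp (y ⬝ᵥ g - (∑ i, y i ^ 2) / 2)

lemma Hs_eq (Ψ : (I → ℝ) → ℝ) (y : I → ℝ) : Hs Ψ y = ∫ g, cm y g * Ψ g ∂(gau I) := by
  unfold Hs
  rw [gau_shift]
  rfl

lemma Ds_eq (Ψ : (I → ℝ) → ℝ) (y w : I → ℝ) :
    Ds Ψ y w = ∫ g, cm y g * ((w ⬝ᵥ g - w ⬝ᵥ y) * Ψ g) ∂(gau I) := by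
  have h := gau_shift y fun g => (w ⬝ᵥ g - w ⬝ᵥ y) * Ψ g
  unfold Ds
  have e : ∀ g : I → ℝ, w ⬝ᵥ g = w ⬝ᵥ (g + y) - w ⬝ᵥ y := by
    intro g
    rw [dotProduct_add]
    ring
  calc ∫ g, (w ⬝ᵥ g) * Ψ (g + y) ∂(gau I)
      = ∫ g, (fun g => (w ⬝ᵥ g - w ⬝ᵥ y) * Ψ g) (g + y) ∂(gau I) := by
        refine integral_congr_ae (Filter.Eventually.of_forall fun g => ?_)
        simp only
        rw [← e g]
    _ = _ := by
        rw [h]
        rfl

lemma abs_dot_le (v g : I → ℝ) {R : ℝ} (hv : ∀ i, |v i| ≤ R) :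
    |v ⬝ᵥ g| ≤ R * ∑ i, |g i| := by
  rw [dotProduct, Finset.mul_sum]
  refine (Finset.abs_sum_le_sum_abs _ _).trans (Finset.sum_le_sum fun i _ => ?_)
  rw [abs_mul]
  exact mul_le_mul_of_nonneg_right (hv i) (abs_nonneg _)

/-- the quarter circle -/
noncomputable def cy (a b : I → ℝ) (θ : ℝ) : I → ℝ := fun i => Real.cos θ * a i + Real.sin θ * b i

/-- its derivative -/
noncomputable def cy' (a b : I → ℝ) (θ : ℝ) : I → ℝ :=
  fun i => -Real.sin θ * a i + Real.cos θ * b i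

lemma cy_bound (a b : I → ℝ) (θ : ℝ) (i : I) : |cy a b θ i| ≤ ∑ i, (|a i| + |b i|) := by
  refine le_trans ?_ (Finset.single_le_sum (f := fun i => |a i| + |b i|)
    (fun i _ => add_nonneg (abs_nonneg _) (abs_nonneg _)) (Finset.mem_univ i))
  unfold cy
  refine (abs_add_le _ _).trans (add_le_add ?_ ?_)
  · rw [abs_mul]
    exact mul_le_of_le_one_left (abs_nonneg _) (Real.abs_cos_le_one θ)
  · rw [abs_mul]
    exact mul_le_of_le_one_left (abs_nonneg _) (Real.abs_sin_le_one θ)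

lemma cy'_bound (a b : I → ℝ) (θ : ℝ) (i : I) : |cy' a b θ i| ≤ ∑ i, (|a i| + |b i|) := by
  refine le_trans ?_ (Finset.single_le_sum (f := fun i => |a i| + |b i|)
    (fun i _ => add_nonneg (abs_nonneg _) (abs_nonneg _)) (Finset.mem_univ i))
  unfold cy'
  refine (abs_add_le _ _).trans (add_le_add ?_ ?_)
  · rw [abs_mul, abs_neg]
    exact mul_le_of_le_one_left (abs_nonneg _) (Real.abs_sin_le_one θ)
  · rw [abs_mul]
    exact mul_le_of_le_one_left (abs_nonneg _) (Real.abs_cos_le_one θ)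

lemma hasDerivAt_cy (a b : I → ℝ) (θ : ℝ) (i : I) :
    HasDerivAt (fun θ => cy a b θ i) (cy' a b θ i) θ := by
  unfold cy cy'
  exact ((Real.hasDerivAt_cos θ).mul_const (a i)).add ((Real.hasDerivAt_sin θ).mul_const (b i))

lemma hasDerivAt_cm (a b g : I → ℝ) (θ : ℝ) :
    HasDerivAt (fun θ => cm (cy a b θ) g)
      (cm (cy a b θ) g * (cy' a b θ ⬝ᵥ g - cy' a b θ ⬝ᵥ cy a b θ)) θ := by
  unfold cm
  have h1 : HasDerivAt (fun θ => cy a b θ ⬝ᵥ g) (cy' a b θ ⬝ᵥ g) θ := by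
    simp only [dotProduct]
    exact HasDerivAt.fun_sum fun i _ => (hasDerivAt_cy a b θ i).mul_const (g i)
  have h2 : HasDerivAt (fun θ => (∑ i, cy a b θ i ^ 2) / 2) (cy' a b θ ⬝ᵥ cy a b θ) θ := by
    have : HasDerivAt (fun θ => (∑ i, cy a b θ i ^ 2) / 2)
        ((∑ i, (2 : ℕ) * cy a b θ i ^ (2 - 1) * cy' a b θ i) / 2) θ := by
      apply HasDerivAt.div_const
      exact HasDerivAt.fun_sum fun i _ => (hasDerivAt_cy a b θ i).pow 2
    convert this using 1
    rw [dotProduct, Finset.sum_div]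
    refine Finset.sum_congr rfl fun i _ => ?_
    norm_num
    ring
  exact (h1.sub h2).exp

lemma measurable_dot (v : I → ℝ) : Measurable fun g : I → ℝ => v ⬝ᵥ g := by
  simp only [dotProduct]
  fun_prop

lemma measurable_cm (y : I → ℝ) : Measurable fun g : I → ℝ => cm y g := by
  unfold cm
  exact Real.measurable_exp.comp ((measurable_dot y).sub_const _)

section deriv

variable {Ψ : (I → ℝ) → ℝ} {C : ℝ}

lemma cm_le (y g : I → ℝ) {R : ℝ} (hy : ∀ i, |y i| ≤ R) : cm y g ≤ Real.exp (R * ∑ i, |g i|) := by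
  unfold cm
  apply Real.exp_le_exp.2
  have h1 := (le_abs_self _).trans (abs_dot_le y g hy)
  have h2 : 0 ≤ (∑ i, y i ^ 2) / 2 := by positivity
  linarith

lemma cm_pos (y g : I → ℝ) : 0 < cm y g := Real.exp_pos _

lemma bound_aux (y w g : I → ℝ) {R : ℝ} (hR : 0 ≤ R) (hy : ∀ i, |y i| ≤ R)
    (hw : ∀ i, |w i| ≤ R) {p : ℝ} (hp : |p| ≤ C) :
    ‖cm y g * ((w ⬝ᵥ g - w ⬝ᵥ y) * p)‖
      ≤ C * (Real.exp ((2 * R) * ∑ i, |g i|)
        + R * (Fintype.card I * R) * Real.exp (R * ∑ i, |g i|)) := by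
  have hC : 0 ≤ C := (abs_nonneg _).trans hp
  have h0 : 0 ≤ ∑ i, |g i| := Finset.sum_nonneg fun i _ => abs_nonneg _
  have h1 := abs_dot_le w g hw
  have h2 : |w ⬝ᵥ y| ≤ R * (Fintype.card I * R) := by
    refine (abs_dot_le w y hw).trans (mul_le_mul_of_nonneg_left ?_ hR)
    refine (Finset.sum_le_sum fun i _ => hy i).trans ?_
    simp
  have h3 : |w ⬝ᵥ g - w ⬝ᵥ y| ≤ Real.exp (R * ∑ i, |g i|) + R * (Fintype.card I * R) := by
    refine (abs_sub _ _).trans (add_le_add (h1.trans ?_) h2)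
    have := Real.add_one_le_exp (R * ∑ i, |g i|)
    linarith
  rw [Real.norm_eq_abs, abs_mul, abs_mul, abs_of_pos (cm_pos y g)]
  have h4 := cm_le y g hy
  have h5 : 0 ≤ R * (Fintype.card I * R) := by positivity
  have e2 : Real.exp ((2 * R) * ∑ i, |g i|)
      = Real.exp (R * ∑ i, |g i|) * Real.exp (R * ∑ i, |g i|) := by
    rw [← Real.exp_add]
    congr 1
    ring
  rw [e2]
  calc cm y g * (|w ⬝ᵥ g - w ⬝ᵥ y| * |p|)
      ≤ Real.exp (R * ∑ i, |g i|)
        * ((Real.exp (R * ∑ i, |g i|) + R * (Fintype.card I * R)) * C) := by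
        apply mul_le_mul h4 _ (by positivity) (Real.exp_pos _).le
        exact mul_le_mul h3 hp (abs_nonneg _) (by positivity)
    _ = _ := by ring

lemma integrable_bound (R : ℝ) :
    Integrable (fun g : I → ℝ => C * (Real.exp ((2 * R) * ∑ i, |g i|)
        + R * (Fintype.card I * R) * Real.exp (R * ∑ i, |g i|))) (gau I) :=
  ((integrable_exp_norm (2 * R)).add ((integrable_exp_norm R).const_mul _)).const_mul _

/-- derivative along the quarter circle -/
lemma hasDerivAt_Hs (hΨ : Measurable Ψ) (hC : ∀ g, |Ψ g| ≤ C) (a b : I → ℝ) (θ : ℝ) :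
    HasDerivAt (fun θ => Hs Ψ (cy a b θ)) (Ds Ψ (cy a b θ) (cy' a b θ)) θ := by
  set R : ℝ := ∑ i, (|a i| + |b i|) with hR
  have hR0 : 0 ≤ R := Finset.sum_nonneg fun i _ => by positivity
  have key := hasDerivAt_integral_of_dominated_loc_of_deriv_le (μ := gau I) (𝕜 := ℝ)
    (F := fun θ g => cm (cy a b θ) g * Ψ g)
    (F' := fun θ g => cm (cy a b θ) g * ((cy' a b θ ⬝ᵥ g - cy' a b θ ⬝ᵥ cy a b θ) * Ψ g))
    (x₀ := θ) (s := Set.univ)
    (bound := fun g => C * (Real.exp ((2 * R) * ∑ i, |g i|)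
        + R * (Fintype.card I * R) * Real.exp (R * ∑ i, |g i|)))
    Filter.univ_mem
    (Filter.Eventually.of_forall fun θ =>
      ((measurable_cm _).mul hΨ).aestronglyMeasurable)
    (by
      have hd : Integrable (fun g : I → ℝ => Real.exp (R * ∑ i, |g i|) * C) (gau I) :=
        (integrable_exp_norm R).mul_const C
      refine hd.mono' ((measurable_cm _).mul hΨ).aestronglyMeasurable
        (Filter.Eventually.of_forall fun g => ?_)
      simp only [Real.norm_eq_abs, abs_mul, abs_of_pos (cm_pos _ _)]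
      exact mul_le_mul (cm_le _ _ (cy_bound a b θ)) (hC g) (abs_nonneg _) (Real.exp_pos _).le)
    (by
      apply Measurable.aestronglyMeasurable
      exact (measurable_cm _).mul (((measurable_dot _).sub_const _).mul hΨ))
    (Filter.Eventually.of_forall fun g θ _ =>
      bound_aux _ _ g hR0 (cy_bound a b θ) (cy'_bound a b θ) (hC g))
    (integrable_bound R)
    (Filter.Eventually.of_forall fun g θ _ => by
      refine ((hasDerivAt_cm a b g θ).mul_const (Ψ g)).congr_deriv ?_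
      rw [mul_assoc])
  have h2 := key.2
  rw [← Ds_eq] at h2
  have h3 : (fun θ => Hs Ψ (cy a b θ)) = fun θ => ∫ g, cm (cy a b θ) g * Ψ g ∂(gau I) := by
    funext θ
    rw [Hs_eq]
  rw [h3]
  exact h2

lemma abs_Ds_le (hC : ∀ g, |Ψ g| ≤ C) (y w : I → ℝ) {R : ℝ} (hR : 0 ≤ R)
    (hy : ∀ i, |y i| ≤ R) (hw : ∀ i, |w i| ≤ R) :
    |Ds Ψ y w| ≤ ∫ g, C * (Real.exp ((2 * R) * ∑ i, |g i|)
        + R * (Fintype.card I * R) * Real.exp (R * ∑ i, |g i|)) ∂(gau I) := by
  rw [Ds_eq, ← Real.norm_eq_abs]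
  exact norm_integral_le_of_norm_le (integrable_bound R)
    (Filter.Eventually.of_forall fun g => bound_aux y w g hR hy hw (hC g))

/-- Cauchy-Schwarz on an interval -/
lemma sq_interval_le {f : ℝ → ℝ} {L : ℝ} (hL : 0 < L)
    (hf : IntervalIntegrable f volume 0 L) (hf2 : IntervalIntegrable (fun x => f x ^ 2) volume 0 L) :
    (∫ x in (0 : ℝ)..L, f x) ^ 2 ≤ L * ∫ x in (0 : ℝ)..L, f x ^ 2 := by
  set m : ℝ := (∫ x in (0 : ℝ)..L, f x) / L with hm
  have h0 : 0 ≤ ∫ x in (0 : ℝ)..L, (f x - m) ^ 2 :=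
    intervalIntegral.integral_nonneg hL.le fun x _ => sq_nonneg _
  have e : ∀ x, (f x - m) ^ 2 = f x ^ 2 - (2 * m) * f x + m ^ 2 := fun x => by ring
  simp only [e] at h0
  rw [intervalIntegral.integral_add (hf2.sub (hf.const_mul _)) intervalIntegrable_const,
    intervalIntegral.integral_sub hf2 (hf.const_mul _), intervalIntegral.integral_const_mul,
    intervalIntegral.integral_const] at h0
  simp only [sub_zero, smul_eq_mul] at h0
  have h1 : (∫ x in (0 : ℝ)..L, f x) = m * L := by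
    rw [hm]
    field_simp
  rw [h1] at h0 ⊢
  nlinarith

/-- difference of the smoothing at two points -/
lemma Hs_sub_sq_le (hΨ : Measurable Ψ) (hC : ∀ g, |Ψ g| ≤ C) (a b : I → ℝ) :
    (Hs Ψ b - Hs Ψ a) ^ 2
      ≤ (π / 2) * ∫ θ in (0 : ℝ)..(π / 2), Ds Ψ (cy a b θ) (cy' a b θ) ^ 2 := by
  set R : ℝ := ∑ i, (|a i| + |b i|) with hR
  have hR0 : 0 ≤ R := Finset.sum_nonneg fun i _ => by positivity
  have hder := hasDerivAt_Hs hΨ hC a b
  have hmeas : Measurable fun θ => Ds Ψ (cy a b θ) (cy' a b θ) := by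
    have : (fun θ => Ds Ψ (cy a b θ) (cy' a b θ)) = deriv fun θ => Hs Ψ (cy a b θ) := by
      funext θ
      rw [(hder θ).deriv]
    rw [this]
    exact measurable_deriv _
  have hb : ∀ θ, |Ds Ψ (cy a b θ) (cy' a b θ)| ≤ ∫ g, C * (Real.exp ((2 * R) * ∑ i, |g i|)
        + R * (Fintype.card I * R) * Real.exp (R * ∑ i, |g i|)) ∂(gau I) := fun θ =>
    abs_Ds_le hC _ _ hR0 (cy_bound a b θ) (cy'_bound a b θ)
  set K : ℝ := ∫ g, C * (Real.exp ((2 * R) * ∑ i, |g i|)
        + R * (Fintype.card I * R) * Real.exp (R * ∑ i, |g i|)) ∂(gau I) with hK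
  have hi1 : IntervalIntegrable (fun θ => Ds Ψ (cy a b θ) (cy' a b θ)) volume 0 (π / 2) := by
    refine (intervalIntegrable_const (c := K)).mono_fun hmeas.aestronglyMeasurable
      (Filter.Eventually.of_forall fun θ => ?_)
    simp only
    rw [Real.norm_eq_abs, Real.norm_eq_abs]
    exact (hb θ).trans (le_abs_self _)
  have hi2 : IntervalIntegrable (fun θ => Ds Ψ (cy a b θ) (cy' a b θ) ^ 2) volume 0 (π / 2) := by
    refine (intervalIntegrable_const (c := K ^ 2)).mono_fun (hmeas.pow_const 2).aestronglyMeasurable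
      (Filter.Eventually.of_forall fun θ => ?_)
    simp only
    rw [Real.norm_eq_abs, Real.norm_eq_abs, abs_pow, abs_pow]
    exact pow_le_pow_left₀ (abs_nonneg _) ((hb θ).trans (le_abs_self _)) 2
  have hftc := intervalIntegral.integral_eq_sub_of_hasDerivAt (fun θ _ => hder θ) hi1
  have e1 : cy a b (π / 2) = b := by
    funext i
    simp [cy]
  have e0 : cy a b 0 = a := by
    funext i
    simp [cy]
  rw [e1, e0] at hftc
  rw [← hftc]
  exact sq_interval_le (by positivity) hi1 hi2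

end deriv

end Vale.Agent.P159.H363
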