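import Vale.Agent.P159.H363.Pob2

/-!
P159 / H363: POINCARE + BESSEL, assembly. Real and complex versions.
-/

namespace Vale.Agent.P159.H363

open MeasureTheory ProbabilityTheory Finset Matrix
open Vale.Agent.P159.H37 (gau gau_sum gau_shift integrable_exp_norm)
open scoped Real

variable {I J : Type*} [Fintype I] [Fintype J]

lemma cy_mulVec (T : Matrix I J ℝ) (a b : J → ℝ) (θ : ℝ) :
    cy (T *ᵥ a) (T *ᵥ b) θ = T *ᵥ cy a b θ := by
  have h : cy a b θ = Real.cos θ • a + Real.sin θ • b := by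
    funext j
    simp [cy]
  rw [h, mulVec_add, mulVec_smul, mulVec_smul]
  funext i
  simp [cy]

lemma cy'_mulVec (T : Matrix I J ℝ) (a b : J → ℝ) (θ : ℝ) :
    cy' (T *ᵥ a) (T *ᵥ b) θ = T *ᵥ cy' a b θ := by
  have h : cy' a b θ = (-Real.sin θ) • a + Real.cos θ • b := by
    funext j
    simp [cy']
  rw [h, mulVec_add, mulVec_smul, mulVec_smul]
  funext i
  simp [cy']

section asm

variable {Ψ : (I → ℝ) → ℝ} {C : ℝ}

lemma measurable_Ds (hΨ : Measurable Ψ) (T : Matrix I J ℝ) :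
    Measurable fun p : (J → ℝ) × (J → ℝ) => Ds Ψ (T *ᵥ p.1) (T *ᵥ p.2) := by
  unfold Ds
  apply StronglyMeasurable.measurable
  apply StronglyMeasurable.integral_prod_right'
    (f := fun q : ((J → ℝ) × (J → ℝ)) × (I → ℝ) => (T *ᵥ q.1.2 ⬝ᵥ q.2) * Ψ (q.2 + T *ᵥ q.1.1))
  apply Measurable.stronglyMeasurable
  have h1 : Measurable fun q : ((J → ℝ) × (J → ℝ)) × (I → ℝ) => T *ᵥ q.1.2 :=
    (measurable_mulVec T).comp (measurable_snd.comp measurable_fst)
  have h2 : Measurable fun q : ((J → ℝ) × (J → ℝ)) × (I → ℝ) => T *ᵥ q.1.1 :=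
    (measurable_mulVec T).comp (measurable_fst.comp measurable_fst)
  refine Measurable.mul ?_ (hΨ.comp (measurable_snd.add h2))
  simp only [dotProduct]
  refine Finset.measurable_fun_sum _ fun i _ => ?_
  exact ((measurable_pi_apply i).comp h1).mul ((measurable_pi_apply i).comp measurable_snd)

lemma measurable_Hs (hΨ : Measurable Ψ) (T : Matrix I J ℝ) :
    Measurable fun a : J → ℝ => Hs Ψ (T *ᵥ a) := by
  unfold Hs
  apply StronglyMeasurable.measurable
  apply StronglyMeasurable.integral_prod_right'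
    (f := fun q : (J → ℝ) × (I → ℝ) => Ψ (q.2 + T *ᵥ q.1))
  apply Measurable.stronglyMeasurable
  exact hΨ.comp (measurable_snd.add ((measurable_mulVec T).comp measurable_fst))

lemma abs_Hs_le (hC : ∀ g, |Ψ g| ≤ C) (y : I → ℝ) : |Hs Ψ y| ≤ C := by
  unfold Hs
  rw [← Real.norm_eq_abs]
  have := norm_integral_le_of_norm_le_const (μ := gau I) (f := fun g => Ψ (g + y)) (C := C)
    (Filter.Eventually.of_forall fun g => by rw [Real.norm_eq_abs]; exact hC _)
  simpa using this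

/-- the quadratic bound used for integrability -/
lemma quad_bound (hΨ : Measurable Ψ) (hC : ∀ g, |Ψ g| ≤ C) (T : Matrix I J ℝ) {ρ : ℝ}
    (hT : ∀ v : I → ℝ, ∑ j, (v ᵥ* T) j ^ 2 ≤ ρ ^ 2 * ∑ i, v i ^ 2) (a b : J → ℝ) :
    Ds Ψ (T *ᵥ a) (T *ᵥ b) ^ 2 ≤ ρ ^ 2 * C ^ 2 * ∑ j, b j ^ 2 := by
  rw [Ds_gr hΨ hC, dotProduct_comm, dotProduct_mulVec]
  have h1 : ((gr Ψ (T *ᵥ a) ᵥ* T) ⬝ᵥ b) ^ 2
      ≤ (∑ j, (gr Ψ (T *ᵥ a) ᵥ* T) j ^ 2) * ∑ j, b j ^ 2 :=
    Finset.sum_mul_sq_le_sq_mul_sq _ _ _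
  have h2 : ∑ i, gr Ψ (T *ᵥ a) i ^ 2 ≤ C ^ 2 := by
    refine (bessel hΨ hC _).trans ?_
    calc ∫ g, Ψ (g + T *ᵥ a) ^ 2 ∂(gau I) ≤ ∫ _, C ^ 2 ∂(gau I) := by
          refine integral_mono (integrable_sq hΨ hC _) (integrable_const _) fun g => ?_
          simp only
          rw [← sq_abs]
          exact pow_le_pow_left₀ (abs_nonneg _) (hC _) 2
      _ = C ^ 2 := by simp
  have h3 : 0 ≤ ∑ j, b j ^ 2 := Finset.sum_nonneg fun j _ => sq_nonneg _
  refine h1.trans (mul_le_mul_of_nonneg_right ?_ h3)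
  exact (hT _).trans (mul_le_mul_of_nonneg_left h2 (sq_nonneg _))

lemma integrable_sum_sq : Integrable (fun b : J → ℝ => ∑ j, b j ^ 2) (gau J) := by
  classical
  refine integrable_finset_sum _ fun j _ => ?_
  have := integrable_dot_sq (I := J) (Pi.single j 1)
  simpa [dotProduct, Pi.single_apply] using this

lemma cy_sq_le (a b : J → ℝ) (θ : ℝ) :
    ∑ j, cy' a b θ j ^ 2 ≤ 2 * (∑ j, a j ^ 2 + ∑ j, b j ^ 2) := by
  rw [← Finset.sum_add_distrib, Finset.mul_sum]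
  refine Finset.sum_le_sum fun j _ => ?_
  unfold cy'
  have h1 := Real.sin_sq_le_one θ
  have h2 := Real.cos_sq_le_one θ
  have e1 : (-Real.sin θ * a j + Real.cos θ * b j) ^ 2
      ≤ 2 * ((Real.sin θ ^ 2) * a j ^ 2 + (Real.cos θ ^ 2) * b j ^ 2) := by
    nlinarith [sq_nonneg (Real.sin θ * a j + Real.cos θ * b j)]
  have e2 : (Real.sin θ ^ 2) * a j ^ 2 ≤ a j ^ 2 := mul_le_of_le_one_left (sq_nonneg _) h1
  have e3 : (Real.cos θ ^ 2) * b j ^ 2 ≤ b j ^ 2 := mul_le_of_le_one_left (sq_nonneg _) h2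
  linarith

/-- POINCARE + BESSEL -/
theorem pob (hΨ : Measurable Ψ) (hC : ∀ g, |Ψ g| ≤ C) (T : Matrix I J ℝ) {ρ : ℝ}
    (hT : ∀ v : I → ℝ, ∑ j, (v ᵥ* T) j ^ 2 ≤ ρ ^ 2 * ∑ i, v i ^ 2) :
    ∫ p, (Hs Ψ (T *ᵥ p.2) - Hs Ψ (T *ᵥ p.1)) ^ 2 ∂((gau J).prod (gau J))
      ≤ (π / 2) ^ 2 * ρ ^ 2 * ∫ a, ∫ g, Ψ (g + T *ᵥ a) ^ 2 ∂(gau I) ∂(gau J) := by
  set μ := (gau J).prod (gau J) with hμ
  set Φ : (J → ℝ) × (J → ℝ) → ℝ := fun p => Ds Ψ (T *ᵥ p.1) (T *ᵥ p.2) ^ 2 with hΦ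
  have hΦm : Measurable Φ := (measurable_Ds hΨ T).pow_const 2
  set ν : Measure ℝ := volume.restrict (Set.Ioc 0 (π / 2)) with hν
  have hcyc : Measurable fun z : ℝ × ((J → ℝ) × (J → ℝ)) => (cy z.2.1 z.2.2 z.1, cy' z.2.1 z.2.2 z.1) := by
    refine Measurable.prodMk ?_ ?_
    · refine measurable_pi_lambda _ fun j => ?_
      unfold cy
      fun_prop
    · refine measurable_pi_lambda _ fun j => ?_
      unfold cy'
      fun_prop
  set G : ℝ × ((J → ℝ) × (J → ℝ)) → ℝ := fun z => Φ (cy z.2.1 z.2.2 z.1, cy' z.2.1 z.2.2 z.1) with hG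
  have hGm : Measurable G := hΦm.comp hcyc
  have hsum : Integrable (fun p : (J → ℝ) × (J → ℝ) => ∑ j, p.1 j ^ 2 + ∑ j, p.2 j ^ 2) μ := by
    refine Integrable.add ?_ ?_
    · have := (integrable_sum_sq (J := J)).mul_prod (integrable_const (μ := gau J) (1 : ℝ))
      simpa using this
    · have := (integrable_const (μ := gau J) (1 : ℝ)).mul_prod (integrable_sum_sq (J := J))
      simpa using this
  have hGb : ∀ z, ‖G z‖ ≤ ρ ^ 2 * C ^ 2 * (2 * (∑ j, z.2.1 j ^ 2 + ∑ j, z.2.2 j ^ 2)) := by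
    intro z
    simp only [hG, hΦ]
    rw [Real.norm_eq_abs, abs_of_nonneg (sq_nonneg _)]
    refine (quad_bound hΨ hC T hT _ _).trans ?_
    exact mul_le_mul_of_nonneg_left (cy_sq_le _ _ _) (by positivity)
  have hGi : Integrable G (ν.prod μ) := by
    have h1 : Integrable (fun z : ℝ × ((J → ℝ) × (J → ℝ)) =>
        (ρ ^ 2 * C ^ 2 * 2) * ((1 : ℝ) * (∑ j, z.2.1 j ^ 2 + ∑ j, z.2.2 j ^ 2))) (ν.prod μ) :=
      ((integrable_const (μ := ν) (1 : ℝ)).mul_prod hsum).const_mul _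
    refine h1.mono' hGm.aestronglyMeasurable (Filter.Eventually.of_forall fun z => ?_)
    refine (hGb z).trans (le_of_eq ?_)
    ring
  -- pointwise bound
  have hpt : ∀ p : (J → ℝ) × (J → ℝ), (Hs Ψ (T *ᵥ p.2) - Hs Ψ (T *ᵥ p.1)) ^ 2
      ≤ (π / 2) * ∫ θ, G (θ, p) ∂ν := by
    intro p
    have h := Hs_sub_sq_le hΨ hC (T *ᵥ p.1) (T *ᵥ p.2)
    simp only [cy_mulVec, cy'_mulVec] at h
    rw [intervalIntegral.integral_of_le (by positivity)] at h
    exact h
  have hGs : Integrable (fun p => ∫ θ, G (θ, p) ∂ν) μ := hGi.integral_prod_right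
  calc ∫ p, (Hs Ψ (T *ᵥ p.2) - Hs Ψ (T *ᵥ p.1)) ^ 2 ∂μ
      ≤ ∫ p, (π / 2) * ∫ θ, G (θ, p) ∂ν ∂μ := by
        refine integral_mono_of_nonneg (Filter.Eventually.of_forall fun p => sq_nonneg _)
          (hGs.const_mul _) (Filter.Eventually.of_forall hpt)
    _ = (π / 2) * ∫ θ, ∫ p, G (θ, p) ∂μ ∂ν := by
        rw [integral_const_mul, integral_integral_swap]
        exact hGi.swap
    _ = (π / 2) * ∫ _, ∫ p, Φ p ∂μ ∂ν := by
        congr 1
        refine integral_congr_ae (Filter.Eventually.of_forall fun θ => ?_)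
        exact rot θ Φ hΦm
    _ = (π / 2) ^ 2 * ∫ p, Φ p ∂μ := by
        rw [integral_const]
        have : ν.real Set.univ = π / 2 := by
          rw [hν, measureReal_restrict_apply_univ, Real.volume_real_Ioc_of_le (by positivity)]
          ring
        rw [this, smul_eq_mul]
        ring
    _ ≤ (π / 2) ^ 2 * (ρ ^ 2 * ∫ a, ∫ g, Ψ (g + T *ᵥ a) ^ 2 ∂(gau I) ∂(gau J)) := by
        refine mul_le_mul_of_nonneg_left ?_ (sq_nonneg _)
        have hΦi : Integrable Φ μ := by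
          have h1 : Integrable (fun p : (J → ℝ) × (J → ℝ) =>
              (ρ ^ 2 * C ^ 2) * ((1 : ℝ) * ∑ j, p.2 j ^ 2)) μ :=
            ((integrable_const (μ := gau J) (1 : ℝ)).mul_prod
              (integrable_sum_sq (J := J))).const_mul _
          refine h1.mono' hΦm.aestronglyMeasurable (Filter.Eventually.of_forall fun p => ?_)
          simp only [hΦ]
          rw [Real.norm_eq_abs, abs_of_nonneg (sq_nonneg _), one_mul]
          exact quad_bound hΨ hC T hT _ _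
        rw [integral_prod _ hΦi, ← integral_const_mul]
        refine integral_mono hΦi.integral_prod_left ?_ fun a => ?_
        · refine Integrable.const_mul ?_ _
          refine Integrable.of_bound (C := C ^ 2) ?_ (Filter.Eventually.of_forall fun a => ?_)
          · apply StronglyMeasurable.aestronglyMeasurable
            apply StronglyMeasurable.integral_prod_right'
              (f := fun q : (J → ℝ) × (I → ℝ) => Ψ (q.2 + T *ᵥ q.1) ^ 2)
            exact ((hΨ.comp (measurable_snd.add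
              ((measurable_mulVec T).comp measurable_fst))).pow_const 2).stronglyMeasurable
          · have := norm_integral_le_of_norm_le_const (μ := gau I)
              (f := fun g => Ψ (g + T *ᵥ a) ^ 2) (C := C ^ 2)
              (Filter.Eventually.of_forall fun g => by
                rw [Real.norm_eq_abs, abs_pow]
                exact pow_le_pow_left₀ (abs_nonneg _) (hC _) 2)
            simpa using this
        · exact bessel_T hΨ hC T hT (T *ᵥ a)
    _ = _ := by ring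

/-- variance form -/
theorem pob_var (hΨ : Measurable Ψ) (hC : ∀ g, |Ψ g| ≤ C) (T : Matrix I J ℝ) {ρ : ℝ}
    (hT : ∀ v : I → ℝ, ∑ j, (v ᵥ* T) j ^ 2 ≤ ρ ^ 2 * ∑ i, v i ^ 2) :
    ∫ a, (Hs Ψ (T *ᵥ a) - ∫ b, Hs Ψ (T *ᵥ b) ∂(gau J)) ^ 2 ∂(gau J)
      ≤ (π ^ 2 / 8) * ρ ^ 2 * ∫ a, ∫ g, Ψ (g + T *ᵥ a) ^ 2 ∂(gau I) ∂(gau J) := by
  set h : (J → ℝ) → ℝ := fun a => Hs Ψ (T *ᵥ a) with hh
  have hm : Measurable h := measurable_Hs hΨ T
  have hb : ∀ a, |h a| ≤ C := fun a => abs_Hs_le hC _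
  have hi : Integrable h (gau J) :=
    Integrable.of_bound (C := C) hm.aestronglyMeasurable (Filter.Eventually.of_forall hb)
  have hi2 : Integrable (fun a => h a ^ 2) (gau J) := by
    refine Integrable.of_bound (C := C ^ 2) (hm.pow_const 2).aestronglyMeasurable
      (Filter.Eventually.of_forall fun a => ?_)
    rw [Real.norm_eq_abs, abs_pow]
    exact pow_le_pow_left₀ (abs_nonneg _) (hb a) 2
  have key := pob hΨ hC T hT
  set m := ∫ b, h b ∂(gau J) with hmdef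
  have e1 : ∫ a, (h a - m) ^ 2 ∂(gau J) = ∫ a, h a ^ 2 ∂(gau J) - m ^ 2 := by
    have e : ∀ a, (h a - m) ^ 2 = (h a ^ 2 - (2 * m) * h a) + m ^ 2 := fun a => by ring
    simp only [e]
    have ha := integral_add (hi2.sub (hi.const_mul (2 * m))) (integrable_const (μ := gau J) (m ^ 2))
    simp only [Pi.sub_apply] at ha
    rw [ha, integral_sub hi2 (hi.const_mul _), integral_const_mul, ← hmdef, integral_const]
    simp only [probReal_univ, smul_eq_mul]
    ring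
  have e2 : ∫ p, (h p.2 - h p.1) ^ 2 ∂((gau J).prod (gau J))
      = 2 * (∫ a, h a ^ 2 ∂(gau J) - m ^ 2) := by
    have e : ∀ p : (J → ℝ) × (J → ℝ), (h p.2 - h p.1) ^ 2
        = ((1 : ℝ) * h p.2 ^ 2 + h p.1 ^ 2 * (1 : ℝ)) - 2 * (h p.1 * h p.2) := fun p => by ring
    simp only [e]
    have i1 : Integrable (fun p : (J → ℝ) × (J → ℝ) => (1 : ℝ) * h p.2 ^ 2)
        ((gau J).prod (gau J)) := (integrable_const (μ := gau J) (1 : ℝ)).mul_prod hi2
    have i2 : Integrable (fun p : (J → ℝ) × (J → ℝ) => h p.1 ^ 2 * (1 : ℝ))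
        ((gau J).prod (gau J)) := hi2.mul_prod (integrable_const (μ := gau J) (1 : ℝ))
    have i3 : Integrable (fun p : (J → ℝ) × (J → ℝ) => h p.1 * h p.2)
        ((gau J).prod (gau J)) := hi.mul_prod hi
    have ha := integral_sub (i1.add i2) (i3.const_mul 2)
    simp only [Pi.add_apply] at ha
    have j1 : ∫ p : (J → ℝ) × (J → ℝ), (1 : ℝ) * h p.2 ^ 2 ∂((gau J).prod (gau J))
        = ∫ a, h a ^ 2 ∂(gau J) := by
      rw [integral_prod_mul (fun _ : J → ℝ => (1 : ℝ)) (fun b => h b ^ 2)]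
      simp
    have j2 : ∫ p : (J → ℝ) × (J → ℝ), h p.1 ^ 2 * (1 : ℝ) ∂((gau J).prod (gau J))
        = ∫ a, h a ^ 2 ∂(gau J) := by
      rw [integral_prod_mul (fun b => h b ^ 2) (fun _ : J → ℝ => (1 : ℝ))]
      simp
    have j3 : ∫ p : (J → ℝ) × (J → ℝ), h p.1 * h p.2 ∂((gau J).prod (gau J)) = m * m :=
      integral_prod_mul h h
    rw [ha, integral_add i1 i2, j1, j2, integral_const_mul, j3]
    ring
  rw [e1]
  have e3 : ∫ p, (h p.2 - h p.1) ^ 2 ∂((gau J).prod (gau J))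
      ≤ (π / 2) ^ 2 * ρ ^ 2 * ∫ a, ∫ g, Ψ (g + T *ᵥ a) ^ 2 ∂(gau I) ∂(gau J) := key
  rw [e2] at e3
  nlinarith

end asm

end Vale.Agent.P159.H363
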