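import Vale.Agent.P159.H316.St1

/-!
P159 / H363: PART 1 OF THE START OF V (hedge): cells, the numbers of one window.
-/

set_option linter.unusedSectionVars false

namespace Vale.Agent.P159.H363.Pt1

open Filter Topology
open Vale.Agent.P159.H889 (lam)

noncomputable section

/-- cells `2 ^ s` with `lam ~ x ^ β` -/
def cel (n : ℕ) (x β : ℝ) : ℕ := ⌊(n : ℝ) + β * Real.logb 2 x⌋₊

lemma cel_mono {n n' : ℕ} {x x' β β' : ℝ}
    (h : (n : ℝ) + β * Real.logb 2 x ≤ n' + β' * Real.logb 2 x') : cel n x β ≤ cel n' x' β' :=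
  Nat.floor_mono h

lemma cel_spec {n : ℕ} {x β : ℝ} (hx : 0 < x) (hn : -(β * Real.logb 2 x) ≤ n / 4) (h8 : 8 ≤ n) :
    1 / 2 * x ^ β ≤ lam n (cel n x β) ∧ lam n (cel n x β) ≤ x ^ β ∧ n ≤ 2 * cel n x β := by
  have h8' : (8 : ℝ) ≤ n := by exact_mod_cast h8
  set t : ℝ := (n : ℝ) + β * Real.logb 2 x with ht
  have ht0 : 0 ≤ t := by linarith
  have h1 : ((cel n x β : ℕ) : ℝ) ≤ t := Nat.floor_le ht0
  have h2 : t < (cel n x β : ℕ) + 1 := Nat.lt_floor_add_one t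
  set s := cel n x β with hs
  have e1 : lam n s = (2 : ℝ) ^ ((s : ℝ) - n) := by
    unfold lam
    rw [Real.rpow_sub two_pos, Real.rpow_natCast, Real.rpow_natCast]
  have e2 : x ^ β = (2 : ℝ) ^ (t - n) := by
    have h3 : x = (2 : ℝ) ^ Real.logb 2 x := (Real.rpow_logb two_pos (by norm_num) hx).symm
    calc x ^ β = ((2 : ℝ) ^ Real.logb 2 x) ^ β := by rw [← h3]
      _ = (2 : ℝ) ^ (Real.logb 2 x * β) := (Real.rpow_mul two_pos.le _ _).symm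
      _ = (2 : ℝ) ^ (t - n) := by
        congr 1
        rw [ht]
        ring
  refine ⟨?_, ?_, ?_⟩
  · rw [e1, e2]
    have h4 : (1 / 2 : ℝ) = (2 : ℝ) ^ (-1 : ℝ) := by
      rw [Real.rpow_neg two_pos.le, Real.rpow_one]
      norm_num
    rw [h4, ← Real.rpow_add two_pos]
    exact Real.rpow_le_rpow_of_exponent_le one_le_two (by linarith)
  · rw [e1, e2]
    exact Real.rpow_le_rpow_of_exponent_le one_le_two (by linarith)
  · have h5 : (n : ℝ) ≤ 2 * (s : ℝ) := by linarith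
    exact_mod_cast h5

/-! ### powers of `e` -/

lemma ep {e p q : ℝ} (h0 : 0 < e) (h1 : e ≤ 1) (h : p ≤ q) : e ^ q ≤ e ^ p :=
  Real.rpow_le_rpow_of_exponent_ge h0 h1 h

/-- absorption of a constant -/
lemma ec {e p q : ℝ} (h0 : 0 < e) (h1 : e ≤ 1) (hsm : 10 ^ 6 ≤ e ^ (-(1 / 1000) : ℝ))
    (h : p + 1 / 1000 ≤ q) : 10 ^ 6 * e ^ q ≤ e ^ p := by
  calc 10 ^ 6 * e ^ q ≤ e ^ (-(1 / 1000) : ℝ) * e ^ q := by gcongr
    _ = e ^ (-(1 / 1000) + q) := by rw [← Real.rpow_add h0]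
    _ ≤ e ^ p := ep h0 h1 (by linarith)

/-- **the numbers of one window**: growth, deviation, error -/
theorem st_num {e v y z Δ E u g q : ℝ} (he : 0 < e) (he1 : e ≤ 1)
    (hsm : 10 ^ 6 ≤ e ^ (-(1 / 1000) : ℝ)) (hv0 : 0 < v) (hv : v ≤ e ^ (1 / 2 : ℝ)) (hy0 : 0 ≤ y)
    (hy : y ≤ e ^ (-(1 / 400) : ℝ) * v) (hz0 : 0 ≤ z) (hz : z ≤ e ^ (-(1 / 400) : ℝ) * v)
    (hE : E ≤ e ^ (12 / 25 : ℝ) * v) (hu1 : 1 ≤ u)
    (hu : u ≤ e ^ (-(1 / 10000) : ℝ)) (hg0 : 0 ≤ g) (hg : g ≤ u) (hq1 : 1 ≤ q)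
    (hq : q ≤ e ^ (-(1 / 1000) : ℝ)) :
    u ^ (1 / 10 : ℝ) * (2 * Δ + 8 * (z * e ^ (22 / 25 : ℝ)) + (e * y) ^ 2)
        + 2 * z * g * e ^ (87 / 100 : ℝ) ≤ 2 * u ^ (1 / 10 : ℝ) * Δ + e ^ (2 / 5 : ℝ) * v ∧
      (∀ z', z' ≤ e ^ (-(1 / 200) : ℝ) * v →
        q ^ 3 * (2 * E + y * e ^ (1 / 2 + 0 : ℝ)) + q ^ 2 * ((z + z') * e ^ (22 / 25 : ℝ))
          + (e * y) ^ 2 ≤ e ^ (2 / 5 : ℝ) * v) ∧
      y * (q ^ 5 * max (e ^ (22 / 25 : ℝ)) (e ^ (1 / 2 + 0 : ℝ))) ≤ e ^ (97 / 200 : ℝ) * v := by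
  have e0 : ∀ p : ℝ, 0 < e ^ p := fun p => Real.rpow_pos_of_pos he p
  have mul : ∀ p p' : ℝ, e ^ p * e ^ p' = e ^ (p + p') := fun p p' => (Real.rpow_add he p p').symm
  have ha := e0 (-(1 / 400) : ℝ)
  have hv1 : v ≤ 1 := hv.trans (Real.rpow_le_one he.le he1 (by norm_num))
  have hua : u ^ (1 / 10 : ℝ) ≤ e ^ (-(1 / 10000) : ℝ) := by
    calc u ^ (1 / 10 : ℝ) ≤ u ^ (1 : ℝ) := Real.rpow_le_rpow_of_exponent_le hu1 (by norm_num)
      _ = u := Real.rpow_one u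
      _ ≤ _ := hu
  have hua0 : 0 ≤ u ^ (1 / 10 : ℝ) := Real.rpow_nonneg (by linarith) _
  -- the square
  have hsq : (e * y) ^ 2 ≤ e ^ (19 / 10 : ℝ) * v := by
    have h1 : e * y ≤ e ^ (399 / 400 : ℝ) * v := by
      calc e * y ≤ e ^ (1 : ℝ) * (e ^ (-(1 / 400) : ℝ) * v) := by
            rw [Real.rpow_one]
            gcongr
        _ = e ^ (1 + -(1 / 400) : ℝ) * v := by rw [← mul_assoc, mul]
        _ = _ := by norm_num
    calc (e * y) ^ 2 ≤ (e ^ (399 / 400 : ℝ) * v) ^ 2 := by gcongr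
      _ = (e ^ (399 / 400 : ℝ) * e ^ (399 / 400 : ℝ)) * (v * v) := by ring
      _ ≤ (e ^ (399 / 400 : ℝ) * e ^ (399 / 400 : ℝ)) * (v * 1) := by
        have := e0 (399 / 400 : ℝ)
        gcongr
      _ = e ^ (399 / 400 + 399 / 400 : ℝ) * v := by rw [mul, mul_one]
      _ ≤ _ := mul_le_mul_of_nonneg_right (ep he he1 (by norm_num)) hv0.le
  have c1 := ec he he1 hsm (p := 9 / 10) (q := 19 / 10) (by norm_num)
  refine ⟨?_, ?_, ?_⟩
  · -- growth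
    have t1 : u ^ (1 / 10 : ℝ) * (8 * (z * e ^ (22 / 25 : ℝ))) ≤
        8 * (e ^ (7 / 8 : ℝ) * v) := by
      calc u ^ (1 / 10 : ℝ) * (8 * (z * e ^ (22 / 25 : ℝ)))
          ≤ e ^ (-(1 / 10000) : ℝ) * (8 * ((e ^ (-(1 / 400) : ℝ) * v) * e ^ (22 / 25 : ℝ))) := by
            have := e0 (22 / 25 : ℝ)
            gcongr
        _ = 8 * ((e ^ (-(1 / 10000) : ℝ) * e ^ (-(1 / 400) : ℝ)) * e ^ (22 / 25 : ℝ) * v) := by
          ring
        _ = 8 * (e ^ (-(1 / 10000) + -(1 / 400) + 22 / 25 : ℝ) * v) := by rw [mul, mul]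
        _ ≤ _ := by
          have := ep he he1 (p := 7 / 8) (q := -(1 / 10000) + -(1 / 400) + 22 / 25) (by norm_num)
          gcongr
    have t2 : u ^ (1 / 10 : ℝ) * (e * y) ^ 2 ≤ e ^ (7 / 8 : ℝ) * v := by
      calc u ^ (1 / 10 : ℝ) * (e * y) ^ 2 ≤ e ^ (-(1 / 10000) : ℝ) * (e ^ (19 / 10 : ℝ) * v) := by
            gcongr
        _ = e ^ (-(1 / 10000) + 19 / 10 : ℝ) * v := by rw [← mul_assoc, mul]
        _ ≤ _ := mul_le_mul_of_nonneg_right (ep he he1 (by norm_num)) hv0.le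
    have t3 : 2 * z * g * e ^ (87 / 100 : ℝ) ≤ 2 * (e ^ (43 / 50 : ℝ) * v) := by
      calc 2 * z * g * e ^ (87 / 100 : ℝ)
          ≤ 2 * (e ^ (-(1 / 400) : ℝ) * v) * e ^ (-(1 / 10000) : ℝ) * e ^ (87 / 100 : ℝ) := by
            have := e0 (87 / 100 : ℝ)
            have := hg.trans hu
            gcongr
        _ = 2 * ((e ^ (-(1 / 400) : ℝ) * e ^ (-(1 / 10000) : ℝ)) * e ^ (87 / 100 : ℝ) * v) := by
          ring
        _ = 2 * (e ^ (-(1 / 400) + -(1 / 10000) + 87 / 100 : ℝ) * v) := by rw [mul, mul]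
        _ ≤ _ := by
          have := ep he he1 (p := 43 / 50) (q := -(1 / 400) + -(1 / 10000) + 87 / 100)
            (by norm_num)
          gcongr
    have t4 := ec he he1 hsm (p := 2 / 5) (q := 7 / 8) (by norm_num)
    have t5 := ec he he1 hsm (p := 2 / 5) (q := 43 / 50) (by norm_num)
    have t6 : 9 * e ^ (7 / 8 : ℝ) + 2 * e ^ (43 / 50 : ℝ) ≤ e ^ (2 / 5 : ℝ) := by
      have := e0 (7 / 8 : ℝ)
      have := e0 (43 / 50 : ℝ)
      linarith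
    have t7 := mul_le_mul_of_nonneg_right t6 hv0.le
    have t8 : u ^ (1 / 10 : ℝ) * (2 * Δ + 8 * (z * e ^ (22 / 25 : ℝ)) + (e * y) ^ 2) =
        2 * u ^ (1 / 10 : ℝ) * Δ + u ^ (1 / 10 : ℝ) * (8 * (z * e ^ (22 / 25 : ℝ))) +
          u ^ (1 / 10 : ℝ) * (e * y) ^ 2 := by ring
    rw [t8]
    linarith
  · -- deviation
    intro z' hz'
    have q3 : q ^ 3 ≤ e ^ (-(3 / 1000) : ℝ) := by
      calc q ^ 3 ≤ (e ^ (-(1 / 1000) : ℝ)) ^ 3 := by gcongr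
        _ = e ^ (-(1 / 1000) + -(1 / 1000) + -(1 / 1000) : ℝ) := by
          rw [← mul, ← mul]
          ring
        _ = _ := by norm_num
    have q2 : q ^ 2 ≤ e ^ (-(2 / 1000) : ℝ) := by
      calc q ^ 2 ≤ (e ^ (-(1 / 1000) : ℝ)) ^ 2 := by gcongr
        _ = e ^ (-(1 / 1000) + -(1 / 1000) : ℝ) := by
          rw [← mul]
          ring
        _ = _ := by norm_num
    have hE2 : 2 * E + y * e ^ (1 / 2 + 0 : ℝ) ≤ 3 * (e ^ (12 / 25 : ℝ) * v) := by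
      have h1 : y * e ^ (1 / 2 + 0 : ℝ) ≤ e ^ (12 / 25 : ℝ) * v := by
        calc y * e ^ (1 / 2 + 0 : ℝ) ≤ (e ^ (-(1 / 400) : ℝ) * v) * e ^ (1 / 2 + 0 : ℝ) := by
              have := e0 (1 / 2 + 0 : ℝ)
              gcongr
          _ = (e ^ (-(1 / 400) : ℝ) * e ^ (1 / 2 + 0 : ℝ)) * v := by ring
          _ = e ^ (-(1 / 400) + (1 / 2 + 0) : ℝ) * v := by rw [mul]
          _ ≤ _ := mul_le_mul_of_nonneg_right (ep he he1 (by norm_num)) hv0.le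
      linarith
    have t1 : q ^ 3 * (2 * E + y * e ^ (1 / 2 + 0 : ℝ)) ≤ 3 * (e ^ (47 / 100 : ℝ) * v) := by
      calc q ^ 3 * (2 * E + y * e ^ (1 / 2 + 0 : ℝ)) ≤ q ^ 3 * (3 * (e ^ (12 / 25 : ℝ) * v)) := by
            gcongr
        _ ≤ e ^ (-(3 / 1000) : ℝ) * (3 * (e ^ (12 / 25 : ℝ) * v)) := by
          have := e0 (12 / 25 : ℝ)
          gcongr
        _ = 3 * (e ^ (-(3 / 1000) + 12 / 25 : ℝ) * v) := by
          rw [← mul]
          ring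
        _ ≤ _ := by
          have := ep he he1 (p := 47 / 100) (q := -(3 / 1000) + 12 / 25) (by norm_num)
          gcongr
    have t2 : q ^ 2 * ((z + z') * e ^ (22 / 25 : ℝ)) ≤ 2 * (e ^ (47 / 100 : ℝ) * v) := by
      have h1 : z + z' ≤ 2 * (e ^ (-(1 / 200) : ℝ) * v) := by
        have := mul_le_mul_of_nonneg_right
          (ep he he1 (p := -(1 / 200)) (q := -(1 / 400)) (by norm_num)) hv0.le
        linarith
      calc q ^ 2 * ((z + z') * e ^ (22 / 25 : ℝ))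
          ≤ q ^ 2 * ((2 * (e ^ (-(1 / 200) : ℝ) * v)) * e ^ (22 / 25 : ℝ)) := by
            have := e0 (22 / 25 : ℝ)
            gcongr
        _ ≤ e ^ (-(2 / 1000) : ℝ) * ((2 * (e ^ (-(1 / 200) : ℝ) * v)) * e ^ (22 / 25 : ℝ)) := by
          have := e0 (22 / 25 : ℝ)
          have := e0 (-(1 / 200) : ℝ)
          gcongr
        _ = 2 * (e ^ (-(2 / 1000) + -(1 / 200) + 22 / 25 : ℝ) * v) := by
          rw [← mul, ← mul]
          ring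
        _ ≤ _ := by
          have := ep he he1 (p := 47 / 100) (q := -(2 / 1000) + -(1 / 200) + 22 / 25)
            (by norm_num)
          gcongr
    have t3 : (e * y) ^ 2 ≤ e ^ (47 / 100 : ℝ) * v :=
      hsq.trans (mul_le_mul_of_nonneg_right (ep he he1 (by norm_num)) hv0.le)
    have t4 := mul_le_mul_of_nonneg_right
      (ec he he1 hsm (p := 2 / 5) (q := 47 / 100) (by norm_num)) hv0.le
    have t5 : 0 < e ^ (47 / 100 : ℝ) * v := mul_pos (e0 _) hv0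
    nlinarith
  · -- error
    have q5 : q ^ 5 ≤ e ^ (-(5 / 1000) : ℝ) := by
      calc q ^ 5 ≤ (e ^ (-(1 / 1000) : ℝ)) ^ 5 := by gcongr
        _ = e ^ (-(1 / 1000) + -(1 / 1000) + -(1 / 1000) + -(1 / 1000) + -(1 / 1000) : ℝ) := by
          rw [← mul, ← mul, ← mul, ← mul]
          ring
        _ = _ := by norm_num
    have hm : max (e ^ (22 / 25 : ℝ)) (e ^ (1 / 2 + 0 : ℝ)) ≤ e ^ (1 / 2 : ℝ) :=
      max_le (ep he he1 (by norm_num)) (ep he he1 (by norm_num))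
    calc y * (q ^ 5 * max (e ^ (22 / 25 : ℝ)) (e ^ (1 / 2 + 0 : ℝ)))
        ≤ (e ^ (-(1 / 400) : ℝ) * v) * (e ^ (-(5 / 1000) : ℝ) * e ^ (1 / 2 : ℝ)) := by
          have := e0 (1 / 2 : ℝ)
          have h9 : 0 ≤ max (e ^ (22 / 25 : ℝ)) (e ^ (1 / 2 + 0 : ℝ)) :=
            (e0 _).le.trans (le_max_left _ _)
          have := e0 (-(5 / 1000) : ℝ)
          gcongr
      _ = e ^ (-(1 / 400) + (-(5 / 1000) + 1 / 2) : ℝ) * v := by
        rw [← mul, ← mul]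
        ring
      _ ≤ _ := mul_le_mul_of_nonneg_right (ep he he1 (by norm_num)) hv0.le

end

end Vale.Agent.P159.H363.Pt1
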