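import Vale.Agent.P159.H363.Pt1a

/-!
P159 / H363: PART 1 OF THE START OF V: the numbers (structure).
-/

set_option linter.unusedSectionVars false

namespace Vale.Agent.P159.H363.Pt1



noncomputable section

/-- the numbers of the chain of windows of length `L` at the size `e` -/
structure Nm (P : H972.Par) (e : ℝ) (L : ℕ) : Prop where
  e0 : 0 < e
  es : e ≤ P.es
  tp : P.thp ≤ 1 / 1000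
  t2 : P.th ≤ P.thp / 10 ^ 5
  rr : P.th + 4 * P.q0 * P.thp ≤ 1 / 1000
  sm : 10 ^ 6 ≤ e ^ (-(1 / 1000) : ℝ)
  q2 : 2 ≤ P.q0
  Lw : P.w e ≤ 20 * L
  wL : 20 * L ≤ P.w e + 19
  w19 : 400 ≤ P.w e
  kw : 100 * (P.kE e + 1) ≤ P.w e
  u1 : (2 : ℝ) ^ L ≤ e ^ (-(1 / 10000) : ℝ)
  u2 : e ^ (-(P.thp / 20)) ≤ (2 : ℝ) ^ L
  u3 : ((2 : ℝ) ^ L) ^ (14 / 10 : ℝ) ≤ e ^ (-P.thp)
  u4 : ((2 : ℝ) ^ L) ^ (18 / 1000 : ℝ) ≤ e ^ (-(P.thp / 1000))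
  ub : 10 ^ 6 ≤ ((2 : ℝ) ^ L) ^ (1 / 2000 : ℝ)
  kk : (2 : ℝ) ^ P.kE e ≤ 2 * e ^ (-P.th)
  k1 : 9 * e ^ (-(2 * P.th)) ≤ ((2 : ℝ) ^ L) ^ (1 / 1000 : ℝ)
  yu : 2 * ((2 : ℝ) ^ L) ^ (38 : ℕ) * e ^ (-P.th) ≤ e ^ (-(1 / 400) : ℝ)
  yp : 2 * e ^ (-P.th) ≤ e ^ (-P.thp)

end

end Vale.Agent.P159.H363.Pt1
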