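import Vale.Agent.P159.H363.Pt1b
import Vale.Agent.P159.H358.Coef

/-!
P159 / H363: PART 1 OF THE START OF V: the levels of the chain, one window.
-/

set_option linter.unusedSectionVars false

namespace Vale.Agent.P159.H363.Pt1

open Filter Topology
open Vale.Agent.P159.H972 (Good tn)
open Vale.Agent.P159.H864 (yt)
open Vale.Agent.P159.H889 (Cx Cw SV TV VB lam nu Dc QP Mw hS CH2)
open Vale.Agent.P159.H316 (V1 G0 GS INI COR CHS DX0 AX y0 SV_V1)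

noncomputable section

/-- the reference number of the level `j` -/
def yj (P : H972.Par) (e v : ℝ) (L j : ℕ) : ℝ := 2 * (4 ^ (j * L) * (e ^ (-P.th) * v))

/-- the cells of the level `j` -/
def sj (P : H972.Par) (C1 e v : ℝ) (n L j : ℕ) : ℕ :=
  cel (n + j * L) (e * yj P e v L j) (71 / 64 * C1)

/-- the context of the chain -/
structure Ct (P : H972.Par) (b C1 c1 A1 : ℝ) (a : ℕ → ℝ) (N0 n L : ℕ) (e v : ℝ) : Prop where
  N : Nm P e L
  b0 : 0 < b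
  b1 : P.b1 ≤ b
  b2 : b ≤ P.b2
  C24 : 24 ≤ C1
  n0 : N0 ≤ n
  n16 : 16 ≤ n
  G : ∀ m, n ≤ m → m ≤ n + 2 * P.w e → Good P b m e
  v0 : 0 < v
  vu : v ≤ e ^ (25 / 47 : ℝ)
  vL : Real.log (1 / v) ≤ e ^ (-c1)
  vd : -Real.log (e * v) ≤ 1 / (64 * C1) * n
  hY : ∀ r, n + P.kE e ≤ r → yt (2 ^ r) b (4 * tn n) ≤ e ^ (-P.th) * v
  gs : GS P b a C1 c1 A1 N0
  chs : CHS P b c1
  ax : AX a C1 N0

variable {P : H972.Par} {b C1 c1 A1 : ℝ} {a : ℕ → ℝ} {N0 n L : ℕ} {e v : ℝ}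

lemma four_u (L j : ℕ) : (4 : ℝ) ^ (j * L) = ((2 : ℝ) ^ L) ^ (2 * j) := by
  rw [show (4 : ℝ) = 2 ^ 2 by norm_num, ← pow_mul, ← pow_mul]
  congr 1
  ring

section lev

variable (C : Ct P b C1 c1 A1 a N0 n L e v)

include C

lemma Ct.e1 : e ≤ 1 := C.N.es.trans (P.es1.trans (by norm_num))

lemma Ct.u1 : (1 : ℝ) ≤ (2 : ℝ) ^ L := one_le_pow₀ (by norm_num)

lemma Ct.T1 : 1 ≤ e ^ (-P.th) := by
  rw [Real.rpow_neg C.N.e0.le]
  have h1 : e ^ P.th ≤ 1 := Real.rpow_le_one C.N.e0.le C.e1 P.th0.le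
  exact (one_le_inv₀ (Real.rpow_pos_of_pos C.N.e0 _)).2 h1

lemma Ct.v1 : v ≤ 1 := C.vu.trans (Real.rpow_le_one C.N.e0.le C.e1 (by norm_num))

lemma Ct.yj_lo (j : ℕ) : v ≤ yj P e v L j := by
  unfold yj
  have h1 : (1 : ℝ) ≤ 4 ^ (j * L) := one_le_pow₀ (by norm_num)
  have h2 := C.T1
  have hv := C.v0
  have h3 : v ≤ e ^ (-P.th) * v := by nlinarith
  have h4 : e ^ (-P.th) * v ≤ 4 ^ (j * L) * (e ^ (-P.th) * v) :=
    le_mul_of_one_le_left (by linarith) h1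
  linarith

lemma Ct.yj0 (j : ℕ) : 0 < yj P e v L j := C.v0.trans_le (C.yj_lo j)

lemma Ct.yj_up {j : ℕ} (hj : j ≤ 19) : yj P e v L j ≤ e ^ (-(1 / 400) : ℝ) * v := by
  unfold yj
  rw [four_u]
  have h1 : ((2 : ℝ) ^ L) ^ (2 * j) ≤ ((2 : ℝ) ^ L) ^ 38 :=
    pow_le_pow_right₀ C.u1 (by omega)
  have h2 : 0 ≤ e ^ (-P.th) := by linarith [C.T1]
  calc 2 * (((2 : ℝ) ^ L) ^ (2 * j) * (e ^ (-P.th) * v))
      ≤ 2 * (((2 : ℝ) ^ L) ^ 38 * (e ^ (-P.th) * v)) := by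
        have := C.v0
        gcongr
    _ = 2 * ((2 : ℝ) ^ L) ^ 38 * e ^ (-P.th) * v := by ring
    _ ≤ _ := mul_le_mul_of_nonneg_right C.N.yu C.v0.le

/-- the background at the level `j` -/
lemma Ct.yt_lev (j r : ℕ) (hr : n + j * L + P.kE e ≤ r) :
    yt (2 ^ r) b (4 * tn (n + j * L)) ≤ 4 ^ (j * L) * (e ^ (-P.th) * v) := by
  have h1 : (0 : ℝ) < 4 * tn (n + j * L) := by
    have := H972.tn_pos (n + j * L)
    positivity
  have h2 : 4 * tn (n + j * L) ≤ 4 * tn n := by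
    unfold tn
    have : ((4 : ℝ) ^ (n + j * L))⁻¹ ≤ (4 ^ n)⁻¹ :=
      inv_anti₀ (by positivity) (pow_le_pow_right₀ (by norm_num) (Nat.le_add_right _ _))
    linarith
  have h3 := H972.yt_mass (N := 2 ^ r) C.b0 h1 h2
  have h4 : 4 * tn n / (4 * tn (n + j * L)) = (4 : ℝ) ^ (j * L) := by
    unfold tn
    rw [pow_add]
    field_simp
  rw [h4] at h3
  have h5 := C.hY r (by omega)
  exact h3.trans (mul_le_mul_of_nonneg_left h5 (by positivity))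

lemma Ct.exy {j : ℕ} (hj : j ≤ 19) : e * yj P e v L j ≤ e := by
  have h1 := C.yj_up hj
  have h2 : e ^ (-(1 / 400) : ℝ) * v ≤ 1 := by
    calc e ^ (-(1 / 400) : ℝ) * v ≤ e ^ (-(1 / 400) : ℝ) * e ^ (25 / 47 : ℝ) := by
          have := Real.rpow_pos_of_pos C.N.e0 (-(1 / 400) : ℝ)
          have := C.vu
          gcongr
      _ = e ^ (-(1 / 400) + 25 / 47 : ℝ) := by rw [← Real.rpow_add C.N.e0]
      _ ≤ 1 := Real.rpow_le_one C.N.e0.le C.e1 (by norm_num)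
  have h3 := C.N.e0
  nlinarith

/-- the cells of the level `j` -/
lemma Ct.cell {j : ℕ} (hj : j ≤ 19) :
    1 / 2 * (e * yj P e v L j) ^ (71 / 64 * C1) ≤ lam (n + j * L) (sj P C1 e v n L j) ∧
      lam (n + j * L) (sj P C1 e v n L j) ≤ (e * yj P e v L j) ^ (71 / 64 * C1) ∧
      n + j * L ≤ 2 * sj P C1 e v n L j := by
  have h0 := C.N.e0
  have hx : 0 < e * yj P e v L j := mul_pos h0 (C.yj0 j)
  have hC := C.C24
  have hv := C.v0
  refine cel_spec hx ?_ (by have := C.n16; omega)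
  have h1 : Real.log (e * v) ≤ Real.log (e * yj P e v L j) :=
    Real.log_le_log (by positivity) (mul_le_mul_of_nonneg_left (C.yj_lo j) h0.le)
  have h2 := C.vd
  have h3 : (0.6931471803 : ℝ) < Real.log 2 := Real.log_two_gt_d9
  have h4 : -(71 / 64 * C1 * Real.logb 2 (e * yj P e v L j)) =
      71 / 64 * C1 * (-Real.log (e * yj P e v L j)) / Real.log 2 := by
    unfold Real.logb
    ring
  rw [h4, div_le_iff₀ (by linarith)]
  have h5 : -Real.log (e * yj P e v L j) ≤ 1 / (64 * C1) * n := by linarith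
  have h6 : 71 / 64 * C1 * (-Real.log (e * yj P e v L j)) ≤ 71 / 64 * C1 * (1 / (64 * C1) * n) :=
    mul_le_mul_of_nonneg_left h5 (by positivity)
  have h7 : 71 / 64 * C1 * (1 / (64 * C1) * n) = 71 / 4096 * (n : ℝ) := by
    field_simp
    ring
  have h8 : (0 : ℝ) ≤ n := Nat.cast_nonneg n
  have h9 : (0 : ℝ) ≤ ((j * L : ℕ) : ℝ) := Nat.cast_nonneg _
  rw [h7] at h6
  push_cast at h9 ⊢
  nlinarith

/-- **the level `j`** -/
lemma Ct.cx {j : ℕ} (hj : j ≤ 19) :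
    Cx P b C1 c1 (n + j * L) (sj P C1 e v n L j) e (yj P e v L j) := by
  have h0 := C.N.e0
  have he1 := C.e1
  have hx : 0 < e * yj P e v L j := mul_pos h0 (C.yj0 j)
  have hx1 : e * yj P e v L j ≤ 1 := (C.exy hj).trans he1
  obtain ⟨l1, l2, l3⟩ := C.cell hj
  have hC := C.C24
  have hsm := C.N.sm
  have hvu := C.vu
  have hv0 := C.v0
  refine ⟨?_, C.b1, C.b2, h0, C.N.es, C.yj0 j, ?_, ?_, ?_, ?_, ?_, l3⟩
  · refine C.G _ (Nat.le_add_right _ _) ?_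
    have h1 := C.N.wL
    have h2 := C.N.w19
    have h3 : j * L ≤ 19 * L := Nat.mul_le_mul_right L hj
    omega
  · -- y1
    calc yj P e v L j ^ (39 / 20 : ℝ) ≤ (e ^ (53 / 100 - 1 / 400 : ℝ)) ^ (39 / 20 : ℝ) := by
          refine Real.rpow_le_rpow (C.yj0 j).le ?_ (by norm_num)
          calc yj P e v L j ≤ e ^ (-(1 / 400) : ℝ) * v := C.yj_up hj
            _ ≤ e ^ (-(1 / 400) : ℝ) * e ^ (25 / 47 : ℝ) := by
              have := Real.rpow_pos_of_pos h0 (-(1 / 400) : ℝ)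
              gcongr
            _ = e ^ (-(1 / 400) + 25 / 47 : ℝ) := by rw [← Real.rpow_add h0]
            _ ≤ _ := ep h0 he1 (by norm_num)
      _ = e ^ ((53 / 100 - 1 / 400) * (39 / 20) : ℝ) := by rw [← Real.rpow_mul h0.le]
      _ ≤ e ^ (1 : ℝ) := ep h0 he1 (by norm_num)
      _ = e := Real.rpow_one e
  · -- yL
    have h1 : Real.log (1 / yj P e v L j) ≤ Real.log (1 / v) := by
      refine Real.log_le_log (by have := C.yj0 j; positivity) ?_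
      exact one_div_le_one_div_of_le C.v0 (C.yj_lo j)
    exact h1.trans C.vL
  · -- vy
    intro r hr
    have h1 := C.yt_lev j r hr.1
    have h2 : 1 ≤ e ^ (-(P.thp / 20)) := by
      rw [Real.rpow_neg h0.le]
      exact (one_le_inv₀ (Real.rpow_pos_of_pos h0 _)).2
        (Real.rpow_le_one h0.le he1 (by have := P.thp0; positivity))
    have h3 : 4 ^ (j * L) * (e ^ (-P.th) * v) ≤ yj P e v L j := by
      have h4 : 0 ≤ (4 : ℝ) ^ (j * L) * (e ^ (-P.th) * v) := by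
        have := C.T1
        have := C.v0
        positivity
      unfold yj
      linarith
    calc yt (2 ^ r) b (4 * tn (n + j * L)) ≤ 1 * yj P e v L j := by linarith
      _ ≤ e ^ (-(P.thp / 20)) * yj P e v L j := mul_le_mul_of_nonneg_right h2 (C.yj0 j).le
  · -- s1
    refine le_trans ?_ l1
    have h1 : (e * yj P e v L j) ^ (9 / 8 * C1) =
        (e * yj P e v L j) ^ (71 / 64 * C1) * (e * yj P e v L j) ^ (1 / 64 * C1) := by
      rw [← Real.rpow_add hx]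
      congr 1
      ring
    have h2 : (e * yj P e v L j) ^ (1 / 64 * C1) ≤ 1 / 2 := by
      calc (e * yj P e v L j) ^ (1 / 64 * C1) ≤ e ^ (1 / 64 * C1) :=
            Real.rpow_le_rpow hx.le (C.exy hj) (by positivity)
        _ ≤ e ^ (1 / 1000 : ℝ) := ep h0 he1 (by linarith)
        _ ≤ 1 / 2 := by
          have h3 : e ^ (1 / 1000 : ℝ) * e ^ (-(1 / 1000) : ℝ) = 1 := by
            rw [← Real.rpow_add h0]
            norm_num
          have h4 := Real.rpow_pos_of_pos h0 (1 / 1000 : ℝ)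
          nlinarith
    rw [h1]
    have h3 := Real.rpow_nonneg hx.le (71 / 64 * C1)
    nlinarith
  · -- s2
    refine l2.trans ?_
    exact ep hx hx1 (by linarith)

/-- the second harmonic at the level `j` -/
lemma Ct.ch {j : ℕ} (hj : j ≤ 19) : CH2 P b (n + j * L) e (yj P e v L j * e ^ (0 : ℝ)) := by
  have h0 := C.N.e0
  have hx := Real.rpow_pos_of_pos h0 (P.thp / 20)
  have hxi : e ^ (-(P.thp / 20)) * e ^ (P.thp / 20) = 1 := by
    rw [← Real.rpow_add h0, neg_add_cancel, Real.rpow_zero]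
  have hx1 : e ^ (P.thp / 20) ≤ 1 :=
    Real.rpow_le_one h0.le C.e1 (by have := P.thp0; positivity)
  have hy0 := C.yj0 j
  have h1 := C.chs.2 (n + j * L) e (e ^ (P.thp / 20) * yj P e v L j / 2) h0 C.N.es (by positivity)
    ?_ ?_
  · have h2 : 2 * (e ^ (-(P.thp / 20)) * (e ^ (P.thp / 20) * yj P e v L j / 2)) =
        yj P e v L j * e ^ (0 : ℝ) := by
      rw [Real.rpow_zero, mul_one]
      calc 2 * (e ^ (-(P.thp / 20)) * (e ^ (P.thp / 20) * yj P e v L j / 2))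
          = (e ^ (-(P.thp / 20)) * e ^ (P.thp / 20)) * yj P e v L j := by ring
        _ = _ := by rw [hxi, one_mul]
    rwa [h2] at h1
  · refine le_trans (Real.rpow_le_rpow (by positivity) ?_ (by norm_num)) (C.cx hj).y1
    nlinarith
  · intro r hr
    have h3 := C.yt_lev j r hr.1
    have h4 : e ^ (-(P.thp / 20)) * (e ^ (P.thp / 20) * yj P e v L j / 2) =
        yj P e v L j / 2 := by
      calc e ^ (-(P.thp / 20)) * (e ^ (P.thp / 20) * yj P e v L j / 2)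
          = (e ^ (-(P.thp / 20)) * e ^ (P.thp / 20)) * yj P e v L j / 2 := by ring
        _ = _ := by rw [hxi, one_mul]
    rw [h4]
    unfold yj
    linarith

end lev

/-! ### one window -/

lemma G0_bd {x : ℝ} {m L : ℕ} (hx : |2 - Real.pi / x| ≤ 1 / 10 ^ 7) :
    ((2 : ℝ) ^ L) ^ (-(1 / 10 ^ 6) : ℝ) ≤ G0 x m (m + L) ∧
      G0 x m (m + L) ≤ ((2 : ℝ) ^ L) ^ (1 / 10 ^ 6 : ℝ) := by
  have h2 := Real.log_pos one_lt_two
  have hL : (0 : ℝ) ≤ L := Nat.cast_nonneg L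
  have e1 : ∀ q : ℝ, ((2 : ℝ) ^ L) ^ q = Real.exp (q * (L * Real.log 2)) := by
    intro q
    rw [← Real.rpow_natCast, ← Real.rpow_mul two_pos.le, Real.rpow_def_of_pos two_pos]
    congr 1
    ring
  have e2 : G0 x m (m + L) = Real.exp ((2 - Real.pi / x) * (L * Real.log 2)) := by
    unfold G0
    congr 1
    push_cast
    ring
  obtain ⟨h3, h4⟩ := abs_le.1 hx
  have h5 : 0 ≤ (L : ℝ) * Real.log 2 := by positivity
  rw [e1, e1, e2]
  constructor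
  · refine Real.exp_le_exp.2 (mul_le_mul_of_nonneg_right ?_ h5)
    norm_num at h3 ⊢
    linarith
  · refine Real.exp_le_exp.2 (mul_le_mul_of_nonneg_right ?_ h5)
    norm_num at h4 ⊢
    linarith

lemma Mw_add (m L : ℕ) : Mw m (m + L) = (2 : ℝ) ^ L := by
  unfold Mw
  rw [pow_add]
  field_simp

/-- **one window** -/
theorem Ct.one (C : Ct P b C1 c1 A1 a N0 n L e v) {j : ℕ} (hj : j ≤ 19) {ζ : ℂ} {Δ E : ℝ}
    (hV : V1 P b A1 (n + j * L) (sj P C1 e v n L j) e (n + j * L + L + P.kE e) ζ Δ E)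
    (hz : ζ ≠ 0) (hz1 : ‖ζ‖ ≤ e ^ (-(1 / 400) : ℝ) * v) (hΔ0 : 0 ≤ Δ)
    (hΔ : Δ ≤ e ^ (-(1 / 400) : ℝ) * v) (hE0 : 0 ≤ E) (hE : E ≤ e ^ (12 / 25 : ℝ) * v) :
    ∃ (ζ' : ℂ) (g Δ' E' : ℝ), ((2 : ℝ) ^ L) ^ (-(1 / 10 ^ 6) : ℝ) ≤ g ∧
      g ≤ ((2 : ℝ) ^ L) ^ (1 / 10 ^ 6 : ℝ) ∧
      |‖ζ'‖ - ‖ζ‖ * g| ≤ 2 * ((2 : ℝ) ^ L) ^ (1 / 10 : ℝ) * Δ + e ^ (2 / 5 : ℝ) * v ∧
      0 < Δ' ∧ Δ' ≤ ((2 : ℝ) ^ L) ^ (-(3 / 4) : ℝ) * Δ + e ^ (2 / 5 : ℝ) * v ∧ 0 ≤ E' ∧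
      E' ≤ e ^ (97 / 200 : ℝ) * v ∧
      ∀ (s' : ℕ) (y' : ℝ), Cx P b C1 c1 (n + j * L + L) s' e y' →
        e ^ (1 / 100 : ℝ) * yj P e v L j ≤ y' → e ^ (1 / 100 : ℝ) * y' ≤ yj P e v L j →
        sj P C1 e v n L j ≤ s' → SV P b A1 (n + j * L + L) s' e ζ' Δ' E' := by
  have h0 := C.N.e0
  have he1 := C.e1
  have hv0 := C.v0
  have hsm := C.N.sm
  set u : ℝ := (2 : ℝ) ^ L with hu
  have hu1 : 1 ≤ u := C.u1
  have e0 : ∀ p : ℝ, 0 < e ^ p := fun p => Real.rpow_pos_of_pos h0 p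
  have hv1 := C.v1
  have hev : e ^ (-(1 / 400) : ℝ) * v ≤ 1 := by
    calc e ^ (-(1 / 400) : ℝ) * v ≤ e ^ (-(1 / 400) : ℝ) * e ^ (25 / 47 : ℝ) := by
          have := e0 (-(1 / 400) : ℝ)
          have := C.vu
          gcongr
      _ = e ^ (-(1 / 400) + 25 / 47 : ℝ) := by rw [← Real.rpow_add h0]
      _ ≤ 1 := Real.rpow_le_one h0.le he1 (by norm_num)
  have hcx := C.cx hj
  have hcw : Cw P (n + j * L) (n + j * L + L) e e := by
    refine ⟨by linarith, ?_, C.N.es, ?_, ?_⟩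
    · calc e = e ^ (1 : ℝ) := (Real.rpow_one e).symm
        _ ≤ _ := ep h0 he1 (by norm_num)
    · have := C.N.Lw
      omega
    · have := C.N.wL
      have := C.N.w19
      omega
  obtain ⟨ζ', hg, hs⟩ := C.gs (n + j * L) (n + j * L + L) (sj P C1 e v n L j) e e
    (yj P e v L j) 0 ζ Δ E (C.n0.trans (Nat.le_add_right _ _)) hcx hcw le_rfl (by norm_num)
    (C.ch hj) hz (hz1.trans hev) (hΔ.trans (hev.trans (by norm_num))) hE0 hV
  have hax := (C.ax (n + j * L) (C.n0.trans (Nat.le_add_right _ _))).1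
  obtain ⟨g1, g2⟩ := G0_bd (m := n + j * L) (L := L) hax
  set g := G0 (a (n + j * L)) (n + j * L) (n + j * L + L) with hgd
  rw [Mw_add, ← hu] at hg
  have hg0 : 0 ≤ g := (Real.rpow_nonneg (by linarith) _).trans g1
  have hgu : g ≤ u := by
    calc g ≤ u ^ (1 / 10 ^ 6 : ℝ) := g2
      _ ≤ u ^ (1 : ℝ) := Real.rpow_le_rpow_of_exponent_le hu1 (by norm_num)
      _ = u := Real.rpow_one u
  have hq1 : 1 ≤ QP P e := by
    unfold QP
    rw [Real.rpow_neg h0.le]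
    have h1 : 0 ≤ P.th + 4 * P.q0 * P.thp := by
      have := P.th0
      have := P.thp0
      positivity
    exact (one_le_inv₀ (e0 _)).2 (Real.rpow_le_one h0.le he1 h1)
  have hq : QP P e ≤ e ^ (-(1 / 1000) : ℝ) := by
    unfold QP
    exact ep h0 he1 (by have := C.N.rr; linarith)
  have hvh : v ≤ e ^ (1 / 2 : ℝ) := C.vu.trans (ep h0 he1 (by norm_num))
  obtain ⟨n1, n2, n3⟩ := st_num (Δ := Δ) (g := g) h0 he1 hsm hv0 hvh (C.yj0 j).le (C.yj_up hj)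
    (norm_nonneg ζ) hz1 hE hu1 C.N.u1 hg0 hgu hq1 hq
  -- growth
  have k1 : |‖ζ'‖ - ‖ζ‖ * g| ≤ 2 * u ^ (1 / 10 : ℝ) * Δ + e ^ (2 / 5 : ℝ) * v := by
    have k2 : ‖ζ * (g : ℂ)‖ = ‖ζ‖ * g := by
      rw [norm_mul, Complex.norm_real, Real.norm_eq_abs, abs_of_nonneg hg0]
    rw [← k2]
    refine (abs_norm_sub_norm_le _ _).trans (hg.trans ?_)
    unfold hS
    exact n1
  have hz' : ‖ζ'‖ ≤ e ^ (-(1 / 200) : ℝ) * v := by
    have k3 := (abs_le.1 k1).2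
    have k4 : ‖ζ‖ * g ≤ (e ^ (-(1 / 400) : ℝ) * v) * e ^ (-(1 / 10000) : ℝ) :=
      mul_le_mul hz1 (hgu.trans C.N.u1) hg0 (by have := e0 (-(1 / 400) : ℝ); positivity)
    have k5 : u ^ (1 / 10 : ℝ) ≤ e ^ (-(1 / 10000) : ℝ) := by
      calc u ^ (1 / 10 : ℝ) ≤ u ^ (1 : ℝ) := Real.rpow_le_rpow_of_exponent_le hu1 (by norm_num)
        _ = u := Real.rpow_one u
        _ ≤ _ := C.N.u1
    have k6 : u ^ (1 / 10 : ℝ) * Δ ≤ e ^ (-(1 / 10000) : ℝ) * (e ^ (-(1 / 400) : ℝ) * v) :=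
      mul_le_mul k5 hΔ hΔ0 (e0 _).le
    have k7 : (e ^ (-(1 / 400) : ℝ) * v) * e ^ (-(1 / 10000) : ℝ) =
        e ^ (-(1 / 400) + -(1 / 10000) : ℝ) * v := by
      rw [Real.rpow_add h0]
      ring
    have k8 := mul_le_mul_of_nonneg_right (ec h0 he1 hsm (p := -(1 / 200))
      (q := -(1 / 400) + -(1 / 10000)) (by norm_num)) hv0.le
    have k9 : e ^ (2 / 5 : ℝ) * v ≤ e ^ (-(1 / 400) + -(1 / 10000) : ℝ) * v :=
      mul_le_mul_of_nonneg_right (ep h0 he1 (by norm_num)) hv0.le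
    have k10 : 0 < e ^ (-(1 / 400) + -(1 / 10000) : ℝ) * v := mul_pos (e0 _) hv0
    nlinarith
  have hN2 := n2 ‖ζ'‖ hz'
  refine ⟨ζ', g, u ^ (-(3 / 4) : ℝ) * Δ
            + QP P e ^ 3 * (2 * E + yj P e v L j * e ^ (1 / 2 + 0 : ℝ))
            + QP P e ^ 2 * ((‖ζ‖ + ‖ζ'‖) * hS e) + (e * yj P e v L j) ^ 2,
    yj P e v L j * (QP P e ^ 5 * max (hS e) (e ^ (1 / 2 + 0 : ℝ))), g1, g2, k1, ?_, ?_, ?_, ?_, ?_⟩
  · have k1 : 0 < (e * yj P e v L j) ^ 2 := by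
      have := C.yj0 j
      positivity
    have k2 : 0 ≤ u ^ (-(3 / 4) : ℝ) * Δ := mul_nonneg (Real.rpow_nonneg (by linarith) _) hΔ0
    have k3 : 0 ≤ QP P e ^ 3 * (2 * E + yj P e v L j * e ^ (1 / 2 + 0 : ℝ)) := by
      have := C.yj0 j
      have := e0 (1 / 2 + 0 : ℝ)
      positivity
    have k4 : 0 ≤ QP P e ^ 2 * ((‖ζ‖ + ‖ζ'‖) * hS e) := by
      unfold hS
      have := e0 (22 / 25 : ℝ)
      positivity
    linarith
  · unfold hS
    linarith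
  · unfold hS
    have := C.yj0 j
    have := e0 (22 / 25 : ℝ)
    have h9 : 0 ≤ max (e ^ (22 / 25 : ℝ)) (e ^ (1 / 2 + 0 : ℝ)) :=
      (e0 _).le.trans (le_max_left _ _)
    positivity
  · unfold hS
    exact n3
  · intro s' y' hc a1 a2 a3
    have h9 := hs s' y' hc a1 a2 a3
    rw [Mw_add] at h9
    exact h9

end

end Vale.Agent.P159.H363.Pt1
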