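import Vale.Agent.P159.H552.GauHS2
import Vale.Agent.P159.H37.Spec0L

/-!
P159 / H363: completing the square. `Q ≥ 0` symmetric, `ah (1 + σ² Q) = 1`, `A Aᵀ (1 + σ² Q) = σ²`:
`∫ G(f + σ g) exp (-<f+σg, Q (f+σg)>/2) = c(Q,σ) exp (-<f, Q ah f>/2) ∫ G(ah f + A g)`.
-/

namespace Vale.Agent.P159.H363

open MeasureTheory ProbabilityTheory Finset Matrix
open Vale.Agent.P159.H37 (gau gau_shift qf bf)
open Vale.Agent.P159.H552 (dnp dn gau_scale gau_int_eq spec_real)

variable {I J Λ : Type*} [Fintype I] [Fintype J] [Fintype Λ]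

/-- normalisation constant -/
noncomputable def cT (Q : Matrix Λ Λ ℝ) (σ : ℝ) : ℝ :=
  ∫ g, Real.exp (-(qf Q (σ • g) / 2)) ∂(gau Λ)

variable {Q : Matrix Λ Λ ℝ} {σ : ℝ}

lemma qf_scaled (Q : Matrix Λ Λ ℝ) (σ : ℝ) (u : Λ → ℝ) : qf Q (σ • u) = qf (σ ^ 2 • Q) u := by
  rw [H37.qf_smul]
  unfold qf
  simp only [Matrix.smul_apply, smul_eq_mul, Finset.mul_sum]
  refine Finset.sum_congr rfl fun x _ => Finset.sum_congr rfl fun y _ => ?_
  ring

lemma dnp_eq {b : Λ → ℝ} (hb : ∀ i, 0 ≤ b i) (g : Λ → ℝ) :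
    Real.exp (-((∑ i, b i * g i ^ 2) / 2))
      = (∏ i, √(1 / (1 + b i))) * dnp (fun i => 1 / (1 + b i) - 1) g := by
  unfold dnp dn
  rw [← Finset.prod_mul_distrib]
  have h1 : ∀ i, √(1 / (1 + b i)) * ((√(1 + (1 / (1 + b i) - 1)))⁻¹
      * Real.exp ((1 / (1 + b i) - 1) / (1 + (1 / (1 + b i) - 1)) * (g i ^ 2 / 2)))
      = Real.exp (-(b i * g i ^ 2 / 2)) := by
    intro i
    have hb' : 0 < 1 + b i := by linarith [hb i]
    have h2 : 1 + (1 / (1 + b i) - 1) = 1 / (1 + b i) := by ring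
    have h3 : 0 < √(1 / (1 + b i)) := Real.sqrt_pos.2 (by positivity)
    rw [h2, ← mul_assoc, mul_inv_cancel₀ h3.ne', one_mul]
    congr 1
    field_simp
    ring
  simp only [h1]
  rw [← Real.exp_sum]
  congr 1
  rw [Finset.sum_div, Finset.sum_neg_distrib]

/-- centred version -/
theorem tilt_centred [DecidableEq Λ] (hQs : Qᵀ = Q) (hQ : ∀ u, 0 ≤ qf Q u)
    {A : Matrix Λ I ℝ} (hA : A * Aᵀ * (1 + σ ^ 2 • Q) = σ ^ 2 • 1)
    {G : (Λ → ℝ) → ℝ} (hG : Measurable G) :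
    ∫ g, G (σ • g) * Real.exp (-(qf Q (σ • g) / 2)) ∂(gau Λ)
      = cT Q σ * ∫ g, G (A *ᵥ g) ∂(gau I) := by
  have hHs : (σ ^ 2 • Q)ᵀ = σ ^ 2 • Q := by rw [transpose_smul, hQs]
  obtain ⟨O, b, hO1, hO2, hH, -⟩ := spec_real hHs
  -- eigenvalues are nonnegative
  have hqO : ∀ g : Λ → ℝ, qf (σ ^ 2 • Q) (O *ᵥ g) = ∑ i, b i * g i ^ 2 := by
    intro g
    rw [hH, H37.qf_eq, mulVec_mulVec]
    have h1 : O * diagonal b * Oᵀ * O = O * diagonal b := by
      rw [Matrix.mul_assoc, hO2, Matrix.mul_one]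
    rw [h1, ← mulVec_mulVec, dotProduct_mulVec, ← mulVec_transpose, mulVec_mulVec, hO2,
      Matrix.one_mulVec]
    simp only [dotProduct, mulVec_diagonal]
    refine Finset.sum_congr rfl fun i _ => ?_
    ring
  have hb : ∀ i, 0 ≤ b i := by
    intro i
    have h1 := hqO (Pi.single i 1)
    have h2 : 0 ≤ qf (σ ^ 2 • Q) (O *ᵥ Pi.single i 1) := by
      rw [← qf_scaled]
      exact hQ _
    rw [h1] at h2
    have h3 : ∑ j, b j * (Pi.single i (1 : ℝ) : Λ → ℝ) j ^ 2 = b i := by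
      rw [Finset.sum_eq_single i]
      · simp
      · intro j _ hj
        simp [Pi.single_eq_of_ne hj]
      · simp
    rwa [h3] at h2
  have hb1 : ∀ i, 0 < 1 + (1 / (1 + b i) - 1) := by
    intro i
    have : 0 < 1 + b i := by linarith [hb i]
    have h2 : 1 + (1 / (1 + b i) - 1) = 1 / (1 + b i) := by ring
    rw [h2]
    positivity
  set p : ℝ := ∏ i, √(1 / (1 + b i)) with hp
  set D : Matrix Λ Λ ℝ := diagonal fun i => √(1 + (1 / (1 + b i) - 1)) with hD
  -- the key computation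
  have key : ∀ G : (Λ → ℝ) → ℝ, Measurable G →
      ∫ g, G (σ • g) * Real.exp (-(qf Q (σ • g) / 2)) ∂(gau Λ)
        = p * ∫ g, G ((σ • (O * D)) *ᵥ g) ∂(gau Λ) := by
    intro G hG
    have hF : Measurable fun v : Λ → ℝ => G (σ • v) * Real.exp (-(qf Q (σ • v) / 2)) := by
      refine (hG.comp (measurable_const_smul σ)).mul ?_
      have : Measurable fun v : Λ → ℝ => qf Q (σ • v) := by
        unfold qf
        fun_prop
      fun_prop
    have h1 := gau_int_eq (A := (1 : Matrix Λ Λ ℝ)) (B := O)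
      (by rw [Matrix.transpose_one, Matrix.mul_one, hO1]) hF
    simp only [Matrix.one_mulVec] at h1
    rw [h1]
    have h2 : ∀ g : Λ → ℝ, G (σ • O *ᵥ g) * Real.exp (-(qf Q (σ • O *ᵥ g) / 2))
        = p * (dnp (fun i => 1 / (1 + b i) - 1) g * G (σ • O *ᵥ g)) := by
      intro g
      rw [qf_scaled, hqO, dnp_eq hb]
      ring
    simp only [h2]
    rw [integral_const_mul]
    congr 1
    have h3 := gau_scale hb1 fun g : Λ → ℝ => G (σ • O *ᵥ g)
    rw [← h3]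
    refine integral_congr_ae (Filter.Eventually.of_forall fun g => ?_)
    simp only
    congr 1
    rw [smul_mulVec, ← mulVec_mulVec]
    congr 2
    funext i
    rw [hD, mulVec_diagonal]
  have hc : cT Q σ = p := by
    have h1 := key (fun _ => 1) measurable_const
    simp only [one_mul] at h1
    unfold cT
    rw [h1]
    simp
  rw [key G hG, hc]
  congr 1
  refine gau_int_eq ?_ hG
  -- covariances
  have h1 : (1 : Matrix Λ Λ ℝ) + σ ^ 2 • Q = O * diagonal (fun i => 1 + b i) * Oᵀ := by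
    rw [hH]
    have : diagonal (fun i => 1 + b i) = 1 + diagonal b := by
      rw [← diagonal_one, diagonal_add]
    rw [this, Matrix.mul_add, Matrix.add_mul, Matrix.mul_one, hO1]
  have h2 : (σ • (O * D)) * (σ • (O * D))ᵀ * (1 + σ ^ 2 • Q) = σ ^ 2 • 1 := by
    rw [h1, transpose_smul, transpose_mul]
    have hDt : Dᵀ = D := by rw [hD, diagonal_transpose]
    have hDD : D * (D * diagonal (fun i => 1 + b i)) = 1 := by
      rw [hD, diagonal_mul_diagonal, diagonal_mul_diagonal, ← diagonal_one]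
      congr 1
      funext i
      have h3 := Real.mul_self_sqrt (hb1 i).le
      have h4 : 0 < 1 + b i := by linarith [hb i]
      rw [← mul_assoc, h3]
      field_simp
      ring
    rw [hDt, smul_mul_smul_comm, smul_mul_assoc]
    have h5 : O * D * (D * Oᵀ) * (O * diagonal (fun i => 1 + b i) * Oᵀ) = 1 := by
      calc _ = O * (D * (D * ((Oᵀ * O) * (diagonal (fun i => 1 + b i) * Oᵀ)))) := by
            simp only [Matrix.mul_assoc]
        _ = O * ((D * (D * diagonal (fun i => 1 + b i))) * Oᵀ) := by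
            rw [hO2, Matrix.one_mul]
            simp only [Matrix.mul_assoc]
        _ = 1 := by rw [hDD, Matrix.one_mul, hO1]
    rw [h5, sq]
  have h6 : ((σ • (O * D)) * (σ • (O * D))ᵀ) * (1 + σ ^ 2 • Q)
      = (A * Aᵀ) * (1 + σ ^ 2 • Q) := by rw [h2, hA]
  have h7 : IsUnit ((1 : Matrix Λ Λ ℝ) + σ ^ 2 • Q) := by
    have : ((1 : Matrix Λ Λ ℝ) + σ ^ 2 • Q) * (O * diagonal (fun i => (1 + b i)⁻¹) * Oᵀ) = 1 := by
      rw [h1]
      calc _ = O * ((diagonal (fun i => 1 + b i)) * ((Oᵀ * O) * (diagonal (fun i => (1 + b i)⁻¹)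
            * Oᵀ))) := by simp only [Matrix.mul_assoc]
        _ = O * ((diagonal (fun i => 1 + b i) * diagonal (fun i => (1 + b i)⁻¹)) * Oᵀ) := by
            rw [hO2, Matrix.one_mul]
            simp only [Matrix.mul_assoc]
        _ = 1 := by
            rw [diagonal_mul_diagonal]
            have : (fun i => (1 + b i) * (1 + b i)⁻¹) = fun _ => (1 : ℝ) := by
              funext i
              have : 0 < 1 + b i := by linarith [hb i]
              field_simp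
            rw [this, diagonal_one, Matrix.one_mul, hO1]
    exact IsUnit.of_mul_eq_one _ this
  exact h7.mul_left_injective h6

/-- **completing the square** -/
theorem tilt [DecidableEq Λ] (hQs : Qᵀ = Q) (hQ : ∀ u, 0 ≤ qf Q u) (hσ : σ ≠ 0)
    {A : Matrix Λ I ℝ} (hA : A * Aᵀ * (1 + σ ^ 2 • Q) = σ ^ 2 • 1)
    {ah : Matrix Λ Λ ℝ} (hah : ah * (1 + σ ^ 2 • Q) = 1)
    {G : (Λ → ℝ) → ℝ} (hG : Measurable G) (f : Λ → ℝ) :
    ∫ g, G (f + σ • g) * Real.exp (-(qf Q (f + σ • g) / 2)) ∂(gau Λ)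
      = cT Q σ * Real.exp (-(qf (Q * ah) f / 2)) * ∫ g, G (ah *ᵥ f + A *ᵥ g) ∂(gau I) := by
  have hah' : (1 + σ ^ 2 • Q) * ah = 1 := mul_eq_one_comm.mp hah
  set p : Λ → ℝ := Q *ᵥ (ah *ᵥ f) with hp
  have hf : ah *ᵥ f + σ ^ 2 • p = f := by
    have h1 := congrArg (fun M : Matrix Λ Λ ℝ => M *ᵥ f) hah'
    simp only [Matrix.one_mulVec, Matrix.add_mul, Matrix.one_mul, add_mulVec, smul_mul_assoc,
      smul_mulVec, ← mulVec_mulVec] at h1
    exact h1
  set v : Λ → ℝ := -(σ • p) with hv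
  have hfv : ∀ g : Λ → ℝ, f + σ • (g + v) = ah *ᵥ f + σ • g := by
    intro g
    have h1 : f + σ • (g + v) = (ah *ᵥ f + σ ^ 2 • p) + σ • (g + v) := by rw [hf]
    rw [h1, hv]
    module
  have h1 := gau_shift v fun g : Λ → ℝ => Real.exp (-(∑ i, v i * g i) + (∑ i, v i ^ 2) / 2)
    * (G (f + σ • g) * Real.exp (-(qf Q (f + σ • g) / 2)))
  have h2 : ∀ g : Λ → ℝ, Real.exp ((∑ i, v i * g i) - (∑ i, v i ^ 2) / 2)
      * (Real.exp (-(∑ i, v i * g i) + (∑ i, v i ^ 2) / 2)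
        * (G (f + σ • g) * Real.exp (-(qf Q (f + σ • g) / 2))))
      = G (f + σ • g) * Real.exp (-(qf Q (f + σ • g) / 2)) := by
    intro g
    rw [← mul_assoc, ← Real.exp_add]
    have : (∑ i, v i * g i) - (∑ i, v i ^ 2) / 2 + (-(∑ i, v i * g i) + (∑ i, v i ^ 2) / 2) = 0 := by
      ring
    rw [this, Real.exp_zero, one_mul]
  simp only [h2, hfv] at h1
  rw [← h1]
  have h3 : ∀ g : Λ → ℝ, Real.exp (-(∑ i, v i * (g + v) i) + (∑ i, v i ^ 2) / 2)
      * (G (ah *ᵥ f + σ • g) * Real.exp (-(qf Q (ah *ᵥ f + σ • g) / 2)))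
      = Real.exp (-(qf (Q * ah) f / 2))
        * (G (ah *ᵥ f + σ • g) * Real.exp (-(qf Q (σ • g) / 2))) := by
    intro g
    have e1 : qf Q (ah *ᵥ f + σ • g) = qf Q (ah *ᵥ f) + 2 * σ * (p ⬝ᵥ g) + qf Q (σ • g) := by
      rw [H37.qf_add_vec hQs, H37.bf_comm hQs, H37.bf_smul_left, H37.bf_eq, ← hp,
        dotProduct_comm g p]
      ring
    have e2 : qf (Q * ah) f = qf Q (ah *ᵥ f) + σ ^ 2 * (p ⬝ᵥ p) := by
      rw [H37.qf_eq, H37.qf_eq, ← mulVec_mulVec, ← hp]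
      conv_lhs => rw [← hf]
      rw [add_dotProduct, smul_dotProduct, smul_eq_mul]
    have e3 : ∑ i, v i * (g + v) i = v ⬝ᵥ g + v ⬝ᵥ v := by
      rw [← dotProduct_add]
      rfl
    have e4 : ∑ i, v i ^ 2 = v ⬝ᵥ v := by
      simp only [dotProduct, sq]
    have e5 : v ⬝ᵥ g = -(σ * (p ⬝ᵥ g)) := by
      rw [hv, neg_dotProduct, smul_dotProduct, smul_eq_mul]
    have e6 : v ⬝ᵥ v = σ ^ 2 * (p ⬝ᵥ p) := by
      rw [hv, neg_dotProduct_neg, smul_dotProduct, dotProduct_smul, smul_eq_mul, smul_eq_mul]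
      ring
    have e7 : Real.exp (-(∑ i, v i * (g + v) i) + (∑ i, v i ^ 2) / 2)
        * Real.exp (-(qf Q (ah *ᵥ f + σ • g) / 2))
        = Real.exp (-(qf (Q * ah) f / 2)) * Real.exp (-(qf Q (σ • g) / 2)) := by
      rw [← Real.exp_add, ← Real.exp_add]
      congr 1
      rw [e1, e2, e3, e4, e5, e6]
      ring
    calc _ = G (ah *ᵥ f + σ • g) * (Real.exp (-(∑ i, v i * (g + v) i) + (∑ i, v i ^ 2) / 2)
          * Real.exp (-(qf Q (ah *ᵥ f + σ • g) / 2))) := by ring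
      _ = _ := by rw [e7]; ring
  simp only [h3]
  rw [integral_const_mul]
  have h4 := tilt_centred hQs hQ hA (G := fun F => G (ah *ᵥ f + F))
    (hG.comp (measurable_const_add _))
  rw [h4]
  ring

end Vale.Agent.P159.H363
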