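import Vale.Agent.P159.H363.Kap
import Vale.Agent.P159.H552.GauHS2

/-!
P159 / H363: the typical law of a translation invariant form on the cell torus, its exact transport
through one window and its change when the form changes by a Hilbert-Schmidt small amount.
-/

namespace Vale.Agent.P159.H363

open MeasureTheory Finset Matrix
open Vale.Agent.P159.TM.H764 (EE cN dt)
open Vale.Agent.P159.TM.Spec (V)
open Vale.Agent.P159.H37 (qf gau)
open Vale.Agent.P159.H864 (TI sym fc mlt)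
open Vale.Agent.P159.H462 (Dom ahat Gam Spr Cpr ti_ahat sym_ahat sym_Gam sym_Cpr ti_Gam ti_Cpr avgM
  ti_avgM sym_avgM)
open scoped Real

noncomputable section

variable {N : ℕ} [NeZero N] {A : Matrix (V N) (V N) ℝ}

/-- root of the pseudo-inverse of `A` -/
def pin (A : Matrix (V N) (V N) ℝ) : Matrix (V N) (V N) ℝ := fc (fun x => √(x⁻¹)) A

lemma ti_pin (A : Matrix (V N) (V N) ℝ) : TI (pin A) := H864.ti_fc _ _

lemma sym_pin (A : Matrix (V N) (V N) ℝ) (k : V N) : sym (pin A) k = √((sym A k)⁻¹) :=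
  H864.sym_fc _ _ _

/-- (T2) -/
lemma cgm_eq_pin {ν c s : ℝ} (h : Dom A ν c) (_hs : 0 < s) : cgm s A = pin (A * ahat s A) := by
  refine H864.sym_inj (ti_cgm s A) (ti_pin _) fun k => ?_
  rw [sym_pin, H864.sym_mul h.ti (ti_ahat s A), sym_ahat]
  unfold cgm
  rw [H864.sym_fc]
  congr 1
  rw [mul_inv, inv_inv, div_eq_mul_inv, mul_comm]

lemma pin_mul (hA : TI A) (h0 : ∀ k, 0 ≤ sym A k) : pin A * (pin A)ᵀ = fc (fun x => x⁻¹) A := by
  rw [(ti_pin A).transpose]
  refine H864.sym_inj ((ti_pin A).mul (ti_pin A)) (H864.ti_fc _ _) fun k => ?_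
  rw [H864.sym_mul (ti_pin A) (ti_pin A), sym_pin, H864.sym_fc]
  exact Real.mul_self_sqrt (inv_nonneg.2 (h0 k))

/-- constants -/
lemma Ch.norm_add {Λ : Type*} {ψ : (Λ → ℝ) → ℂ} (h : Ch ψ) (F : Λ → ℝ) (c : ℝ) :
    ‖ψ (F + fun _ => c)‖ = ‖ψ F‖ := by
  have h1 := h F c
  have h2 : (F + fun _ => c) = fun x => F x + c := rfl
  rw [h2, h1, norm_mul, Complex.norm_exp_ofReal_mul_I, one_mul]

/-- adding an independent constant mode does not change `|ψ|` -/
lemma norm_const_mode {I J : Type*} [Fintype I] [Fintype J] {Λ : Type*} [Fintype Λ]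
    {ψ : (Λ → ℝ) → ℂ} (hch : Ch ψ) (B : Matrix Λ I ℝ) (u : J → ℝ) (g : I → ℝ) (b : J → ℝ) :
    ‖ψ (B *ᵥ g + (Matrix.of fun _ j => u j) *ᵥ b)‖ = ‖ψ (B *ᵥ g)‖ := by
  have : (Matrix.of fun (_ : Λ) j => u j) *ᵥ b = fun _ => u ⬝ᵥ b := by
    funext x
    rfl
  rw [this]
  exact hch.norm_add _ _

/-- (T1) exact transport of the typical law, `p`-th power of the modulus of a charge one function -/
theorem typ_transport {ν c s : ℝ} (h : Dom A ν c) (hs : 0 < s) {ψ : (V N → ℝ) → ℂ} (hch : Ch ψ)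
    (hm : Measurable ψ) {C : ℝ} (hC : ∀ F, ‖ψ F‖ ≤ C) (p : ℕ) :
    ∫ b, ∫ g, ‖ψ ((ahat s A * cgm s A) *ᵥ b + gm s A *ᵥ g)‖ ^ p ∂(gau (V N)) ∂(gau (V N))
      = ∫ g, ‖ψ (pin A *ᵥ g)‖ ^ p ∂(gau (V N)) := by
  classical
  set B1 : Matrix (V N) (V N ⊕ V N) ℝ := fromCols (gm s A) (ahat s A * cgm s A) with hB1
  set q : Matrix (V N) (V N) ℝ := √s • avgM N with hq
  set B2 : Matrix (V N) (V N ⊕ V N) ℝ := fromCols (pin A) q with hB2
  have hsm : StronglyMeasurable fun F => ‖ψ F‖ ^ p := (hm.norm.pow_const p).stronglyMeasurable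
  have hCp : ∀ F, ‖(‖ψ F‖ ^ p : ℝ)‖ ≤ C ^ p := by
    intro F
    rw [norm_pow, norm_norm]
    exact pow_le_pow_left₀ (norm_nonneg _) (hC F) p
  have e1 : ∀ (X Y : Matrix (V N) (V N) ℝ) (g b : V N → ℝ),
      fromCols X Y *ᵥ Sum.elim g b = X *ᵥ g + Y *ᵥ b := fun X Y g b =>
    fromCols_mulVec_sumElim _ _ _ _
  have hint : ∀ X : Matrix (V N) (V N ⊕ V N) ℝ,
      Integrable (fun g => ‖ψ (X *ᵥ g)‖ ^ p) (gau (V N ⊕ V N)) := fun X =>
    Integrable.of_bound (C := C ^ p)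
      (hsm.comp_measurable (measurable_mulVec X)).aestronglyMeasurable
      (Filter.Eventually.of_forall fun g => hCp _)
  -- left side as one integral
  have hL : ∫ b, ∫ g, ‖ψ ((ahat s A * cgm s A) *ᵥ b + gm s A *ᵥ g)‖ ^ p ∂(gau (V N)) ∂(gau (V N))
      = ∫ g, ‖ψ (B1 *ᵥ g)‖ ^ p ∂(gau (V N ⊕ V N)) := by
    have hswap : (gm s A) * (gm s A)ᵀ + (ahat s A * cgm s A) * (ahat s A * cgm s A)ᵀ
        = (ahat s A * cgm s A) * (ahat s A * cgm s A)ᵀ + (gm s A) * (gm s A)ᵀ := add_comm _ _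
    have h2 : B1 * B1ᵀ = fromCols (ahat s A * cgm s A) (gm s A)
        * (fromCols (ahat s A * cgm s A) (gm s A))ᵀ := by
      rw [hB1, transpose_fromCols, fromCols_mul_fromRows, transpose_fromCols,
        fromCols_mul_fromRows, hswap]
    rw [law_integral_eq B1 _ h2 _ hsm, integral_gau_sum _ (hint _)]
    refine integral_congr_ae (Filter.Eventually.of_forall fun b => ?_)
    refine integral_congr_ae (Filter.Eventually.of_forall fun g => ?_)
    simp only
    rw [e1]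
  have hR : ∫ g, ‖ψ (pin A *ᵥ g)‖ ^ p ∂(gau (V N))
      = ∫ g, ‖ψ (B2 *ᵥ g)‖ ^ p ∂(gau (V N ⊕ V N)) := by
    rw [integral_gau_sum _ (hint _)]
    refine integral_congr_ae (Filter.Eventually.of_forall fun g => ?_)
    have e2 : ∀ b : V N → ℝ, B2 *ᵥ Sum.elim g b = pin A *ᵥ g + q *ᵥ b := fun b => e1 _ _ _ _
    simp only [e2]
    have h3 : ∀ b : V N → ℝ, ‖ψ (pin A *ᵥ g + q *ᵥ b)‖ ^ p = ‖ψ (pin A *ᵥ g)‖ ^ p := by
      intro b
      have h4 : q *ᵥ b = fun _ => √s * ∑ y, ((N : ℝ) ^ 2)⁻¹ * b y := by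
        rw [hq, smul_mulVec]
        funext x
        rfl
      rw [h4]
      congr 1
      exact hch.norm_add _ _
    simp only [h3]
    simp
  rw [hL, hR]
  refine law_integral_eq B1 B2 ?_ _ hsm
  rw [hB1, hB2, transpose_fromCols, fromCols_mul_fromRows, transpose_fromCols,
    fromCols_mul_fromRows]
  have t1 : TI (gm s A * (gm s A)ᵀ) := by
    rw [(ti_gm s A).transpose]; exact (ti_gm s A).mul (ti_gm s A)
  have tac := (ti_ahat s A).mul (ti_cgm s A)
  have t2 : TI ((ahat s A * cgm s A) * (ahat s A * cgm s A)ᵀ) := by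
    rw [tac.transpose]; exact tac.mul tac
  have t3 : TI (pin A * (pin A)ᵀ) := by
    rw [(ti_pin A).transpose]; exact (ti_pin A).mul (ti_pin A)
  have tq : TI q := ti_avgM.smul _
  have t4 : TI (q * qᵀ) := by
    rw [tq.transpose]; exact tq.mul tq
  refine H864.sym_inj (t1.add t2) (t3.add t4) fun k => ?_
  rw [H864.sym_add, H864.sym_add, gm_mul h hs, sym_Gam, tac.transpose, H864.sym_mul tac tac,
    H864.sym_mul (ti_ahat s A) (ti_cgm s A), sym_ahat, pin_mul h.ti h.nn, H864.sym_fc,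
    tq.transpose, H864.sym_mul tq tq, hq, H864.sym_smul, sym_avgM]
  have h0 := h.nn k
  have hpos : 0 < 1 + s * sym A k := by positivity
  have hc2 : sym (cgm s A) k * sym (cgm s A) k = (1 + s * sym A k) / sym A k := by
    unfold cgm
    rw [H864.sym_fc]
    exact Real.mul_self_sqrt (by positivity)
  have e5 : (1 + s * sym A k)⁻¹ * sym (cgm s A) k * ((1 + s * sym A k)⁻¹ * sym (cgm s A) k)
      = (1 + s * sym A k)⁻¹ * (1 + s * sym A k)⁻¹ * ((1 + s * sym A k) / sym A k) := by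
    rw [← hc2]; ring
  rw [e5]
  have hs2 : √s * √s = s := Real.mul_self_sqrt hs.le
  by_cases hk : k = 0
  · rw [if_pos hk, hk, h.zero]
    simp only [mul_zero, add_zero, inv_one, mul_one, div_zero, _root_.inv_zero, zero_add]
    exact hs2.symm
  · rw [if_neg hk]
    have h2 := h.sym_pos hk
    field_simp
    ring

end

end Vale.Agent.P159.H363
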